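import Crest.Agent.R217.Conv_490
import Crest.Agent.R217.SpecA_343

-- ▼ part R217/A2_490
section

/-!
Row 217, part A, TASK A2: the main Gleason lemma (`Escape → Star`).
-/

set_option autoImplicit false
set_option linter.unusedSectionVars false
set_option linter.unusedVariables false

open Filter Topology BoundedContinuousFunction Metric MeasureTheory
open scoped Topology BoundedContinuousFunction Pointwise

namespace Crest.Agent.R217.A2490

open Crest.Agent.R217.SpecA343 Crest.Agent.R217.Conv490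

variable {G : Type*} [Group G] [TopologicalSpace G]

/-- regularised cost of a word -/
def cost (E : Escape G) (ε : ℝ) (l : List G) : ℝ := (l.map (fun g => E.N g + ε)).sum

@[simp] lemma cost_nil (E : Escape G) (ε : ℝ) : cost E ε [] = 0 := rfl
@[simp] lemma cost_cons (E : Escape G) (ε : ℝ) (g : G) (l : List G) :
    cost E ε (g :: l) = E.N g + ε + cost E ε l := by simp [cost]

lemma cost_nonneg (E : Escape G) {ε : ℝ} (hε : 0 ≤ ε) (l : List G) : 0 ≤ cost E ε l := by
  induction l with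
  | nil => simp
  | cons a l ih => rw [cost_cons]; have := E.N_nonneg a; linarith

lemma cost_eq (E : Escape G) (ε : ℝ) (l : List G) :
    cost E ε l = (l.map E.N).sum + l.length * ε := by
  induction l with
  | nil => simp
  | cons a l ih => rw [cost_cons, ih]; simp; ring

/-- words of small cost have product in `U` -/
def P (E : Escape G) (ε M : ℝ) : Prop := ∀ l : List G, cost E ε l ≤ 1 / M → l.prod ∈ E.U

section psi

variable (E : Escape G) (ε M : ℝ)

noncomputable def F (l : List G) (x : G) : ℝ :=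
  Set.indicator {y : G | l.prod⁻¹ * y ∈ E.U} (fun _ => max 0 (1 - M * cost E ε l)) x

noncomputable def psi (x : G) : ℝ := ⨆ l : List G, F E ε M l x

variable {E ε M}

lemma F_nonneg (l : List G) (x : G) : 0 ≤ F E ε M l x := by
  unfold F
  apply Set.indicator_nonneg
  intro _ _
  exact le_max_left _ _

lemma F_le_one (hε : 0 ≤ ε) (hM : 0 ≤ M) (l : List G) (x : G) : F E ε M l x ≤ 1 := by
  unfold F
  apply Set.indicator_le' (g := fun _ => (1 : ℝ))
  · intro _ _
    apply max_le zero_le_one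
    have := mul_nonneg hM (cost_nonneg E hε l)
    linarith
  · intro _ _
    exact zero_le_one

lemma bdd (hε : 0 ≤ ε) (hM : 0 ≤ M) (x : G) : BddAbove (Set.range fun l => F E ε M l x) := by
  refine ⟨1, ?_⟩
  rintro _ ⟨l, rfl⟩
  exact F_le_one hε hM l x

lemma psi_nonneg (hε : 0 ≤ ε) (hM : 0 ≤ M) (x : G) : 0 ≤ psi E ε M x :=
  (F_nonneg [] x).trans (le_ciSup (bdd hε hM x) [])

lemma psi_le_one (hε : 0 ≤ ε) (hM : 0 ≤ M) (x : G) : psi E ε M x ≤ 1 :=
  ciSup_le fun l => F_le_one hε hM l x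

lemma psi_eq_one (hε : 0 ≤ ε) (hM : 0 ≤ M) {x : G} (hx : x ∈ E.U) : psi E ε M x = 1 := by
  apply le_antisymm (psi_le_one hε hM x)
  refine le_trans ?_ (le_ciSup (bdd hε hM x) [])
  have : F E ε M [] x = 1 := by
    unfold F
    rw [Set.indicator_of_mem]
    · simp
    · simpa using hx
  exact this.ge

lemma psi_zero (hε : 0 ≤ ε) (hM : 0 < M) (hP : P E ε M) {x : G}
    (hx : ∀ a ∈ E.U, ∀ b ∈ E.U, a * b ≠ x) : psi E ε M x = 0 := by
  apply le_antisymm _ (psi_nonneg hε hM.le x)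
  apply ciSup_le
  intro l
  unfold F
  by_cases h1 : x ∈ {y : G | l.prod⁻¹ * y ∈ E.U}
  · rw [Set.indicator_of_mem h1]
    by_cases h2 : cost E ε l ≤ 1 / M
    · exfalso
      exact hx l.prod (hP l h2) (l.prod⁻¹ * x) h1 (by group)
    · push Not at h2
      rw [div_lt_iff₀ hM] at h2
      apply max_le le_rfl
      linarith
  · rw [Set.indicator_of_notMem h1]

lemma psi_shift (hε : 0 ≤ ε) (hM : 0 ≤ M) (g x : G) :
    psi E ε M (g⁻¹ * x) ≤ psi E ε M x + M * (E.N g + ε) := by
  apply ciSup_le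
  intro l
  refine le_trans ?_ (add_le_add_left (le_ciSup (bdd hε hM x) (g :: l)) _)
  unfold F
  by_cases h1 : g⁻¹ * x ∈ {y : G | l.prod⁻¹ * y ∈ E.U}
  · have h2 : x ∈ {y : G | (g :: l).prod⁻¹ * y ∈ E.U} := by
      simpa [mul_assoc] using h1
    rw [Set.indicator_of_mem h1, Set.indicator_of_mem h2, cost_cons]
    have h3 : 0 ≤ M * (E.N g + ε) := mul_nonneg hM (add_nonneg (E.N_nonneg g) hε)
    apply max_le
    · exact add_nonneg (le_max_left _ _) h3
    · have := le_max_right 0 (1 - M * (E.N g + ε + cost E ε l))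
      nlinarith
  · rw [Set.indicator_of_notMem h1]
    have h3 : 0 ≤ M * (E.N g + ε) := mul_nonneg hM (add_nonneg (E.N_nonneg g) hε)
    exact add_nonneg (F_nonneg (E := E) (ε := ε) (M := M) (g :: l) x) h3

lemma psi_lip (hε : 0 ≤ ε) (hM : 0 ≤ M) (g x : G) :
    |psi E ε M (g⁻¹ * x) - psi E ε M x| ≤ M * (E.N g + ε) := by
  rw [abs_le]
  constructor
  · have := psi_shift (E := E) hε hM g⁻¹ (g⁻¹ * x)
    rw [inv_inv, mul_inv_cancel_left, E.N_inv] at this
    linarith
  · have := psi_shift (E := E) hε hM g x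
    linarith

variable [IsTopologicalGroup G]

lemma psi_lsc (hε : 0 ≤ ε) (hM : 0 ≤ M) : LowerSemicontinuous (psi E ε M) := by
  apply lowerSemicontinuous_ciSup (fun x => bdd hε hM x)
  intro l
  apply IsOpen.lowerSemicontinuous_indicator
  · exact E.isOpen_U.preimage (continuous_const.mul continuous_id)
  · exact le_max_left _ _

end psi

lemma mul3_mem (E : Escape G) {a b c : G} (ha : a ∈ E.U) (hb : b ∈ E.U) (hc : c ∈ E.U) :
    a * (b * c) ∈ E.W := by
  have := E.six [a, b, c] (by simp) (by simp [ha, hb, hc])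
  simpa using this

lemma mul2_mem (E : Escape G) {a b : G} (ha : a ∈ E.U) (hb : b ∈ E.U) :
    a * b ∈ E.W := by
  have := E.six [a, b] (by simp) (by simp [ha, hb])
  simpa using this

lemma U_subset_W (E : Escape G) {a : G} (ha : a ∈ E.U) : a ∈ E.W := by
  have := E.six [a] (by simp) (by simp [ha])
  simpa using this

variable [IsTopologicalGroup G] [T2Space G] [LocallyCompactSpace G] [SecondCountableTopology G]

/-- a bump function -/
lemma exists_bump (E : Escape G) : ∃ η : G →ᵇ ℝ, HasCompactSupport (η : G → ℝ) ∧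
    η 1 = 1 ∧ (∀ x, 0 ≤ η x) ∧ ‖η‖ ≤ 1 ∧ ∀ x, x ∉ E.U → η x = 0 := by
  obtain ⟨f, hf1, hf0, hfc, hf⟩ := exists_continuous_one_zero_of_isCompact
    (isCompact_singleton (x := (1 : G))) (E.isOpen_U.isClosed_compl)
    (by rw [Set.disjoint_singleton_left]; simpa using E.one_mem)
  have hb : ∀ x, ‖f x‖ ≤ 1 := fun x => by
    rw [Real.norm_eq_abs, abs_of_nonneg (hf x).1]; exact (hf x).2
  refine ⟨BoundedContinuousFunction.ofNormedAddCommGroup f f.continuous 1 hb, ?_, ?_, ?_, ?_, ?_⟩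
  · exact hfc
  · exact hf1 (Set.mem_singleton _)
  · intro x; exact (hf x).1
  · exact BoundedContinuousFunction.norm_ofNormedAddCommGroup_le f.continuous zero_le_one hb
  · intro x hx
    exact hf0 hx

theorem step (E : Escape G) : ∃ M₀ : ℝ, 0 < M₀ ∧ ∀ ε > 0, ∀ M ≥ M₀, P E ε M → P E ε (M / 2) := by
  let _ : MeasurableSpace G := borel G
  have _ : BorelSpace G := ⟨rfl⟩
  obtain ⟨η, hηc, hη1, hη0, hηn, hηU⟩ := exists_bump E
  set μ : Measure G := Measure.haar with hμ
  have hWm : MeasurableSet E.W := E.compact_W.isClosed.measurableSet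
  have hμW : μ E.W ≠ ⊤ := E.compact_W.measure_lt_top.ne
  set m : ℝ := μ.real E.W with hm
  have hm0 : 0 < m := by
    have h1 : 0 < μ E.U := E.isOpen_U.measure_pos μ ⟨1, E.one_mem⟩
    have h2 : 0 < μ E.W := h1.trans_le (measure_mono fun a ha => U_subset_W E ha)
    exact ENNReal.toReal_pos h2.ne' hμW
  -- the constant c₁
  set c₁ : ℝ := ∫ y, η y⁻¹ ∂μ with hc₁
  have hcont : Continuous fun y : G => η y⁻¹ := η.continuous.comp continuous_inv
  have hcs : HasCompactSupport fun y : G => η y⁻¹ := hηc.comp_homeomorph (Homeomorph.inv G)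
  have hc₁pos : 0 < c₁ := by
    apply hcont.integral_pos_of_hasCompactSupport_nonneg_nonzero hcs (x := 1)
    · intro y; exact hη0 _
    · simp [hη1]
  have hC := E.one_le_C
  set δ : ℝ := c₁ / (8 * E.C * m) with hδ
  have hδpos : 0 < δ := by positivity
  obtain ⟨V, hV, hVδ⟩ := exists_nhds_conj η (S := E.W) E.compact_W
    (fun x hx => hηU x fun h => hx (U_subset_W E h)) (K := E.W) E.compact_W hδpos
  obtain ⟨c₀, hc₀, hstay₀⟩ := E.stay V hV
  set c : ℝ := min c₀ (1 / 2) with hc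
  have hcpos : 0 < c := lt_min hc₀ (by norm_num)
  have hc2 : c ≤ 1 / 2 := min_le_right _ _
  have hstay : ∀ g, ∀ k : ℕ, (k : ℝ) * E.N g ≤ c → g ^ k ∈ V := fun g k h =>
    hstay₀ g k (h.trans (min_le_left _ _))
  refine ⟨32 * m * E.C / (c * c₁) + 1, by positivity, ?_⟩
  intro ε hε M hM hP
  have hMpos : 0 < M := by
    have : (0 : ℝ) < 32 * m * E.C / (c * c₁) + 1 := by positivity
    linarith
  have hadm : Adm E.W (psi E ε M) :=
    { meas := (psi_lsc hε.le hMpos.le).measurable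
      nonneg := psi_nonneg hε.le hMpos.le
      le_one := psi_le_one hε.le hMpos.le
      zero := fun x hx => psi_zero hε.le hMpos hP fun a ha b hb h => hx (h ▸ mul2_mem E ha hb) }
  set φ := conv μ hWm hμW hadm η with hφ
  have hφn : ‖φ‖ ≤ m := (norm_conv_le μ hWm hμW hadm η).trans (by
    calc ‖η‖ * m ≤ 1 * m := by gcongr
      _ = m := one_mul m)
  -- value at 1
  have hφ1 : c₁ ≤ φ 1 := by
    rw [hφ, conv_apply, hc₁]
    apply integral_mono
    · exact hcont.integrable_of_hasCompactSupport hcs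
    · exact hadm.integrable_mul μ hWm hμW η 1
    · intro y
      simp only [mul_one]
      by_cases hy : y ∈ E.U
      · rw [psi_eq_one hε.le hMpos.le hy, one_mul]
      · have : η y⁻¹ = 0 := hηU _ fun h => hy (by simpa using E.inv_mem _ h)
        rw [this, mul_zero]
  -- support
  have hφ0 : ∀ x, x ∉ E.W → φ x = 0 := by
    intro x hx
    rw [hφ, conv_apply]
    apply integral_eq_zero_of_ae
    refine Eventually.of_forall fun y => ?_
    by_contra h
    have h1 : psi E ε M y ≠ 0 := fun h' => h (by simp [h'])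
    have h2 : η (y⁻¹ * x) ≠ 0 := fun h' => h (by simp [h'])
    have h3 : ∃ a ∈ E.U, ∃ b ∈ E.U, a * b = y := by
      by_contra h4
      push Not at h4
      exact h1 (psi_zero hε.le hMpos hP h4)
    obtain ⟨a, ha, b, hb, rfl⟩ := h3
    have h4 : (a * b)⁻¹ * x ∈ E.U := by
      by_contra h5
      exact h2 (hηU _ h5)
    apply hx
    have := mul3_mem E ha hb h4
    convert this using 1
    group
  -- the first difference bound
  have hfirst : ∀ g, ‖dd g φ‖ ≤ (4 * m / c + m * δ * M) * (E.N g + ε) := by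
    intro g
    have hNg := E.N_nonneg g
    have hNgε : 0 ≤ E.N g + ε := add_nonneg hNg hε.le
    by_cases hgc : c < E.N g
    · calc ‖dd g φ‖ ≤ 2 * ‖φ‖ := norm_dd_le _ _
        _ ≤ 2 * m := by linarith
        _ ≤ (4 * m / c) * c := by field_simp; linarith
        _ ≤ (4 * m / c) * (E.N g + ε) := by
            apply mul_le_mul_of_nonneg_left _ (by positivity); linarith
        _ ≤ (4 * m / c + m * δ * M) * (E.N g + ε) := by
            apply mul_le_mul_of_nonneg_right _ hNgε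
            have : 0 < m * δ * M := by positivity
            linarith
    · push Not at hgc
      by_cases hg1 : g = 1
      · subst hg1
        rw [dd_one, norm_zero]
        positivity
      · have hNpos : 0 < E.N g := E.N_pos g hg1
        have hgU : g ∈ E.U := E.mem_U g (by linarith)
        set n : ℕ := ⌊c / E.N g⌋₊ with hn
        have hn1 : 1 ≤ n := by
          rw [hn, Nat.one_le_floor_iff]
          rw [le_div_iff₀ hNpos]; linarith
        have hn2 : (n : ℝ) * E.N g ≤ c := by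
          have : (n : ℝ) ≤ c / E.N g := Nat.floor_le (by positivity)
          rwa [le_div_iff₀ hNpos] at this
        have hn3 : c < ((n : ℝ) + 1) * E.N g := by
          have : c / E.N g < (n : ℝ) + 1 := Nat.lt_floor_add_one _
          rwa [div_lt_iff₀ hNpos] at this
        have hnpos : (0 : ℝ) < n := by exact_mod_cast hn1
        have hB : ∀ i < n, ‖dd (g ^ i) (dd g φ)‖ ≤ (M * (E.N g + ε)) * δ * m := by
          intro i hi
          have hiV : g ^ i ∈ V := hstay g i (by
            have : (i : ℝ) ≤ n := by exact_mod_cast hi.le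
            exact (mul_le_mul_of_nonneg_right this hNg).trans hn2)
          apply norm_dd_dd_conv_le μ hWm hμW hadm η hμW g (g ^ i) hδpos.le
          · intro y; exact psi_lip hε.le hMpos.le g y
          · intro y hy
            refine ⟨?_, hadm.zero y hy⟩
            apply psi_zero hε.le hMpos hP
            intro a ha b hb hab
            apply hy
            have : y = g * (a * b) := by rw [hab]; group
            rw [this]
            exact mul3_mem E hgU ha hb
          · intro y hy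
            exact hVδ _ hiV y hy
        have h1 := mul_norm_dd_le g φ n hB
        have h2 : (n : ℝ) * ‖dd g φ‖ ≤ n * ((4 * m / c) * E.N g + (M * (E.N g + ε)) * δ * m) := by
          refine h1.trans ?_
          have h3 : 2 * m ≤ n * ((4 * m / c) * E.N g) := by
            have h4 : c ≤ 2 * (n * E.N g) := by
              have : (1 : ℝ) ≤ n := by exact_mod_cast hn1
              nlinarith
            calc 2 * m = (2 * m / c) * c := by field_simp
              _ ≤ (2 * m / c) * (2 * (n * E.N g)) :=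
                  mul_le_mul_of_nonneg_left h4 (by positivity)
              _ = n * ((4 * m / c) * E.N g) := by ring
          nlinarith
        have h3 := le_of_mul_le_mul_left h2 hnpos
        refine h3.trans ?_
        have h4 : (4 * m / c) * E.N g ≤ (4 * m / c) * (E.N g + ε) :=
          mul_le_mul_of_nonneg_left (by linarith) (by positivity)
        nlinarith
  -- conclusion
  intro l hl
  by_contra hlU
  obtain ⟨k, hkC, hkW⟩ := E.leave_U _ hlU
  set p := l.prod with hp
  have h1 : ‖dd p φ‖ ≤ (4 * m / c + m * δ * M) * cost E ε l := by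
    refine (norm_dd_list_le φ l).trans ?_
    clear hl hkW hp
    clear_value p
    clear hlU
    induction l with
    | nil => simp
    | cons a l ih =>
      rw [List.map_cons, List.sum_cons, cost_cons]
      have := hfirst a
      linarith
  have h2 : ‖dd (p ^ k) φ‖ ≤ k * ‖dd p φ‖ := norm_dd_pow_le p φ k
  have h3 : c₁ ≤ ‖dd (p ^ k) φ‖ := by
    have h4 := (dd (p ^ k) φ).norm_coe_le_norm 1
    rw [dd_apply, mul_one] at h4
    have h5 : φ (p ^ k)⁻¹ = 0 := by
      apply hφ0
      intro h6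
      apply hkW
      simpa using E.inv_mem_W _ h6
    rw [h5, zero_sub, norm_neg, Real.norm_eq_abs] at h4
    exact hφ1.trans ((le_abs_self _).trans h4)
  have h4 : c₁ ≤ E.C * ((4 * m / c + m * δ * M) * (2 / M)) := by
    calc c₁ ≤ k * ‖dd p φ‖ := h3.trans h2
      _ ≤ E.C * ((4 * m / c + m * δ * M) * cost E ε l) := by
          apply mul_le_mul hkC h1 (norm_nonneg _) (by linarith)
      _ ≤ E.C * ((4 * m / c + m * δ * M) * (2 / M)) := by
          apply mul_le_mul_of_nonneg_left _ (by linarith)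
          apply mul_le_mul_of_nonneg_left _ (by positivity)
          refine hl.trans (le_of_eq ?_)
          field_simp
  have h5 : E.C * ((4 * m / c + m * δ * M) * (2 / M)) = 8 * m * E.C / (c * M) + c₁ / 4 := by
    rw [hδ]
    field_simp
    ring
  have h6 : 8 * m * E.C / (c * M) ≤ c₁ / 4 := by
    rw [div_le_iff₀ (by positivity)]
    have h7 : 32 * m * E.C / (c * c₁) ≤ M := by linarith
    rw [div_le_iff₀ (by positivity)] at h7
    linarith
  linarith

theorem P_all (E : Escape G) : ∃ M₀ : ℝ, 0 < M₀ ∧ ∀ ε > 0, P E ε M₀ := by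
  obtain ⟨M₀, hM₀, hstep⟩ := step E
  refine ⟨M₀, hM₀, fun ε hε => ?_⟩
  have h1 : ∀ k : ℕ, P E ε (2 ^ k * M₀) → P E ε M₀ := by
    intro k
    induction k with
    | zero => intro h; simpa using h
    | succ k ih =>
      intro h
      apply ih
      have h2 := hstep ε hε (2 ^ (k + 1) * M₀) (by
        have : (1 : ℝ) ≤ 2 ^ (k + 1) := one_le_pow₀ (by norm_num)
        nlinarith) h
      have h3 : 2 ^ (k + 1) * M₀ / 2 = 2 ^ k * M₀ := by ring
      rwa [h3] at h2
  obtain ⟨k, hk⟩ : ∃ k : ℕ, 1 / ε / M₀ < 2 ^ k := pow_unbounded_of_one_lt _ (by norm_num)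
  apply h1 k
  intro l hl
  have h2 : l = [] := by
    by_contra hne
    obtain ⟨a, t, rfl⟩ := List.exists_cons_of_ne_nil hne
    rw [cost_cons] at hl
    have h3 := cost_nonneg E hε.le t
    have h4 := E.N_nonneg a
    have h5 : ε ≤ 1 / (2 ^ k * M₀) := by linarith
    rw [le_div_iff₀ (by positivity)] at h5
    rw [div_div, div_lt_iff₀ (by positivity)] at hk
    nlinarith
  rw [h2]
  exact E.one_mem

theorem star (E : Escape G) : Star E := by
  obtain ⟨M₀, hM₀, h⟩ := P_all E
  refine ⟨2 * M₀, by positivity, fun l hl => ?_⟩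
  set n : ℝ := (l.length : ℝ) + 1 with hn
  have hn0 : 0 < n := by positivity
  apply h (1 / (2 * M₀ * n)) (by positivity) l
  rw [cost_eq]
  have h1 : (l.length : ℝ) * (1 / (2 * M₀ * n)) ≤ 1 / (2 * M₀) := by
    calc (l.length : ℝ) * (1 / (2 * M₀ * n)) ≤ n * (1 / (2 * M₀ * n)) := by
          apply mul_le_mul_of_nonneg_right _ (by positivity); linarith
      _ = 1 / (2 * M₀) := by field_simp
  have h2 : 1 / (2 * M₀) + 1 / (2 * M₀) = 1 / M₀ := by field_simp; norm_num
  linarith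

theorem taskA2.{u} : TaskA2.{u} := fun _ _ _ _ _ _ _ E => star E

end Crest.Agent.R217.A2490
end

-- ▼ part R217/A3_490
section

/-!
Row 217, part A, TASK A3: existence of a Gleason function.
-/

set_option autoImplicit false
set_option linter.unusedSectionVars false
set_option linter.unusedVariables false

open Filter Topology BoundedContinuousFunction Metric MeasureTheory
open scoped Topology BoundedContinuousFunction Pointwise

namespace Crest.Agent.R217.A3490

open Crest.Agent.R217.SpecA343 Crest.Agent.R217.Conv490 Crest.Agent.R217.A2490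

variable {G : Type*} [Group G] [TopologicalSpace G]

section psi

variable (E : Escape G) (M : ℝ)

/-- `1 - M * (cost of a word with product x)`, cut off at `0` -/
noncomputable def F (x : G) (l : {l : List G // l.prod = x}) : ℝ :=
  max 0 (1 - M * cost E 0 l.1)

noncomputable def psi (x : G) : ℝ := ⨆ l : {l : List G // l.prod = x}, F E M x l

instance (x : G) : Nonempty {l : List G // l.prod = x} := ⟨⟨[x], by simp⟩⟩

variable {E M}

lemma F_nonneg (x : G) (l : {l : List G // l.prod = x}) : 0 ≤ F E M x l := le_max_left _ _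

lemma F_le_one (hM : 0 ≤ M) (x : G) (l : {l : List G // l.prod = x}) : F E M x l ≤ 1 := by
  apply max_le zero_le_one
  have := mul_nonneg hM (cost_nonneg E le_rfl l.1)
  linarith

lemma bdd (hM : 0 ≤ M) (x : G) : BddAbove (Set.range fun l => F E M x l) := by
  refine ⟨1, ?_⟩
  rintro _ ⟨l, rfl⟩
  exact F_le_one hM x l

lemma psi_nonneg (hM : 0 ≤ M) (x : G) : 0 ≤ psi E M x :=
  (F_nonneg x (Classical.arbitrary _)).trans (le_ciSup (bdd hM x) _)

lemma psi_le_one (hM : 0 ≤ M) (x : G) : psi E M x ≤ 1 :=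
  ciSup_le fun l => F_le_one hM x l

lemma psi_one (hM : 0 ≤ M) : psi E M 1 = 1 := by
  apply le_antisymm (psi_le_one hM 1)
  refine le_trans ?_ (le_ciSup (bdd hM 1) ⟨[], rfl⟩)
  simp [F]

/-- support -/
lemma psi_zero (hM : 0 < M) (hP : ∀ l : List G, (l.map E.N).sum ≤ 1 / M → l.prod ∈ E.U) {x : G}
    (hx : x ∉ E.U) : psi E M x = 0 := by
  apply le_antisymm _ (psi_nonneg hM.le x)
  apply ciSup_le
  rintro ⟨l, hl⟩
  by_cases h2 : (l.map E.N).sum ≤ 1 / M
  · exfalso
    exact hx (hl ▸ hP l h2)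
  · push Not at h2
    rw [div_lt_iff₀ hM] at h2
    apply max_le le_rfl
    have : cost E 0 l = (l.map E.N).sum := by rw [cost_eq]; ring
    simp only
    rw [this]
    linarith

lemma psi_shift (hM : 0 ≤ M) (g x : G) :
    psi E M (g⁻¹ * x) ≤ psi E M x + M * E.N g := by
  apply ciSup_le
  rintro ⟨l, hl⟩
  have hgl : (g :: l).prod = x := by rw [List.prod_cons, hl]; group
  refine le_trans ?_ (add_le_add_left (le_ciSup (bdd hM x) ⟨g :: l, hgl⟩) _)
  unfold F
  simp only
  rw [cost_cons]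
  have h3 : 0 ≤ M * E.N g := mul_nonneg hM (E.N_nonneg g)
  apply max_le
  · exact add_nonneg (le_max_left _ _) h3
  · have := le_max_right 0 (1 - M * (E.N g + 0 + cost E 0 l))
    nlinarith

lemma psi_lip (hM : 0 ≤ M) (g x : G) :
    |psi E M (g⁻¹ * x) - psi E M x| ≤ M * E.N g := by
  rw [abs_le]
  constructor
  · have := psi_shift (E := E) hM g⁻¹ (g⁻¹ * x)
    rw [inv_inv, mul_inv_cancel_left, E.N_inv] at this
    linarith
  · have := psi_shift (E := E) hM g x
    linarith

lemma psi_cont [IsTopologicalGroup G] (hM : 0 ≤ M) : Continuous (psi E M) := by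
  rw [continuous_iff_continuousAt]
  intro x
  rw [ContinuousAt, Metric.tendsto_nhds]
  intro ε hε
  have h1 : ∀ᶠ g in 𝓝 (1 : G), E.N g < ε / (M + 1) := E.N_small _ (by positivity)
  have h2 : Tendsto (fun y : G => x * y⁻¹) (𝓝 x) (𝓝 1) := by
    have : Continuous fun y : G => x * y⁻¹ := by fun_prop
    simpa using this.tendsto x
  filter_upwards [h2.eventually h1] with y hy
  rw [Real.dist_eq]
  have h3 := psi_lip (E := E) hM (x * y⁻¹) x
  have h4 : (x * y⁻¹)⁻¹ * x = y := by group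
  rw [h4] at h3
  refine lt_of_le_of_lt h3 ?_
  rw [lt_div_iff₀ (by positivity)] at hy
  have := E.N_nonneg (x * y⁻¹)
  nlinarith

end psi

variable [IsTopologicalGroup G] [T2Space G] [LocallyCompactSpace G] [SecondCountableTopology G]

lemma conj_inv (E : Escape G) {h g : G} (hh : h ∈ E.U) : E.N (h⁻¹ * g * h) ≤ E.C * E.N g := by
  have := E.conj h⁻¹ (E.inv_mem h hh) g
  simpa using this

theorem gleasonFn (E : Escape G) (hS : Star E) : Nonempty (GleasonFn G) := by
  obtain ⟨M, hM, hP⟩ := hS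
  let _ : MeasurableSpace G := borel G
  have _ : BorelSpace G := ⟨rfl⟩
  set μ : Measure G := Measure.haar with hμ
  have hWm : MeasurableSet E.W := E.compact_W.isClosed.measurableSet
  have hμW : μ E.W ≠ ⊤ := E.compact_W.measure_lt_top.ne
  set m : ℝ := μ.real E.W with hm
  have hm0 : 0 < m := by
    have h1 : 0 < μ E.U := E.isOpen_U.measure_pos μ ⟨1, E.one_mem⟩
    have h2 : 0 < μ E.W := h1.trans_le (measure_mono fun a ha => U_subset_W E ha)
    exact ENNReal.toReal_pos h2.ne' hμW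
  have hψU : ∀ x, x ∉ E.U → psi E M x = 0 := fun x hx => psi_zero hM hP hx
  have hadm : Adm E.W (psi E M) :=
    { meas := (psi_cont hM.le).measurable
      nonneg := psi_nonneg hM.le
      le_one := psi_le_one hM.le
      zero := fun x hx => hψU x fun h => hx (U_subset_W E h) }
  have hb : ∀ x, ‖psi E M x‖ ≤ 1 := fun x => by
    rw [Real.norm_eq_abs, abs_of_nonneg (psi_nonneg hM.le x)]; exact psi_le_one hM.le x
  set η : G →ᵇ ℝ := BoundedContinuousFunction.ofNormedAddCommGroup (psi E M) (psi_cont hM.le) 1 hb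
    with hη
  have hηa : ∀ x, η x = psi E M x := fun x => rfl
  have hηn : ‖η‖ ≤ 1 := BoundedContinuousFunction.norm_ofNormedAddCommGroup_le _ zero_le_one hb
  have hηd : ∀ g, ‖dd g η‖ ≤ M * E.N g := by
    intro g
    rw [BoundedContinuousFunction.norm_le (mul_nonneg hM.le (E.N_nonneg g))]
    intro x
    exact psi_lip hM.le g x
  set φ := conv μ hWm hμW hadm η with hφ
  have hC := E.one_le_C
  -- value at 1
  set c₁ : ℝ := φ 1 with hc₁
  have hsupp : HasCompactSupport (psi E M) := by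
    apply HasCompactSupport.intro E.compact_W
    intro x hx
    exact hψU x fun h => hx (U_subset_W E h)
  have hcont : Continuous (psi E M) := psi_cont hM.le
  have hc₁pos : 0 < c₁ := by
    rw [hc₁, hφ, conv_apply]
    have hc2 : Continuous fun y : G => psi E M y * η (y⁻¹ * 1) := by
      apply hcont.mul; fun_prop
    apply hc2.integral_pos_of_hasCompactSupport_nonneg_nonzero (x := 1)
    · exact hsupp.mul_right
    · intro y
      exact mul_nonneg (psi_nonneg hM.le _) (by rw [hηa]; exact psi_nonneg hM.le _)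
    · rw [hηa]
      simp [psi_one hM.le]
  -- support
  have hφ0 : ∀ x, x ∉ E.W → φ x = 0 := by
    intro x hx
    rw [hφ, conv_apply]
    apply integral_eq_zero_of_ae
    refine Eventually.of_forall fun y => ?_
    by_contra h
    have h1 : psi E M y ≠ 0 := fun h' => h (by simp [h'])
    have h2 : η (y⁻¹ * x) ≠ 0 := fun h' => h (by simp [h'])
    have h3 : y ∈ E.U := by
      by_contra h4
      exact h1 (hψU _ h4)
    have h4 : y⁻¹ * x ∈ E.U := by
      by_contra h5
      exact h2 (hψU _ h5)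
    apply hx
    have := mul2_mem E h3 h4
    convert this using 1
    group
  -- first difference: upper bound
  have hfirst : ∀ g, g ∈ E.U → ‖dd g φ‖ ≤ (M * m) * E.N g := by
    intro g hg
    have := norm_dd_conv_le μ hWm hμW hadm η hμW g (psi_lip hM.le g) (by
      intro y hy
      refine ⟨?_, hadm.zero y hy⟩
      apply hψU
      intro h
      apply hy
      have h2 := mul2_mem E hg h
      simpa using h2)
    refine this.trans ?_
    calc M * E.N g * ‖η‖ * m ≤ M * E.N g * 1 * m := by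
          apply mul_le_mul_of_nonneg_right _ hm0.le
          apply mul_le_mul_of_nonneg_left hηn
          exact mul_nonneg hM.le (E.N_nonneg g)
      _ = (M * m) * E.N g := by ring
  -- second difference
  have hsecond : ∀ g h, g ∈ E.U →
      ‖dd h (dd g φ)‖ ≤ (M * M * m * E.C ^ 2) * E.N g * E.N h := by
    intro g h hg
    have hUU : MeasurableSet E.U := E.isOpen_U.measurableSet
    have hUW : E.U * E.U ⊆ E.W := by
      rintro _ ⟨a, ha, b, hb, rfl⟩
      exact mul2_mem E ha hb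
    have hμUU : μ (E.U * E.U) ≠ ⊤ := ne_top_of_le_ne_top hμW (measure_mono hUW)
    have h1 := norm_dd_dd_conv_le μ hWm hμW hadm η (L := E.U * E.U) hμUU g h
      (A := M * E.N g) (B := M * (E.C ^ 2 * E.N h)) (by
        have := E.N_nonneg h
        positivity) (psi_lip hM.le g) (by
        intro y hy
        constructor
        · apply hψU
          intro h
          apply hy
          exact ⟨g, hg, g⁻¹ * y, h, by group⟩
        · apply hψU
          intro h
          apply hy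
          exact ⟨y, h, 1, E.one_mem, by simp⟩) (by
        rintro y ⟨a, ha, b, hb, rfl⟩
        refine (hηd _).trans ?_
        apply mul_le_mul_of_nonneg_left _ hM.le
        have h2 : (a * b)⁻¹ * h * (a * b) = b⁻¹ * (a⁻¹ * h * a) * b := by group
        rw [h2]
        calc E.N (b⁻¹ * (a⁻¹ * h * a) * b) ≤ E.C * E.N (a⁻¹ * h * a) := conj_inv E hb
          _ ≤ E.C * (E.C * E.N h) := by
              apply mul_le_mul_of_nonneg_left (conj_inv E ha) (by linarith)
          _ = E.C ^ 2 * E.N h := by ring)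
    refine h1.trans ?_
    have h2 : μ.real (E.U * E.U) ≤ m := measureReal_mono hUW hμW
    have h3 := E.N_nonneg g
    have h4 := E.N_nonneg h
    calc M * E.N g * (M * (E.C ^ 2 * E.N h)) * μ.real (E.U * E.U)
        ≤ M * E.N g * (M * (E.C ^ 2 * E.N h)) * m :=
          mul_le_mul_of_nonneg_left h2 (by positivity)
      _ = (M * M * m * E.C ^ 2) * E.N g * E.N h := by ring
  -- powers stay in W
  have hpow : ∀ g, ‖dd g φ‖ < c₁ → g ∈ E.W := by
    intro g hg
    by_contra hgW
    have h4 := (dd g φ).norm_coe_le_norm 1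
    rw [dd_apply, mul_one] at h4
    have h5 : φ g⁻¹ = 0 := by
      apply hφ0
      intro h6
      apply hgW
      simpa using E.inv_mem_W _ h6
    rw [h5, zero_sub, norm_neg, Real.norm_eq_abs, abs_of_pos hc₁pos] at h4
    linarith
  -- lower bound
  have hlow : ∀ g, E.N g ≤ (4 * E.C / c₁) * ‖dd g φ‖ := by
    intro g
    have hNg := E.N_nonneg g
    have key : ∀ k : ℕ, (k : ℝ) * ‖dd g φ‖ ≤ c₁ / 2 → (k : ℝ) * E.N g ≤ E.C := by
      intro k hk
      apply E.esc_W
      intro i hi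
      apply hpow
      have h1 : (i : ℝ) ≤ k := by exact_mod_cast hi
      calc ‖dd (g ^ i) φ‖ ≤ i * ‖dd g φ‖ := norm_dd_pow_le g φ i
        _ ≤ k * ‖dd g φ‖ := by gcongr
        _ ≤ c₁ / 2 := hk
        _ < c₁ := by linarith
    by_cases h0 : ‖dd g φ‖ = 0
    · rw [h0, mul_zero]
      by_contra hpos
      push Not at hpos
      obtain ⟨k, hk⟩ := exists_nat_gt (E.C / E.N g)
      have := key k (by rw [h0, mul_zero]; positivity)
      rw [div_lt_iff₀ hpos] at hk
      linarith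
    · have hpos : 0 < ‖dd g φ‖ := lt_of_le_of_ne (norm_nonneg _) (Ne.symm h0)
      by_cases hbig : c₁ / 2 < ‖dd g φ‖
      · calc E.N g ≤ 1 := E.N_le_one g
          _ ≤ 2 * E.C := by linarith
          _ = (4 * E.C / c₁) * (c₁ / 2) := by field_simp; ring
          _ ≤ (4 * E.C / c₁) * ‖dd g φ‖ := by
              apply mul_le_mul_of_nonneg_left hbig.le (by positivity)
      · push Not at hbig
        set n : ℕ := ⌊c₁ / 2 / ‖dd g φ‖⌋₊ with hn
        have hn1 : 1 ≤ n := by
          rw [hn, Nat.one_le_floor_iff]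
          rw [le_div_iff₀ hpos]; linarith
        have hn2 : (n : ℝ) * ‖dd g φ‖ ≤ c₁ / 2 := by
          have : (n : ℝ) ≤ c₁ / 2 / ‖dd g φ‖ := Nat.floor_le (by positivity)
          rwa [le_div_iff₀ hpos] at this
        have hn3 : c₁ / 2 < ((n : ℝ) + 1) * ‖dd g φ‖ := by
          have : c₁ / 2 / ‖dd g φ‖ < (n : ℝ) + 1 := Nat.lt_floor_add_one _
          rwa [div_lt_iff₀ hpos] at this
        have hnpos : (1 : ℝ) ≤ n := by exact_mod_cast hn1
        have h1 := key n hn2
        -- `n * N ≤ C`, `c₁/2 ≤ 2 n ‖dd‖`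
        have h2 : c₁ ≤ 4 * (n * ‖dd g φ‖) := by nlinarith
        have h3 : (n : ℝ) * E.N g ≤ n * ((4 * E.C / c₁) * ‖dd g φ‖) := by
          calc (n : ℝ) * E.N g ≤ E.C := h1
            _ = (E.C / c₁) * c₁ := by field_simp
            _ ≤ (E.C / c₁) * (4 * (n * ‖dd g φ‖)) :=
                mul_le_mul_of_nonneg_left h2 (by positivity)
            _ = n * ((4 * E.C / c₁) * ‖dd g φ‖) := by ring
        exact le_of_mul_le_mul_left h3 (by linarith)
  -- constants
  set D : ℝ := 4 * E.C / c₁ with hD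
  have hDpos : 0 < D := by positivity
  set C' : ℝ := max 1 ((M * M * m * E.C ^ 2) * D * D) with hC'
  have hC'1 : 1 ≤ C' := le_max_left _ _
  have hC'2 : (M * M * m * E.C ^ 2) * D * D ≤ C' := le_max_right _ _
  set r : ℝ := min (1 / (16 * C')) (min (c₁ / 2) (1 / (2 * D))) with hr
  have hr1 : r ≤ 1 / (16 * C') := min_le_left _ _
  have hr2 : r ≤ c₁ / 2 := (min_le_right _ _).trans (min_le_left _ _)
  have hr3 : r ≤ 1 / (2 * D) := (min_le_right _ _).trans (min_le_right _ _)
  have hrpos : 0 < r := lt_min (by positivity) (lt_min (by positivity) (by positivity))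
  have hmemU : ∀ g, ‖dd g φ‖ ≤ r → g ∈ E.U := by
    intro g hg
    apply E.mem_U
    calc E.N g ≤ D * ‖dd g φ‖ := hlow g
      _ ≤ D * (1 / (2 * D)) := mul_le_mul_of_nonneg_left (hg.trans hr3) hDpos.le
      _ = 1 / 2 := by field_simp
      _ < 1 := by norm_num
  have hsmall : ∀ ε > 0, ∀ᶠ g in 𝓝 (1 : G), ‖dd g φ‖ < ε := by
    intro ε hε
    have h1 : ∀ᶠ g in 𝓝 (1 : G), E.N g < ε / (M * m) := E.N_small _ (by positivity)
    filter_upwards [h1, E.isOpen_U.mem_nhds E.one_mem] with g hg hgU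
    refine (hfirst g hgU).trans_lt ?_
    rw [lt_div_iff₀ (by positivity)] at hg
    linarith
  have hcontφ : Continuous fun g : G => ‖dd g φ‖ := by
    rw [continuous_iff_continuousAt]
    intro x
    rw [ContinuousAt, Metric.tendsto_nhds]
    intro ε hε
    have h2 : Tendsto (fun y : G => y⁻¹ * x) (𝓝 x) (𝓝 1) := by
      have : Continuous fun y : G => y⁻¹ * x := by fun_prop
      simpa using this.tendsto x
    filter_upwards [h2.eventually (hsmall ε hε)] with y hy
    rw [Real.dist_eq]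
    rw [norm_dd_inv_mul] at hy
    exact (abs_norm_sub_norm_le _ _).trans_lt hy
  refine ⟨{ φ := φ, C := C', r := r, one_le_C := hC'1, r_pos := hrpos, Cr := ?_,
            small := hsmall, nhds := ?_, cpt := ?_, second := ?_ }⟩
  · have : C' * r ≤ C' * (1 / (16 * C')) := mul_le_mul_of_nonneg_left hr1 (by linarith)
    have h2 : C' * (1 / (16 * C')) = 1 / 16 := by
      have : C' ≠ 0 := by linarith
      field_simp
    linarith
  · intro V hV
    obtain ⟨ε, hε, h⟩ := E.N_nhds V hV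
    refine ⟨ε / D, by positivity, fun g hg => h g ?_⟩
    rw [lt_div_iff₀ hDpos] at hg
    have := hlow g
    linarith
  · apply E.compact_W.of_isClosed_subset (isClosed_le hcontφ continuous_const)
    intro g hg
    exact U_subset_W E (hmemU g hg)
  · intro g h hg hh
    have h1 := hsecond h g (hmemU h hh)
    refine h1.trans ?_
    have h2 := hlow g
    have h3 := hlow h
    have h4 := E.N_nonneg g
    have h5 := E.N_nonneg h
    calc (M * M * m * E.C ^ 2) * E.N h * E.N g
        ≤ (M * M * m * E.C ^ 2) * (D * ‖dd h φ‖) * (D * ‖dd g φ‖) := by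
          apply mul_le_mul _ h2 h4 (by positivity)
          apply mul_le_mul_of_nonneg_left h3 (by positivity)
      _ = ((M * M * m * E.C ^ 2) * D * D) * ‖dd g φ‖ * ‖dd h φ‖ := by ring
      _ ≤ C' * ‖dd g φ‖ * ‖dd h φ‖ := by gcongr

theorem taskA3.{u} : TaskA3.{u} := fun _ _ _ _ _ _ _ E hE => gleasonFn E hE

end Crest.Agent.R217.A3490
end

-- ▼ part R217/A4_970
section

/-!
Row 217 (S0336), part A, tasks A4a, A4b, A4c: elementary estimates for Gleason metrics.
-/

set_option autoImplicit false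

open Filter Topology BoundedContinuousFunction
open scoped Topology BoundedContinuousFunction
open Crest.Agent.R217.SpecA343

namespace Crest.Agent.R217.A4_970

/-! ## A4a -/

section A4a
variable {G : Type*} [Group G] [TopologicalSpace G] [IsTopologicalGroup G]

lemma dd_pow (g : G) (φ : G →ᵇ ℝ) (k : ℕ) :
    dd (g ^ k) φ = (k : ℝ) • dd g φ + ∑ i ∈ Finset.range k, dd (g ^ i) (dd g φ) := by
  induction k with
  | zero => simp
  | succ k ih =>
    rw [pow_succ, dd_mul, ih, Finset.sum_range_succ]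
    push_cast
    rw [add_smul, one_smul]
    abel

theorem exists_gnorm (F : GleasonFn G) : ∃ N : GNorm G, N.n = (fun g => ‖dd g F.φ‖) ∧ N.r = F.r ∧
      N.C = 2 * F.C := by
  have hC := F.one_le_C
  have hr := F.r_pos
  have hCr := F.Cr
  refine ⟨{ n := fun g => ‖dd g F.φ‖, C := 2 * F.C, r := F.r, one_le_C := by linarith,
            r_pos := hr, Cr := by linarith, nonneg := fun g => norm_nonneg _,
            one := by simp, inv := fun g => norm_dd_inv g F.φ,
            mul := fun g h => norm_dd_mul_le g h F.φ, small := F.small, nhds := F.nhds,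
            cpt := F.cpt, comm := ?_, esc := ?_ }, rfl, rfl, rfl⟩
  · intro g h hg hh
    have h1 : g⁻¹ * h⁻¹ * g * h = (h * g)⁻¹ * (g * h) := by group
    show ‖dd (g⁻¹ * h⁻¹ * g * h) F.φ‖ ≤ _
    rw [h1, norm_dd_inv_mul]
    have h2 : dd (h * g) F.φ - dd (g * h) F.φ = dd h (dd g F.φ) - dd g (dd h F.φ) := by
      rw [dd_mul, dd_mul]; abel
    rw [h2]
    have e1 := F.second g h hg hh
    have e2 := F.second h g hh hg
    have := norm_sub_le (dd h (dd g F.φ)) (dd g (dd h F.φ))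
    show _ ≤ 2 * F.C * ‖dd g F.φ‖ * ‖dd h F.φ‖
    nlinarith [this, e1, e2]
  · intro g k hk
    show (k : ℝ) * ‖dd g F.φ‖ ≤ 2 * ‖dd (g ^ k) F.φ‖
    rcases Nat.eq_zero_or_pos k with rfl | hkpos
    · simp
    have hg : ‖dd g F.φ‖ ≤ F.r := by simpa using hk 1 hkpos
    have hsum : ‖∑ i ∈ Finset.range k, dd (g ^ i) (dd g F.φ)‖ ≤
        (k : ℝ) * (F.C * F.r * ‖dd g F.φ‖) := by
      calc ‖∑ i ∈ Finset.range k, dd (g ^ i) (dd g F.φ)‖
          ≤ ∑ i ∈ Finset.range k, ‖dd (g ^ i) (dd g F.φ)‖ := norm_sum_le _ _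
        _ ≤ ∑ i ∈ Finset.range k, F.C * F.r * ‖dd g F.φ‖ := by
            apply Finset.sum_le_sum
            intro i hi
            have hi' : i ≤ k := (Finset.mem_range.mp hi).le
            have h1 := F.second (g ^ i) g (hk i hi') hg
            refine h1.trans ?_
            have h2 : F.C * ‖dd (g ^ i) F.φ‖ ≤ F.C * F.r :=
              mul_le_mul_of_nonneg_left (hk i hi') (by linarith)
            exact mul_le_mul_of_nonneg_right h2 (norm_nonneg _)
        _ = (k : ℝ) * (F.C * F.r * ‖dd g F.φ‖) := by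
            rw [Finset.sum_const, Finset.card_range, nsmul_eq_mul]
    have hk' := dd_pow g F.φ k
    have h3 : (k : ℝ) • dd g F.φ = dd (g ^ k) F.φ -
        ∑ i ∈ Finset.range k, dd (g ^ i) (dd g F.φ) := by rw [hk']; abel
    have h4 : (k : ℝ) * ‖dd g F.φ‖ = ‖(k : ℝ) • dd g F.φ‖ := by
      rw [norm_smul, Real.norm_natCast]
    have h5 : ‖(k : ℝ) • dd g F.φ‖ ≤ ‖dd (g ^ k) F.φ‖ + (k : ℝ) * (F.C * F.r * ‖dd g F.φ‖) := by
      rw [h3]
      exact (norm_sub_le _ _).trans (by linarith)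
    have h6 : (k : ℝ) * (F.C * F.r * ‖dd g F.φ‖) ≤ (k : ℝ) * ‖dd g F.φ‖ * (1 / 16) := by
      have h7 : F.C * F.r ≤ 1 / 16 := by linarith
      have h8 : 0 ≤ (k : ℝ) * ‖dd g F.φ‖ := by positivity
      nlinarith
    have h9 : 0 ≤ (k : ℝ) * ‖dd g F.φ‖ := by positivity
    linarith

end A4a

theorem taskA4a.{u} : TaskA4a.{u} := by
  intro G _ _ _ _ F
  exact exists_gnorm F

/-! ## A4b, A4c -/

section A4b
variable {G : Type*} [Group G] [TopologicalSpace G] (N : GNorm G)

lemma conj_le (a b : G) (ha : N.n a ≤ N.r) (hb : N.n b ≤ N.r) :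
    N.n (b⁻¹ * a * b) ≤ 2 * N.n a := by
  have h1 : b⁻¹ * a * b = a * (a⁻¹ * b⁻¹ * a * b) := by group
  rw [h1]
  have h2 := N.mul a (a⁻¹ * b⁻¹ * a * b)
  have h3 := N.comm a b ha hb
  have hC := N.one_le_C
  have hCr := N.Cr
  have hr := N.r_pos
  have ha0 := N.nonneg a
  have hb0 := N.nonneg b
  have h4 : N.C * N.n a * N.n b ≤ N.n a := by
    have : N.C * N.n b ≤ 1 := by
      have : N.C * N.n b ≤ N.C * N.r := mul_le_mul_of_nonneg_left hb (by linarith)
      nlinarith
    nlinarith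
  linarith

lemma prod_le (l : List (G × G))
    (h1 : ∀ l' : List (G × G), l' <:+ l → N.n (l'.map Prod.fst).prod ≤ N.r)
    (h2 : ∀ p ∈ l, N.n p.2 ≤ N.r) :
    N.n ((l.map Prod.fst).prod⁻¹ * (l.map (fun p => p.1 * p.2)).prod) ≤
      2 * (l.map (fun p => N.n p.2)).sum := by
  induction l with
  | nil => simp [N.one]
  | cons p t ih =>
    have ih' := ih (fun l' hl' => h1 l' (hl'.trans (List.suffix_cons p t)))
      (fun q hq => h2 q (List.mem_cons_of_mem _ hq))
    have hT : N.n (t.map Prod.fst).prod ≤ N.r := h1 t (List.suffix_cons p t)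
    have hp : N.n p.2 ≤ N.r := h2 p List.mem_cons_self
    simp only [List.map_cons, List.prod_cons, List.sum_cons]
    set T := (t.map Prod.fst).prod
    set T' := (t.map (fun p => p.1 * p.2)).prod
    have e : (p.1 * T)⁻¹ * (p.1 * p.2 * T') = (T⁻¹ * p.2 * T) * (T⁻¹ * T') := by group
    rw [e]
    have h3 := N.mul (T⁻¹ * p.2 * T) (T⁻¹ * T')
    have h4 := conj_le N p.2 T hp hT
    linarith

lemma pow_n_le (g : G) (k : ℕ) : N.n (g ^ k) ≤ (k : ℝ) * N.n g := by
  induction k with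
  | zero => simp [N.one]
  | succ k ih =>
    rw [pow_succ]
    have := N.mul (g ^ k) g
    push_cast
    linarith

lemma pow_le (g h : G) (k : ℕ) (hk : ∀ i ≤ k, N.n (g ^ i) ≤ N.r) (hgh : N.n (g⁻¹ * h) ≤ N.r) :
    N.n ((g ^ k)⁻¹ * h ^ k) ≤ 2 * k * N.n (g⁻¹ * h) := by
  have h1 := prod_le N (List.replicate k (g, g⁻¹ * h)) (by
    intro l' hl'
    obtain ⟨m, hm, rfl⟩ : ∃ m ≤ k, l' = List.replicate m (g, g⁻¹ * h) := by
      refine ⟨l'.length, ?_, ?_⟩
      · simpa using hl'.length_le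
      · rw [List.eq_replicate_iff]
        exact ⟨rfl, fun b hb => List.eq_of_mem_replicate (hl'.subset hb)⟩
    simpa using hk m hm) (by
    intro p hp
    rw [List.eq_of_mem_replicate hp]
    exact hgh)
  simp only [List.map_replicate, List.prod_replicate, List.sum_replicate, mul_inv_cancel_left,
    nsmul_eq_mul] at h1
  linarith

lemma mul_pow_le (a b : G) (k : ℕ) (ha : (k : ℝ) * N.n a ≤ N.r / 2)
    (hb : (k : ℝ) * N.n b ≤ N.r / 2) :
    N.n ((a ^ k * b ^ k)⁻¹ * (a * b) ^ k) ≤ 2 * N.C * k ^ 2 * N.n a * N.n b := by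
  have hC := N.one_le_C
  have hCr := N.Cr
  have hr := N.r_pos
  have ha0 := N.nonneg a
  have hb0 := N.nonneg b
  -- induction for j ≤ k
  have key : ∀ j : ℕ, j ≤ k → N.n ((a ^ j * b ^ j)⁻¹ * (a * b) ^ j) ≤
      2 * N.C * j ^ 2 * N.n a * N.n b := by
    intro j
    induction j with
    | zero => intro _; simp [N.one]
    | succ j ih =>
      intro hj
      have ih' := ih (by omega)
      have hjk : (j : ℝ) + 1 ≤ k := by exact_mod_cast hj
      have hj0 : (0 : ℝ) ≤ j := Nat.cast_nonneg j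
      have hk1 : (1 : ℝ) ≤ k := by linarith
      have hna : (j : ℝ) * N.n a ≤ N.r / 2 :=
        (mul_le_mul_of_nonneg_right (by linarith) ha0).trans ha
      have hnb : (j : ℝ) * N.n b ≤ N.r / 2 :=
        (mul_le_mul_of_nonneg_right (by linarith) hb0).trans hb
      have hnb1 : N.n b ≤ N.r / 2 := by nlinarith
      have haj : N.n (a ^ j) ≤ N.r / 2 := (pow_n_le N a j).trans hna
      have hbj : N.n (b ^ j) ≤ N.r / 2 := (pow_n_le N b j).trans hnb
      have haj' : N.n (a ^ j) ≤ (j : ℝ) * N.n a := pow_n_le N a j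
      have e : (a ^ (j + 1) * b ^ (j + 1))⁻¹ * (a * b) ^ (j + 1) =
          ((b ^ j)⁻¹ * (b⁻¹ * (a ^ j)⁻¹ * b * a ^ j) * b ^ j) *
            ((a ^ j * b ^ j)⁻¹ * (a * b) ^ j) := by
        rw [pow_succ' a, pow_succ' b, pow_succ' (a * b)]
        generalize (a * b) ^ j = P
        generalize a ^ j = A
        generalize b ^ j = B
        group
      rw [e]
      have h1 := N.mul ((b ^ j)⁻¹ * (b⁻¹ * (a ^ j)⁻¹ * b * a ^ j) * b ^ j)
        ((a ^ j * b ^ j)⁻¹ * (a * b) ^ j)
      have hcomm := N.comm b (a ^ j) (by linarith) (by linarith)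
      have haj0 := N.nonneg (a ^ j)
      have h2 : N.C * N.n b * N.n (a ^ j) ≤ N.C * N.n b * ((j : ℝ) * N.n a) :=
        mul_le_mul_of_nonneg_left haj' (by positivity)
      have h3 : N.n (b⁻¹ * (a ^ j)⁻¹ * b * a ^ j) ≤ N.r := by
        refine hcomm.trans ?_
        have : N.C * N.n b ≤ 1 := by
          have : N.C * N.n b ≤ N.C * N.r := mul_le_mul_of_nonneg_left (by linarith) (by linarith)
          nlinarith
        nlinarith
      have h4 := conj_le N (b⁻¹ * (a ^ j)⁻¹ * b * a ^ j) (b ^ j) h3 (by linarith)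
      have h5 : N.n ((b ^ j)⁻¹ * (b⁻¹ * (a ^ j)⁻¹ * b * a ^ j) * b ^ j) ≤
          2 * (N.C * N.n b * ((j : ℝ) * N.n a)) := by linarith
      have h6 : 2 * N.C * (j : ℝ) ^ 2 * N.n a * N.n b + 2 * (N.C * N.n b * ((j : ℝ) * N.n a)) ≤
          2 * N.C * ((j + 1 : ℕ) : ℝ) ^ 2 * N.n a * N.n b := by
        push_cast
        have : 0 ≤ N.C * N.n a * N.n b := by positivity
        nlinarith
      linarith
  exact key k le_rfl

end A4b

theorem taskA4b.{u} : TaskA4b.{u} := by
  intro G _ _ _ N l h1 h2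
  exact prod_le N l h1 h2

theorem taskA4c.{u} : TaskA4c.{u} := by
  intro G _ _ _ N
  exact ⟨fun g h k hk hgh => pow_le N g h k hk hgh,
    fun a b k ha hb => mul_pow_le N a b k ha hb,
    fun a b ha hb => conj_le N a b ha hb⟩

end Crest.Agent.R217.A4_970
end

-- ▼ part R217/A5_839

/-!
Row 217 (S0336), PART A, tasks A5a and A5b (helper839): ultrafilter limits of powers are
one-parameter subgroups with a derivative; every one-parameter subgroup has a derivative, which
determines it.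
-/

set_option autoImplicit false

open Filter Topology BoundedContinuousFunction Metric
open scoped Topology BoundedContinuousFunction

namespace Crest.Agent.R217.A5_839

open SpecA343

variable {G : Type*} [Group G] [TopologicalSpace G] [IsTopologicalGroup G]

/-- the norm of a Gleason function -/
noncomputable def nn (F : GleasonFn G) (g : G) : ℝ := ‖dd g F.φ‖

lemma nn_nonneg (F : GleasonFn G) (g : G) : 0 ≤ nn F g := norm_nonneg _

lemma nn_one (F : GleasonFn G) : nn F 1 = 0 := by simp [nn]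

lemma nn_inv (F : GleasonFn G) (g : G) : nn F g⁻¹ = nn F g := norm_dd_inv _ _

lemma nn_mul (F : GleasonFn G) (g h : G) : nn F (g * h) ≤ nn F g + nn F h := norm_dd_mul_le _ _ _

lemma nn_inv_mul (F : GleasonFn G) (g h : G) : nn F (g⁻¹ * h) = ‖dd g F.φ - dd h F.φ‖ :=
  norm_dd_inv_mul _ _ _

lemma nn_pow_le (F : GleasonFn G) (g : G) (k : ℕ) : nn F (g ^ k) ≤ k * nn F g := by
  induction k with
  | zero => simp [nn_one]
  | succ k ih =>
    rw [pow_succ]
    have := nn_mul F (g ^ k) g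
    push_cast
    linarith

lemma nn_zpow_le (F : GleasonFn G) (g : G) (k : ℤ) : nn F (g ^ k) ≤ |(k : ℝ)| * nn F g := by
  obtain ⟨l, rfl | rfl⟩ := k.eq_nat_or_neg
  · simpa using nn_pow_le F g l
  · rw [zpow_neg, nn_inv]
    simpa using nn_pow_le F g l

/-- first order expansion of powers -/
lemma pow_approx (F : GleasonFn G) (g : G) (k : ℕ) (hk : (k : ℝ) * nn F g ≤ F.r) :
    ‖dd (g ^ k) F.φ - (k : ℝ) • dd g F.φ‖ ≤ F.C * nn F g ^ 2 * ((k : ℝ) * (k - 1) / 2) := by
  induction k with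
  | zero => simp
  | succ k ih =>
    have hn := nn_nonneg F g
    have hk' : (k : ℝ) * nn F g ≤ F.r := by
      push_cast at hk; nlinarith
    have hg : nn F g ≤ F.r := by
      push_cast at hk
      nlinarith [mul_nonneg (Nat.cast_nonneg (α := ℝ) k) hn]
    have h1 := ih hk'
    have h2 : ‖dd g (dd (g ^ k) F.φ)‖ ≤ F.C * nn F g * (k * nn F g) := by
      have h3 := nn_pow_le F g k
      refine (F.second g (g ^ k) hg (h3.trans hk')).trans ?_
      exact mul_le_mul_of_nonneg_left h3 (mul_nonneg (by linarith [F.one_le_C]) hn)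
    have h4 : dd (g ^ (k + 1)) F.φ - ((k + 1 : ℕ) : ℝ) • dd g F.φ =
        (dd (g ^ k) F.φ - (k : ℝ) • dd g F.φ) + dd g (dd (g ^ k) F.φ) := by
      rw [pow_succ', dd_mul]
      push_cast
      rw [add_smul, one_smul]
      abel
    rw [h4]
    refine (norm_add_le _ _).trans ?_
    push_cast
    nlinarith

lemma inv_approx (F : GleasonFn G) (g : G) (hg : nn F g ≤ F.r) :
    ‖dd g⁻¹ F.φ + dd g F.φ‖ ≤ F.C * nn F g ^ 2 := by
  have h1 : dd g⁻¹ F.φ + dd g F.φ = - dd g⁻¹ (dd g F.φ) := by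
    have := dd_mul g⁻¹ g F.φ
    rw [inv_mul_cancel, dd_one] at this
    rw [eq_neg_iff_add_eq_zero]
    exact this.symm
  rw [h1, norm_neg]
  have h2 := F.second g⁻¹ g (by rw [norm_dd_inv]; exact hg) hg
  rw [norm_dd_inv g F.φ] at h2
  calc ‖dd g⁻¹ (dd g F.φ)‖ ≤ F.C * ‖dd g F.φ‖ * ‖dd g F.φ‖ := h2
    _ = F.C * nn F g ^ 2 := by unfold nn; ring

lemma zpow_approx (F : GleasonFn G) (g : G) (k : ℤ) (hk : |(k : ℝ)| * nn F g ≤ F.r) :
    ‖dd (g ^ k) F.φ - (k : ℝ) • dd g F.φ‖ ≤ F.C * (k * nn F g) ^ 2 := by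
  have hn := nn_nonneg F g
  have hC : 0 ≤ F.C * nn F g ^ 2 := mul_nonneg (by linarith [F.one_le_C]) (sq_nonneg _)
  obtain ⟨l, rfl | rfl⟩ := k.eq_nat_or_neg
  · have h0 : (0 : ℝ) ≤ l := Nat.cast_nonneg l
    have := pow_approx F g l (by simpa using hk)
    simp only [zpow_natCast, Int.cast_natCast] at this ⊢
    refine this.trans ?_
    have h1 : (l : ℝ) * (l - 1) / 2 ≤ (l : ℝ) ^ 2 := by nlinarith
    calc F.C * nn F g ^ 2 * ((l : ℝ) * (l - 1) / 2) ≤ F.C * nn F g ^ 2 * (l : ℝ) ^ 2 :=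
          mul_le_mul_of_nonneg_left h1 hC
      _ = _ := by ring
  · have h0 : (0 : ℝ) ≤ l := Nat.cast_nonneg l
    have hk' : (l : ℝ) * nn F g ≤ F.r := by simpa using hk
    rcases Nat.eq_zero_or_pos l with rfl | hl
    · simp
    have hl1 : (1 : ℝ) ≤ l := by exact_mod_cast hl
    have hg : nn F g ≤ F.r := by nlinarith
    have h1 := pow_approx F g⁻¹ l (by rw [nn_inv]; exact hk')
    rw [nn_inv] at h1
    have h2 := inv_approx F g hg
    have h3 : dd (g ^ (-(l : ℤ))) F.φ - ((-(l : ℤ) : ℤ) : ℝ) • dd g F.φ =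
        (dd (g⁻¹ ^ l) F.φ - (l : ℝ) • dd g⁻¹ F.φ) + (l : ℝ) • (dd g⁻¹ F.φ + dd g F.φ) := by
      have : g ^ (-(l : ℤ)) = g⁻¹ ^ l := by simp
      have e : (-(l : ℝ)) • dd g F.φ = -((l : ℝ) • dd g F.φ) := by
        ext x
        simp only [BoundedContinuousFunction.coe_smul, BoundedContinuousFunction.coe_neg,
          Pi.neg_apply, smul_eq_mul]
        ring
      rw [this, smul_add]
      push_cast
      rw [e]
      abel
    rw [h3]
    refine (norm_add_le _ _).trans ?_
    rw [norm_smul, Real.norm_natCast]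
    have h4 : (l : ℝ) * ‖dd g⁻¹ F.φ + dd g F.φ‖ ≤ l * (F.C * nn F g ^ 2) :=
      mul_le_mul_of_nonneg_left h2 h0
    have h5 : (l : ℝ) * (l - 1) / 2 + l ≤ (l : ℝ) ^ 2 := by nlinarith
    push_cast
    calc _ ≤ F.C * nn F g ^ 2 * ((l : ℝ) * (l - 1) / 2) + l * (F.C * nn F g ^ 2) :=
          add_le_add h1 h4
      _ = F.C * nn F g ^ 2 * ((l : ℝ) * (l - 1) / 2 + l) := by ring
      _ ≤ F.C * nn F g ^ 2 * (l : ℝ) ^ 2 := mul_le_mul_of_nonneg_left h5 hC
      _ = _ := by ring

lemma continuous_ddφ (F : GleasonFn G) : Continuous (fun g => dd g F.φ) := by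
  rw [continuous_iff_continuousAt]
  intro g
  rw [ContinuousAt, Metric.tendsto_nhds]
  intro ε hε
  have h1 : Tendsto (fun h => g⁻¹ * h) (𝓝 g) (𝓝 1) := by
    have : Tendsto (fun h => g⁻¹ * h) (𝓝 g) (𝓝 (g⁻¹ * g)) :=
      (continuous_const.mul continuous_id).tendsto g
    simpa using this
  filter_upwards [h1.eventually (F.small ε hε)] with h hh
  rw [dist_comm, dist_eq_norm, ← norm_dd_inv_mul]
  exact hh

lemma continuous_nn (F : GleasonFn G) : Continuous (nn F) := (continuous_ddφ F).norm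

lemma tendsto_one_of_nn (F : GleasonFn G) {α : Type*} {l : Filter α} {u : α → G}
    (h : Tendsto (fun j => nn F (u j)) l (𝓝 0)) : Tendsto u l (𝓝 1) := by
  intro V hV
  obtain ⟨ε, hε, hV'⟩ := F.nhds V hV
  exact (h.eventually (gt_mem_nhds hε)).mono fun j hj => hV' _ hj

lemma tendsto_of_nn (F : GleasonFn G) {α : Type*} {l : Filter α} {u : α → G} {x : G}
    (h : Tendsto (fun j => nn F (x⁻¹ * u j)) l (𝓝 0)) : Tendsto u l (𝓝 x) := by
  have h1 := (tendsto_one_of_nn F h).const_mul x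
  simpa using h1

section limits

variable {F : GleasonFn G} {g : ℕ → G} {m : ℕ → ℕ} {L : ℝ} {l : Filter ℕ}

lemma tendsto_nn_zero (hm : Tendsto m l atTop)
    (hL : ∀ᶠ j in l, (m j : ℝ) * nn F (g j) ≤ L) :
    Tendsto (fun j => nn F (g j)) l (𝓝 0) := by
  have h1 : Tendsto (fun j => L / (m j : ℝ)) l (𝓝 0) :=
    (tendsto_const_nhds).div_atTop (tendsto_natCast_atTop_atTop.comp hm)
  refine squeeze_zero' (Eventually.of_forall fun j => nn_nonneg F _) ?_ h1
  filter_upwards [hL, hm.eventually (eventually_ge_atTop 1)] with j hj hmj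
  have : (0 : ℝ) < m j := by exact_mod_cast hmj
  rw [le_div_iff₀ this]
  linarith

lemma abs_floor_le (x : ℝ) : |(⌊x⌋ : ℝ)| ≤ |x| + 1 := by
  have h1 := Int.floor_le x
  have h2 := Int.lt_floor_add_one x
  rw [abs_le]
  constructor
  · have := neg_abs_le x; linarith
  · have := le_abs_self x; linarith

lemma floor_nn_le (t : ℝ) (j : ℕ) : |(⌊(m j : ℝ) * t⌋ : ℝ)| * nn F (g j) ≤
    |t| * ((m j : ℝ) * nn F (g j)) + nn F (g j) := by
  have h1 := abs_floor_le ((m j : ℝ) * t)
  rw [abs_mul, abs_of_nonneg (Nat.cast_nonneg (α := ℝ) (m j))] at h1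
  have := mul_le_mul_of_nonneg_right h1 (nn_nonneg F (g j))
  linarith

/-- limits of powers exist along an ultrafilter -/
lemma exists_lim {𝒰 : Ultrafilter ℕ} (hm : Tendsto m 𝒰 atTop)
    (hL : ∀ᶠ j in (𝒰 : Filter ℕ), (m j : ℝ) * nn F (g j) ≤ L) (t : ℝ) :
    ∃ x : G, Tendsto (fun j => g j ^ ⌊(m j : ℝ) * t⌋) 𝒰 (𝓝 x) := by
  have hn0 := tendsto_nn_zero hm hL
  obtain ⟨K, hK⟩ := exists_nat_gt ((|t| * |L| + 1) / (F.r / 2))
  have hr := F.r_pos
  have hK0 : (0 : ℝ) < K := lt_of_le_of_lt (by positivity) hK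
  have hK0' : 0 < K := by exact_mod_cast hK0
  have hK1 : (|t| * |L| + 1) / K ≤ F.r / 2 := by
    rw [div_lt_iff₀ (by positivity)] at hK
    rw [div_le_iff₀ hK0]
    linarith
  set S : Set G := {x | ‖dd x F.φ‖ ≤ F.r} with hS
  have hSc : IsCompact ((fun p : G × G => p.1 ^ K * p.2) '' (S ×ˢ S)) :=
    (F.cpt.prod F.cpt).image (by fun_prop)
  have hmem : ∀ᶠ j in (𝒰 : Filter ℕ), g j ^ ⌊(m j : ℝ) * t⌋ ∈
      (fun p : G × G => p.1 ^ K * p.2) '' (S ×ˢ S) := by
    have hc1 : (0 : ℝ) < min 1 (F.r / 2) := by positivity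
    have hc2 : (0 : ℝ) < F.r / K := by positivity
    filter_upwards [hL, hn0.eventually (gt_mem_nhds hc1), hn0.eventually (gt_mem_nhds hc2)]
      with j hj1 hj2 hj3
    set z : ℤ := ⌊(m j : ℝ) * t⌋ with hz
    have hn := nn_nonneg F (g j)
    refine ⟨(g j ^ (z / (K : ℤ)), g j ^ (z % (K : ℤ))), ⟨?_, ?_⟩, ?_⟩
    · show nn F (g j ^ (z / (K : ℤ))) ≤ F.r
      refine (nn_zpow_le F _ _).trans ?_
      have h1 : |((z / (K : ℤ) : ℤ) : ℝ)| ≤ |(z : ℝ)| / K + 1 := by
        have h2 : ((z / (K : ℤ) : ℤ) : ℝ) = ⌊(z : ℝ) / K⌋ := by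
          rw [Int.floor_div_natCast, Int.floor_intCast]
        rw [h2]
        have := abs_floor_le ((z : ℝ) / K)
        rwa [abs_div, abs_of_pos hK0] at this
      have h3 := floor_nn_le (F := F) (g := g) (m := m) t j
      rw [← hz] at h3
      have h4 : |t| * ((m j : ℝ) * nn F (g j)) ≤ |t| * |L| :=
        mul_le_mul_of_nonneg_left (hj1.trans (le_abs_self L)) (abs_nonneg t)
      have h5 : nn F (g j) ≤ 1 := (hj2.le).trans (min_le_left _ _)
      have h6 : nn F (g j) ≤ F.r / 2 := (hj2.le).trans (min_le_right _ _)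
      calc |((z / (K : ℤ) : ℤ) : ℝ)| * nn F (g j) ≤ (|(z : ℝ)| / K + 1) * nn F (g j) :=
            mul_le_mul_of_nonneg_right h1 hn
        _ = (|(z : ℝ)| * nn F (g j)) / K + nn F (g j) := by ring
        _ ≤ (|t| * |L| + 1) / K + F.r / 2 := by
            gcongr
            linarith
        _ ≤ F.r := by linarith
    · show nn F (g j ^ (z % (K : ℤ))) ≤ F.r
      refine (nn_zpow_le F _ _).trans ?_
      have h1 : |((z % (K : ℤ) : ℤ) : ℝ)| ≤ K := by
        have h2 : 0 ≤ z % (K : ℤ) := Int.emod_nonneg _ (by exact_mod_cast hK0'.ne')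
        have h3 : z % (K : ℤ) < K := Int.emod_lt_of_pos _ (by exact_mod_cast hK0')
        rw [abs_of_nonneg (by exact_mod_cast h2)]
        exact_mod_cast h3.le
      calc _ ≤ (K : ℝ) * nn F (g j) := mul_le_mul_of_nonneg_right h1 hn
        _ ≤ (K : ℝ) * (F.r / K) := by gcongr
        _ = F.r := by field_simp
    · show (g j ^ (z / (K : ℤ))) ^ K * g j ^ (z % (K : ℤ)) = g j ^ z
      rw [← zpow_natCast, ← zpow_mul, ← zpow_add]
      congr 1
      rw [mul_comm]
      exact Int.mul_ediv_add_emod z K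
  obtain ⟨x, -, hx⟩ := hSc.ultrafilter_le_nhds' (𝒰.map (fun j => g j ^ ⌊(m j : ℝ) * t⌋)) hmem
  exact ⟨x, hx⟩

end limits

/-- TASK A5a -/
theorem taskA5a.{u} : TaskA5a.{u} := by
  intro G _ _ _ _ _ F 𝒰 g m L hm hL
  have hL' : ∀ᶠ j in (𝒰 : Filter ℕ), (m j : ℝ) * nn F (g j) ≤ L := hL
  have hn0 := tendsto_nn_zero hm hL'
  have hmR : Tendsto (fun j => (m j : ℝ)) 𝒰 atTop := tendsto_natCast_atTop_atTop.comp hm
  choose X hX using fun t => exists_lim (F := F) hm hL' t
  -- basic estimate `nn (X t) ≤ |t| |L|`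
  have hXle : ∀ t, nn F (X t) ≤ |t| * |L| := by
    intro t
    have h1 : Tendsto (fun j => nn F (g j ^ ⌊(m j : ℝ) * t⌋)) 𝒰 (𝓝 (nn F (X t))) :=
      ((continuous_nn F).tendsto _).comp (hX t)
    have h2 : Tendsto (fun j => |t| * |L| + nn F (g j)) 𝒰 (𝓝 (|t| * |L| + 0)) :=
      tendsto_const_nhds.add hn0
    rw [add_zero] at h2
    refine le_of_tendsto_of_tendsto h1 h2 ?_
    filter_upwards [hL'] with j hj
    refine (nn_zpow_le F _ _).trans ((floor_nn_le t j).trans ?_)
    have : |t| * ((m j : ℝ) * nn F (g j)) ≤ |t| * |L| :=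
      mul_le_mul_of_nonneg_left (hj.trans (le_abs_self L)) (abs_nonneg t)
    linarith
  -- additivity
  have hXadd : ∀ s t, X (s + t) = X s * X t := by
    intro s t
    refine tendsto_nhds_unique (hX (s + t)) ?_
    have h1 : Tendsto (fun j => g j ^ (⌊(m j : ℝ) * (s + t)⌋ - ⌊(m j : ℝ) * s⌋ -
        ⌊(m j : ℝ) * t⌋)) 𝒰 (𝓝 1) := by
      apply tendsto_one_of_nn F
      refine squeeze_zero (fun j => nn_nonneg F _) (fun j => ?_) hn0
      refine (nn_zpow_le F _ _).trans ?_
      have h2 : |((⌊(m j : ℝ) * (s + t)⌋ - ⌊(m j : ℝ) * s⌋ - ⌊(m j : ℝ) * t⌋ : ℤ) : ℝ)| ≤ 1 := by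
        have e1 := Int.le_floor_add ((m j : ℝ) * s) ((m j : ℝ) * t)
        have e2 := Int.le_floor_add_floor ((m j : ℝ) * s) ((m j : ℝ) * t)
        rw [← mul_add] at e1 e2
        rw [abs_le]
        constructor
        · have : (-1 : ℤ) ≤ ⌊(m j : ℝ) * (s + t)⌋ - ⌊(m j : ℝ) * s⌋ - ⌊(m j : ℝ) * t⌋ := by omega
          exact_mod_cast this
        · have : ⌊(m j : ℝ) * (s + t)⌋ - ⌊(m j : ℝ) * s⌋ - ⌊(m j : ℝ) * t⌋ ≤ 1 := by omega
          exact_mod_cast this
      calc _ ≤ 1 * nn F (g j) := mul_le_mul_of_nonneg_right h2 (nn_nonneg F _)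
        _ = _ := one_mul _
    have h3 := ((hX s).mul (hX t)).mul h1
    rw [mul_one] at h3
    refine h3.congr fun j => ?_
    rw [← zpow_add, ← zpow_add]
    congr 1
    ring
  have hX0 : X 0 = 1 := by
    have := hXadd 0 0
    rw [add_zero] at this
    exact (mul_eq_left.mp this.symm)
  have hXcont : Continuous X := by
    rw [continuous_iff_continuousAt]
    intro t
    apply tendsto_of_nn F
    have h1 : ∀ s, (X t)⁻¹ * X s = X (s - t) := by
      intro s
      have h2 : s = t + (s - t) := by ring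
      rw [inv_mul_eq_iff_eq_mul, ← hXadd, ← h2]
    simp only [h1]
    have h2 : Tendsto (fun s : ℝ => |s - t| * |L|) (𝓝 t) (𝓝 0) := by
      have : Tendsto (fun s : ℝ => |s - t| * |L|) (𝓝 t) (𝓝 (|t - t| * |L|)) := by
        apply Continuous.tendsto
        fun_prop
      simpa using this
    exact squeeze_zero (fun s => nn_nonneg F _) (fun s => hXle _) h2
  -- the derivative: the family is Cauchy
  have hconv : ∀ t, Tendsto (fun j => dd (g j ^ ⌊(m j : ℝ) * t⌋) F.φ) 𝒰 (𝓝 (dd (X t) F.φ)) :=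
    fun t => ((continuous_ddφ F).tendsto _).comp (hX t)
  have hfl : ∀ t : ℝ, Tendsto (fun j => ((m j : ℝ) * t - ⌊(m j : ℝ) * t⌋) * nn F (g j)) 𝒰
      (𝓝 0) := by
    intro t
    refine squeeze_zero (fun j => mul_nonneg ?_ (nn_nonneg F _)) (fun j => ?_) hn0
    · have := Int.floor_le ((m j : ℝ) * t); linarith
    · have h1 := Int.lt_floor_add_one ((m j : ℝ) * t)
      calc _ ≤ 1 * nn F (g j) := mul_le_mul_of_nonneg_right (by linarith) (nn_nonneg F _)
        _ = _ := one_mul _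
  have hsm : ∀ t : ℝ, Tendsto (fun j => (⌊(m j : ℝ) * t⌋ : ℝ) • dd (g j) F.φ -
      t • ((m j : ℝ) • dd (g j) F.φ)) 𝒰 (𝓝 0) := by
    intro t
    rw [tendsto_zero_iff_norm_tendsto_zero]
    refine (hfl t).congr fun j => ?_
    have e : (⌊(m j : ℝ) * t⌋ : ℝ) • dd (g j) F.φ - t • ((m j : ℝ) • dd (g j) F.φ) =
        ((⌊(m j : ℝ) * t⌋ : ℝ) - m j * t) • dd (g j) F.φ := by
      ext x
      simp only [BoundedContinuousFunction.coe_smul, BoundedContinuousFunction.coe_sub,
          Pi.sub_apply, smul_eq_mul]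
      ring
    rw [e, norm_smul, Real.norm_eq_abs, abs_sub_comm]
    rw [abs_of_nonneg (by have := Int.floor_le ((m j : ℝ) * t); linarith)]
    rfl
  have hcauchy : Cauchy ((𝒰 : Filter ℕ).map (fun j => (m j : ℝ) • dd (g j) F.φ)) := by
    rw [Metric.cauchy_iff]
    refine ⟨inferInstance, fun ε hε => ?_⟩
    -- choose `t`
    obtain ⟨t, ht0, ht1, ht2⟩ : ∃ t : ℝ, 0 < t ∧ t * (|L| + 1) ≤ F.r ∧
        F.C * t * (|L| + 1) ^ 2 ≤ ε / 8 := by
      have hC := F.one_le_C
      have hr := F.r_pos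
      have hLp : 0 < |L| + 1 := by positivity
      refine ⟨min (F.r / (|L| + 1)) (ε / 8 / (F.C * (|L| + 1) ^ 2)), by positivity, ?_, ?_⟩
      · calc _ ≤ F.r / (|L| + 1) * (|L| + 1) := by
              gcongr; exact min_le_left _ _
          _ = F.r := by field_simp
      · have h0 : 0 < F.C * (|L| + 1) ^ 2 := by positivity
        calc F.C * min (F.r / (|L| + 1)) (ε / 8 / (F.C * (|L| + 1) ^ 2)) * (|L| + 1) ^ 2
            = (F.C * (|L| + 1) ^ 2) * min (F.r / (|L| + 1)) (ε / 8 / (F.C * (|L| + 1) ^ 2)) := by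
              ring
          _ ≤ (F.C * (|L| + 1) ^ 2) * (ε / 8 / (F.C * (|L| + 1) ^ 2)) := by
              gcongr; exact min_le_right _ _
          _ = ε / 8 := by field_simp
    have hev : ∀ᶠ j in (𝒰 : Filter ℕ),
        dist ((m j : ℝ) • dd (g j) F.φ) (t⁻¹ • dd (X t) F.φ) < ε / 2 := by
      have hte : 0 < t * (ε / 8) := by positivity
      have e1 := (hconv t).eventually (Metric.ball_mem_nhds _ hte)
      have e2 := (hsm t).eventually (Metric.ball_mem_nhds _ hte)
      have e3 := hn0.eventually (gt_mem_nhds (show (0 : ℝ) < t by exact ht0))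
      filter_upwards [e1, e2, e3, hL'] with j h1 h2 h3 h4
      have h5 : |(⌊(m j : ℝ) * t⌋ : ℝ)| * nn F (g j) ≤ t * (|L| + 1) := by
        refine (floor_nn_le t j).trans ?_
        rw [abs_of_pos ht0]
        have : t * ((m j : ℝ) * nn F (g j)) ≤ t * |L| :=
          mul_le_mul_of_nonneg_left (h4.trans (le_abs_self L)) ht0.le
        linarith
      have h6 := zpow_approx F (g j) ⌊(m j : ℝ) * t⌋ (h5.trans ht1)
      have h7 : F.C * ((⌊(m j : ℝ) * t⌋ : ℝ) * nn F (g j)) ^ 2 ≤ t * (ε / 8) := by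
        have h8 : ((⌊(m j : ℝ) * t⌋ : ℝ) * nn F (g j)) ^ 2 ≤ (t * (|L| + 1)) ^ 2 := by
          rw [sq_le_sq, abs_mul, abs_of_nonneg (nn_nonneg F (g j))]
          rw [abs_of_nonneg (by positivity : (0:ℝ) ≤ t * (|L| + 1))]
          exact h5
        have hC := F.one_le_C
        calc _ ≤ F.C * (t * (|L| + 1)) ^ 2 := mul_le_mul_of_nonneg_left h8 (by linarith)
          _ = t * (F.C * t * (|L| + 1) ^ 2) := by ring
          _ ≤ t * (ε / 8) := mul_le_mul_of_nonneg_left ht2 ht0.le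
      rw [dist_eq_norm] at h1
      rw [dist_eq_norm, sub_zero] at h2
      have h9 : t • ((m j : ℝ) • dd (g j) F.φ - t⁻¹ • dd (X t) F.φ) =
          -((⌊(m j : ℝ) * t⌋ : ℝ) • dd (g j) F.φ - t • ((m j : ℝ) • dd (g j) F.φ)) -
          (dd (g j ^ ⌊(m j : ℝ) * t⌋) F.φ - (⌊(m j : ℝ) * t⌋ : ℝ) • dd (g j) F.φ) +
          (dd (g j ^ ⌊(m j : ℝ) * t⌋) F.φ - dd (X t) F.φ) := by
        rw [smul_sub, smul_smul t t⁻¹, mul_inv_cancel₀ ht0.ne', one_smul]
        abel
      have h10 : t * ‖(m j : ℝ) • dd (g j) F.φ - t⁻¹ • dd (X t) F.φ‖ < t * (ε / 2) := by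
        have : t * ‖(m j : ℝ) • dd (g j) F.φ - t⁻¹ • dd (X t) F.φ‖ =
            ‖t • ((m j : ℝ) • dd (g j) F.φ - t⁻¹ • dd (X t) F.φ)‖ := by
          rw [norm_smul, Real.norm_of_nonneg ht0.le]
        rw [this, h9]
        refine (norm_add_le _ _).trans_lt ?_
        have h11 := norm_sub_le
          (-((⌊(m j : ℝ) * t⌋ : ℝ) • dd (g j) F.φ - t • ((m j : ℝ) • dd (g j) F.φ)))
          (dd (g j ^ ⌊(m j : ℝ) * t⌋) F.φ - (⌊(m j : ℝ) * t⌋ : ℝ) • dd (g j) F.φ)
        rw [norm_neg] at h11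
        nlinarith
      rw [dist_eq_norm]
      exact lt_of_mul_lt_mul_left h10 ht0.le
    refine ⟨ball (t⁻¹ • dd (X t) F.φ) (ε / 2), ?_, ?_⟩
    · exact hev
    · intro x hx y hy
      rw [mem_ball] at hx hy
      calc dist x y ≤ dist x (t⁻¹ • dd (X t) F.φ) + dist y (t⁻¹ • dd (X t) F.φ) :=
            dist_triangle_right _ _ _
        _ < ε := by linarith
  obtain ⟨D, hD⟩ := CompleteSpace.complete hcauchy
  have hD' : Tendsto (fun j => (m j : ℝ) • dd (g j) F.φ) 𝒰 (𝓝 D) := hD
  have hDn : Tendsto (fun j => (m j : ℝ) * nn F (g j)) 𝒰 (𝓝 ‖D‖) := by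
    refine hD'.norm.congr fun j => ?_
    rw [norm_smul, Real.norm_natCast]
    rfl
  have hfn : ∀ t : ℝ, Tendsto (fun j => (⌊(m j : ℝ) * t⌋ : ℝ) * nn F (g j)) 𝒰
      (𝓝 (t * ‖D‖)) := by
    intro t
    have h1 : Tendsto (fun j => t * ((m j : ℝ) * nn F (g j)) -
        ((m j : ℝ) * t - ⌊(m j : ℝ) * t⌋) * nn F (g j)) 𝒰 (𝓝 (t * ‖D‖ - 0)) :=
      (hDn.const_mul t).sub (hfl t)
    rw [sub_zero] at h1
    refine h1.congr fun j => ?_
    ring
  have hfD : ∀ t : ℝ, Tendsto (fun j => (⌊(m j : ℝ) * t⌋ : ℝ) • dd (g j) F.φ) 𝒰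
      (𝓝 (t • D)) := by
    intro t
    have h1 : Tendsto (fun j => ((⌊(m j : ℝ) * t⌋ : ℝ) • dd (g j) F.φ -
      t • ((m j : ℝ) • dd (g j) F.φ)) + t • ((m j : ℝ) • dd (g j) F.φ)) 𝒰 (𝓝 (0 + t • D)) :=
      (hsm t).add (hD'.const_smul t)
    rw [zero_add] at h1
    refine h1.congr fun j => ?_
    abel
  have hlt : ∀ t : ℝ, |t| * ‖D‖ < F.r →
      ‖dd (X t) F.φ - t • D‖ ≤ F.C * (t * ‖D‖) ^ 2 := by
    intro t ht
    have h1 : Tendsto (fun j => ‖dd (g j ^ ⌊(m j : ℝ) * t⌋) F.φ -
        (⌊(m j : ℝ) * t⌋ : ℝ) • dd (g j) F.φ‖) 𝒰 (𝓝 ‖dd (X t) F.φ - t • D‖) :=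
      ((hconv t).sub (hfD t)).norm
    have h2 : Tendsto (fun j => F.C * ((⌊(m j : ℝ) * t⌋ : ℝ) * nn F (g j)) ^ 2) 𝒰
        (𝓝 (F.C * (t * ‖D‖) ^ 2)) := ((hfn t).pow 2).const_mul _
    refine le_of_tendsto_of_tendsto h1 h2 ?_
    have h3 : Tendsto (fun j => |(⌊(m j : ℝ) * t⌋ : ℝ) * nn F (g j)|) 𝒰 (𝓝 (|t * ‖D‖|)) :=
      (hfn t).abs
    rw [abs_mul, abs_norm] at h3
    filter_upwards [h3.eventually (gt_mem_nhds ht)] with j hj
    rw [abs_mul, abs_of_nonneg (nn_nonneg F (g j))] at hj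
    exact zpow_approx F (g j) _ hj.le
  refine ⟨⟨X, hXcont, hXadd⟩, D, ⟨fun t => ?_, fun t ht => ?_⟩, hD', hX⟩
  · have h1 : Tendsto (fun j => nn F (g j ^ ⌊(m j : ℝ) * t⌋)) 𝒰 (𝓝 (nn F (X t))) :=
      ((continuous_nn F).tendsto _).comp (hX t)
    have h3 : Tendsto (fun j => |(⌊(m j : ℝ) * t⌋ : ℝ) * nn F (g j)|) 𝒰 (𝓝 (|t * ‖D‖|)) :=
      (hfn t).abs
    rw [abs_mul, abs_norm] at h3
    refine le_of_tendsto_of_tendsto h1 h3 (Eventually.of_forall fun j => ?_)
    show nn F (g j ^ ⌊(m j : ℝ) * t⌋) ≤ |(⌊(m j : ℝ) * t⌋ : ℝ) * nn F (g j)|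
    rw [abs_mul, abs_of_nonneg (nn_nonneg F (g j))]
    exact nn_zpow_le F _ _
  · show ‖dd (X t) F.φ - t • D‖ ≤ F.C * (t * ‖D‖) ^ 2
    -- approximate from below
    have hs : Tendsto (fun s : ℝ => s * t) (𝓝[<] 1) (𝓝 t) := by
      have : Tendsto (fun s : ℝ => s * t) (𝓝 1) (𝓝 (1 * t)) :=
        (continuous_id.mul continuous_const).tendsto _
      rw [one_mul] at this
      exact this.mono_left nhdsWithin_le_nhds
    have hc1 : Continuous (fun t : ℝ => ‖dd (X t) F.φ - t • D‖) :=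
      (((continuous_ddφ F).comp hXcont).sub (continuous_id.smul continuous_const)).norm
    have hc2 : Continuous (fun t : ℝ => F.C * (t * ‖D‖) ^ 2) := by fun_prop
    refine le_of_tendsto_of_tendsto ((hc1.tendsto t).comp hs) ((hc2.tendsto t).comp hs) ?_
    have hpos : ∀ᶠ s in 𝓝[<] (1 : ℝ), 0 < s :=
      nhdsWithin_le_nhds (lt_mem_nhds one_pos)
    filter_upwards [self_mem_nhdsWithin, hpos] with s hs1 hs0
    apply hlt
    rw [abs_mul, abs_of_pos hs0, mul_assoc]
    have hs1' : s < 1 := hs1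
    rcases (mul_nonneg (abs_nonneg t) (norm_nonneg D)).eq_or_lt with h | h
    · rw [← h, mul_zero]; exact F.r_pos
    · calc s * (|t| * ‖D‖) < 1 * (|t| * ‖D‖) := mul_lt_mul_of_pos_right hs1' h
        _ ≤ F.r := by rw [one_mul]; exact ht

/-! ## one-parameter subgroups -/

lemma OP_zero {G : Type*} [Group G] [TopologicalSpace G] (X : OP G) : X.X 0 = 1 := by
  have := X.add 0 0
  rw [add_zero] at this
  exact mul_eq_left.mp this.symm

lemma OP_neg {G : Type*} [Group G] [TopologicalSpace G] (X : OP G) (s : ℝ) :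
    X.X (-s) = (X.X s)⁻¹ := by
  rw [eq_inv_iff_mul_eq_one, ← X.add, neg_add_cancel, OP_zero]

lemma OP_pow {G : Type*} [Group G] [TopologicalSpace G] (X : OP G) (s : ℝ) (k : ℕ) :
    X.X s ^ k = X.X (k * s) := by
  induction k with
  | zero => simp [OP_zero]
  | succ k ih =>
    rw [pow_succ, ih, ← X.add]
    congr 1
    push_cast
    ring

lemma OP_zpow {G : Type*} [Group G] [TopologicalSpace G] (X : OP G) (s : ℝ) (k : ℤ) :
    X.X s ^ k = X.X (k * s) := by
  obtain ⟨l, rfl | rfl⟩ := k.eq_nat_or_neg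
  · simpa using OP_pow X s l
  · rw [zpow_neg, zpow_natCast, OP_pow, ← OP_neg]
    congr 1
    push_cast
    ring

lemma eq_one_of_nn [T2Space G] (F : GleasonFn G) {g : G} (h : nn F g = 0) : g = 1 := by
  by_contra hne
  obtain ⟨ε, hε, hV⟩ := F.nhds {g}ᶜ (isClosed_singleton.isOpen_compl.mem_nhds
    (by simpa using (Ne.symm hne)))
  exact hV g (by rw [show ‖dd g F.φ‖ = 0 from h]; exact hε) rfl

lemma nn_conj_le (F : GleasonFn G) (g w : G) (hg : nn F g ≤ F.r) (hw : nn F w ≤ F.r) :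
    nn F (g⁻¹ * w * g) ≤ (1 + 2 * F.C * nn F g) * nn F w := by
  have h1 : g⁻¹ * w * g = w * ((g * w)⁻¹ * (w * g)) := by group
  have h2 : nn F ((g * w)⁻¹ * (w * g)) ≤ 2 * F.C * nn F g * nn F w := by
    rw [nn_inv_mul, dd_mul, dd_mul]
    have h3 : dd g F.φ + dd w F.φ + dd g (dd w F.φ) - (dd w F.φ + dd g F.φ + dd w (dd g F.φ)) =
        dd g (dd w F.φ) - dd w (dd g F.φ) := by abel
    rw [h3]
    have h4 := F.second g w hg hw
    have h5 := F.second w g hw hg
    refine (norm_sub_le _ _).trans ?_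
    unfold nn
    nlinarith
  rw [h1]
  refine (nn_mul F _ _).trans ?_
  linarith

/-- comparison of powers -/
lemma pow_diff (F : GleasonFn G) (g h : G) (k : ℕ) (hg : (k : ℝ) * nn F g ≤ F.r / 2)
    (hh : (k : ℝ) * nn F h ≤ F.r / 2) :
    nn F ((g ^ k)⁻¹ * h ^ k) ≤ 2 * k * nn F (g⁻¹ * h) := by
  have hn := nn_nonneg F g
  have hnh := nn_nonneg F h
  have hC := F.one_le_C
  have hr := F.r_pos
  have hCr := F.Cr
  set δ := nn F (g⁻¹ * h) with hδ
  have hδ0 : 0 ≤ δ := nn_nonneg F _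
  set a := 2 * F.C * nn F g with ha
  have ha0 : 0 ≤ a := by positivity
  have hak : a * k ≤ 1 / 16 := by
    rw [ha]
    have : F.C * ((k : ℝ) * nn F g) ≤ F.C * (F.r / 2) := mul_le_mul_of_nonneg_left hg (by linarith)
    nlinarith
  have key : ∀ i : ℕ, i ≤ k → nn F ((g ^ i)⁻¹ * h ^ i) ≤ δ * (i * (1 + 2 * a * i)) := by
    intro i
    induction i with
    | zero => intro _; simp [nn_one]
    | succ i ih =>
      intro hi
      have h1 := ih (by omega)
      have hik : ((i + 1 : ℕ) : ℝ) ≤ k := by exact_mod_cast hi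
      have hi0 : (0 : ℝ) ≤ i := Nat.cast_nonneg i
      push_cast at hik
      have hai : a * i ≤ 1 / 16 := by nlinarith
      have e1 : (g ^ (i + 1))⁻¹ * h ^ (i + 1) = (g⁻¹ * ((g ^ i)⁻¹ * h ^ i) * g) * (g⁻¹ * h) := by
        rw [pow_succ, pow_succ]; group
      have hgr : nn F g ≤ F.r := by nlinarith
      have hwr : nn F ((g ^ i)⁻¹ * h ^ i) ≤ F.r := by
        have e2 := nn_mul F (g ^ i)⁻¹ (h ^ i)
        rw [nn_inv] at e2
        have e3 := nn_pow_le F g i
        have e4 := nn_pow_le F h i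
        nlinarith
      have e5 := nn_conj_le F g _ hgr hwr
      have e6 := nn_mul F (g⁻¹ * ((g ^ i)⁻¹ * h ^ i) * g) (g⁻¹ * h)
      rw [e1]
      refine e6.trans ?_
      have e7 : (1 + a) * nn F ((g ^ i)⁻¹ * h ^ i) ≤ (1 + a) * (δ * (i * (1 + 2 * a * i))) :=
        mul_le_mul_of_nonneg_left h1 (by linarith)
      have e8 : (1 + a) * (δ * (i * (1 + 2 * a * i))) + δ ≤
          δ * (((i : ℝ) + 1) * (1 + 2 * a * ((i : ℝ) + 1))) := by
        have e9 : (1 + a) * ((i : ℝ) * (1 + 2 * a * i)) + 1 ≤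
            ((i : ℝ) + 1) * (1 + 2 * a * ((i : ℝ) + 1)) := by
          have e10 : (a * i) * (a * i) ≤ 1 * (a * i) :=
            mul_le_mul_of_nonneg_right (by linarith) (by positivity)
          nlinarith [mul_nonneg ha0 hi0]
        calc _ = δ * ((1 + a) * ((i : ℝ) * (1 + 2 * a * i)) + 1) := by ring
          _ ≤ _ := mul_le_mul_of_nonneg_left e9 hδ0
      push_cast
      have e11 : nn F (g⁻¹ * ((g ^ i)⁻¹ * h ^ i) * g) ≤
        (1 + a) * nn F ((g ^ i)⁻¹ * h ^ i) := by rw [ha]; exact e5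
      linarith
  refine (key k le_rfl).trans ?_
  have hk0 : (0 : ℝ) ≤ k := Nat.cast_nonneg k
  have : 1 + 2 * a * k ≤ 2 := by linarith
  calc δ * (k * (1 + 2 * a * k)) ≤ δ * (k * 2) := by gcongr
    _ = _ := by ring

/-- escape property -/
lemma esc (F : GleasonFn G) (g : G) (k : ℕ) (h : ∀ i ≤ k, nn F (g ^ i) ≤ F.r) :
    (k : ℝ) * nn F g ≤ 2 * nn F (g ^ k) := by
  rcases Nat.eq_zero_or_pos k with rfl | hk
  · simp [nn_one]
  have hn := nn_nonneg F g
  have hC := F.one_le_C
  have hr := F.r_pos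
  have hCr := F.Cr
  have hg : nn F g ≤ F.r := by simpa using h 1 hk
  have key : ∀ i : ℕ, i ≤ k → ‖dd (g ^ i) F.φ - (i : ℝ) • dd g F.φ‖ ≤ i * nn F g * (F.C * F.r) := by
    intro i
    induction i with
    | zero => intro _; simp
    | succ i ih =>
      intro hi
      have h1 := ih (by omega)
      have h2 := F.second g (g ^ i) hg (h i (by omega))
      have h3 : F.C * ‖dd g F.φ‖ * ‖dd (g ^ i) F.φ‖ ≤ nn F g * (F.C * F.r) := by
        have : ‖dd (g ^ i) F.φ‖ ≤ F.r := h i (by omega)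
        calc _ ≤ F.C * ‖dd g F.φ‖ * F.r := by gcongr
          _ = _ := by unfold nn; ring
      have h4 : dd (g ^ (i + 1)) F.φ - ((i + 1 : ℕ) : ℝ) • dd g F.φ =
          (dd (g ^ i) F.φ - (i : ℝ) • dd g F.φ) + dd g (dd (g ^ i) F.φ) := by
        rw [pow_succ', dd_mul]
        push_cast
        rw [add_smul, one_smul]
        abel
      rw [h4]
      refine (norm_add_le _ _).trans ?_
      push_cast
      linarith
  have h1 := key k le_rfl
  have h2 : (k : ℝ) * nn F g ≤ ‖dd (g ^ k) F.φ - (k : ℝ) • dd g F.φ‖ + nn F (g ^ k) := by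
    have h3 : ‖(k : ℝ) • dd g F.φ‖ = (k : ℝ) * nn F g := by
      rw [norm_smul, Real.norm_natCast]; rfl
    rw [← h3]
    have h4 : (k : ℝ) • dd g F.φ = dd (g ^ k) F.φ - (dd (g ^ k) F.φ - (k : ℝ) • dd g F.φ) := by
      abel
    calc ‖(k : ℝ) • dd g F.φ‖ = ‖dd (g ^ k) F.φ - (dd (g ^ k) F.φ - (k : ℝ) • dd g F.φ)‖ := by
          rw [← h4]
      _ ≤ ‖dd (g ^ k) F.φ‖ + ‖dd (g ^ k) F.φ - (k : ℝ) • dd g F.φ‖ := norm_sub_le _ _
      _ = _ := by unfold nn; ring
  have h5 : (k : ℝ) * nn F g * (F.C * F.r) ≤ (k : ℝ) * nn F g * (1 / 16) := by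
    gcongr
    linarith
  nlinarith

lemma hasD_congr {F : GleasonFn G} {X Y : OP G} {D : G →ᵇ ℝ} (h : X.X = Y.X) (hX : HasD F X D) :
    HasD F Y D := by
  unfold HasD at hX ⊢
  rw [← h]
  exact hX

/-- TASK A5b -/
theorem taskA5b.{u} : TaskA5b.{u} := by
  intro G _ _ _ _ _ F
  refine ⟨fun X => ?_, fun X Y D hX hY => ?_⟩
  · -- existence
    have hr := F.r_pos
    have hc : Tendsto (fun s => nn F (X.X s)) (𝓝 0) (𝓝 0) := by
      have : Tendsto (fun s => nn F (X.X s)) (𝓝 0) (𝓝 (nn F (X.X 0))) :=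
        ((continuous_nn F).comp X.cont).tendsto 0
      rwa [OP_zero, nn_one] at this
    obtain ⟨t₁, ht₁, hball⟩ := Metric.eventually_nhds_iff.mp (hc.eventually (gt_mem_nhds hr))
    obtain ⟨t₀, ht₀, hsmall⟩ : ∃ t₀ : ℝ, 0 < t₀ ∧ ∀ s, |s| ≤ t₀ → nn F (X.X s) ≤ F.r := by
      refine ⟨t₁ / 2, by positivity, fun s hs => (hball ?_).le⟩
      rw [Real.dist_eq, sub_zero]
      linarith
    have hm : Tendsto (fun j : ℕ => j + 1) (hyperfilter ℕ : Filter ℕ) atTop :=
      (tendsto_add_atTop_nat 1).mono_left Nat.hyperfilter_le_atTop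
    have hmR : Tendsto (fun j : ℕ => ((j + 1 : ℕ) : ℝ)) (hyperfilter ℕ : Filter ℕ) atTop :=
      tendsto_natCast_atTop_atTop.comp hm
    have hL : ∀ᶠ j in (hyperfilter ℕ : Filter ℕ),
        ((j + 1 : ℕ) : ℝ) * ‖dd (X.X (1 / ((j + 1 : ℕ) : ℝ))) F.φ‖ ≤ 4 * F.r / t₀ := by
      filter_upwards [hmR.eventually (eventually_ge_atTop (2 / t₀))] with j hj
      set M : ℝ := ((j + 1 : ℕ) : ℝ) with hM
      have hM0 : 0 < M := by rw [hM]; positivity
      have h1 := esc F (X.X (1 / M)) ⌊t₀ * M⌋₊ (fun i hi => by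
        rw [OP_pow]
        apply hsmall
        have h2 : (i : ℝ) ≤ t₀ * M := by
          have h3 : (i : ℝ) ≤ (⌊t₀ * M⌋₊ : ℝ) := by exact_mod_cast hi
          exact h3.trans (Nat.floor_le (by positivity))
        rw [abs_of_nonneg (by positivity), mul_one_div, div_le_iff₀ hM0]
        exact h2)
      have h4 : nn F (X.X (1 / M) ^ ⌊t₀ * M⌋₊) ≤ F.r := by
        rw [OP_pow]
        apply hsmall
        rw [abs_of_nonneg (by positivity), mul_one_div, div_le_iff₀ hM0]
        exact Nat.floor_le (by positivity)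
      have h5 : t₀ * M / 2 ≤ (⌊t₀ * M⌋₊ : ℝ) := by
        have h6 := Nat.lt_floor_add_one (t₀ * M)
        have h7 : 2 ≤ t₀ * M := by
          rw [div_le_iff₀ ht₀] at hj
          linarith
        linarith
      have h8 := nn_nonneg F (X.X (1 / M))
      have h9 : t₀ * M / 2 * nn F (X.X (1 / M)) ≤ 2 * F.r := by
        calc _ ≤ (⌊t₀ * M⌋₊ : ℝ) * nn F (X.X (1 / M)) := by gcongr
          _ ≤ _ := by linarith
      rw [le_div_iff₀ ht₀]
      show M * nn F (X.X (1 / M)) * t₀ ≤ 4 * F.r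
      linarith
    obtain ⟨X', D, hD, -, hlim⟩ := taskA5a G F (hyperfilter ℕ)
      (fun j => X.X (1 / ((j + 1 : ℕ) : ℝ))) (fun j => j + 1) (4 * F.r / t₀) hm hL
    refine ⟨D, hasD_congr ?_ hD⟩
    funext t
    refine tendsto_nhds_unique (hlim t) ?_
    have h1 : Tendsto (fun j : ℕ => (⌊((j + 1 : ℕ) : ℝ) * t⌋ : ℝ) * (1 / ((j + 1 : ℕ) : ℝ)))
        (hyperfilter ℕ : Filter ℕ) (𝓝 t) := by
      have h2 : Tendsto (fun j : ℕ => 1 / ((j + 1 : ℕ) : ℝ)) (hyperfilter ℕ : Filter ℕ) (𝓝 0) :=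
        tendsto_const_nhds.div_atTop hmR
      have h3 : Tendsto (fun j : ℕ => t - 1 / ((j + 1 : ℕ) : ℝ)) (hyperfilter ℕ : Filter ℕ)
          (𝓝 t) := by
        simpa using tendsto_const_nhds.sub h2
      refine tendsto_of_tendsto_of_tendsto_of_le_of_le h3 tendsto_const_nhds ?_ ?_
      · intro j
        have hM0 : (0 : ℝ) < ((j + 1 : ℕ) : ℝ) := by positivity
        have h4 := Int.lt_floor_add_one (((j + 1 : ℕ) : ℝ) * t)
        show t - 1 / ((j + 1 : ℕ) : ℝ) ≤ (⌊((j + 1 : ℕ) : ℝ) * t⌋ : ℝ) * (1 / ((j + 1 : ℕ) : ℝ))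
        rw [mul_one_div, le_div_iff₀ hM0, sub_mul, one_div, inv_mul_cancel₀ hM0.ne']
        linarith
      · intro j
        have hM0 : (0 : ℝ) < ((j + 1 : ℕ) : ℝ) := by positivity
        have h4 := Int.floor_le (((j + 1 : ℕ) : ℝ) * t)
        show (⌊((j + 1 : ℕ) : ℝ) * t⌋ : ℝ) * (1 / ((j + 1 : ℕ) : ℝ)) ≤ t
        rw [mul_one_div, div_le_iff₀ hM0]
        linarith
    refine ((X.cont.tendsto t).comp h1).congr fun j => ?_
    exact (OP_zpow X _ _).symm
  · -- uniqueness
    have hC := F.one_le_C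
    have hr := F.r_pos
    have hloc : ∀ t : ℝ, |t| * ‖D‖ ≤ F.r / 2 → X.X t = Y.X t := by
      intro t ht
      have h0 : nn F ((X.X t)⁻¹ * Y.X t) = 0 := by
        refine le_antisymm ?_ (nn_nonneg F _)
        have hlim : Tendsto (fun k : ℕ => 4 * F.C * (t * ‖D‖) ^ 2 / ((k + 1 : ℕ) : ℝ)) atTop
            (𝓝 0) :=
          tendsto_const_nhds.div_atTop (tendsto_natCast_atTop_atTop.comp
            (tendsto_add_atTop_nat 1))
        refine ge_of_tendsto' hlim fun k => ?_
        set M : ℝ := ((k + 1 : ℕ) : ℝ) with hM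
        have hM0 : 0 < M := by rw [hM]; positivity
        have hM1 : 1 ≤ M := by rw [hM]; push_cast; linarith [Nat.cast_nonneg (α := ℝ) k]
        have e1 : X.X t = X.X (t / M) ^ (k + 1) := by
          rw [OP_pow, ← hM]; congr 1; field_simp
        have e2 : Y.X t = Y.X (t / M) ^ (k + 1) := by
          rw [OP_pow, ← hM]; congr 1; field_simp
        have e3 : |t / M| * ‖D‖ ≤ F.r := by
          rw [abs_div, abs_of_pos hM0, div_mul_eq_mul_div, div_le_iff₀ hM0]
          nlinarith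
        have h1 : M * nn F (X.X (t / M)) ≤ F.r / 2 := by
          have := hX.1 (t / M)
          rw [abs_div, abs_of_pos hM0] at this
          calc M * nn F (X.X (t / M)) ≤ M * (|t| / M * ‖D‖) := by gcongr; exact this
            _ = |t| * ‖D‖ := by field_simp
            _ ≤ _ := ht
        have h2 : M * nn F (Y.X (t / M)) ≤ F.r / 2 := by
          have := hY.1 (t / M)
          rw [abs_div, abs_of_pos hM0] at this
          calc M * nn F (Y.X (t / M)) ≤ M * (|t| / M * ‖D‖) := by gcongr; exact this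
            _ = |t| * ‖D‖ := by field_simp
            _ ≤ _ := ht
        have h3 : nn F ((X.X (t / M))⁻¹ * Y.X (t / M)) ≤ 2 * F.C * (t / M * ‖D‖) ^ 2 := by
          rw [nn_inv_mul]
          have e4 := hX.2 (t / M) e3
          have e5 := hY.2 (t / M) e3
          have e6 : dd (X.X (t / M)) F.φ - dd (Y.X (t / M)) F.φ =
              (dd (X.X (t / M)) F.φ - (t / M) • D) - (dd (Y.X (t / M)) F.φ - (t / M) • D) := by
            abel
          rw [e6]
          refine (norm_sub_le _ _).trans ?_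
          linarith
        have h4 := pow_diff F (X.X (t / M)) (Y.X (t / M)) (k + 1) (by rw [← hM]; exact h1)
          (by rw [← hM]; exact h2)
        rw [e1, e2]
        refine h4.trans ?_
        rw [← hM]
        calc 2 * M * nn F ((X.X (t / M))⁻¹ * Y.X (t / M)) ≤
              2 * M * (2 * F.C * (t / M * ‖D‖) ^ 2) := by gcongr
          _ = 4 * F.C * (t * ‖D‖) ^ 2 / M := by field_simp; ring
      have := eq_one_of_nn F h0
      exact (inv_mul_eq_one.mp this)
    funext t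
    obtain ⟨k, hk⟩ := exists_nat_gt (|t| * ‖D‖ / (F.r / 2))
    have hk0 : (0 : ℝ) < k := lt_of_le_of_lt (by positivity) hk
    have h1 : X.X (t / k) = Y.X (t / k) := by
      apply hloc
      rw [abs_div, abs_of_pos hk0, div_mul_eq_mul_div, div_le_iff₀ hk0]
      rw [div_lt_iff₀ (by positivity)] at hk
      linarith
    have e1 : X.X t = X.X (t / k) ^ k := by
      rw [OP_pow]; congr 1; field_simp
    have e2 : Y.X t = Y.X (t / k) ^ k := by
      rw [OP_pow]; congr 1; field_simp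
    rw [e1, e2, h1]

end Crest.Agent.R217.A5_839
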