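import Crest.Agent.R217.SpecA_343

-- ▼ part R217/A5_947
section

/-!
Row 217, PART A: tasks A5a (ultrafilter limits of powers are one-parameter subgroups) and
A5b (every one-parameter subgroup has a derivative, which determines it).
-/

set_option autoImplicit false

open Filter Topology BoundedContinuousFunction Metric
open scoped Topology BoundedContinuousFunction

namespace Crest.Agent.R217.A5_947

open Crest.Agent.R217.SpecA343

section
variable {G : Type*} [Group G] [TopologicalSpace G] [IsTopologicalGroup G]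

/-- continuity of `g ↦ dd g φ` -/
lemma continuous_dd (F : GleasonFn G) : Continuous (fun g : G => dd g F.φ) := by
  rw [continuous_iff_continuousAt]
  intro g
  rw [ContinuousAt, Metric.tendsto_nhds]
  intro ε hε
  have h1 : Tendsto (fun h : G => g⁻¹ * h) (𝓝 g) (𝓝 1) := by
    have : Continuous (fun h : G => g⁻¹ * h) := by fun_prop
    simpa using this.tendsto g
  filter_upwards [h1.eventually (F.small ε hε)] with h hh
  rw [dist_comm, dist_eq_norm, ← norm_dd_inv_mul]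
  exact hh

lemma norm_dd_pow_le (g : G) (k : ℕ) (f : G →ᵇ ℝ) : ‖dd (g ^ k) f‖ ≤ k * ‖dd g f‖ := by
  induction k with
  | zero => simp
  | succ k ih =>
    rw [pow_succ]
    refine (norm_dd_mul_le _ _ _).trans ?_
    push_cast
    linarith

lemma norm_dd_zpow_le (g : G) (z : ℤ) (f : G →ᵇ ℝ) : ‖dd (g ^ z) f‖ ≤ |(z : ℝ)| * ‖dd g f‖ := by
  obtain ⟨k, rfl | rfl⟩ := z.eq_nat_or_neg
  · simpa using norm_dd_pow_le g k f
  · rw [zpow_neg, norm_dd_inv, zpow_natCast]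
    simpa using norm_dd_pow_le g k f

lemma dd_pow_bound (F : GleasonFn G) (g : G) (k : ℕ) (hk : (k : ℝ) * ‖dd g F.φ‖ ≤ F.r) :
    ‖dd (g ^ k) F.φ - (k : ℝ) • dd g F.φ‖ ≤ F.C * ((k : ℝ) * ((k : ℝ) - 1) / 2) * ‖dd g F.φ‖ ^ 2 := by
  induction k with
  | zero => simp
  | succ k ih =>
    have hn : 0 ≤ ‖dd g F.φ‖ := norm_nonneg _
    push_cast at hk
    have hk' : (k : ℝ) * ‖dd g F.φ‖ ≤ F.r := by nlinarith
    have hg : ‖dd g F.φ‖ ≤ F.r := by
      have : 0 ≤ (k : ℝ) * ‖dd g F.φ‖ := by positivity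
      nlinarith
    have h1 := ih hk'
    have hgk : ‖dd (g ^ k) F.φ‖ ≤ k * ‖dd g F.φ‖ := norm_dd_pow_le g k F.φ
    have h2 : ‖dd (g ^ k) (dd g F.φ)‖ ≤ F.C * ((k : ℝ) * ‖dd g F.φ‖) * ‖dd g F.φ‖ := by
      refine (F.second (g ^ k) g (hgk.trans hk') hg).trans ?_
      have hC : 0 ≤ F.C := by linarith [F.one_le_C]
      gcongr
    have h3 : dd (g ^ (k + 1)) F.φ - ((k + 1 : ℕ) : ℝ) • dd g F.φ
        = (dd (g ^ k) F.φ - (k : ℝ) • dd g F.φ) + dd (g ^ k) (dd g F.φ) := by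
      rw [pow_succ, dd_mul]
      push_cast
      rw [add_smul, one_smul]
      abel
    rw [h3]
    refine (norm_add_le _ _).trans ?_
    push_cast
    nlinarith [h1, h2]

lemma dd_zpow_bound (F : GleasonFn G) (g : G) (z : ℤ) (hz : |(z : ℝ)| * ‖dd g F.φ‖ ≤ F.r) :
    ‖dd (g ^ z) F.φ - (z : ℝ) • dd g F.φ‖ ≤ F.C * ((z : ℝ) * ‖dd g F.φ‖) ^ 2 := by
  have hC : 0 ≤ F.C := by linarith [F.one_le_C]
  have hn : 0 ≤ ‖dd g F.φ‖ := norm_nonneg _
  obtain ⟨k, rfl | rfl⟩ := z.eq_nat_or_neg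
  · have h1 := dd_pow_bound F g k (by simpa using hz)
    have hk : (0 : ℝ) ≤ k := Nat.cast_nonneg k
    simp only [zpow_natCast, Int.cast_natCast]
    refine h1.trans ?_
    have : F.C * ((k : ℝ) * ((k : ℝ) - 1) / 2) * ‖dd g F.φ‖ ^ 2
        ≤ F.C * ((k : ℝ) * (k : ℝ)) * ‖dd g F.φ‖ ^ 2 := by
      gcongr
      nlinarith
    nlinarith [this]
  · rcases Nat.eq_zero_or_pos k with rfl | hkpos
    · simp
    have hk1 : (1 : ℝ) ≤ k := by exact_mod_cast hkpos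
    have hz' : (k : ℝ) * ‖dd g⁻¹ F.φ‖ ≤ F.r := by
      rw [norm_dd_inv]
      simpa using hz
    have h1 := dd_pow_bound F g⁻¹ k hz'
    rw [norm_dd_inv] at h1
    have hg : ‖dd g F.φ‖ ≤ F.r := by
      rw [norm_dd_inv] at hz'
      nlinarith
    have hgi : ‖dd g⁻¹ F.φ‖ ≤ F.r := by rwa [norm_dd_inv]
    have h2 : ‖dd g⁻¹ (dd g F.φ)‖ ≤ F.C * ‖dd g F.φ‖ * ‖dd g F.φ‖ := by
      have := F.second g⁻¹ g hgi hg
      rwa [norm_dd_inv g F.φ] at this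
    have h3 : dd g⁻¹ F.φ = - dd g F.φ - dd g⁻¹ (dd g F.φ) := by
      have := dd_mul g⁻¹ g F.φ
      rw [inv_mul_cancel, dd_one] at this
      rw [eq_comm, sub_eq_iff_eq_add, neg_eq_iff_add_eq_zero]
      rw [eq_comm] at this
      rw [← this]
      abel
    have h4 : dd (g ^ (-(k : ℤ))) F.φ - ((-(k : ℤ) : ℤ) : ℝ) • dd g F.φ
        = (dd (g⁻¹ ^ k) F.φ - (k : ℝ) • dd g⁻¹ F.φ) - (k : ℝ) • dd g⁻¹ (dd g F.φ) := by
      rw [zpow_neg, zpow_natCast, inv_pow]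
      conv_rhs => rw [h3]
      push_cast
      module
    rw [h4]
    refine (norm_sub_le _ _).trans ?_
    rw [norm_smul, Real.norm_of_nonneg (by positivity : (0 : ℝ) ≤ k)]
    push_cast
    have h5 : (k : ℝ) * ‖dd g⁻¹ (dd g F.φ)‖ ≤ (k : ℝ) * (F.C * ‖dd g F.φ‖ * ‖dd g F.φ‖) := by
      gcongr
    have h6 : F.C * ((k : ℝ) * ((k : ℝ) - 1) / 2) * ‖dd g F.φ‖ ^ 2
        + (k : ℝ) * (F.C * ‖dd g F.φ‖ * ‖dd g F.φ‖) ≤ F.C * (-(k : ℝ) * ‖dd g F.φ‖) ^ 2 := by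
      have h7 : 0 ≤ F.C * ‖dd g F.φ‖ ^ 2 := by positivity
      have h8 : (k : ℝ) * ((k : ℝ) - 1) / 2 + k ≤ (k : ℝ) ^ 2 := by nlinarith
      nlinarith [mul_le_mul_of_nonneg_left h8 h7]
    linarith

end

section main
variable {G : Type*} [Group G] [TopologicalSpace G] [IsTopologicalGroup G]

/-- the norm vanishes only at `1` -/
lemma eq_one_of_norm_eq_zero [T2Space G] (F : GleasonFn G) {g : G} (hg : ‖dd g F.φ‖ = 0) :
    g = 1 := by
  by_contra hne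
  have : ({g}ᶜ : Set G) ∈ 𝓝 (1 : G) := isOpen_compl_singleton.mem_nhds (by simpa using fun h => hne h.symm)
  obtain ⟨ε, hε, h⟩ := F.nhds _ this
  exact h g (by rw [hg]; exact hε) rfl

lemma tendsto_one_of_norm (F : GleasonFn G) {ι : Type*} {l : Filter ι} {u : ι → G}
    (h : Tendsto (fun i => ‖dd (u i) F.φ‖) l (𝓝 0)) : Tendsto u l (𝓝 1) := by
  rw [tendsto_def]
  intro V hV
  obtain ⟨ε, hε, hh⟩ := F.nhds V hV
  have := h.eventually (gt_mem_nhds hε)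
  filter_upwards [this] with i hi
  exact hh _ hi

/-- The setting of A5a: the elements `g j` are small of size `O(1 / m j)`. -/
structure Setup (G : Type*) [Group G] [TopologicalSpace G] [IsTopologicalGroup G]
    (F : GleasonFn G) (𝒰 : Ultrafilter ℕ) (g : ℕ → G) (m : ℕ → ℕ) (L : ℝ) : Prop where
  L_pos : 0 < L
  m_top : Tendsto m 𝒰 atTop
  bd : ∀ᶠ j in (𝒰 : Filter ℕ), (m j : ℝ) * ‖dd (g j) F.φ‖ ≤ L

namespace Setup
variable {F : GleasonFn G} {𝒰 : Ultrafilter ℕ} {g : ℕ → G} {m : ℕ → ℕ} {L : ℝ}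

lemma m_top' (S : Setup G F 𝒰 g m L) : Tendsto (fun j => (m j : ℝ)) 𝒰 atTop :=
  tendsto_natCast_atTop_atTop.comp S.m_top

lemma m_pos (S : Setup G F 𝒰 g m L) : ∀ᶠ j in (𝒰 : Filter ℕ), (0 : ℝ) < m j :=
  S.m_top'.eventually_gt_atTop 0

lemma n_tendsto (S : Setup G F 𝒰 g m L) : Tendsto (fun j => ‖dd (g j) F.φ‖) 𝒰 (𝓝 0) := by
  have h1 : Tendsto (fun j => L / (m j : ℝ)) 𝒰 (𝓝 0) := tendsto_const_nhds.div_atTop S.m_top'
  refine squeeze_zero' (Eventually.of_forall fun j => norm_nonneg _) ?_ h1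
  filter_upwards [S.m_pos, S.bd] with j hj hb
  rw [le_div_iff₀ hj]
  linarith


/-- bounded powers tend to `1` -/
lemma pow_tendsto (S : Setup G F 𝒰 g m L) (z : ℕ → ℤ) (B : ℝ)
    (hz : ∀ᶠ j in (𝒰 : Filter ℕ), |(z j : ℝ)| ≤ B) : Tendsto (fun j => g j ^ z j) 𝒰 (𝓝 1) := by
  apply tendsto_one_of_norm F
  have h1 : Tendsto (fun j => B * ‖dd (g j) F.φ‖) 𝒰 (𝓝 0) := by
    simpa using S.n_tendsto.const_mul B
  refine squeeze_zero' (Eventually.of_forall fun j => norm_nonneg _) ?_ h1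
  filter_upwards [hz] with j hj
  refine (norm_dd_zpow_le _ _ _).trans ?_
  gcongr

lemma floor_abs_le (x : ℝ) : |((⌊x⌋ : ℤ) : ℝ)| ≤ |x| + 1 := by
  have h1 := Int.floor_le x
  have h2 := Int.lt_floor_add_one x
  rw [abs_le]
  constructor
  · have := neg_abs_le x; linarith
  · have := le_abs_self x; linarith

lemma zn_le (_S : Setup G F 𝒰 g m L) (t : ℝ) : ∀ᶠ j in (𝒰 : Filter ℕ),
    |((⌊(m j : ℝ) * t⌋ : ℤ) : ℝ)| * ‖dd (g j) F.φ‖
      ≤ |t| * ((m j : ℝ) * ‖dd (g j) F.φ‖) + ‖dd (g j) F.φ‖ := by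
  filter_upwards with j
  have h1 := floor_abs_le ((m j : ℝ) * t)
  rw [abs_mul, Nat.abs_cast] at h1
  have hn : 0 ≤ ‖dd (g j) F.φ‖ := norm_nonneg _
  nlinarith [mul_le_mul_of_nonneg_right h1 hn]

lemma zn_le' (S : Setup G F 𝒰 g m L) (t : ℝ) : ∀ᶠ j in (𝒰 : Filter ℕ),
    |((⌊(m j : ℝ) * t⌋ : ℤ) : ℝ)| * ‖dd (g j) F.φ‖ ≤ |t| * L + ‖dd (g j) F.φ‖ := by
  filter_upwards [S.zn_le t, S.bd] with j h1 h2
  have : |t| * ((m j : ℝ) * ‖dd (g j) F.φ‖) ≤ |t| * L := by gcongr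
  linarith

/-- the limit exists for small times -/
lemma exists_lim_small (S : Setup G F 𝒰 g m L) (t : ℝ) (ht : |t| * L ≤ F.r / 2) :
    ∃ x : G, Tendsto (fun j => g j ^ ⌊(m j : ℝ) * t⌋) 𝒰 (𝓝 x) := by
  have hr := F.r_pos
  have hmem : ∀ᶠ j in (𝒰 : Filter ℕ), g j ^ ⌊(m j : ℝ) * t⌋ ∈ {x : G | ‖dd x F.φ‖ ≤ F.r} := by
    have h1 : ∀ᶠ j in (𝒰 : Filter ℕ), ‖dd (g j) F.φ‖ < F.r / 2 :=
      S.n_tendsto.eventually (gt_mem_nhds (by linarith))
    filter_upwards [S.zn_le' t, h1] with j h2 h3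
    have := norm_dd_zpow_le (g j) ⌊(m j : ℝ) * t⌋ F.φ
    show ‖dd (g j ^ ⌊(m j : ℝ) * t⌋) F.φ‖ ≤ F.r
    linarith
  obtain ⟨x, _, hx⟩ := F.cpt.ultrafilter_le_nhds' (𝒰.map fun j => g j ^ ⌊(m j : ℝ) * t⌋) hmem
  exact ⟨x, hx⟩

lemma exists_lim (S : Setup G F 𝒰 g m L) (t : ℝ) :
    ∃ x : G, Tendsto (fun j => g j ^ ⌊(m j : ℝ) * t⌋) 𝒰 (𝓝 x) := by
  have hr := F.r_pos
  obtain ⟨k, hk⟩ := exists_nat_ge (|t| * L / (F.r / 2))
  have hk1 : |t| * L ≤ (k + 1 : ℝ) * (F.r / 2) := by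
    rw [div_le_iff₀ (by linarith)] at hk
    nlinarith
  have hk0 : (0 : ℝ) < k + 1 := by positivity
  have hts : |t / (k + 1)| * L ≤ F.r / 2 := by
    rw [abs_div, abs_of_pos hk0, div_mul_eq_mul_div, div_le_iff₀ hk0]
    linarith
  obtain ⟨x, hx⟩ := S.exists_lim_small (t / (k + 1)) hts
  refine ⟨x ^ (k + 1), ?_⟩
  have h1 : Tendsto (fun j => (g j ^ ⌊(m j : ℝ) * (t / (k + 1))⌋) ^ (k + 1)) 𝒰 (𝓝 (x ^ (k + 1))) :=
    hx.pow (k + 1)
  have h2 : Tendsto (fun j => g j ^ (⌊(m j : ℝ) * t⌋ - (k + 1) * ⌊(m j : ℝ) * (t / (k + 1))⌋)) 𝒰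
      (𝓝 1) := by
    refine S.pow_tendsto _ (k + 1) (Eventually.of_forall fun j => ?_)
    set y : ℝ := (m j : ℝ) * (t / (k + 1)) with hy
    have hmt : (m j : ℝ) * t = (k + 1) * y := by rw [hy]; field_simp
    rw [hmt]
    have a1 := Int.floor_le y
    have a2 := Int.lt_floor_add_one y
    have a3 := Int.floor_le ((k + 1) * y)
    have a4 := Int.lt_floor_add_one ((k + 1 : ℝ) * y)
    push_cast
    have b1 : (k + 1 : ℝ) * ⌊y⌋ ≤ (k + 1) * y := by gcongr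
    have b2 : (k + 1 : ℝ) * y ≤ (k + 1) * (⌊y⌋ + 1) := by gcongr
    have b3 : (k + 1) * ⌊y⌋ ≤ ⌊(k + 1 : ℝ) * y⌋ := by
      rw [Int.le_floor]; push_cast; exact b1
    have b3' : (k + 1 : ℝ) * ⌊y⌋ ≤ ⌊(k + 1 : ℝ) * y⌋ := by exact_mod_cast b3
    rw [abs_le]
    constructor <;> nlinarith
  have h3 := h1.mul h2
  rw [mul_one] at h3
  refine h3.congr fun j => ?_
  rw [← zpow_natCast, ← zpow_mul, ← zpow_add]
  congr 1
  push_cast
  ring

/-- the one-parameter subgroup -/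
noncomputable def X (S : Setup G F 𝒰 g m L) (t : ℝ) : G := (S.exists_lim t).choose

lemma X_spec (S : Setup G F 𝒰 g m L) (t : ℝ) :
    Tendsto (fun j => g j ^ ⌊(m j : ℝ) * t⌋) 𝒰 (𝓝 (S.X t)) := (S.exists_lim t).choose_spec

lemma X_add [T2Space G] (S : Setup G F 𝒰 g m L) (s t : ℝ) : S.X (s + t) = S.X s * S.X t := by
  have h2 : Tendsto (fun j => g j ^ (⌊(m j : ℝ) * (s + t)⌋ - ⌊(m j : ℝ) * s⌋ - ⌊(m j : ℝ) * t⌋)) 𝒰
      (𝓝 1) := by
    refine S.pow_tendsto _ 2 (Eventually.of_forall fun j => ?_)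
    have a1 := Int.floor_le ((m j : ℝ) * s)
    have a2 := Int.lt_floor_add_one ((m j : ℝ) * s)
    have a3 := Int.floor_le ((m j : ℝ) * t)
    have a4 := Int.lt_floor_add_one ((m j : ℝ) * t)
    have a5 := Int.floor_le ((m j : ℝ) * (s + t))
    have a6 := Int.lt_floor_add_one ((m j : ℝ) * (s + t))
    push_cast
    rw [abs_le]
    constructor <;> linarith
  have h3 := ((S.X_spec s).mul (S.X_spec t)).mul h2
  rw [mul_one] at h3
  refine tendsto_nhds_unique (S.X_spec (s + t)) (h3.congr fun j => ?_)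
  rw [← zpow_add, ← zpow_add]
  congr 1
  ring

lemma norm_X_le (S : Setup G F 𝒰 g m L) (t : ℝ) {B : ℝ}
    (hB : Tendsto (fun j => (m j : ℝ) * ‖dd (g j) F.φ‖) 𝒰 (𝓝 B)) :
    ‖dd (S.X t) F.φ‖ ≤ |t| * B := by
  have h1 : Tendsto (fun j => ‖dd (g j ^ ⌊(m j : ℝ) * t⌋) F.φ‖) 𝒰 (𝓝 ‖dd (S.X t) F.φ‖) :=
    (((continuous_dd F).tendsto _).comp (S.X_spec t)).norm
  have h2 : Tendsto (fun j => |t| * ((m j : ℝ) * ‖dd (g j) F.φ‖) + ‖dd (g j) F.φ‖) 𝒰
      (𝓝 (|t| * B + 0)) := (hB.const_mul _).add S.n_tendsto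
  rw [add_zero] at h2
  refine le_of_tendsto_of_tendsto h1 h2 ?_
  filter_upwards [S.zn_le t] with j hj
  exact (norm_dd_zpow_le _ _ _).trans hj

lemma norm_X_le' (S : Setup G F 𝒰 g m L) (t : ℝ) : ‖dd (S.X t) F.φ‖ ≤ |t| * L := by
  have h1 : Tendsto (fun j => ‖dd (g j ^ ⌊(m j : ℝ) * t⌋) F.φ‖) 𝒰 (𝓝 ‖dd (S.X t) F.φ‖) :=
    (((continuous_dd F).tendsto _).comp (S.X_spec t)).norm
  have h2 : Tendsto (fun j => |t| * L + ‖dd (g j) F.φ‖) 𝒰
      (𝓝 (|t| * L + 0)) := tendsto_const_nhds.add S.n_tendsto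
  rw [add_zero] at h2
  refine le_of_tendsto_of_tendsto h1 h2 ?_
  filter_upwards [S.zn_le' t] with j hj
  exact (norm_dd_zpow_le _ _ _).trans hj

lemma X_cont [T2Space G] (S : Setup G F 𝒰 g m L) : Continuous S.X := by
  rw [continuous_iff_continuousAt]
  intro t
  have h1 : Tendsto (fun s : ℝ => S.X (s - t)) (𝓝 t) (𝓝 1) := by
    apply tendsto_one_of_norm F
    have h2 : Tendsto (fun s : ℝ => |s - t| * L) (𝓝 t) (𝓝 0) := by
      have : Continuous (fun s : ℝ => |s - t| * L) := by fun_prop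
      simpa using this.tendsto t
    exact squeeze_zero (fun s => norm_nonneg _) (fun s => S.norm_X_le' _) h2
  have h2 : Tendsto (fun s : ℝ => S.X t * S.X (s - t)) (𝓝 t) (𝓝 (S.X t * 1)) :=
    tendsto_const_nhds.mul h1
  rw [mul_one] at h2
  refine h2.congr fun s => ?_
  rw [← S.X_add]
  congr 1
  ring

/-- comparison of `m j • dd (g j) φ` with the difference quotient of the limit -/
lemma near (S : Setup G F 𝒰 g m L) (t : ℝ) (ht0 : 0 < t) (ht : t * L ≤ F.r / 2) {ε : ℝ}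
    (hε : F.C * t * (L) ^ 2 < ε) :
    ∀ᶠ j in (𝒰 : Filter ℕ), ‖(m j : ℝ) • dd (g j) F.φ - t⁻¹ • dd (S.X t) F.φ‖ < ε := by
  have hC : 0 < F.C := by linarith [F.one_le_C]
  have hr := F.r_pos
  have h1 : Tendsto (fun j => dd (g j ^ ⌊(m j : ℝ) * t⌋) F.φ) 𝒰 (𝓝 (dd (S.X t) F.φ)) :=
    ((continuous_dd F).tendsto _).comp (S.X_spec t)
  have h1' : Tendsto (fun j => ‖dd (g j ^ ⌊(m j : ℝ) * t⌋) F.φ - dd (S.X t) F.φ‖) 𝒰 (𝓝 0) := by
    have := (h1.sub_const (dd (S.X t) F.φ)).norm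
    simpa using this
  have h2 : Tendsto (fun j => t⁻¹ * (‖dd (g j) F.φ‖ + F.C * (t * L + ‖dd (g j) F.φ‖) ^ 2
      + ‖dd (g j ^ ⌊(m j : ℝ) * t⌋) F.φ - dd (S.X t) F.φ‖)) 𝒰
      (𝓝 (t⁻¹ * (0 + F.C * (t * L + 0) ^ 2 + 0))) :=
    ((S.n_tendsto.add (((tendsto_const_nhds.add S.n_tendsto).pow 2).const_mul F.C)).add
      h1').const_mul _
  have h3 : t⁻¹ * (0 + F.C * (t * L + 0) ^ 2 + 0) < ε := by
    have : t⁻¹ * (0 + F.C * (t * L + 0) ^ 2 + 0) = F.C * t * L ^ 2 := by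
      field_simp
      ring
    rw [this]; exact hε
  have h4 : ∀ᶠ j in (𝒰 : Filter ℕ), ‖dd (g j) F.φ‖ < F.r / 2 :=
    S.n_tendsto.eventually (gt_mem_nhds (by linarith))
  filter_upwards [h2.eventually (gt_mem_nhds h3), h4, S.zn_le' t] with j h5 h6 h7
  refine lt_of_le_of_lt ?_ h5
  rw [abs_of_pos ht0] at h7
  set z : ℤ := ⌊(m j : ℝ) * t⌋ with hz
  have h8 := dd_zpow_bound F (g j) z (by linarith)
  have hn : 0 ≤ ‖dd (g j) F.φ‖ := norm_nonneg _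
  have h9 : F.C * ((z : ℝ) * ‖dd (g j) F.φ‖) ^ 2 ≤ F.C * (t * L + ‖dd (g j) F.φ‖) ^ 2 := by
    have : |(z : ℝ) * ‖dd (g j) F.φ‖| ≤ t * L + ‖dd (g j) F.φ‖ := by
      rw [abs_mul, abs_of_nonneg hn]; exact h7
    have h10 : ((z : ℝ) * ‖dd (g j) F.φ‖) ^ 2 ≤ (t * L + ‖dd (g j) F.φ‖) ^ 2 := by
      rw [← sq_abs]
      gcongr
    gcongr
  have h11 : (m j : ℝ) • dd (g j) F.φ - t⁻¹ • dd (S.X t) F.φ
      = t⁻¹ • (((m j : ℝ) * t - z) • dd (g j) F.φ - (dd (g j ^ z) F.φ - (z : ℝ) • dd (g j) F.φ)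
        + (dd (g j ^ z) F.φ - dd (S.X t) F.φ)) := by
    have ht' : t⁻¹ * t = 1 := inv_mul_cancel₀ ht0.ne'
    have e1 : (m j : ℝ) = t⁻¹ * ((m j : ℝ) * t) := by field_simp
    conv_lhs => rw [e1]
    module
  rw [h11, norm_smul, Real.norm_of_nonneg (by positivity : (0 : ℝ) ≤ t⁻¹)]
  gcongr
  refine (norm_add_le _ _).trans ?_
  gcongr
  refine (norm_sub_le _ _).trans ?_
  have h12 : ‖((m j : ℝ) * t - z) • dd (g j) F.φ‖ ≤ ‖dd (g j) F.φ‖ := by
    rw [norm_smul]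
    have : ‖(m j : ℝ) * t - z‖ ≤ 1 := by
      rw [Real.norm_eq_abs, abs_le]
      have a1 := Int.floor_le ((m j : ℝ) * t)
      have a2 := Int.lt_floor_add_one ((m j : ℝ) * t)
      constructor <;> linarith
    nlinarith
  linarith

lemma exists_D (S : Setup G F 𝒰 g m L) :
    ∃ D : G →ᵇ ℝ, Tendsto (fun j => (m j : ℝ) • dd (g j) F.φ) 𝒰 (𝓝 D) := by
  have hC : 0 < F.C := by linarith [F.one_le_C]
  have hr := F.r_pos
  have hL := S.L_pos
  have hcauchy : Cauchy (Filter.map (fun j => (m j : ℝ) • dd (g j) F.φ) (𝒰 : Filter ℕ)) := by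
    rw [Metric.cauchy_iff]
    refine ⟨inferInstance, fun ε hε => ?_⟩
    -- choose a small time
    set t : ℝ := min (F.r / 2 / L) (ε / (4 * (F.C * L ^ 2))) with ht
    have ht0 : 0 < t := by rw [ht]; positivity
    have ht1 : t * L ≤ F.r / 2 := by
      have : t ≤ F.r / 2 / L := min_le_left _ _
      rwa [le_div_iff₀ hL] at this
    have ht2 : F.C * t * L ^ 2 < ε / 2 := by
      have : t ≤ ε / (4 * (F.C * L ^ 2)) := min_le_right _ _
      rw [le_div_iff₀ (by positivity)] at this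
      nlinarith
    have h1 := S.near t ht0 ht1 ht2
    refine ⟨_, Filter.image_mem_map h1, ?_⟩
    rintro _ ⟨i, hi, rfl⟩ _ ⟨j, hj, rfl⟩
    have hi' : ‖(m i : ℝ) • dd (g i) F.φ - t⁻¹ • dd (S.X t) F.φ‖ < ε / 2 := hi
    have hj' : ‖(m j : ℝ) • dd (g j) F.φ - t⁻¹ • dd (S.X t) F.φ‖ < ε / 2 := hj
    calc dist ((m i : ℝ) • dd (g i) F.φ) ((m j : ℝ) • dd (g j) F.φ)
        ≤ dist ((m i : ℝ) • dd (g i) F.φ) (t⁻¹ • dd (S.X t) F.φ)
          + dist (t⁻¹ • dd (S.X t) F.φ) ((m j : ℝ) • dd (g j) F.φ) := dist_triangle _ _ _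
      _ < ε / 2 + ε / 2 := by
          rw [dist_comm (t⁻¹ • dd (S.X t) F.φ), dist_eq_norm, dist_eq_norm]
          exact add_lt_add hi' hj'
      _ = ε := by ring
  obtain ⟨D, hD⟩ := CompleteSpace.complete hcauchy
  exact ⟨D, hD⟩

end Setup

theorem taskA5a : TaskA5a := by
  intro G _ _ _ _ _ F 𝒰 g m L hm hL
  have S : Setup G F 𝒰 g m (max L 1) :=
    ⟨lt_of_lt_of_le one_pos (le_max_right _ _), hm, hL.mono fun j hj => hj.trans (le_max_left _ _)⟩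
  obtain ⟨D, hD⟩ := S.exists_D
  have hC : 0 < F.C := by linarith [F.one_le_C]
  have hr := F.r_pos
  have hnD : Tendsto (fun j => (m j : ℝ) * ‖dd (g j) F.φ‖) 𝒰 (𝓝 ‖D‖) := by
    refine hD.norm.congr fun j => ?_
    rw [norm_smul, Real.norm_of_nonneg (by positivity : (0 : ℝ) ≤ m j)]
  refine ⟨⟨S.X, S.X_cont, S.X_add⟩, D, ⟨fun t => S.norm_X_le t hnD, ?_⟩, hD, S.X_spec⟩
  -- quadratic error, strict case
  have key : ∀ t : ℝ, |t| * ‖D‖ < F.r → ‖dd (S.X t) F.φ - t • D‖ ≤ F.C * (t * ‖D‖) ^ 2 := by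
    intro t ht
    have h1 : Tendsto (fun j => dd (g j ^ ⌊(m j : ℝ) * t⌋) F.φ) 𝒰 (𝓝 (dd (S.X t) F.φ)) :=
      ((continuous_dd F).tendsto _).comp (S.X_spec t)
    have h2 : Tendsto (fun j => ((⌊(m j : ℝ) * t⌋ : ℤ) : ℝ) • dd (g j) F.φ) 𝒰 (𝓝 (t • D)) := by
      have h3 : Tendsto (fun j => t • ((m j : ℝ) • dd (g j) F.φ)) 𝒰 (𝓝 (t • D)) := hD.const_smul t
      have h4 : Tendsto (fun j => (((⌊(m j : ℝ) * t⌋ : ℤ) : ℝ) - (m j : ℝ) * t) • dd (g j) F.φ) 𝒰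
          (𝓝 0) := by
        rw [tendsto_zero_iff_norm_tendsto_zero]
        refine squeeze_zero (fun j => norm_nonneg _) (fun j => ?_) S.n_tendsto
        rw [norm_smul]
        have : ‖((⌊(m j : ℝ) * t⌋ : ℤ) : ℝ) - (m j : ℝ) * t‖ ≤ 1 := by
          rw [Real.norm_eq_abs, abs_le]
          have a1 := Int.floor_le ((m j : ℝ) * t)
          have a2 := Int.lt_floor_add_one ((m j : ℝ) * t)
          constructor <;> linarith
        have hn : 0 ≤ ‖dd (g j) F.φ‖ := norm_nonneg _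
        nlinarith
      have h5 := h3.add h4
      rw [add_zero] at h5
      refine h5.congr fun j => ?_
      module
    have h3 : Tendsto (fun j => ‖dd (g j ^ ⌊(m j : ℝ) * t⌋) F.φ
        - ((⌊(m j : ℝ) * t⌋ : ℤ) : ℝ) • dd (g j) F.φ‖) 𝒰 (𝓝 ‖dd (S.X t) F.φ - t • D‖) :=
      (h1.sub h2).norm
    have h4 : Tendsto (fun j => |t| * ((m j : ℝ) * ‖dd (g j) F.φ‖) + ‖dd (g j) F.φ‖) 𝒰
        (𝓝 (|t| * ‖D‖ + 0)) := (hnD.const_mul _).add S.n_tendsto
    have h5 : Tendsto (fun j => F.C * (|t| * ((m j : ℝ) * ‖dd (g j) F.φ‖) + ‖dd (g j) F.φ‖) ^ 2) 𝒰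
        (𝓝 (F.C * (|t| * ‖D‖ + 0) ^ 2)) := (h4.pow 2).const_mul F.C
    have h6 : F.C * (|t| * ‖D‖ + 0) ^ 2 = F.C * (t * ‖D‖) ^ 2 := by
      rw [add_zero, mul_pow, sq_abs, mul_pow]
    rw [h6] at h5
    refine le_of_tendsto_of_tendsto h3 h5 ?_
    have h7 : ∀ᶠ j in (𝒰 : Filter ℕ), |t| * ((m j : ℝ) * ‖dd (g j) F.φ‖) + ‖dd (g j) F.φ‖ < F.r :=
      h4.eventually (gt_mem_nhds (by rw [add_zero]; exact ht))
    filter_upwards [h7, S.zn_le t] with j h8 h9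
    refine (dd_zpow_bound F (g j) ⌊(m j : ℝ) * t⌋ (by linarith)).trans ?_
    have hn : 0 ≤ ‖dd (g j) F.φ‖ := norm_nonneg _
    have h10 : (((⌊(m j : ℝ) * t⌋ : ℤ) : ℝ) * ‖dd (g j) F.φ‖) ^ 2
        ≤ (|t| * ((m j : ℝ) * ‖dd (g j) F.φ‖) + ‖dd (g j) F.φ‖) ^ 2 := by
      rw [← sq_abs, abs_mul, abs_of_nonneg hn]
      gcongr
    gcongr
  intro t ht
  rcases ht.lt_or_eq with h | h
  · exact key t h
  -- boundary case by continuity
  have hcont : Continuous (fun s : ℝ => ‖dd (S.X s) F.φ - s • D‖ - F.C * (s * ‖D‖) ^ 2) := by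
    have h1 : Continuous (fun s : ℝ => dd (S.X s) F.φ) := (continuous_dd F).comp S.X_cont
    fun_prop
  have hlim : Tendsto (fun k : ℕ => (1 - 1 / ((k : ℝ) + 1)) * t) atTop (𝓝 ((1 - 0) * t)) :=
    (tendsto_const_nhds.sub tendsto_one_div_add_atTop_nhds_zero_nat).mul_const t
  rw [sub_zero, one_mul] at hlim
  have h1 := (hcont.tendsto t).comp hlim
  have h2 : ‖dd (S.X t) F.φ - t • D‖ - F.C * (t * ‖D‖) ^ 2 ≤ 0 := by
    refine le_of_tendsto h1 (Eventually.of_forall fun k => ?_)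
    have hk : (0 : ℝ) < 1 / ((k : ℝ) + 1) := by positivity
    have hk1 : 1 / ((k : ℝ) + 1) ≤ 1 := by
      rw [div_le_one (by positivity)]
      have : (0 : ℝ) ≤ k := Nat.cast_nonneg k
      linarith
    have := key ((1 - 1 / ((k : ℝ) + 1)) * t) (by
      rw [abs_mul, abs_of_nonneg (by linarith), mul_assoc, h]
      nlinarith)
    simp only [Function.comp]
    linarith
  linarith

end main

end Crest.Agent.R217.A5_947
end

-- ▼ part R217/A5b_947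
section

/-!
Row 217, PART A: task A5b (every one-parameter subgroup has a derivative, which determines it) and
task A6 (the derivatives form a finite dimensional subspace).
-/

set_option autoImplicit false

open Filter Topology BoundedContinuousFunction Metric
open scoped Topology BoundedContinuousFunction

namespace Crest.Agent.R217.A5_947

open Crest.Agent.R217.SpecA343

section OPbasic
variable {G : Type*} [Group G] [TopologicalSpace G]

lemma OP_zero (X : OP G) : X.X 0 = 1 := by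
  have h := X.add 0 0
  rw [add_zero] at h
  exact (mul_eq_left.mp h.symm)

lemma OP_neg (X : OP G) (s : ℝ) : X.X (-s) = (X.X s)⁻¹ := by
  have h := X.add (-s) s
  rw [neg_add_cancel, OP_zero] at h
  exact eq_inv_of_mul_eq_one_left h.symm

lemma OP_pow (X : OP G) (s : ℝ) (k : ℕ) : X.X s ^ k = X.X (k * s) := by
  induction k with
  | zero => simp [OP_zero]
  | succ k ih =>
    rw [pow_succ, ih, ← X.add]
    congr 1
    push_cast
    ring

lemma OP_zpow (X : OP G) (s : ℝ) (z : ℤ) : X.X s ^ z = X.X (z * s) := by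
  obtain ⟨k, rfl | rfl⟩ := z.eq_nat_or_neg
  · simpa using OP_pow X s k
  · rw [zpow_neg, zpow_natCast, OP_pow, ← OP_neg]
    congr 1
    push_cast
    ring

lemma OP_ext {X Y : OP G} (h : X.X = Y.X) : X = Y := by
  cases X; cases Y; cases h; rfl

/-- trivial one-parameter subgroup -/
def OP0 : OP G := ⟨fun _ => 1, continuous_const, fun _ _ => (mul_one 1).symm⟩

/-- rescaled one-parameter subgroup -/
def OPsmul (c : ℝ) (X : OP G) : OP G :=
  ⟨fun t => X.X (c * t), X.cont.comp (continuous_const.mul continuous_id), fun s t => by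
    simp only [mul_add, X.add]⟩

end OPbasic

section
variable {G : Type*} [Group G] [TopologicalSpace G] [IsTopologicalGroup G]

/-- conjugation by a small element -/
lemma conj_le (F : GleasonFn G) (h c : G) (hh : ‖dd h F.φ‖ ≤ F.r) (hc : ‖dd c F.φ‖ ≤ F.r) :
    ‖dd (h⁻¹ * c * h) F.φ‖ ≤ 2 * ‖dd c F.φ‖ := by
  have h1 : h⁻¹ * c * h = h⁻¹ * (c * h) := mul_assoc _ _ _
  rw [h1, norm_dd_inv_mul, dd_mul]
  have h2 : dd h F.φ - (dd c F.φ + dd h F.φ + dd c (dd h F.φ))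
      = -(dd c F.φ + dd c (dd h F.φ)) := by abel
  rw [h2, norm_neg]
  refine (norm_add_le _ _).trans ?_
  have h3 := F.second c h hc hh
  have h4 : F.C * ‖dd c F.φ‖ * ‖dd h F.φ‖ ≤ ‖dd c F.φ‖ := by
    have hC : 0 ≤ F.C := by linarith [F.one_le_C]
    have hr := F.r_pos
    have h5 : F.C * ‖dd h F.φ‖ ≤ 1 := by
      have : F.C * ‖dd h F.φ‖ ≤ F.C * F.r := by gcongr
      have := F.Cr
      have h6 : 0 ≤ F.C * F.r := by positivity
      linarith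
    nlinarith [norm_nonneg (dd c F.φ)]
  linarith

/-- escape property -/
lemma esc_le (F : GleasonFn G) (g : G) (k : ℕ) (hk : ∀ i ≤ k, ‖dd (g ^ i) F.φ‖ ≤ F.r) :
    (k : ℝ) * ‖dd g F.φ‖ ≤ 2 * ‖dd (g ^ k) F.φ‖ := by
  rcases Nat.eq_zero_or_pos k with rfl | hkpos
  · simp
  have hg : ‖dd g F.φ‖ ≤ F.r := by simpa using hk 1 hkpos
  have hC : 0 ≤ F.C := by linarith [F.one_le_C]
  have hr := F.r_pos
  have hn : 0 ≤ ‖dd g F.φ‖ := norm_nonneg _
  have key : ∀ j ≤ k, ‖dd (g ^ j) F.φ - (j : ℝ) • dd g F.φ‖ ≤ (j : ℝ) * (‖dd g F.φ‖ / 16) := by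
    intro j
    induction j with
    | zero => intro _; simp
    | succ j ih =>
      intro hj
      have h1 := ih (by omega)
      have h2 : ‖dd (g ^ j) (dd g F.φ)‖ ≤ ‖dd g F.φ‖ / 16 := by
        refine (F.second (g ^ j) g (hk j (by omega)) hg).trans ?_
        have h3 : F.C * ‖dd (g ^ j) F.φ‖ ≤ 1 / 16 := by
          have : F.C * ‖dd (g ^ j) F.φ‖ ≤ F.C * F.r := by
            have := hk j (by omega)
            gcongr
          have := F.Cr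
          linarith
        nlinarith
      have h3 : dd (g ^ (j + 1)) F.φ - ((j + 1 : ℕ) : ℝ) • dd g F.φ
          = (dd (g ^ j) F.φ - (j : ℝ) • dd g F.φ) + dd (g ^ j) (dd g F.φ) := by
        rw [pow_succ, dd_mul]
        push_cast
        module
      rw [h3]
      refine (norm_add_le _ _).trans ?_
      push_cast
      linarith
  have h1 := key k le_rfl
  have h2 : ‖(k : ℝ) • dd g F.φ‖ ≤ ‖dd (g ^ k) F.φ‖ + ‖dd (g ^ k) F.φ - (k : ℝ) • dd g F.φ‖ := by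
    have : (k : ℝ) • dd g F.φ = dd (g ^ k) F.φ - (dd (g ^ k) F.φ - (k : ℝ) • dd g F.φ) := by abel
    calc ‖(k : ℝ) • dd g F.φ‖ = ‖dd (g ^ k) F.φ - (dd (g ^ k) F.φ - (k : ℝ) • dd g F.φ)‖ := by
          rw [← this]
      _ ≤ _ := norm_sub_le _ _
  rw [norm_smul, Real.norm_of_nonneg (by positivity : (0 : ℝ) ≤ k)] at h2
  have h3 : 0 ≤ (k : ℝ) * ‖dd g F.φ‖ := by positivity
  nlinarith

/-- two elements with close small powers -/
lemma pow_dist_le (F : GleasonFn G) (a b : G) (k : ℕ)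
    (hb : ∀ i ≤ k, ‖dd (b ^ i) F.φ‖ ≤ F.r) (hab : ‖dd (a⁻¹ * b) F.φ‖ ≤ F.r) :
    ‖dd ((a ^ k)⁻¹ * b ^ k) F.φ‖ ≤ 2 * (k : ℝ) * ‖dd (a⁻¹ * b) F.φ‖ := by
  induction k with
  | zero => simp
  | succ k ih =>
    have h1 := ih fun i hi => hb i (by omega)
    have h2 : (a ^ (k + 1))⁻¹ * b ^ (k + 1)
        = ((a ^ k)⁻¹ * b ^ k) * ((b ^ k)⁻¹ * (a⁻¹ * b) * b ^ k) := by
      rw [pow_succ', pow_succ']
      group
    rw [h2]
    refine (norm_dd_mul_le _ _ _).trans ?_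
    have h3 := conj_le F (b ^ k) (a⁻¹ * b) (hb k (by omega)) hab
    push_cast
    linarith

end

section A5b
variable {G : Type*} [Group G] [TopologicalSpace G] [IsTopologicalGroup G]

lemma tendsto_norm_OP (F : GleasonFn G) (X : OP G) (t : ℝ) :
    Tendsto (fun s => ‖dd (X.X s) F.φ‖) (𝓝 t) (𝓝 ‖dd (X.X t) F.φ‖) :=
  (((continuous_dd F).comp X.cont).norm).tendsto t

/-- every one-parameter subgroup has a derivative -/
theorem exists_HasD [T2Space G] [LocallyCompactSpace G] (F : GleasonFn G) (X : OP G) :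
    ∃ D, HasD F X D := by
  have hr := F.r_pos
  -- small times
  have h0 : ∀ᶠ s in 𝓝 (0 : ℝ), ‖dd (X.X s) F.φ‖ < F.r := by
    have := tendsto_norm_OP F X 0
    rw [OP_zero, dd_one, norm_zero] at this
    exact this.eventually (gt_mem_nhds hr)
  obtain ⟨t₀, ht₀, hball⟩ := Metric.eventually_nhds_iff.mp h0
  set t₁ : ℝ := t₀ / 2 with ht₁
  have ht₁pos : 0 < t₁ := by positivity
  have hsmall : ∀ s : ℝ, |s| ≤ t₁ → ‖dd (X.X s) F.φ‖ ≤ F.r := by
    intro s hs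
    refine (hball ?_).le
    rw [Real.dist_eq, sub_zero]
    linarith
  set 𝒰 : Ultrafilter ℕ := Filter.hyperfilter ℕ with h𝒰
  have hle : (𝒰 : Filter ℕ) ≤ atTop := by
    rw [h𝒰, ← Nat.cofinite_eq_atTop]
    exact hyperfilter_le_cofinite
  have hm : Tendsto (fun j : ℕ => j + 1) 𝒰 atTop := (tendsto_add_atTop_nat 1).mono_left hle
  have hbd : ∀ᶠ j in (𝒰 : Filter ℕ), ((j + 1 : ℕ) : ℝ) * ‖dd (X.X (1 / ((j : ℝ) + 1))) F.φ‖
      ≤ 4 * F.r / t₁ := by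
    have hev : ∀ᶠ j : ℕ in (𝒰 : Filter ℕ), 1 ≤ ((j : ℝ) + 1) * t₁ := by
      have h1 : Tendsto (fun j : ℕ => ((j : ℝ) + 1) * t₁) atTop atTop :=
        (tendsto_atTop_add_const_right _ 1 tendsto_natCast_atTop_atTop).atTop_mul_const ht₁pos
      exact (h1.mono_left hle).eventually_ge_atTop 1
    filter_upwards [hev] with j hj
    set k : ℕ := ⌊((j : ℝ) + 1) * t₁⌋₊ with hk
    have hk1 : 1 ≤ k := by
      rw [hk, Nat.one_le_floor_iff]
      exact hj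
    have hkle : (k : ℝ) ≤ ((j : ℝ) + 1) * t₁ := Nat.floor_le (by positivity)
    have hklt : ((j : ℝ) + 1) * t₁ < k + 1 := Nat.lt_floor_add_one _
    have hj0 : (0 : ℝ) < (j : ℝ) + 1 := by positivity
    have hpow : ∀ i ≤ k, ‖dd (X.X (1 / ((j : ℝ) + 1)) ^ i) F.φ‖ ≤ F.r := by
      intro i hi
      rw [OP_pow]
      apply hsmall
      rw [abs_of_nonneg (by positivity), mul_one_div, div_le_iff₀ hj0]
      have : (i : ℝ) ≤ k := by exact_mod_cast hi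
      linarith
    have h1 := esc_le F (X.X (1 / ((j : ℝ) + 1))) k hpow
    have h2 := hpow k le_rfl
    have hn : 0 ≤ ‖dd (X.X (1 / ((j : ℝ) + 1))) F.φ‖ := norm_nonneg _
    rw [le_div_iff₀ ht₁pos]
    have hk1' : (1 : ℝ) ≤ k := by exact_mod_cast hk1
    push_cast
    have h3 : ((j : ℝ) + 1) * t₁ * ‖dd (X.X (1 / ((j : ℝ) + 1))) F.φ‖
        ≤ (2 * k) * ‖dd (X.X (1 / ((j : ℝ) + 1))) F.φ‖ := by
      have : ((j : ℝ) + 1) * t₁ ≤ 2 * k := by linarith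
      exact mul_le_mul_of_nonneg_right this hn
    nlinarith
  obtain ⟨Y, D, hD, -, hY⟩ := taskA5a G F 𝒰 (fun j => X.X (1 / ((j : ℝ) + 1))) (fun j => j + 1) _
    hm hbd
  refine ⟨D, ?_⟩
  have hYX : Y = X := by
    apply OP_ext
    funext t
    refine tendsto_nhds_unique (hY t) ?_
    have h1 : Tendsto (fun j : ℕ => ((⌊((j + 1 : ℕ) : ℝ) * t⌋ : ℤ) : ℝ) * (1 / ((j : ℝ) + 1)))
        (𝒰 : Filter ℕ) (𝓝 t) := by
      refine Tendsto.mono_left ?_ hle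
      rw [tendsto_iff_norm_sub_tendsto_zero]
      refine squeeze_zero (fun j => norm_nonneg _) (fun j => ?_)
        tendsto_one_div_add_atTop_nhds_zero_nat
      have hj0 : (0 : ℝ) < (j : ℝ) + 1 := by positivity
      have a1 := Int.floor_le (((j + 1 : ℕ) : ℝ) * t)
      have a2 := Int.lt_floor_add_one (((j + 1 : ℕ) : ℝ) * t)
      have h2 : ((⌊((j + 1 : ℕ) : ℝ) * t⌋ : ℤ) : ℝ) * (1 / ((j : ℝ) + 1)) - t
          = (((⌊((j + 1 : ℕ) : ℝ) * t⌋ : ℤ) : ℝ) - ((j + 1 : ℕ) : ℝ) * t) * (1 / ((j : ℝ) + 1)) := by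
        push_cast
        field_simp
      rw [h2, norm_mul, Real.norm_of_nonneg (by positivity : (0 : ℝ) ≤ 1 / ((j : ℝ) + 1))]
      have h3 : ‖((⌊((j + 1 : ℕ) : ℝ) * t⌋ : ℤ) : ℝ) - ((j + 1 : ℕ) : ℝ) * t‖ ≤ 1 := by
        rw [Real.norm_eq_abs, abs_le]
        constructor <;> linarith
      have h4 : (0 : ℝ) ≤ 1 / ((j : ℝ) + 1) := by positivity
      nlinarith
    have h2 := (X.cont.tendsto t).comp h1
    refine h2.congr fun j => ?_
    simp only [Function.comp]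
    rw [OP_zpow]
  rw [← hYX]
  exact hD

/-- the derivative determines the one-parameter subgroup -/
theorem HasD_unique [T2Space G] (F : GleasonFn G) (X Y : OP G) (D : G →ᵇ ℝ) (hX : HasD F X D)
    (hY : HasD F Y D) : X.X = Y.X := by
  have hC : 0 < F.C := by linarith [F.one_le_C]
  have hr := F.r_pos
  -- small times
  have small : ∀ t : ℝ, |t| * ‖D‖ ≤ F.r → X.X t = Y.X t := by
    intro t ht
    have hbound : ∀ k : ℕ, 4 * F.C * (|t| / ((k : ℝ) + 1) * ‖D‖) ^ 2 ≤ F.r →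
        ‖dd ((X.X t)⁻¹ * Y.X t) F.φ‖ ≤ 4 * F.C * (t * ‖D‖) ^ 2 * (1 / ((k : ℝ) + 1)) := by
      intro k hk
      have hk0 : (0 : ℝ) < (k : ℝ) + 1 := by positivity
      set s : ℝ := t / ((k : ℝ) + 1) with hs
      have hst : X.X t = X.X s ^ (k + 1) := by
        rw [OP_pow]; congr 1; rw [hs]; push_cast; field_simp
      have hst' : Y.X t = Y.X s ^ (k + 1) := by
        rw [OP_pow]; congr 1; rw [hs]; push_cast; field_simp
      have hs_abs : |s| = |t| / ((k : ℝ) + 1) := by rw [hs, abs_div, abs_of_pos hk0]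
      have hsD : |s| * ‖D‖ ≤ F.r := by
        rw [hs_abs]
        have : |t| / ((k : ℝ) + 1) ≤ |t| := by
          apply div_le_self (abs_nonneg t)
          have : (0 : ℝ) ≤ k := Nat.cast_nonneg k
          linarith
        have h1 : |t| / ((k : ℝ) + 1) * ‖D‖ ≤ |t| * ‖D‖ := by gcongr
        linarith
      have hd : ‖dd ((X.X s)⁻¹ * Y.X s) F.φ‖ ≤ 2 * F.C * (s * ‖D‖) ^ 2 := by
        rw [norm_dd_inv_mul]
        have h1 := hX.2 s hsD
        have h2 := hY.2 s hsD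
        have h3 : dd (X.X s) F.φ - dd (Y.X s) F.φ
            = (dd (X.X s) F.φ - s • D) - (dd (Y.X s) F.φ - s • D) := by abel
        rw [h3]
        refine (norm_sub_le _ _).trans ?_
        linarith
      have hsq : (s * ‖D‖) ^ 2 = (|t| / ((k : ℝ) + 1) * ‖D‖) ^ 2 := by
        rw [← hs_abs, mul_pow, mul_pow, sq_abs]
      have hdr : ‖dd ((X.X s)⁻¹ * Y.X s) F.φ‖ ≤ F.r := by
        have h0 : 0 ≤ F.C * (s * ‖D‖) ^ 2 := by positivity
        rw [← hsq] at hk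
        linarith
      have hpow : ∀ i ≤ k + 1, ‖dd (Y.X s ^ i) F.φ‖ ≤ F.r := by
        intro i hi
        rw [OP_pow]
        refine (hY.1 _).trans ?_
        have hi' : (i : ℝ) ≤ (k : ℝ) + 1 := by exact_mod_cast hi
        rw [abs_mul, Nat.abs_cast, hs_abs]
        have : (i : ℝ) * (|t| / ((k : ℝ) + 1)) ≤ |t| := by
          rw [mul_div_assoc', div_le_iff₀ hk0]
          nlinarith [abs_nonneg t]
        have h1 : (i : ℝ) * (|t| / ((k : ℝ) + 1)) * ‖D‖ ≤ |t| * ‖D‖ := by gcongr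
        linarith
      have h1 := pow_dist_le F (X.X s) (Y.X s) (k + 1) hpow hdr
      rw [hst, hst']
      refine h1.trans ?_
      push_cast
      have h2 : 2 * ((k : ℝ) + 1) * ‖dd ((X.X s)⁻¹ * Y.X s) F.φ‖
          ≤ 2 * ((k : ℝ) + 1) * (2 * F.C * (s * ‖D‖) ^ 2) := by gcongr
      refine h2.trans (le_of_eq ?_)
      rw [hs]
      field_simp
      ring
    have hlim0 : Tendsto (fun k : ℕ => 4 * F.C * (|t| / ((k : ℝ) + 1) * ‖D‖) ^ 2) atTop (𝓝 0) := by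
      have h1 : Tendsto (fun k : ℕ => |t| * (1 / ((k : ℝ) + 1))) atTop (𝓝 (|t| * 0)) :=
        tendsto_one_div_add_atTop_nhds_zero_nat.const_mul _
      have h2 := ((h1.mul_const ‖D‖).pow 2).const_mul (4 * F.C)
      simp only [mul_zero, zero_mul, ne_eq, OfNat.ofNat_ne_zero, not_false_eq_true, zero_pow] at h2
      refine h2.congr fun k => ?_
      rw [mul_one_div]
    have hlim : Tendsto (fun k : ℕ => 4 * F.C * (t * ‖D‖) ^ 2 * (1 / ((k : ℝ) + 1))) atTop (𝓝 0) := by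
      have h1 := (tendsto_one_div_add_atTop_nhds_zero_nat (𝕜 := ℝ)).const_mul
        (4 * F.C * (t * ‖D‖) ^ 2)
      rwa [mul_zero] at h1
    have hle : ‖dd ((X.X t)⁻¹ * Y.X t) F.φ‖ ≤ 0 := by
      refine ge_of_tendsto hlim ?_
      filter_upwards [hlim0.eventually (gt_mem_nhds hr)] with k hk
      exact hbound k hk.le
    have h1 : (X.X t)⁻¹ * Y.X t = 1 := eq_one_of_norm_eq_zero F (le_antisymm hle (norm_nonneg _))
    exact (inv_mul_eq_one.mp h1)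
  funext t
  obtain ⟨k, hk⟩ := exists_nat_ge (|t| * ‖D‖ / F.r)
  have hk0 : (0 : ℝ) < (k : ℝ) + 1 := by positivity
  have h1 : |t / ((k : ℝ) + 1)| * ‖D‖ ≤ F.r := by
    rw [abs_div, abs_of_pos hk0, div_mul_eq_mul_div, div_le_iff₀ hk0]
    rw [div_le_iff₀ hr] at hk
    nlinarith
  have h2 := small _ h1
  have h3 : X.X t = X.X (t / ((k : ℝ) + 1)) ^ (k + 1) := by
    rw [OP_pow]; congr 1; push_cast; field_simp
  have h4 : Y.X t = Y.X (t / ((k : ℝ) + 1)) ^ (k + 1) := by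
    rw [OP_pow]; congr 1; push_cast; field_simp
  rw [h3, h4, h2]

end A5b

theorem taskA5b : TaskA5b := by
  intro G _ _ _ _ _ F
  exact ⟨fun X => exists_HasD F X, fun X Y D hX hY => HasD_unique F X Y D hX hY⟩

section A6
variable {G : Type*} [Group G] [TopologicalSpace G] [IsTopologicalGroup G]

lemma HasD_zero (F : GleasonFn G) : HasD F (OP0 : OP G) (0 : G →ᵇ ℝ) := by
  constructor
  · intro t; simp [OP0]
  · intro t _; simp [OP0]

lemma HasD_smul (F : GleasonFn G) {X : OP G} {D : G →ᵇ ℝ} (h : HasD F X D) (c : ℝ) :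
    HasD F (OPsmul c X) (c • D) := by
  constructor
  · intro t
    refine (h.1 (c * t)).trans (le_of_eq ?_)
    rw [norm_smul, abs_mul, Real.norm_eq_abs]
    ring
  · intro t ht
    rw [norm_smul, Real.norm_eq_abs] at ht
    have h1 := h.2 (c * t) (by rw [abs_mul]; linarith)
    have h2 : t • c • D = (c * t) • D := by rw [smul_smul, mul_comm]
    rw [h2]
    refine h1.trans (le_of_eq ?_)
    rw [norm_smul, Real.norm_eq_abs]
    have : (c * t * ‖D‖) ^ 2 = (t * (|c| * ‖D‖)) ^ 2 := by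
      rw [mul_pow, mul_pow, mul_pow, mul_pow, sq_abs]; ring
    rw [this]


lemma hyper_le : (Filter.hyperfilter ℕ : Filter ℕ) ≤ atTop := by
  rw [← Nat.cofinite_eq_atTop]
  exact hyperfilter_le_cofinite

/-- difference quotients converge, along sequences of one-parameter subgroups with bounded
derivatives -/
lemma quotient_near (F : GleasonFn G) {D : ℕ → (G →ᵇ ℝ)} {X : ℕ → OP G}
    (h : ∀ j, HasD F (X j) (D j)) {L : ℝ} (hL : ∀ j, ‖D j‖ ≤ L) :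
    Tendsto (fun j : ℕ => ((j + 1 : ℕ) : ℝ) • dd ((X j).X (1 / ((j : ℝ) + 1))) F.φ - D j) atTop
      (𝓝 0) := by
  have hC : 0 < F.C := by linarith [F.one_le_C]
  have hr := F.r_pos
  have hL0 : 0 ≤ L := (norm_nonneg _).trans (hL 0)
  rw [tendsto_zero_iff_norm_tendsto_zero]
  have hlim : Tendsto (fun j : ℕ => F.C * L ^ 2 * (1 / ((j : ℝ) + 1))) atTop (𝓝 0) := by
    simpa using tendsto_one_div_add_atTop_nhds_zero_nat.const_mul (F.C * L ^ 2)
  have hlim2 : Tendsto (fun j : ℕ => L * (1 / ((j : ℝ) + 1))) atTop (𝓝 0) := by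
    simpa using tendsto_one_div_add_atTop_nhds_zero_nat.const_mul L
  refine squeeze_zero' (Eventually.of_forall fun j => norm_nonneg _) ?_ hlim
  filter_upwards [hlim2.eventually (gt_mem_nhds hr)] with j hj
  have hj0 : (0 : ℝ) < (j : ℝ) + 1 := by positivity
  have hs0 : (0 : ℝ) < 1 / ((j : ℝ) + 1) := by positivity
  have h1 := (h j).2 (1 / ((j : ℝ) + 1)) (by
    rw [abs_of_pos hs0]
    have : 1 / ((j : ℝ) + 1) * ‖D j‖ ≤ 1 / ((j : ℝ) + 1) * L := by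
      gcongr
      exact hL j
    linarith)
  have h2 : ((j + 1 : ℕ) : ℝ) • dd ((X j).X (1 / ((j : ℝ) + 1))) F.φ - D j
      = ((j : ℝ) + 1) • (dd ((X j).X (1 / ((j : ℝ) + 1))) F.φ - (1 / ((j : ℝ) + 1)) • D j) := by
    rw [smul_sub, smul_smul, mul_one_div, div_self hj0.ne', one_smul]
    push_cast
    rfl
  rw [h2, norm_smul, Real.norm_of_nonneg hj0.le]
  have h3 : ((j : ℝ) + 1) * ‖dd ((X j).X (1 / ((j : ℝ) + 1))) F.φ - (1 / ((j : ℝ) + 1)) • D j‖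
      ≤ ((j : ℝ) + 1) * (F.C * (1 / ((j : ℝ) + 1) * L) ^ 2) := by
    gcongr
    refine h1.trans ?_
    gcongr
    exact hL j
  refine h3.trans (le_of_eq ?_)
  field_simp

lemma HasD_add [T2Space G] [LocallyCompactSpace G] (F : GleasonFn G) {X Y : OP G} {D E : G →ᵇ ℝ}
    (hX : HasD F X D) (hY : HasD F Y E) : ∃ Z : OP G, HasD F Z (D + E) := by
  have hC : 0 < F.C := by linarith [F.one_le_C]
  have hr := F.r_pos
  set g : ℕ → G := fun j => X.X (1 / ((j : ℝ) + 1)) * Y.X (1 / ((j : ℝ) + 1)) with hg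
  have hm : Tendsto (fun j : ℕ => j + 1) (Filter.hyperfilter ℕ : Filter ℕ) atTop :=
    (tendsto_add_atTop_nat 1).mono_left hyper_le
  have hXn : ∀ j : ℕ, ‖dd (X.X (1 / ((j : ℝ) + 1))) F.φ‖ ≤ (1 / ((j : ℝ) + 1)) * ‖D‖ := by
    intro j
    have := hX.1 (1 / ((j : ℝ) + 1))
    rwa [abs_of_nonneg (by positivity)] at this
  have hYn : ∀ j : ℕ, ‖dd (Y.X (1 / ((j : ℝ) + 1))) F.φ‖ ≤ (1 / ((j : ℝ) + 1)) * ‖E‖ := by
    intro j
    have := hY.1 (1 / ((j : ℝ) + 1))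
    rwa [abs_of_nonneg (by positivity)] at this
  have hbd : ∀ᶠ j in (Filter.hyperfilter ℕ : Filter ℕ),
      ((j + 1 : ℕ) : ℝ) * ‖dd (g j) F.φ‖ ≤ ‖D‖ + ‖E‖ := by
    filter_upwards with j
    have hj0 : (0 : ℝ) < (j : ℝ) + 1 := by positivity
    have h1 : ‖dd (g j) F.φ‖ ≤ (1 / ((j : ℝ) + 1)) * (‖D‖ + ‖E‖) := by
      refine (norm_dd_mul_le _ _ _).trans ?_
      rw [mul_add]
      exact add_le_add (hXn j) (hYn j)
    push_cast
    have h2 : ((j : ℝ) + 1) * ‖dd (g j) F.φ‖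
        ≤ ((j : ℝ) + 1) * ((1 / ((j : ℝ) + 1)) * (‖D‖ + ‖E‖)) := by gcongr
    refine h2.trans (le_of_eq ?_)
    field_simp
  obtain ⟨Z, D', hZ, hD', -⟩ := taskA5a G F (Filter.hyperfilter ℕ) g (fun j => j + 1) _ hm hbd
  refine ⟨Z, ?_⟩
  have h1 := quotient_near F (D := fun _ => D) (X := fun _ => X) (fun _ => hX) (L := ‖D‖)
    (fun _ => le_rfl)
  have h2 := quotient_near F (D := fun _ => E) (X := fun _ => Y) (fun _ => hY) (L := ‖E‖)
    (fun _ => le_rfl)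
  have h3 : Tendsto (fun j : ℕ => ((j + 1 : ℕ) : ℝ) •
      dd (X.X (1 / ((j : ℝ) + 1))) (dd (Y.X (1 / ((j : ℝ) + 1))) F.φ)) atTop (𝓝 0) := by
    rw [tendsto_zero_iff_norm_tendsto_zero]
    have hlim : Tendsto (fun j : ℕ => F.C * ‖D‖ * ‖E‖ * (1 / ((j : ℝ) + 1))) atTop (𝓝 0) := by
      simpa using tendsto_one_div_add_atTop_nhds_zero_nat.const_mul (F.C * ‖D‖ * ‖E‖)
    have hlimD : Tendsto (fun j : ℕ => 1 / ((j : ℝ) + 1) * ‖D‖) atTop (𝓝 0) := by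
      simpa using tendsto_one_div_add_atTop_nhds_zero_nat.mul_const ‖D‖
    have hlimE : Tendsto (fun j : ℕ => 1 / ((j : ℝ) + 1) * ‖E‖) atTop (𝓝 0) := by
      simpa using tendsto_one_div_add_atTop_nhds_zero_nat.mul_const ‖E‖
    refine squeeze_zero' (Eventually.of_forall fun j => norm_nonneg _) ?_ hlim
    filter_upwards [hlimD.eventually (gt_mem_nhds hr), hlimE.eventually (gt_mem_nhds hr)]
      with j hjD hjE
    have hj0 : (0 : ℝ) < (j : ℝ) + 1 := by positivity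
    rw [norm_smul, Real.norm_of_nonneg (by positivity : (0 : ℝ) ≤ ((j + 1 : ℕ) : ℝ))]
    have h4 := F.second (X.X (1 / ((j : ℝ) + 1))) (Y.X (1 / ((j : ℝ) + 1)))
      ((hXn j).trans hjD.le) ((hYn j).trans hjE.le)
    have h5 : F.C * ‖dd (X.X (1 / ((j : ℝ) + 1))) F.φ‖ * ‖dd (Y.X (1 / ((j : ℝ) + 1))) F.φ‖
        ≤ F.C * ((1 / ((j : ℝ) + 1)) * ‖D‖) * ((1 / ((j : ℝ) + 1)) * ‖E‖) := by
      gcongr
      · exact hXn j
      · exact hYn j
    push_cast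
    have h6 := mul_le_mul_of_nonneg_left (h4.trans h5) hj0.le
    refine h6.trans (le_of_eq ?_)
    field_simp
  have h4 : Tendsto (fun j : ℕ => ((j + 1 : ℕ) : ℝ) • dd (g j) F.φ)
      (Filter.hyperfilter ℕ : Filter ℕ) (𝓝 (D + E)) := by
    have h5 := (((h1.add_const D).add (h2.add_const E)).add h3).mono_left hyper_le
    rw [zero_add, zero_add, add_zero] at h5
    refine h5.congr fun j => ?_
    simp only [hg]
    rw [dd_mul]
    module
  have h5 : D' = D + E := tendsto_nhds_unique hD' h4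
  rw [← h5]
  exact hZ

theorem taskA6 : TaskA6 := by
  intro G _ _ _ _ _ F
  obtain ⟨𝔤, hmem⟩ : ∃ 𝔤 : Submodule ℝ (G →ᵇ ℝ), ∀ D, D ∈ 𝔤 ↔ ∃ X : OP G, HasD F X D :=
    ⟨{ carrier := {D | ∃ X : OP G, HasD F X D}
       zero_mem' := ⟨OP0, HasD_zero F⟩
       add_mem' := by
         rintro D E ⟨X, hX⟩ ⟨Y, hY⟩
         exact HasD_add F hX hY
       smul_mem' := by
         rintro c D ⟨X, hX⟩
         exact ⟨_, HasD_smul F hX c⟩ }, fun D => Iff.rfl⟩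
  refine ⟨𝔤, ?_, hmem⟩
  -- the unit ball is compact
  refine FiniteDimensional.of_isCompact_closedBall (V := 𝔤) (c := 0) ℝ (r := 1) one_pos ?_
  · apply IsSeqCompact.isCompact
    intro u hu
    have hX : ∀ j, ∃ X : OP G, HasD F X (u j : G →ᵇ ℝ) := fun j => (hmem _).1 (u j).2
    choose X hX using hX
    have hL : ∀ j, ‖(u j : G →ᵇ ℝ)‖ ≤ 1 := by
      intro j
      have h : dist (u j : G →ᵇ ℝ) 0 ≤ 1 := hu j
      rwa [dist_zero_right] at h
    have hm : Tendsto (fun j : ℕ => j + 1) (Filter.hyperfilter ℕ : Filter ℕ) atTop :=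
      (tendsto_add_atTop_nat 1).mono_left hyper_le
    have hbd : ∀ᶠ j in (Filter.hyperfilter ℕ : Filter ℕ),
        ((j + 1 : ℕ) : ℝ) * ‖dd ((X j).X (1 / ((j : ℝ) + 1))) F.φ‖ ≤ 1 := by
      filter_upwards with j
      have hj0 : (0 : ℝ) < (j : ℝ) + 1 := by positivity
      have h1 := (hX j).1 (1 / ((j : ℝ) + 1))
      rw [abs_of_nonneg (by positivity)] at h1
      have h2 : ((j : ℝ) + 1) * ‖dd ((X j).X (1 / ((j : ℝ) + 1))) F.φ‖
          ≤ ((j : ℝ) + 1) * (1 / ((j : ℝ) + 1) * 1) := by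
        have h3 : 1 / ((j : ℝ) + 1) * ‖(u j : G →ᵇ ℝ)‖ ≤ 1 / ((j : ℝ) + 1) * 1 := by
          gcongr
          exact hL j
        have := h1.trans h3
        gcongr
      push_cast
      refine h2.trans (le_of_eq ?_)
      field_simp
    obtain ⟨Z, D', hZ, hD', -⟩ := taskA5a G F (Filter.hyperfilter ℕ)
      (fun j => (X j).X (1 / ((j : ℝ) + 1))) (fun j => j + 1) _ hm hbd
    have h1 := (quotient_near F (D := fun j => (u j : G →ᵇ ℝ)) (X := X) hX (L := 1) hL).mono_left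
      hyper_le
    have h2 : Tendsto (fun j => (u j : G →ᵇ ℝ)) (Filter.hyperfilter ℕ : Filter ℕ) (𝓝 D') := by
      have := hD'.sub h1
      rw [sub_zero] at this
      refine this.congr fun j => ?_
      abel
    have hD'mem : D' ∈ 𝔤 := (hmem D').2 ⟨Z, hZ⟩
    have h3 : Tendsto u (Filter.hyperfilter ℕ : Filter ℕ) (𝓝 ⟨D', hD'mem⟩) := by
      rw [tendsto_subtype_rng]
      exact h2
    have h4 : MapClusterPt (⟨D', hD'mem⟩ : 𝔤) atTop u :=
      (h3.mapClusterPt).mono hyper_le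
    obtain ⟨ψ, hψ, hlim⟩ := MapClusterPt.tendsto_subseq h4
    refine ⟨⟨D', hD'mem⟩, ?_, ψ, hψ, hlim⟩
    exact Metric.isClosed_closedBall.mem_of_tendsto hlim (Eventually.of_forall fun j => hu _)

end A6

end Crest.Agent.R217.A5_947
end

-- ▼ part R217/A7_418

/-!
Row 217, PART A, TASK A7: the exponential map from the Gleason function and the finite dimensional
space of derivatives (uses A4a, A4c, A5a, A5b as hypotheses).
-/

set_option autoImplicit false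

open Filter Topology BoundedContinuousFunction Metric
open scoped Topology BoundedContinuousFunction

namespace Crest.Agent.R217.A7_418

open Crest.Agent.R217.SpecA343

variable {G : Type*} [Group G] [TopologicalSpace G] [IsTopologicalGroup G]

/-- time change of a one-parameter subgroup -/
def OP.scale (X : OP G) (s : ℝ) : OP G where
  X := fun t => X.X (s * t)
  cont := X.cont.comp (by fun_prop)
  add := fun a b => by rw [mul_add, X.add]

lemma hasD_scale (F : GleasonFn G) {X : OP G} {D : G →ᵇ ℝ} (h : HasD F X D) (s : ℝ) :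
    HasD F (OP.scale X s) (s • D) := by
  refine ⟨fun t => ?_, fun t ht => ?_⟩
  · have := h.1 (s * t)
    simp only [OP.scale]
    rw [norm_smul, Real.norm_eq_abs]
    rw [abs_mul] at this
    calc _ ≤ _ := this
      _ = _ := by ring
  · have h1 : |s * t| * ‖D‖ ≤ F.r := by
      rw [norm_smul, Real.norm_eq_abs] at ht
      rw [abs_mul]
      calc |s| * |t| * ‖D‖ = |t| * (|s| * ‖D‖) := by ring
        _ ≤ F.r := ht
    have := h.2 (s * t) h1
    simp only [OP.scale]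
    have e1 : t • s • D = (s * t) • D := by rw [smul_smul, mul_comm]
    rw [e1, norm_smul, Real.norm_eq_abs]
    calc ‖dd (X.X (s * t)) F.φ - (s * t) • D‖ ≤ F.C * (s * t * ‖D‖) ^ 2 := this
      _ = F.C * (s ^ 2 * (t * ‖D‖) ^ 2) := by ring
      _ = F.C * (|s| ^ 2 * (t * ‖D‖) ^ 2) := by rw [sq_abs]
      _ = F.C * (t * (|s| * ‖D‖)) ^ 2 := by ring

/-- what we need to know about `exp` on the space of derivatives -/
structure PreExp (F : GleasonFn G) (V : Type*) [NormedAddCommGroup V] [NormedSpace ℝ V]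
    (ι : V →ₗᵢ[ℝ] (G →ᵇ ℝ)) where
  e : V → G
  add_smul : ∀ (u : V) (s t : ℝ), e ((s + t) • u) = e (s • u) * e (t • u)
  surj : ∀ X : OP G, ∃ u : V, ∀ t : ℝ, X.X t = e (t • u)
  le : ∀ u : V, ‖dd (e u) F.φ‖ ≤ ‖u‖
  approx : ∀ u : V, ‖u‖ ≤ F.r → ‖dd (e u) F.φ - ι u‖ ≤ F.C * ‖u‖ ^ 2

theorem exists_preExp (F : GleasonFn G) (V : Type*) [NormedAddCommGroup V] [NormedSpace ℝ V]
    (ι : V →ₗᵢ[ℝ] (G →ᵇ ℝ))
    (h51 : ∀ X : OP G, ∃ D, HasD F X D)
    (h52 : ∀ (X Y : OP G) (D : G →ᵇ ℝ), HasD F X D → HasD F Y D → X.X = Y.X)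
    (hmem : ∀ D, (∃ u, ι u = D) ↔ ∃ X : OP G, HasD F X D) : Nonempty (PreExp F V ι) := by
  have hch : ∀ u : V, ∃ X : OP G, HasD F X (ι u) := fun u => (hmem (ι u)).1 ⟨u, rfl⟩
  choose X hX using hch
  have hsm : ∀ (u : V) (s : ℝ), (X (s • u)).X 1 = (X u).X s := by
    intro u s
    have h1 : HasD F (OP.scale (X u) s) (ι (s • u)) := by
      rw [map_smul]; exact hasD_scale F (hX u) s
    have h2 := h52 _ _ _ (hX (s • u)) h1
    rw [h2]
    simp [OP.scale]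
  refine ⟨⟨fun u => (X u).X 1, ?_, ?_, ?_, ?_⟩⟩
  · intro u s t
    simp only [hsm]
    exact (X u).add s t
  · intro Y
    obtain ⟨D, hD⟩ := h51 Y
    obtain ⟨u, rfl⟩ := (hmem D).2 ⟨Y, hD⟩
    refine ⟨u, fun t => ?_⟩
    simp only [hsm]
    rw [h52 _ _ _ hD (hX u)]
  · intro u
    have := (hX u).1 1
    simpa using this
  · intro u hu
    have := (hX u).2 1 (by simpa using hu)
    simpa using this

section main

variable {F : GleasonFn G} {V : Type*} [NormedAddCommGroup V] [NormedSpace ℝ V]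
    {ι : V →ₗᵢ[ℝ] (G →ᵇ ℝ)} (P : PreExp F V ι)

include P

lemma e_zero : P.e 0 = 1 := by
  have := P.add_smul 0 0 0
  simp only [add_zero, smul_zero] at this
  exact (mul_eq_left.mp this.symm)

lemma e_nsmul (u : V) (k : ℕ) : P.e ((k : ℝ) • u) = P.e u ^ k := by
  induction k with
  | zero => simp [e_zero P]
  | succ k ih =>
    have := P.add_smul u k 1
    push_cast
    rw [this, ih, one_smul, pow_succ]

lemma e_pow (u : V) {k : ℕ} (hk : 0 < k) : P.e ((1 / (k : ℝ)) • u) ^ k = P.e u := by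
  rw [← e_nsmul P, smul_smul]
  have : (k : ℝ) ≠ 0 := by positivity
  rw [mul_one_div_cancel this, one_smul]

lemma e_pow' (u : V) {k : ℕ} (i : ℕ) :
    P.e ((1 / (k : ℝ)) • u) ^ i = P.e (((i : ℝ) / k) • u) := by
  rw [← e_nsmul P, smul_smul]
  congr 2
  ring

/-- the key estimate: `exp (u + w)` versus `exp u * exp w` -/
lemma exp_add_aux
    (h4c1 : ∀ g h : G, ∀ k : ℕ, (∀ i ≤ k, ‖dd (g ^ i) F.φ‖ ≤ F.r) → ‖dd (g⁻¹ * h) F.φ‖ ≤ F.r →
      ‖dd ((g ^ k)⁻¹ * h ^ k) F.φ‖ ≤ 2 * k * ‖dd (g⁻¹ * h) F.φ‖)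
    (h4c2 : ∀ a b : G, ∀ k : ℕ, (k : ℝ) * ‖dd a F.φ‖ ≤ F.r / 2 → (k : ℝ) * ‖dd b F.φ‖ ≤ F.r / 2 →
      ‖dd ((a ^ k * b ^ k)⁻¹ * (a * b) ^ k) F.φ‖ ≤
        2 * (2 * F.C) * k ^ 2 * ‖dd a F.φ‖ * ‖dd b F.φ‖)
    (u w : V) (hu : ‖u‖ ≤ F.r / 4) (hw : ‖w‖ ≤ F.r / 4) :
    ‖dd ((P.e u * P.e w)⁻¹ * P.e (u + w)) F.φ‖ ≤ 4 * F.C * ‖u‖ * ‖w‖ := by
  have hC : 0 < F.C := lt_of_lt_of_le one_pos F.one_le_C
  have hr : 0 < F.r := F.r_pos
  have hCr : F.C * F.r ≤ 1 / 16 := by have := F.Cr; linarith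
  have huw : ‖u + w‖ ≤ F.r / 2 := by have := norm_add_le u w; linarith
  -- the bound for every `k`
  have key : ∀ k : ℕ, 0 < k →
      ‖dd ((P.e u * P.e w)⁻¹ * P.e (u + w)) F.φ‖ ≤
        4 * F.C * ‖u‖ * ‖w‖ + 2 * F.C * F.r ^ 2 * (1 / (k : ℝ)) := by
    intro k hk
    have hk' : (0 : ℝ) < k := by exact_mod_cast hk
    have hk1 : (1 : ℝ) ≤ k := by exact_mod_cast hk
    have hik : (1 / (k : ℝ)) ≤ 1 := by rw [div_le_one hk']; exact hk1
    have hik0 : 0 < (1 / (k : ℝ)) := by positivity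
    set c : ℝ := 1 / (k : ℝ) with hc
    have hkc : (k : ℝ) * c = 1 := by rw [hc]; field_simp
    set a := P.e (c • u) with ha
    set b := P.e (c • w) with hb
    set g := P.e (c • (u + w)) with hg
    have hau : a ^ k = P.e u := e_pow P u hk
    have hbw : b ^ k = P.e w := e_pow P w hk
    have hguw : g ^ k = P.e (u + w) := e_pow P (u + w) hk
    have hncu : ‖c • u‖ = c * ‖u‖ := by rw [norm_smul, Real.norm_of_nonneg hik0.le]
    have hncw : ‖c • w‖ = c * ‖w‖ := by rw [norm_smul, Real.norm_of_nonneg hik0.le]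
    have hncuw : ‖c • (u + w)‖ = c * ‖u + w‖ := by rw [norm_smul, Real.norm_of_nonneg hik0.le]
    have hqa : ‖dd a F.φ‖ ≤ c * ‖u‖ := hncu ▸ P.le (c • u)
    have hqb : ‖dd b F.φ‖ ≤ c * ‖w‖ := hncw ▸ P.le (c • w)
    have hcu : c * ‖u‖ ≤ ‖u‖ := by nlinarith [norm_nonneg u]
    have hcw : c * ‖w‖ ≤ ‖w‖ := by nlinarith [norm_nonneg w]
    have hcuw : c * ‖u + w‖ ≤ ‖u + w‖ := by nlinarith [norm_nonneg (u + w)]
    -- step 1
    have s1 : ‖dd ((a ^ k * b ^ k)⁻¹ * (a * b) ^ k) F.φ‖ ≤ 4 * F.C * ‖u‖ * ‖w‖ := by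
      have hka : (k : ℝ) * ‖dd a F.φ‖ ≤ ‖u‖ := by
        calc (k : ℝ) * ‖dd a F.φ‖ ≤ k * (c * ‖u‖) := by gcongr
          _ = (k * c) * ‖u‖ := by ring
          _ = ‖u‖ := by rw [hkc, one_mul]
      have hkb : (k : ℝ) * ‖dd b F.φ‖ ≤ ‖w‖ := by
        calc (k : ℝ) * ‖dd b F.φ‖ ≤ k * (c * ‖w‖) := by gcongr
          _ = (k * c) * ‖w‖ := by ring
          _ = ‖w‖ := by rw [hkc, one_mul]
      refine (h4c2 a b k (by linarith) (by linarith)).trans ?_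
      calc 2 * (2 * F.C) * k ^ 2 * ‖dd a F.φ‖ * ‖dd b F.φ‖
          = 4 * F.C * ((k : ℝ) * ‖dd a F.φ‖) * ((k : ℝ) * ‖dd b F.φ‖) := by ring
        _ ≤ 4 * F.C * ‖u‖ * ‖w‖ := by gcongr
    -- step 2
    have s2 : ‖dd (g⁻¹ * (a * b)) F.φ‖ ≤ F.C * F.r ^ 2 * c ^ 2 := by
      rw [norm_dd_inv_mul, dd_mul]
      have t1 : ‖dd g F.φ - ι (c • (u + w))‖ ≤ F.C * (c * ‖u + w‖) ^ 2 := by
        rw [← hncuw]; exact P.approx _ (by rw [hncuw]; linarith)
      have t2 : ‖dd a F.φ - ι (c • u)‖ ≤ F.C * (c * ‖u‖) ^ 2 := by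
        rw [← hncu]; exact P.approx _ (by rw [hncu]; linarith)
      have t3 : ‖dd b F.φ - ι (c • w)‖ ≤ F.C * (c * ‖w‖) ^ 2 := by
        rw [← hncw]; exact P.approx _ (by rw [hncw]; linarith)
      have t4 : ‖dd a (dd b F.φ)‖ ≤ F.C * (c * ‖u‖) * (c * ‖w‖) := by
        refine (F.second a b (by linarith) (by linarith)).trans ?_
        gcongr
      have e : dd g F.φ - (dd a F.φ + dd b F.φ + dd a (dd b F.φ)) =
          (dd g F.φ - ι (c • (u + w))) - (dd a F.φ - ι (c • u))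
          - (dd b F.φ - ι (c • w)) - dd a (dd b F.φ) := by
        have : ι (c • (u + w)) = ι (c • u) + ι (c • w) := by
          rw [smul_add, map_add]
        rw [this]; abel
      rw [e]
      have n1 := norm_sub_le (dd g F.φ - ι (c • (u + w)))
        (dd a F.φ - ι (c • u))
      have n2 := norm_sub_le ((dd g F.φ - ι (c • (u + w))) -
        (dd a F.φ - ι (c • u))) (dd b F.φ - ι (c • w))
      have n3 := norm_sub_le (((dd g F.φ - ι (c • (u + w))) -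
        (dd a F.φ - ι (c • u))) - (dd b F.φ - ι (c • w)))
        (dd a (dd b F.φ))
      have b1 : F.C * (c * ‖u + w‖) ^ 2 ≤ F.C * (c * (F.r / 2)) ^ 2 := by gcongr
      have b2 : F.C * (c * ‖u‖) ^ 2 ≤ F.C * (c * (F.r / 4)) ^ 2 := by gcongr
      have b3 : F.C * (c * ‖w‖) ^ 2 ≤ F.C * (c * (F.r / 4)) ^ 2 := by gcongr
      have b4 : F.C * (c * ‖u‖) * (c * ‖w‖) ≤ F.C * (c * (F.r / 4)) * (c * (F.r / 4)) := by
        gcongr
      have b5 : 0 ≤ F.C * F.r ^ 2 * c ^ 2 := by positivity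
      have b6 : F.C * (c * (F.r / 2)) ^ 2 + F.C * (c * (F.r / 4)) ^ 2
          + F.C * (c * (F.r / 4)) ^ 2 + F.C * (c * (F.r / 4)) * (c * (F.r / 4))
          = 7 / 16 * (F.C * F.r ^ 2 * c ^ 2) := by ring
      linarith
    have s3 : ‖dd ((g ^ k)⁻¹ * (a * b) ^ k) F.φ‖ ≤ 2 * F.C * F.r ^ 2 * c := by
      have hgi : ∀ i ≤ k, ‖dd (g ^ i) F.φ‖ ≤ F.r := by
        intro i hi
        rw [hg, hc, e_pow' P]
        refine (P.le _).trans ?_
        rw [norm_smul, Real.norm_of_nonneg (by positivity)]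
        have : (i : ℝ) / k ≤ 1 := by
          rw [div_le_one hk']; exact_mod_cast hi
        nlinarith [norm_nonneg (u + w)]
      have hsm : F.C * F.r ^ 2 * c ^ 2 ≤ F.r := by
        have h1 : c ^ 2 ≤ 1 := by nlinarith
        have h2 : F.C * F.r ^ 2 * c ^ 2 ≤ F.C * F.r ^ 2 * 1 := by gcongr
        nlinarith
      refine (h4c1 g (a * b) k hgi (s2.trans hsm)).trans ?_
      calc 2 * (k : ℝ) * ‖dd (g⁻¹ * (a * b)) F.φ‖ ≤ 2 * k * (F.C * F.r ^ 2 * c ^ 2) := by gcongr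
        _ = 2 * F.C * F.r ^ 2 * c * (k * c) := by ring
        _ = 2 * F.C * F.r ^ 2 * c := by rw [hkc, mul_one]
    have e : (P.e u * P.e w)⁻¹ * P.e (u + w) =
        ((a ^ k * b ^ k)⁻¹ * (a * b) ^ k) * ((g ^ k)⁻¹ * (a * b) ^ k)⁻¹ := by
      rw [hau, hbw, hguw]; group
    rw [e]
    refine (norm_dd_mul_le _ _ _).trans ?_
    rw [norm_dd_inv]
    linarith
  have hlim : Tendsto (fun k : ℕ => 4 * F.C * ‖u‖ * ‖w‖ + 2 * F.C * F.r ^ 2 * (1 / (k : ℝ)))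
      atTop (𝓝 (4 * F.C * ‖u‖ * ‖w‖ + 2 * F.C * F.r ^ 2 * 0)) :=
    (tendsto_one_div_atTop_nhds_zero_nat.const_mul _).const_add _
  rw [mul_zero, add_zero] at hlim
  exact ge_of_tendsto hlim (eventually_atTop.2 ⟨1, fun k hk => key k hk⟩)

/-- the output of the estimates -/
lemma dist_aux (hadd : ∀ u w : V, ‖u‖ ≤ F.r / 4 → ‖w‖ ≤ F.r / 4 →
      ‖dd ((P.e u * P.e w)⁻¹ * P.e (u + w)) F.φ‖ ≤ 4 * F.C * ‖u‖ * ‖w‖)
    (u w : V) (hu : ‖u‖ ≤ F.r / 8) (hw : ‖w‖ ≤ F.r / 8) :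
    ‖w - u‖ ≤ 4 * ‖dd ((P.e u)⁻¹ * P.e w) F.φ‖ ∧
      ‖dd ((P.e u)⁻¹ * P.e w) F.φ‖ ≤ 4 * ‖w - u‖ := by
  have hC : 0 < F.C := lt_of_lt_of_le one_pos F.one_le_C
  have hr : 0 < F.r := F.r_pos
  have hCr : F.C * F.r ≤ 1 / 16 := by have := F.Cr; linarith
  set v := w - u with hv
  have hvn : ‖v‖ ≤ F.r / 4 := by have := norm_sub_le w u; linarith
  have hw' : w = u + v := by rw [hv]; abel
  have h1 := hadd u v (by linarith) hvn
  rw [← hw'] at h1
  have e : (P.e u)⁻¹ * P.e w = P.e v * ((P.e u * P.e v)⁻¹ * P.e w) := by group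
  have h2 := norm_dd_mul_le (P.e v) ((P.e u * P.e v)⁻¹ * P.e w) F.φ
  have e' : P.e v = ((P.e u)⁻¹ * P.e w) * ((P.e u * P.e v)⁻¹ * P.e w)⁻¹ := by group
  have h3 := norm_dd_mul_le ((P.e u)⁻¹ * P.e w) ((P.e u * P.e v)⁻¹ * P.e w)⁻¹ F.φ
  rw [← e', norm_dd_inv] at h3
  rw [← e] at h2
  have h4 := P.le v
  have h5 := P.approx v (by linarith)
  have h6 : ‖v‖ ≤ ‖dd (P.e v) F.φ‖ + F.C * ‖v‖ ^ 2 := by
    have : ‖ι v‖ ≤ ‖dd (P.e v) F.φ‖ + ‖dd (P.e v) F.φ - ι v‖ := by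
      have := norm_sub_le (dd (P.e v) F.φ) (dd (P.e v) F.φ - ι v)
      simpa using this
    have h7 : ‖v‖ = ‖ι v‖ := (ι.norm_map v).symm
    linarith
  have b1 : 4 * F.C * ‖u‖ * ‖v‖ ≤ 1 / 32 * ‖v‖ := by
    have : F.C * ‖u‖ ≤ F.C * (F.r / 8) := by gcongr
    have h8 : 4 * F.C * ‖u‖ ≤ 1 / 32 := by linarith
    gcongr
  have b2 : F.C * ‖v‖ ^ 2 ≤ 1 / 64 * ‖v‖ := by
    have : F.C * ‖v‖ ≤ F.C * (F.r / 4) := by gcongr
    have h8 : F.C * ‖v‖ ≤ 1 / 64 := by linarith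
    calc F.C * ‖v‖ ^ 2 = F.C * ‖v‖ * ‖v‖ := by ring
      _ ≤ 1 / 64 * ‖v‖ := by gcongr
  have hvpos := norm_nonneg v
  constructor <;> linarith

/-- continuity of `exp` near `0` -/
lemma cont_near (hdist : ∀ u w : V, ‖u‖ ≤ F.r / 8 → ‖w‖ ≤ F.r / 8 →
      ‖dd ((P.e u)⁻¹ * P.e w) F.φ‖ ≤ 4 * ‖w - u‖) (u : V) (hu : ‖u‖ < F.r / 8) :
    ContinuousAt P.e u := by
  have h1 : Tendsto (fun w => (P.e u)⁻¹ * P.e w) (𝓝 u) (𝓝 1) := by
    intro S hV
    obtain ⟨ε, hε, hV'⟩ := F.nhds S hV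
    have hev1 : ∀ᶠ w in 𝓝 u, ‖w‖ < F.r / 8 :=
      (continuous_norm.tendsto u).eventually_lt_const hu
    have hev2 : ∀ᶠ w in 𝓝 u, ‖w - u‖ < ε / 4 := by
      have : Tendsto (fun w : V => ‖w - u‖) (𝓝 u) (𝓝 ‖u - u‖) :=
        (Continuous.tendsto (by fun_prop) u)
      rw [sub_self, norm_zero] at this
      exact this.eventually_lt_const (by positivity)
    rw [Filter.mem_map]
    filter_upwards [hev1, hev2] with w hw1 hw2
    exact hV' _ (lt_of_le_of_lt (hdist u w hu.le hw1.le) (by linarith))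
  have h2 := h1.const_mul (P.e u)
  simpa [ContinuousAt] using h2

lemma cont (hdist : ∀ u w : V, ‖u‖ ≤ F.r / 8 → ‖w‖ ≤ F.r / 8 →
      ‖dd ((P.e u)⁻¹ * P.e w) F.φ‖ ≤ 4 * ‖w - u‖) : Continuous P.e := by
  have hr : 0 < F.r := F.r_pos
  rw [continuous_iff_continuousAt]
  intro x
  obtain ⟨k, hk⟩ := exists_nat_gt (‖x‖ / (F.r / 8))
  have hk0 : 0 < k := by
    have : (0 : ℝ) < k := lt_of_le_of_lt (by positivity) hk
    exact_mod_cast this
  have hk' : (0 : ℝ) < k := by exact_mod_cast hk0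
  have hx : ‖(1 / (k : ℝ)) • x‖ < F.r / 8 := by
    rw [norm_smul, Real.norm_of_nonneg (by positivity), one_div, inv_mul_lt_iff₀ hk']
    rwa [div_lt_iff₀ (by positivity)] at hk
  have e : P.e = fun y => P.e ((1 / (k : ℝ)) • y) ^ k := by
    ext1 y; exact (e_pow P y hk0).symm
  rw [e]
  have h1 : ContinuousAt (fun y : V => (1 / (k : ℝ)) • y) x := by fun_prop
  exact (ContinuousAt.comp (f := fun y : V => (1 / (k : ℝ)) • y) (x := x)
    (cont_near P hdist _ hx) h1).pow k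

omit P [NormedAddCommGroup V] [NormedSpace ℝ V] in
lemma eq_one_of_norm [T2Space G] {g : G} (F : GleasonFn G) (h : ‖dd g F.φ‖ = 0) : g = 1 := by
  by_contra hne
  obtain ⟨ε, hε, hV⟩ := F.nhds {g}ᶜ (isOpen_compl_singleton.mem_nhds (by simpa using Ne.symm hne))
  exact hV g (by rw [h]; exact hε) rfl

/-- local surjectivity of `exp` -/
lemma surj_near [T2Space G] [FiniteDimensional ℝ V]
    (h5a : ∀ (𝒰 : Ultrafilter ℕ)
      (g : ℕ → G) (m : ℕ → ℕ) (L : ℝ), Tendsto m 𝒰 atTop →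
      (∀ᶠ j in (𝒰 : Filter ℕ), (m j : ℝ) * ‖dd (g j) F.φ‖ ≤ L) →
      ∃ (X : OP G) (D : G →ᵇ ℝ), HasD F X D ∧ Tendsto (fun j => (m j : ℝ) • dd (g j) F.φ) 𝒰 (𝓝 D))
    (hmem : ∀ D, (∃ u, ι u = D) ↔ ∃ X : OP G, HasD F X D)
    (hadd : ∀ u w : V, ‖u‖ ≤ F.r / 4 → ‖w‖ ≤ F.r / 4 →
      ‖dd ((P.e u * P.e w)⁻¹ * P.e (u + w)) F.φ‖ ≤ 4 * F.C * ‖u‖ * ‖w‖)
    (hdist : ∀ u w : V, ‖u‖ ≤ F.r / 8 → ‖w‖ ≤ F.r / 8 →
      ‖w - u‖ ≤ 4 * ‖dd ((P.e u)⁻¹ * P.e w) F.φ‖ ∧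
      ‖dd ((P.e u)⁻¹ * P.e w) F.φ‖ ≤ 4 * ‖w - u‖) (δ : ℝ) (hδ : 0 < δ) :
    P.e '' ball (0 : V) δ ∈ 𝓝 (1 : G) := by
  have hC : 0 < F.C := lt_of_lt_of_le one_pos F.one_le_C
  have hr : 0 < F.r := F.r_pos
  have hCr : F.C * F.r ≤ 1 / 16 := by have := F.Cr; linarith
  by_contra hcon
  -- bad sequence
  have hbad : ∀ j : ℕ, ∃ g : G, ‖dd g F.φ‖ < 1 / ((j : ℝ) + 1) ∧ g ∉ P.e '' ball (0 : V) δ := by
    intro j
    by_contra hno
    push Not at hno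
    exact hcon (Filter.mem_of_superset (F.small (1 / ((j : ℝ) + 1)) (by positivity))
      (fun g hg => hno g hg))
  choose g hg1 hg2 using hbad
  set ρ' : ℝ := min (F.r / 8) (δ / 2) with hρ'
  have hρ'pos : 0 < ρ' := by rw [hρ']; positivity
  have hρ'1 : ρ' ≤ F.r / 8 := min_le_left _ _
  have hρ'2 : ρ' ≤ δ / 2 := min_le_right _ _
  have : ProperSpace V := FiniteDimensional.proper ℝ V
  have hKc : IsCompact (closedBall (0 : V) ρ') := isCompact_closedBall 0 ρ'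
  have hKn : (closedBall (0 : V) ρ').Nonempty := ⟨0, by simp [hρ'pos.le]⟩
  -- closest points
  have hcontK : ∀ g : G, ContinuousOn (fun u : V => ‖dd ((P.e u)⁻¹ * g) F.φ‖)
      (closedBall (0 : V) ρ') := by
    intro g
    have : LipschitzOnWith 4 (fun u : V => ‖dd ((P.e u)⁻¹ * g) F.φ‖)
        (closedBall (0 : V) ρ') := by
      apply LipschitzOnWith.of_dist_le_mul
      intro u hu w hw
      rw [mem_closedBall_zero_iff] at hu hw
      have h1 := (hdist u w (by linarith) (by linarith)).2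
      rw [norm_dd_inv_mul] at h1
      rw [Real.dist_eq, norm_dd_inv_mul, norm_dd_inv_mul]
      refine (abs_norm_sub_norm_le _ _).trans ?_
      have e : dd (P.e u) F.φ - dd g F.φ - (dd (P.e w) F.φ - dd g F.φ) =
        dd (P.e u) F.φ - dd (P.e w) F.φ := by abel
      rw [e, dist_eq_norm, norm_sub_rev u w]
      exact h1
    exact this.continuousOn
  have hmin : ∀ j, ∃ u ∈ closedBall (0 : V) ρ', ∀ w ∈ closedBall (0 : V) ρ',
      ‖dd ((P.e u)⁻¹ * g j) F.φ‖ ≤ ‖dd ((P.e w)⁻¹ * g j) F.φ‖ := by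
    intro j
    obtain ⟨u, hu, hu'⟩ := hKc.exists_isMinOn hKn (hcontK (g j))
    exact ⟨u, hu, fun w hw => hu' hw⟩
  choose u huK humin using hmin
  set h : ℕ → G := fun j => (P.e (u j))⁻¹ * g j with hh
  have hgh : ∀ j, g j = P.e (u j) * h j := fun j => by simp [hh]
  have hq : ∀ j, ‖dd (h j) F.φ‖ ≤ 1 / ((j : ℝ) + 1) := by
    intro j
    have h1 := humin j 0 (by simp [hρ'pos.le])
    rw [e_zero P, inv_one, one_mul] at h1
    exact h1.trans (hg1 j).le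
  have hu_small : ∀ j, ‖u j‖ ≤ 8 / ((j : ℝ) + 1) := by
    intro j
    have huj : ‖u j‖ ≤ F.r / 8 := by
      have := huK j
      rw [mem_closedBall_zero_iff] at this
      linarith
    have h1 := (hdist 0 (u j) (by rw [norm_zero]; positivity) huj).1
    rw [sub_zero, e_zero P, inv_one, one_mul] at h1
    have e : P.e (u j) = g j * (h j)⁻¹ := by rw [hgh j]; group
    have h2 := norm_dd_mul_le (g j) (h j)⁻¹ F.φ
    rw [← e, norm_dd_inv] at h2
    have h3 := (hg1 j).le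
    have h4 := hq j
    have h5 : 8 / ((j : ℝ) + 1) = 4 * (1 / ((j : ℝ) + 1) + 1 / ((j : ℝ) + 1)) := by ring
    rw [h5]; linarith
  have hne : ∀ j, 0 < ‖dd (h j) F.φ‖ := by
    intro j
    rcases (norm_nonneg (dd (h j) F.φ)).lt_or_eq with h1 | h1
    · exact h1
    · exfalso
      have h2 := eq_one_of_norm F h1.symm
      have h3 : g j = P.e (u j) := by rw [hgh j, h2, mul_one]
      apply hg2 j
      refine ⟨u j, ?_, h3.symm⟩
      have := huK j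
      rw [mem_closedBall_zero_iff] at this
      rw [mem_ball_zero_iff]; linarith
  set m : ℕ → ℕ := fun j => ⌈1 / ‖dd (h j) F.φ‖⌉₊ with hm
  have hm1 : ∀ j, 1 ≤ (m j : ℝ) * ‖dd (h j) F.φ‖ := by
    intro j
    have := Nat.le_ceil (1 / ‖dd (h j) F.φ‖)
    rwa [div_le_iff₀ (hne j)] at this
  have hm2 : ∀ j, (m j : ℝ) * ‖dd (h j) F.φ‖ ≤ 2 := by
    intro j
    have h1 := (Nat.ceil_lt_add_one (a := 1 / ‖dd (h j) F.φ‖) (by positivity)).le
    have h2 : (m j : ℝ) * ‖dd (h j) F.φ‖ ≤ (1 / ‖dd (h j) F.φ‖ + 1) * ‖dd (h j) F.φ‖ := by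
      gcongr
    have h3 : (1 / ‖dd (h j) F.φ‖ + 1) * ‖dd (h j) F.φ‖ = 1 + ‖dd (h j) F.φ‖ := by
      field_simp [(hne j).ne']
    have h4 : 1 / ((j : ℝ) + 1) ≤ 1 := by
      rw [div_le_one (by positivity)]; linarith [Nat.cast_nonneg (α := ℝ) j]
    linarith [hq j]
  have hmpos : ∀ j, 0 < (m j : ℝ) := by
    intro j
    by_contra hno
    have h0 : (m j : ℝ) = 0 := le_antisymm (not_lt.1 hno) (Nat.cast_nonneg _)
    have h1 := hm1 j
    rw [h0, zero_mul] at h1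
    linarith
  have hmge : ∀ j : ℕ, (j : ℝ) + 1 ≤ m j := by
    intro j
    have h1 := hm1 j
    have h2 : (m j : ℝ) * ‖dd (h j) F.φ‖ ≤ m j * (1 / ((j : ℝ) + 1)) := by
      have := hq j
      gcongr
    have h3 : 1 ≤ (m j : ℝ) * (1 / ((j : ℝ) + 1)) := h1.trans h2
    rw [mul_one_div, le_div_iff₀ (by positivity)] at h3
    linarith
  set 𝒰 : Ultrafilter ℕ := Filter.hyperfilter ℕ with h𝒰
  have h𝒰le : (𝒰 : Filter ℕ) ≤ atTop := by
    rw [← Nat.cofinite_eq_atTop]; exact Filter.hyperfilter_le_cofinite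
  have hmtop : Tendsto m 𝒰 atTop := by
    refine Tendsto.mono_left ?_ h𝒰le
    refine tendsto_atTop_mono (fun j => ?_) tendsto_id
    have := hmge j
    have : (j : ℝ) ≤ m j := by linarith
    exact_mod_cast this
  obtain ⟨X, D, hD, hlim⟩ := h5a 𝒰 h m 2 hmtop (Eventually.of_forall hm2)
  obtain ⟨D', hD'⟩ := (hmem D).2 ⟨X, hD⟩
  have hDn : ‖D‖ ≤ 2 := by
    refine le_of_tendsto hlim.norm (Eventually.of_forall fun j => ?_)
    rw [norm_smul, Real.norm_of_nonneg (hmpos j).le]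
    exact hm2 j
  -- three smallness conditions
  have tend0 : Tendsto (fun j : ℕ => 1 / ((j : ℝ) + 1)) 𝒰 (𝓝 0) :=
    tendsto_one_div_add_atTop_nhds_zero_nat.mono_left h𝒰le
  have ev1 : ∀ᶠ j in (𝒰 : Filter ℕ), ‖D - (m j : ℝ) • dd (h j) F.φ‖ < 1 / 4 := by
    have : Tendsto (fun j => ‖D - (m j : ℝ) • dd (h j) F.φ‖) 𝒰 (𝓝 ‖D - D‖) :=
      (tendsto_const_nhds.sub hlim).norm
    rw [sub_self, norm_zero] at this
    exact this.eventually_lt_const (by norm_num)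
  have ev2 : ∀ᶠ j : ℕ in (𝒰 : Filter ℕ), 1 / ((j : ℝ) + 1) < ρ' / 16 :=
    tend0.eventually_lt_const (by positivity)
  have ev3 : ∀ᶠ j : ℕ in (𝒰 : Filter ℕ), 1 / ((j : ℝ) + 1) < 1 / (256 * F.C) :=
    tend0.eventually_lt_const (by positivity)
  obtain ⟨j, h1, h2, h3⟩ := (ev1.and (ev2.and ev3)).exists
  set M : ℝ := (m j : ℝ) with hM
  have hMpos : 0 < M := hmpos j
  have hMj : (j : ℝ) + 1 ≤ M := hmge j
  have hMinv : 1 / M ≤ 1 / ((j : ℝ) + 1) := one_div_le_one_div_of_le (by positivity) hMj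
  set v : V := (1 / M) • D' with hv
  have hvc : ι v = (1 / M) • D := by rw [hv, map_smul, hD']
  have hvn : ‖v‖ = (1 / M) * ‖D‖ := by
    rw [hv, norm_smul, Real.norm_of_nonneg (by positivity), ← hD', ι.norm_map]
  have hvle : ‖v‖ ≤ 2 * (1 / M) := by
    rw [hvn, mul_comm]; gcongr
  have huj := hu_small j
  have huj' : ‖u j‖ < ρ' / 2 := by
    have : 8 / ((j : ℝ) + 1) = 8 * (1 / ((j : ℝ) + 1)) := by ring
    rw [this] at huj; linarith
  have hvρ : ‖v‖ < ρ' / 2 := by linarith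
  have hmemK : u j + v ∈ closedBall (0 : V) ρ' := by
    rw [mem_closedBall_zero_iff]
    have := norm_add_le (u j) v
    linarith
  have hmin := humin j (u j + v) hmemK
  have e : (P.e (u j + v))⁻¹ * g j =
      ((P.e (u j) * P.e v)⁻¹ * P.e (u j + v))⁻¹ * ((P.e v)⁻¹ * h j) := by
    rw [hgh j]; group
  have a1 := norm_dd_mul_le ((P.e (u j) * P.e v)⁻¹ * P.e (u j + v))⁻¹ ((P.e v)⁻¹ * h j) F.φ
  rw [← e, norm_dd_inv] at a1
  have a2 := hadd (u j) v (by linarith) (by linarith)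
  have a3 : ‖dd ((P.e v)⁻¹ * h j) F.φ‖ ≤ F.C * ‖v‖ ^ 2 + 1 / M * (1 / 4) := by
    rw [norm_dd_inv_mul]
    have b1 := P.approx v (by linarith)
    have b2 : ‖ι v - dd (h j) F.φ‖ ≤ 1 / M * (1 / 4) := by
      have : ι v - dd (h j) F.φ = (1 / M) • (D - M • dd (h j) F.φ) := by
        rw [hvc, smul_sub, smul_smul, one_div_mul_cancel hMpos.ne', one_smul]
      rw [this, norm_smul, Real.norm_of_nonneg (by positivity)]
      gcongr
    have b3 : dd (P.e v) F.φ - dd (h j) F.φ =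
      (dd (P.e v) F.φ - ι v) + (ι v - dd (h j) F.φ) := by abel
    rw [b3]
    exact (norm_add_le _ _).trans (add_le_add b1 b2)
  have hC1 : F.C * (1 / ((j : ℝ) + 1)) ≤ 1 / 256 := by
    have : F.C * (1 / ((j : ℝ) + 1)) ≤ F.C * (1 / (256 * F.C)) := by gcongr
    have e2 : F.C * (1 / (256 * F.C)) = 1 / 256 := by field_simp
    linarith
  have a4 : 4 * F.C * ‖u j‖ * ‖v‖ ≤ 1 / M * (1 / 4) := by
    have c1 : 4 * F.C * ‖u j‖ ≤ 1 / 8 := by
      have c2 : F.C * ‖u j‖ ≤ F.C * (8 / ((j : ℝ) + 1)) := by gcongr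
      have c3 : F.C * (8 / ((j : ℝ) + 1)) = 8 * (F.C * (1 / ((j : ℝ) + 1))) := by ring
      linarith
    calc 4 * F.C * ‖u j‖ * ‖v‖ ≤ 1 / 8 * (2 * (1 / M)) := by gcongr
      _ = 1 / M * (1 / 4) := by ring
  have a5 : F.C * ‖v‖ ^ 2 ≤ 1 / M * (1 / 4) := by
    have c1 : F.C * ‖v‖ ≤ 1 / 8 := by
      have c2 : F.C * ‖v‖ ≤ F.C * (2 * (1 / ((j : ℝ) + 1))) := by gcongr; linarith
      linarith
    calc F.C * ‖v‖ ^ 2 = F.C * ‖v‖ * ‖v‖ := by ring
      _ ≤ 1 / 8 * (2 * (1 / M)) := by gcongr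
      _ = 1 / M * (1 / 4) := by ring
  have a6 : 1 / M ≤ ‖dd (h j) F.φ‖ := by
    rw [div_le_iff₀ hMpos, mul_comm]; exact hm1 j
  have a7 : ‖dd (h j) F.φ‖ ≤ ‖dd ((P.e (u j + v))⁻¹ * g j) F.φ‖ := hmin
  have a8 : 0 < 1 / M := by positivity
  linarith

end main

/-- the exponential data, for an abstract copy of the space of derivatives -/
theorem expData_of.{u, v} (h4a : TaskA4a.{u}) (h4c : TaskA4c.{u}) (h5a : TaskA5a.{u})
    (h5b : TaskA5b.{u}) (G : Type u) [Group G] [TopologicalSpace G] [IsTopologicalGroup G]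
    [T2Space G] [LocallyCompactSpace G] (F : GleasonFn G)
    (V : Type v) [NormedAddCommGroup V] [NormedSpace ℝ V] [FiniteDimensional ℝ V]
    (ι : V →ₗᵢ[ℝ] (G →ᵇ ℝ)) (hmem : ∀ D, (∃ u, ι u = D) ↔ ∃ X : OP G, HasD F X D) :
    Nonempty (ExpData G V) := by
  obtain ⟨N, hN, hNr, hNC⟩ := h4a G F
  obtain ⟨h51, h52⟩ := h5b G F
  obtain ⟨P⟩ := exists_preExp F V ι h51 h52 hmem
  obtain ⟨c1, c2, -⟩ := h4c G N
  rw [hN, hNr] at c1 c2
  rw [hNC] at c2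
  have hadd : ∀ u w : V, ‖u‖ ≤ F.r / 4 → ‖w‖ ≤ F.r / 4 →
      ‖dd ((P.e u * P.e w)⁻¹ * P.e (u + w)) F.φ‖ ≤ 4 * F.C * ‖u‖ * ‖w‖ :=
    fun u w hu hw => exp_add_aux P c1 c2 u w hu hw
  have hdist := fun u w hu hw => dist_aux P hadd u w hu hw
  have hC : 1 ≤ F.C := F.one_le_C
  have hr : 0 < F.r := F.r_pos
  have hCr : F.C * F.r ≤ 1 / 16 := by have := F.Cr; linarith
  refine ⟨{
    N := N
    exp := P.e
    K := 4 * F.C
    ρ := F.r / 8
    one_le_K := by linarith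
    ρ_pos := by positivity
    ρ_le := by rw [hNr]; linarith
    Kρ := by nlinarith
    cont := cont P (fun u w hu hw => (hdist u w hu hw).2)
    exp_add_smul := P.add_smul
    exp_surj := P.surj
    n_exp_le := by rw [hN]; exact P.le
    exp_add := ?_
    le_dist := by rw [hN]; exact fun u w hu hw => (hdist u w hu hw).1
    dist_le := by rw [hN]; exact fun u w hu hw => (hdist u w hu hw).2
    exp_nhds := ?_ }⟩
  · rw [hN]
    exact fun u w hu hw => hadd u w (by linarith) (by linarith)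
  · intro δ hδ
    refine surj_near P ?_ hmem hadd hdist δ hδ
    intro 𝒰 g m L h1 h2
    obtain ⟨X, D, h3, h4, -⟩ := h5a G F 𝒰 g m L h1 h2
    exact ⟨X, D, h3, h4⟩

/-- TASK A7 from A4a, A4c, A5a, A5b. -/
theorem taskA7_of.{u} (h4a : TaskA4a.{u}) (h4c : TaskA4c.{u}) (h5a : TaskA5a.{u})
    (h5b : TaskA5b.{u}) : TaskA7.{u} := by
  intro G _ _ _ _ _ F 𝔤 hfin hmem
  have := hfin
  have hmem' : ∀ D, (∃ u, 𝔤.subtypeₗᵢ u = D) ↔ ∃ X : OP G, HasD F X D := by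
    intro D
    rw [← hmem D]
    constructor
    · rintro ⟨u, rfl⟩; exact u.2
    · intro hD; exact ⟨⟨D, hD⟩, rfl⟩
  exact expData_of h4a h4c h5a h5b G F 𝔤 𝔤.subtypeₗᵢ hmem'

end Crest.Agent.R217.A7_418
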