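import Crest.Agent.R217.SpecA_343

/-!
Row 217 (S0336), PART A, task A8: adjoint representation. helper430
-/

set_option autoImplicit false

open Filter Topology BoundedContinuousFunction Metric
open scoped Topology BoundedContinuousFunction Manifold ContDiff

namespace Crest.Agent.R217.A8_430
open Crest.Agent.R217.SpecA343

universe u v

section GN
variable {G : Type u} [Group G] [TopologicalSpace G] (N : GNorm G)

lemma eq_one_of_n_eq_zero [T2Space G] {g : G} (h : N.n g = 0) : g = 1 := by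
  by_contra hne
  obtain ⟨ε, hε, H⟩ := N.nhds {g}ᶜ (isOpen_compl_singleton.mem_nhds (by simpa using Ne.symm hne))
  exact H g (by rw [h]; exact hε) rfl

lemma n_pow_le (g : G) (k : ℕ) : N.n (g ^ k) ≤ k * N.n g := by
  induction k with
  | zero => simp [N.one]
  | succ k ih =>
    rw [pow_succ]
    have := N.mul (g ^ k) g
    push_cast
    linarith

lemma n_pow_le_of_le (g : G) {i k : ℕ} (h : i ≤ k) : N.n (g ^ i) ≤ k * N.n g := by
  refine (n_pow_le N g i).trans ?_
  have : (i : ℝ) ≤ k := by exact_mod_cast h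
  exact mul_le_mul_of_nonneg_right this (N.nonneg g)

/-- conjugation is Lipschitz near `1` -/
lemma conj_lip [IsTopologicalGroup G] [T2Space G] (g : G) :
    ∃ δ > 0, ∃ C > 0, ∀ h, N.n h ≤ δ → N.n (g * h * g⁻¹) ≤ C * N.n h := by
  have hc : Tendsto (fun h : G => g * h * g⁻¹) (𝓝 1) (𝓝 1) := by
    have : Continuous (fun h : G => g * h * g⁻¹) := by fun_prop
    simpa using this.tendsto 1
  obtain ⟨δ, hδ, H⟩ := N.nhds _ (hc.eventually (N.small N.r N.r_pos))
  refine ⟨δ / 2, by positivity, 8 * N.r / δ, by have := N.r_pos; positivity, fun h hh => ?_⟩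
  rcases (N.nonneg h).eq_or_lt with h0 | h0
  · have : h = 1 := eq_one_of_n_eq_zero N h0.symm
    subst this
    simp [N.one]
  · set k : ℕ := ⌊(δ / 2) / N.n h⌋₊ with hk
    have hx : 1 ≤ (δ / 2) / N.n h := by rwa [one_le_div h0]
    have hk1 : 1 ≤ k := by rw [hk, Nat.one_le_floor_iff]; exact hx
    have hk2 : (δ / 2) / N.n h < k + 1 := Nat.lt_floor_add_one _
    have hk1' : (1 : ℝ) ≤ k := by exact_mod_cast hk1
    have hk3 : (k : ℝ) ≤ (δ / 2) / N.n h := Nat.floor_le (by positivity)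
    have hk4 : (k : ℝ) * N.n h ≤ δ / 2 := by rwa [le_div_iff₀ h0] at hk3
    have hk5 : δ / 2 < (k + 1) * N.n h := by rwa [div_lt_iff₀ h0] at hk2
    have hall : ∀ i ≤ k, N.n ((g * h * g⁻¹) ^ i) ≤ N.r := by
      intro i hi
      rw [conj_pow]
      refine (H (h ^ i) ?_).le
      have := n_pow_le_of_le N h hi
      linarith
    have he := N.esc _ k hall
    have h2 := hall k le_rfl
    have hn := N.nonneg (g * h * g⁻¹)
    rw [div_mul_eq_mul_div, le_div_iff₀ hδ]
    have h3 : (k : ℝ) * N.n (g * h * g⁻¹) ≤ 2 * N.r := by linarith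
    have h4 : δ ≤ 4 * k * N.n h := by nlinarith
    calc N.n (g * h * g⁻¹) * δ ≤ N.n (g * h * g⁻¹) * (4 * k * N.n h) := by gcongr
      _ = 4 * (k * N.n (g * h * g⁻¹)) * N.n h := by ring
      _ ≤ 4 * (2 * N.r) * N.n h := by gcongr
      _ = 8 * N.r * N.n h := by ring

end GN

section EX
variable {G : Type u} [Group G] [TopologicalSpace G]
  {V : Type v} [NormedAddCommGroup V] [NormedSpace ℝ V] (E : ExpData G V)

lemma exp_zero : E.exp 0 = 1 := by
  have := E.exp_add_smul 0 0 0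
  simpa using this

lemma exp_neg (u : V) : E.exp (-u) = (E.exp u)⁻¹ := by
  have := E.exp_add_smul u (-1) 1
  simp only [neg_smul, one_smul, neg_add_cancel, zero_smul, exp_zero] at this
  exact eq_inv_of_mul_eq_one_left this.symm


lemma ev_small (u : V) {ε : ℝ} (hε : 0 < ε) : ∀ᶠ t : ℝ in 𝓝 0, ‖t • u‖ < ε := by
  have h : Tendsto (fun t : ℝ => ‖t • u‖) (𝓝 0) (𝓝 0) := by
    have : Continuous (fun t : ℝ => ‖t • u‖) := by fun_prop
    simpa using this.tendsto 0
  exact h.eventually (gt_mem_nhds hε)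

/-- two vectors are equal if the one-parameter groups agree up to `O(t^2)` -/
lemma eq_of_quad {u w : V} {c : ℝ}
    (h : ∀ᶠ t : ℝ in 𝓝[>] 0, E.N.n ((E.exp (t • u))⁻¹ * E.exp (t • w)) ≤ c * t ^ 2) : u = w := by
  have h1 : ∀ᶠ t : ℝ in 𝓝[>] 0, ‖w - u‖ ≤ 4 * c * t := by
    have hu := (ev_small u E.ρ_pos).filter_mono (nhdsWithin_le_nhds (s := Set.Ioi (0 : ℝ)))
    have hw := (ev_small w E.ρ_pos).filter_mono (nhdsWithin_le_nhds (s := Set.Ioi (0 : ℝ)))
    filter_upwards [h, hu, hw, self_mem_nhdsWithin] with t h1 h2 h3 h4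
    have h4' : 0 < t := h4
    have h5 := E.le_dist _ _ h2.le h3.le
    rw [← smul_sub, norm_smul, Real.norm_eq_abs, abs_of_pos h4'] at h5
    have h6 : t * ‖w - u‖ ≤ t * (4 * c * t) := by nlinarith
    exact le_of_mul_le_mul_left h6 h4'
  have h2 : Tendsto (fun t : ℝ => 4 * c * t) (𝓝[>] 0) (𝓝 0) := by
    have : Continuous (fun t : ℝ => 4 * c * t) := by fun_prop
    have h3 := this.tendsto 0
    simp only [mul_zero] at h3
    exact h3.mono_left nhdsWithin_le_nhds
  have h3 : ‖w - u‖ ≤ 0 := ge_of_tendsto h2 h1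
  have h4 : w - u = 0 := norm_le_zero_iff.mp h3
  exact (sub_eq_zero.mp h4).symm

lemma eq_of_exp {u w : V} (h : ∀ t : ℝ, E.exp (t • u) = E.exp (t • w)) : u = w := by
  refine eq_of_quad E (c := 0) (Eventually.of_forall fun t => ?_)
  rw [h t]; simp [E.N.one]

variable [IsTopologicalGroup G]

/-- the conjugated one-parameter subgroup -/
def conjOP (g : G) (u : V) : OP G where
  X := fun t => g * E.exp (t • u) * g⁻¹
  cont := by
    have := E.cont
    fun_prop
  add := fun s t => by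
    rw [E.exp_add_smul]
    group

lemma exists_adf (g : G) (u : V) : ∃ w : V, ∀ t : ℝ, g * E.exp (t • u) * g⁻¹ = E.exp (t • w) :=
  E.exp_surj (conjOP E g u)

noncomputable def adf (g : G) (u : V) : V := (exists_adf E g u).choose

lemma adf_spec (g : G) (u : V) (t : ℝ) : g * E.exp (t • u) * g⁻¹ = E.exp (t • adf E g u) :=
  (exists_adf E g u).choose_spec t

lemma adf_unique {g : G} {u w : V} (h : ∀ t : ℝ, g * E.exp (t • u) * g⁻¹ = E.exp (t • w)) :
    adf E g u = w :=
  eq_of_exp E fun t => by rw [← adf_spec, h]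

lemma adf_smul (g : G) (c : ℝ) (u : V) : adf E g (c • u) = c • adf E g u := by
  refine adf_unique E fun t => ?_
  rw [smul_smul, adf_spec, smul_smul]

lemma adf_one (u : V) : adf E 1 u = u := adf_unique E fun t => by simp

lemma adf_mul (g h : G) (u : V) : adf E (g * h) u = adf E g (adf E h u) := by
  refine adf_unique E fun t => ?_
  rw [← adf_spec, ← adf_spec]
  group

omit [IsTopologicalGroup G] in
/-- quadratic error in the sum -/
lemma exp_add_t (u w : V) : ∀ᶠ t : ℝ in 𝓝 0,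
    E.N.n ((E.exp (t • u) * E.exp (t • w))⁻¹ * E.exp (t • (u + w))) ≤
      (E.K * ‖u‖ * ‖w‖) * t ^ 2 := by
  filter_upwards [ev_small u E.ρ_pos, ev_small w E.ρ_pos] with t h1 h2
  have := E.exp_add _ _ h1.le h2.le
  rw [smul_add]
  refine this.trans (le_of_eq ?_)
  rw [norm_smul, norm_smul, Real.norm_eq_abs, ← sq_abs t]
  ring

lemma adf_add [T2Space G] (g : G) (u w : V) : adf E g (u + w) = adf E g u + adf E g w := by
  obtain ⟨δ, hδ, C, hC, H⟩ := conj_lip E.N g
  refine eq_of_quad E (c := C * (E.K * ‖u‖ * ‖w‖) + E.K * ‖adf E g u‖ * ‖adf E g w‖) ?_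
  have h1 := exp_add_t E u w
  have h2 := exp_add_t E (adf E g u) (adf E g w)
  have h3 : ∀ᶠ t : ℝ in 𝓝 0, (E.K * ‖u‖ * ‖w‖) * t ^ 2 < δ := by
    have : Continuous (fun t : ℝ => (E.K * ‖u‖ * ‖w‖) * t ^ 2) := by fun_prop
    have h4 := this.tendsto 0
    simp only [ne_eq, OfNat.ofNat_ne_zero, not_false_eq_true, zero_pow, mul_zero] at h4
    exact h4.eventually (gt_mem_nhds hδ)
  refine (((h1.and h2).and h3).mono ?_).filter_mono nhdsWithin_le_nhds
  rintro t ⟨⟨h1, h2⟩, h3⟩
  have h4 := (H _ (h1.trans h3.le)).trans (mul_le_mul_of_nonneg_left h1 hC.le)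
  have e : (E.exp (t • adf E g (u + w)))⁻¹ * E.exp (t • (adf E g u + adf E g w)) =
      (g * ((E.exp (t • u) * E.exp (t • w))⁻¹ * E.exp (t • (u + w))) * g⁻¹)⁻¹ *
      ((E.exp (t • adf E g u) * E.exp (t • adf E g w))⁻¹ *
        E.exp (t • (adf E g u + adf E g w))) := by
    rw [← adf_spec E g (u + w), ← adf_spec E g u, ← adf_spec E g w]
    group
  rw [e]
  refine (E.N.mul _ _).trans ?_
  rw [E.N.inv]
  linarith

noncomputable def Adl [T2Space G] (g : G) : V →ₗ[ℝ] V where
  toFun := adf E g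
  map_add' := adf_add E g
  map_smul' := adf_smul E g

/-- `‖Ad g u - u‖ ≤ 4 C n(g) ‖u‖` -/
lemma adf_near (g : G) (hg : E.N.n g ≤ E.N.r) (u : V) :
    ‖adf E g u - u‖ ≤ 4 * E.N.C * E.N.n g * ‖u‖ := by
  have h := (((ev_small u E.ρ_pos).and (ev_small (adf E g u) E.ρ_pos)).filter_mono
    (nhdsWithin_le_nhds (s := Set.Ioi (0 : ℝ)))).and self_mem_nhdsWithin
  obtain ⟨t, ⟨h1, h2⟩, h3⟩ := h.exists
  have h3' : 0 < t := h3
  have h4 := E.le_dist _ _ h1.le h2.le
  rw [← smul_sub, norm_smul, Real.norm_eq_abs, abs_of_pos h3'] at h4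
  have h5 : (E.exp (t • u))⁻¹ * E.exp (t • adf E g u) =
      (E.exp (t • u))⁻¹ * (g⁻¹)⁻¹ * E.exp (t • u) * g⁻¹ := by
    rw [← adf_spec]; group
  have h6 := E.N.comm (E.exp (t • u)) g⁻¹
    ((E.n_exp_le _).trans (h1.le.trans E.ρ_le)) (by rwa [E.N.inv])
  rw [← h5, E.N.inv] at h6
  have hC : 0 ≤ E.N.C := zero_le_one.trans E.N.one_le_C
  have h7 : E.N.C * E.N.n (E.exp (t • u)) * E.N.n g ≤ E.N.C * (t * ‖u‖) * E.N.n g := by
    have := E.n_exp_le (t • u)
    rw [norm_smul, Real.norm_eq_abs, abs_of_pos h3'] at this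
    have := E.N.nonneg g
    gcongr
  have h8 : t * ‖adf E g u - u‖ ≤ t * (4 * E.N.C * E.N.n g * ‖u‖) := by nlinarith
  exact le_of_mul_le_mul_left h8 h3'

end EX

section OPG
variable {A : Type v} [NormedRing A] [NormedAlgebra ℝ A] [CompleteSpace A]

/-- a continuous one-parameter group in a Banach algebra is `exp (t a)`. -/
lemma opg (φ : ℝ → A) (hc : Continuous φ) (h0 : φ 0 = 1) (hadd : ∀ s t, φ (s + t) = φ s * φ t) :
    ∃ a : A, (∀ t : ℝ, φ t = NormedSpace.exp (t • a)) ∧ HasDerivAt φ a 0 := by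
  set F : ℝ → A := fun x => ∫ s in (0:ℝ)..x, φ s with hF
  have hFd : ∀ x, HasDerivAt F (φ x) x := fun x => (hc.integral_hasStrictDerivAt 0 x).hasDerivAt
  have hF0 : F 0 = 0 := by simp [hF]
  have hu : ∃ δ : ℝ, IsUnit (F δ) := by
    have h1 : HasDerivAt F 1 0 := h0 ▸ hFd 0
    have h2 := h1.tendsto_slope_zero_right
    have h3 := h2.eventually (Units.isOpen.mem_nhds isUnit_one)
    obtain ⟨t, ht, ht0⟩ := (h3.and self_mem_nhdsWithin).exists
    have ht0' : 0 < t := ht0
    refine ⟨t, ?_⟩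
    simp only [zero_add, hF0, sub_zero] at ht
    have h4 : F t = algebraMap ℝ A t * (t⁻¹ • F t) := by
      rw [← Algebra.smul_def, smul_smul, mul_inv_cancel₀ ht0'.ne', one_smul]
    rw [h4]
    exact ((IsUnit.mk0 t ht0'.ne').map (algebraMap ℝ A)).mul ht
  obtain ⟨δ, U, hU⟩ := hu
  have hmul : ∀ t, φ t * F δ = F (t + δ) - F t := by
    intro t
    have h1 : φ t * F δ = ∫ s in (0:ℝ)..δ, φ t * φ s := by
      have := (ContinuousLinearMap.mul ℝ A (φ t)).intervalIntegral_comp_comm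
        (hc.intervalIntegrable (μ := MeasureTheory.volume) 0 δ)
      simpa using this.symm
    have h2 : (∫ s in (0:ℝ)..δ, φ t * φ s) = ∫ s in (0:ℝ)..δ, φ (t + s) := by
      simp only [hadd]
    rw [h1, h2, intervalIntegral.integral_comp_add_left (fun x => φ x) t, add_zero, hF]
    exact (intervalIntegral.integral_interval_sub_left (hc.intervalIntegrable _ _)
      (hc.intervalIntegrable _ _)).symm
  have hφ : ∀ t, φ t = (F (t + δ) - F t) * ↑U⁻¹ := by
    intro t
    rw [← hmul, ← hU, mul_assoc, Units.mul_inv, mul_one]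
  set a : A := (φ δ - 1) * ↑U⁻¹ with ha
  have hd : ∀ t, HasDerivAt φ (φ t * a) t := by
    intro t
    have h1 : HasDerivAt (fun t => F (t + δ)) (φ (t + δ)) t := (hFd (t + δ)).comp_add_const t δ
    have h2 := (h1.sub (hFd t)).mul_const (↑U⁻¹ : A)
    have h4 : (φ (t + δ) - φ t) * ↑U⁻¹ = φ t * a := by
      rw [ha, hadd, ← mul_assoc, mul_sub, mul_one]
    rw [← h4]
    refine h2.congr_of_eventuallyEq (Eventually.of_forall fun x => ?_)
    exact (hφ x)
  have hψ : ∀ t : ℝ, φ t * NormedSpace.exp (t • (-a)) = 1 := by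
    intro t
    have hdd : ∀ t : ℝ, HasDerivAt (fun t : ℝ => φ t * NormedSpace.exp (t • (-a))) 0 t := by
      intro t
      have := (hd t).mul (hasDerivAt_exp_smul_const' (𝕂 := ℝ) (-a) t)
      have e : φ t * a * NormedSpace.exp (t • -a) + φ t * (-a * NormedSpace.exp (t • -a)) = 0 := by
        noncomm_ring
      rw [e] at this
      exact this
    have := is_const_of_deriv_eq_zero (fun t => (hdd t).differentiableAt)
      (fun t => (hdd t).deriv) t 0
    simp only [zero_smul, NormedSpace.exp_zero, h0, mul_one] at this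
    exact this
  let _ : NormedAlgebra ℚ A := NormedAlgebra.restrictScalars ℚ ℝ A
  refine ⟨a, fun t => ?_, ?_⟩
  · have h1 : NormedSpace.exp (t • (-a)) * NormedSpace.exp (t • a) = 1 := by
      rw [← NormedSpace.exp_add_of_commute, smul_neg, neg_add_cancel, NormedSpace.exp_zero]
      rw [smul_neg]; exact (Commute.refl _).neg_left
    calc φ t = φ t * (NormedSpace.exp (t • (-a)) * NormedSpace.exp (t • a)) := by rw [h1, mul_one]
      _ = _ := by rw [← mul_assoc, hψ, one_mul]
  · have := hd 0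
    rwa [h0, one_mul] at this

end OPG

section AD

lemma hasDerivAt_zero_of_quad {A : Type v} [NormedAddCommGroup A] [NormedSpace ℝ A] {f : ℝ → A}
    {c : ℝ} (h : ∀ᶠ t : ℝ in 𝓝 0, ‖f t‖ ≤ c * t ^ 2) : HasDerivAt f 0 0 := by
  have h1 : f =O[𝓝 (0 : ℝ)] fun x => ‖x - 0‖ ^ 2 := by
    refine Asymptotics.IsBigO.of_bound c (h.mono fun t ht => ?_)
    simpa using ht
  have h2 := h1.hasFDerivAt (𝕜 := ℝ) (by norm_num)
  simpa using h2.hasDerivAt

variable {G : Type u} [Group G] [TopologicalSpace G] [IsTopologicalGroup G] [T2Space G]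
  {V : Type v} [NormedAddCommGroup V] [NormedSpace ℝ V] [FiniteDimensional ℝ V] (E : ExpData G V)

noncomputable def AdL (g : G) : V →L[ℝ] V := LinearMap.toContinuousLinearMap (Adl E g)

lemma AdL_apply (g : G) (u : V) : AdL E g u = adf E g u := rfl

lemma AdL_one : AdL E 1 = 1 := by ext u; exact adf_one E u

lemma AdL_mul (g h : G) : AdL E (g * h) = AdL E g * AdL E h := by ext u; exact adf_mul E g h u

lemma AdL_near (g : G) (hg : E.N.n g ≤ E.N.r) : ‖AdL E g - 1‖ ≤ 4 * E.N.C * E.N.n g := by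
  have hC : 0 ≤ E.N.C := zero_le_one.trans E.N.one_le_C
  have hn := E.N.nonneg g
  refine ContinuousLinearMap.opNorm_le_bound _ (by positivity) (fun u => ?_)
  exact adf_near E g hg u

lemma AdL_tendsto : Tendsto (AdL E) (𝓝 1) (𝓝 1) := by
  rw [Metric.tendsto_nhds]
  intro ε hε
  have hC : 0 < E.N.C := zero_lt_one.trans_le E.N.one_le_C
  filter_upwards [E.N.small (ε / (4 * E.N.C)) (by positivity), E.N.small E.N.r E.N.r_pos]
    with g h1 h2
  rw [dist_eq_norm]
  refine (AdL_near E g h2.le).trans_lt ?_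
  rw [lt_div_iff₀ (by positivity)] at h1
  linarith

omit [IsTopologicalGroup G] [T2Space G] [FiniteDimensional ℝ V] in
lemma exp_tendsto (u : V) : Tendsto (fun t : ℝ => E.exp (t • u)) (𝓝 0) (𝓝 1) := by
  have h1 : Continuous (fun t : ℝ => E.exp (t • u)) := by
    have := E.cont
    fun_prop
  simpa [exp_zero] using h1.tendsto 0

lemma AdL_exp_add (u : V) (s t : ℝ) :
    AdL E (E.exp ((s + t) • u)) = AdL E (E.exp (s • u)) * AdL E (E.exp (t • u)) := by
  rw [E.exp_add_smul, AdL_mul]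

lemma AdL_exp_cont (u : V) : Continuous (fun t : ℝ => AdL E (E.exp (t • u))) := by
  rw [continuous_iff_continuousAt]
  intro t0
  have h1 : Tendsto (fun t : ℝ => t - t0) (𝓝 t0) (𝓝 0) := by
    have : Continuous (fun t : ℝ => t - t0) := by fun_prop
    simpa using this.tendsto t0
  have h2 := (((AdL_tendsto E).comp (exp_tendsto E u)).comp h1).const_mul
    (AdL E (E.exp (t0 • u)))
  rw [mul_one] at h2
  refine h2.congr fun t => ?_
  simp only [Function.comp]
  rw [← AdL_exp_add, add_sub_cancel]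

lemma exists_adl (u : V) : ∃ a : V →L[ℝ] V, (∀ t : ℝ, AdL E (E.exp (t • u)) =
    NormedSpace.exp (t • a)) ∧ HasDerivAt (fun t : ℝ => AdL E (E.exp (t • u))) a 0 := by
  have : CompleteSpace V := FiniteDimensional.complete ℝ V
  exact opg (fun t : ℝ => AdL E (E.exp (t • u))) (AdL_exp_cont E u)
    (by simp [exp_zero, AdL_one]) (AdL_exp_add E u)

noncomputable def adl (u : V) : V →L[ℝ] V := (exists_adl E u).choose

lemma adl_exp (u : V) (t : ℝ) : AdL E (E.exp (t • u)) = NormedSpace.exp (t • adl E u) :=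
  (exists_adl E u).choose_spec.1 t

lemma adl_deriv (u : V) : HasDerivAt (fun t : ℝ => AdL E (E.exp (t • u))) (adl E u) 0 :=
  (exists_adl E u).choose_spec.2

lemma adl_smul (c : ℝ) (u : V) : adl E (c • u) = c • adl E u := by
  refine (adl_deriv E (c • u)).unique ?_
  have h1 : HasDerivAt (fun t : ℝ => t * c) c 0 := by simpa using (hasDerivAt_id (0:ℝ)).mul_const c
  have h2 : HasDerivAt (fun t : ℝ => AdL E (E.exp (t • u))) (adl E u) (0 * c) := by
    rw [zero_mul]; exact adl_deriv E u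
  have h3 := HasDerivAt.scomp (0:ℝ) h2 h1
  refine h3.congr_of_eventuallyEq (Eventually.of_forall fun t => ?_)
  simp only [Function.comp, smul_smul]

lemma adl_add (u w : V) : adl E (u + w) = adl E u + adl E w := by
  refine (adl_deriv E (u + w)).unique ?_
  set p : ℝ → (V →L[ℝ] V) := fun t => AdL E (E.exp (t • u)) * AdL E (E.exp (t • w)) with hp
  have hpd : HasDerivAt p (adl E u + adl E w) 0 := by
    have := (adl_deriv E u).mul (adl_deriv E w)
    simp only [zero_smul, exp_zero, AdL_one, mul_one, one_mul] at this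
    exact this
  have hpc : Continuous p := (AdL_exp_cont E u).mul (AdL_exp_cont E w)
  set f : ℝ → (V →L[ℝ] V) := fun t => AdL E (E.exp (t • (u + w))) with hf
  have hC : 0 ≤ E.N.C := zero_le_one.trans E.N.one_le_C
  have hquad : ∀ᶠ t : ℝ in 𝓝 0, ‖f t - p t‖ ≤
      ((‖p 0‖ + 1) * (4 * E.N.C * (E.K * ‖u‖ * ‖w‖))) * t ^ 2 := by
    have h1 := exp_add_t E u w
    have h2 : ∀ᶠ t : ℝ in 𝓝 0, ‖p t‖ < ‖p 0‖ + 1 :=
      (hpc.norm.tendsto 0).eventually (gt_mem_nhds (by linarith))
    have h3 : ∀ᶠ t : ℝ in 𝓝 0, (E.K * ‖u‖ * ‖w‖) * t ^ 2 < E.N.r := by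
      have : Continuous (fun t : ℝ => (E.K * ‖u‖ * ‖w‖) * t ^ 2) := by fun_prop
      have h4 := this.tendsto 0
      simp only [ne_eq, OfNat.ofNat_ne_zero, not_false_eq_true, zero_pow, mul_zero] at h4
      exact h4.eventually (gt_mem_nhds E.N.r_pos)
    filter_upwards [h1, h2, h3] with t h1 h2 h3
    set q := (E.exp (t • u) * E.exp (t • w))⁻¹ * E.exp (t • (u + w)) with hq
    have e1 : f t - p t = p t * (AdL E q - 1) := by
      have : f t = p t * AdL E q := by
        rw [hp, hf]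
        simp only
        rw [← AdL_mul, ← AdL_mul, hq]
        group
      rw [this]; noncomm_ring
    have h4 := AdL_near E q (h1.trans h3.le)
    rw [e1]
    calc ‖p t * (AdL E q - 1)‖ ≤ ‖p t‖ * ‖AdL E q - 1‖ := norm_mul_le _ _
      _ ≤ (‖p 0‖ + 1) * (4 * E.N.C * ((E.K * ‖u‖ * ‖w‖) * t ^ 2)) := by
          gcongr
          refine h4.trans ?_
          gcongr
      _ = _ := by ring
  have h5 := (hasDerivAt_zero_of_quad hquad).add hpd
  rw [zero_add] at h5
  refine h5.congr_of_eventuallyEq (Eventually.of_forall fun t => ?_)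
  simp [hf]

/-- TASK A8 -/
theorem taskA8 : TaskA8.{u, v} := by
  intro G _ _ _ _ V _ _ _ E
  refine ⟨{
    Ad := AdL E
    Ad_one := AdL_one E
    Ad_mul := AdL_mul E
    exp_Ad := fun g u => ?_
    ad := LinearMap.toContinuousLinearMap
      { toFun := adl E, map_add' := adl_add E, map_smul' := adl_smul E }
    Ad_exp := fun u => ?_ }⟩
  · have := adf_spec E g u 1
    rw [AdL_apply]
    simpa using this
  · have := adl_exp E u 1
    simpa using this

end AD

end Crest.Agent.R217.A8_430
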