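import Mathlib

/-!
# Row 217 (S0336), piece C2: acyclic box carriers on the integer cubical grid

Cells of the unit cubical grid of `ℝⁿ`: `Cell n = Fin n → ℤ × Bool`, coordinate `(k, false)` is the
vertex `k`, coordinate `(k, true)` is the edge `[k, k+1]`.  Chains are finitely supported functions.
The boundary is `d = d₁ ⊗ 1 + γ ⊗ d'` (first coordinate first).
-/

set_option autoImplicit false
set_option linter.dupNamespace false

namespace Crest.Agent.R217.Carrier834

open Finsupp

/-- cells of the unit grid -/
abbrev Cell (n : ℕ) := Fin n → ℤ × Bool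

variable {R : Type*} [CommRing R]

/-- chains -/
abbrev Ch (R : Type*) [CommRing R] (n : ℕ) := Cell n →₀ R

/-- insert a first coordinate -/
noncomputable def ins {n : ℕ} (c : ℤ × Bool) : Ch R n →ₗ[R] Ch R (n + 1) :=
  Finsupp.lmapDomain R R (fun s => (Fin.cons c s : Cell (n + 1)))

theorem ins_single {n : ℕ} (c : ℤ × Bool) (s : Cell n) (r : R) :
    ins c (single s r) = single (Fin.cons c s : Cell (n + 1)) r := by
  simp [ins]

/-- boundary of a cell -/
noncomputable def bd (R : Type*) [CommRing R] : (n : ℕ) → Cell n → Ch R n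
  | 0, _ => 0
  | n + 1, s =>
    if (s 0).2 then
      single (Fin.cons ((s 0).1 + 1, false) (Fin.tail s) : Cell (n + 1)) 1 -
        single (Fin.cons ((s 0).1, false) (Fin.tail s) : Cell (n + 1)) 1 -
        ins (s 0) (bd R n (Fin.tail s))
    else ins (s 0) (bd R n (Fin.tail s))

/-- the boundary operator -/
noncomputable def d (R : Type*) [CommRing R] (n : ℕ) : Ch R n →ₗ[R] Ch R n :=
  Finsupp.linearCombination R (bd R n)

theorem d_single {n : ℕ} (s : Cell n) (r : R) : d R n (single s r) = r • bd R n s := by
  simp [d]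

theorem d_zero (x : Ch R 0) : d R 0 x = 0 := by
  induction x using Finsupp.induction_linear with
  | zero => simp
  | add x y hx hy => rw [map_add, hx, hy, add_zero]
  | single s r => rw [d_single]; simp [bd]

/-- every chain is a sum of `ins` chains -/
theorem ind {n : ℕ} {p : Ch R (n + 1) → Prop} (x : Ch R (n + 1)) (h0 : p 0)
    (hadd : ∀ x y, p x → p y → p (x + y)) (hins : ∀ c x, p (ins c x)) : p x := by
  induction x using Finsupp.induction_linear with
  | zero => exact h0
  | add x y hx hy => exact hadd x y hx hy
  | single s r =>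
    have := hins (s 0) (single (Fin.tail s) r)
    rwa [ins_single, Fin.cons_self_tail] at this

theorem d_ins_false {n : ℕ} (k : ℤ) (x : Ch R n) :
    d R (n + 1) (ins (k, false) x) = ins (k, false) (d R n x) := by
  induction x using Finsupp.induction_linear with
  | zero => simp
  | add x y hx hy => simp only [map_add, hx, hy]
  | single s r =>
    rw [ins_single, d_single, d_single, map_smul]
    simp [bd]

theorem d_ins_true {n : ℕ} (k : ℤ) (x : Ch R n) :
    d R (n + 1) (ins (k, true) x) =
      ins (k + 1, false) x - ins (k, false) x - ins (k, true) (d R n x) := by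
  induction x using Finsupp.induction_linear with
  | zero => simp
  | add x y hx hy => simp only [map_add, hx, hy]; abel
  | single s r =>
    rw [ins_single, d_single, d_single, map_smul, ins_single, ins_single]
    simp [bd, smul_sub]

/-- `d² = 0` -/
theorem d_d {n : ℕ} (x : Ch R n) : d R n (d R n x) = 0 := by
  induction n with
  | zero => rw [d_zero]
  | succ n ih =>
    induction x using ind with
    | h0 => simp
    | hadd x y hx hy => simp only [map_add, hx, hy, add_zero]
    | hins c x =>
    obtain ⟨k, b⟩ := c
    cases b with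
    | false => rw [d_ins_false, d_ins_false, ih, map_zero]
    | true =>
      rw [d_ins_true, map_sub, map_sub, d_ins_false, d_ins_false, d_ins_true, ih, map_zero]
      abel

/-- dimension of a cell -/
def dim {n : ℕ} (s : Cell n) : ℕ := ∑ i, if (s i).2 then 1 else 0

theorem dim_cons {n : ℕ} (c : ℤ × Bool) (s : Cell n) :
    dim (Fin.cons c s : Cell (n + 1)) = (if c.2 then 1 else 0) + dim s := by
  unfold dim
  rw [Fin.sum_univ_succ]
  rfl

theorem dim_eq {n : ℕ} (s : Cell (n + 1)) :
    dim s = (if (s 0).2 then 1 else 0) + dim (Fin.tail s) := by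
  unfold dim
  rw [Fin.sum_univ_succ]
  rfl

theorem dim_le {n : ℕ} (s : Cell n) : dim s ≤ n := by
  unfold dim
  calc _ ≤ ∑ _i : Fin n, 1 := Finset.sum_le_sum fun i _ => by split_ifs <;> omega
    _ = n := by simp

/-- chains of degree `k` -/
def Dg (R : Type*) [CommRing R] (n k : ℕ) : Submodule R (Ch R n) :=
  Finsupp.supported R R {s | dim s = k}

theorem single_mem_Dg {n : ℕ} (s : Cell n) (r : R) : single s r ∈ Dg R n (dim s) :=
  Finsupp.single_mem_supported R _ rfl

theorem ins_mem_Dg {n k : ℕ} (c : ℤ × Bool) {x : Ch R n} (hx : x ∈ Dg R n k) :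
    ins c x ∈ Dg R (n + 1) ((if c.2 then 1 else 0) + k) := by
  classical
  unfold Dg at *
  rw [Finsupp.mem_supported] at *
  intro s hs
  have h1 := Finsupp.mapDomain_support hs
  rw [Finset.mem_image] at h1
  obtain ⟨t, ht, rfl⟩ := h1
  have := hx ht
  simp only [Set.mem_ofPred_eq] at *
  rw [dim_cons, this]

theorem bd_eq_zero {n : ℕ} (s : Cell n) (h : dim s = 0) : bd R n s = 0 := by
  induction n with
  | zero => rfl
  | succ n ih =>
    rw [dim_eq] at h
    unfold bd
    by_cases hb : (s 0).2 = true
    · rw [if_pos hb] at h; omega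
    · rw [if_neg hb, ih (Fin.tail s) (by omega), map_zero]

theorem bd_mem_Dg {n : ℕ} (s : Cell n) {k : ℕ} (hk : dim s = k + 1) : bd R n s ∈ Dg R n k := by
  induction n generalizing k with
  | zero => simp [dim] at hk
  | succ n ih =>
    rw [dim_eq] at hk
    unfold bd
    by_cases hb : (s 0).2 = true
    · rw [if_pos hb]
      rw [if_pos hb] at hk
      have hk' : dim (Fin.tail s) = k := by omega
      refine sub_mem (sub_mem ?_ ?_) ?_
      · have := single_mem_Dg (Fin.cons ((s 0).1 + 1, false) (Fin.tail s) : Cell (n + 1)) (1 : R)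
        rw [dim_cons] at this
        simpa [hk'] using this
      · have := single_mem_Dg (Fin.cons ((s 0).1, false) (Fin.tail s) : Cell (n + 1)) (1 : R)
        rw [dim_cons] at this
        simpa [hk'] using this
      · rcases k with _ | k
        · rw [bd_eq_zero _ hk', map_zero]
          exact zero_mem _
        · have := ins_mem_Dg (s 0) (ih (Fin.tail s) hk')
          rw [if_pos hb] at this
          convert this using 2
          omega
    · rw [if_neg hb]
      rw [if_neg hb, Nat.zero_add] at hk
      have := ins_mem_Dg (s 0) (ih (Fin.tail s) hk)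
      rwa [if_neg hb, Nat.zero_add] at this

/-! ### augmentation -/

/-- augmentation -/
noncomputable def aug (R : Type*) [CommRing R] (n : ℕ) : Ch R n →ₗ[R] R :=
  Finsupp.linearCombination R (fun s => if dim s = 0 then 1 else 0)

theorem aug_single {n : ℕ} (s : Cell n) (r : R) :
    aug R n (single s r) = if dim s = 0 then r else 0 := by
  simp [aug]

theorem aug_ins_false {n : ℕ} (k : ℤ) (x : Ch R n) :
    aug R (n + 1) (ins (k, false) x) = aug R n x := by
  induction x using Finsupp.induction_linear with
  | zero => simp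
  | add x y hx hy => simp only [map_add, hx, hy]
  | single s r => rw [ins_single, aug_single, aug_single, dim_cons]; simp

theorem aug_ins_true {n : ℕ} (k : ℤ) (x : Ch R n) :
    aug R (n + 1) (ins (k, true) x) = 0 := by
  induction x using Finsupp.induction_linear with
  | zero => simp
  | add x y hx hy => simp only [map_add, hx, hy, add_zero]
  | single s r => rw [ins_single, aug_single, dim_cons]; simp

theorem aug_d {n : ℕ} (x : Ch R n) : aug R n (d R n x) = 0 := by
  induction n with
  | zero => rw [d_zero, map_zero]
  | succ n ih =>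
    induction x using ind with
    | h0 => simp
    | hadd x y hx hy => simp only [map_add, hx, hy, add_zero]
    | hins c x =>
    obtain ⟨k, b⟩ := c
    cases b with
    | false => rw [d_ins_false, aug_ins_false, ih]
    | true =>
      rw [d_ins_true, map_sub, map_sub, aug_ins_false, aug_ins_false, aug_ins_true]
      simp

/-! ### the cone operator -/

/-- signed sum over the integers between `a` and `k` -/
noncomputable def sg {M : Type*} [AddCommGroup M] (a k : ℤ) (F : ℤ → M) : M :=
  ∑ m ∈ Finset.Ico a k, F m - ∑ m ∈ Finset.Ico k a, F m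

theorem sg_self {M : Type*} [AddCommGroup M] (a : ℤ) (F : ℤ → M) : sg a a F = 0 := by
  simp [sg]

theorem sg_succ {M : Type*} [AddCommGroup M] (a k : ℤ) (F : ℤ → M) :
    sg a (k + 1) F = sg a k F + F k := by
  unfold sg
  rcases le_or_gt a k with h | h
  · have e1 : Finset.Ico a (k + 1) = insert k (Finset.Ico a k) := by
      ext m; simp only [Finset.mem_Ico, Finset.mem_insert]; omega
    have e2 : Finset.Ico (k + 1) a = ∅ := Finset.Ico_eq_empty (by omega)
    have e3 : Finset.Ico k a = ∅ := Finset.Ico_eq_empty (by omega)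
    rw [e1, e2, e3, Finset.sum_insert (by simp)]
    simp [add_comm]
  · have e1 : Finset.Ico k a = insert k (Finset.Ico (k + 1) a) := by
      ext m; simp only [Finset.mem_Ico, Finset.mem_insert]; omega
    have e2 : Finset.Ico a (k + 1) = ∅ := Finset.Ico_eq_empty (by omega)
    have e3 : Finset.Ico a k = ∅ := Finset.Ico_eq_empty (by omega)
    rw [e1, e2, e3, Finset.sum_insert (by simp)]
    simp

theorem sg_tele {M : Type*} [AddCommGroup M] (a k : ℤ) (G : ℤ → M) :
    sg a k (fun m => G (m + 1) - G m) = G k - G a := by
  induction k using Int.inductionOn' (b := a) with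
  | zero => simp [sg_self]
  | succ k hk ih => rw [sg_succ, ih]; abel
  | pred k hk ih =>
    have := sg_succ a (k - 1) (fun m => G (m + 1) - G m)
    rw [sub_add_cancel] at this
    have h2 : sg a (k - 1) (fun m => G (m + 1) - G m) =
        sg a k (fun m => G (m + 1) - G m) - (G k - G (k - 1)) := by
      rw [this]; abel
    rw [h2, ih]; abel

theorem map_sg {M N : Type*} [AddCommGroup M] [AddCommGroup N] (f : M →+ N) (a k : ℤ)
    (F : ℤ → M) : f (sg a k F) = sg a k (fun m => f (F m)) := by
  unfold sg
  rw [map_sub, map_sum, map_sum]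

theorem sg_sub {M : Type*} [AddCommGroup M] (a k : ℤ) (F G : ℤ → M) :
    sg a k (fun m => F m - G m) = sg a k F - sg a k G := by
  unfold sg
  rw [Finset.sum_sub_distrib, Finset.sum_sub_distrib]
  abel

theorem sg_add {M : Type*} [AddCommGroup M] (a k : ℤ) (F G : ℤ → M) :
    sg a k (fun m => F m + G m) = sg a k F + sg a k G := by
  unfold sg
  rw [Finset.sum_add_distrib, Finset.sum_add_distrib]
  abel

/-- cone of a cell with vertex `a` -/
noncomputable def Kc (R : Type*) [CommRing R] : (n : ℕ) → (Fin n → ℤ) → Cell n → Ch R n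
  | 0, _, _ => 0
  | n + 1, a, s =>
    if (s 0).2 then 0
    else sg (a 0) (s 0).1 (fun m => single (Fin.cons (m, true) (Fin.tail s) : Cell (n + 1)) 1) +
      ins (a 0, false) (Kc R n (Fin.tail a) (Fin.tail s))

/-- the cone operator with vertex `a` -/
noncomputable def K (R : Type*) [CommRing R] (n : ℕ) (a : Fin n → ℤ) : Ch R n →ₗ[R] Ch R n :=
  Finsupp.linearCombination R (Kc R n a)

theorem K_single {n : ℕ} (a : Fin n → ℤ) (s : Cell n) (r : R) :
    K R n a (single s r) = r • Kc R n a s := by
  simp [K]

theorem K_ins_true {n : ℕ} (a : Fin (n + 1) → ℤ) (k : ℤ) (x : Ch R n) :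
    K R (n + 1) a (ins (k, true) x) = 0 := by
  induction x using Finsupp.induction_linear with
  | zero => simp
  | add x y hx hy => simp only [map_add, hx, hy, add_zero]
  | single s r => rw [ins_single, K_single]; simp [Kc]

theorem sg_smul {M : Type*} [AddCommGroup M] [Module R M] (r : R) (a k : ℤ) (F : ℤ → M) :
    r • sg a k F = sg a k (fun m => r • F m) := by
  unfold sg
  rw [smul_sub, Finset.smul_sum, Finset.smul_sum]

theorem K_ins_false {n : ℕ} (a : Fin (n + 1) → ℤ) (k : ℤ) (x : Ch R n) :
    K R (n + 1) a (ins (k, false) x) =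
      sg (a 0) k (fun m => ins (m, true) x) + ins (a 0, false) (K R n (Fin.tail a) x) := by
  induction x using Finsupp.induction_linear with
  | zero => simp [sg]
  | add x y hx hy =>
    simp only [map_add, hx, hy]
    rw [sg_add]
    abel
  | single s r =>
    rw [ins_single, K_single, K_single, map_smul]
    simp only [Kc, Fin.cons_zero, Fin.tail_cons, Bool.false_eq_true, if_false, smul_add, sg_smul,
      ins_single, smul_single, smul_eq_mul, mul_one]

/-- the vertex `a` -/
def vx {n : ℕ} (a : Fin n → ℤ) : Cell n := fun i => (a i, false)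

theorem cons_vx {n : ℕ} (a : Fin (n + 1) → ℤ) :
    (Fin.cons (a 0, false) (vx (Fin.tail a)) : Cell (n + 1)) = vx a := by
  funext i
  refine Fin.cases ?_ (fun i => ?_) i
  · rfl
  · rfl

theorem dim_vx {n : ℕ} (a : Fin n → ℤ) : dim (vx a) = 0 := by
  simp [dim, vx]

/-- **the cone homotopy** -/
theorem d_K {n : ℕ} (a : Fin n → ℤ) (x : Ch R n) :
    d R n (K R n a x) + K R n a (d R n x) = x - single (vx a) (aug R n x) := by
  induction n with
  | zero =>
    rw [d_zero, d_zero, map_zero, add_zero]
    induction x using Finsupp.induction_linear with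
    | zero => simp
    | add x y hx hy =>
      rw [map_add, single_add]
      have : x + y - (single (vx a) (aug R 0 x) + single (vx a) (aug R 0 y)) =
        (x - single (vx a) (aug R 0 x)) + (y - single (vx a) (aug R 0 y)) := by abel
      rw [this, ← hx, ← hy, add_zero]
    | single s r =>
      have h1 : s = vx a := Subsingleton.elim _ _
      rw [aug_single, h1, dim_vx, if_pos rfl, sub_self]
  | succ n ih =>
    induction x using ind with
    | h0 => simp
    | hadd x y hx hy =>
      have : x + y - single (vx a) (aug R (n + 1) (x + y)) =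
        (x - single (vx a) (aug R (n + 1) x)) + (y - single (vx a) (aug R (n + 1) y)) := by
        rw [map_add, single_add]; abel
      rw [this, ← hx, ← hy]
      simp only [map_add]
      abel
    | hins c x =>
    obtain ⟨k, b⟩ := c
    cases b with
    | false =>
      have e1 : d R (n + 1) (sg (a 0) k (fun m => ins (m, true) x)) =
          ins (k, false) x - ins (a 0, false) x - sg (a 0) k (fun m => ins (m, true) (d R n x)) := by
        have := map_sg (d R (n + 1)).toAddMonoidHom (a 0) k (fun m => ins (m, true) x)
        simp only [LinearMap.toAddMonoidHom_coe, d_ins_true] at this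
        rw [this, sg_sub, sg_tele (a 0) k (fun m => ins (m, false) x)]
      rw [K_ins_false, d_ins_false, K_ins_false, map_add, e1, d_ins_false, aug_ins_false]
      have h := ih (Fin.tail a) x
      have h2 : ins (a 0, false) (d R n (K R n (Fin.tail a) x)) +
          ins (a 0, false) (K R n (Fin.tail a) (d R n x)) =
          ins (a 0, false) x - single (vx a) (aug R n x) := by
        rw [← map_add, h, map_sub, ins_single, cons_vx]
      have h3 : ins (a 0, false) (d R n (K R n (Fin.tail a) x)) =
          ins (a 0, false) x - single (vx a) (aug R n x) -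
          ins (a 0, false) (K R n (Fin.tail a) (d R n x)) := by
        rw [← h2]; abel
      rw [h3]
      abel
    | true =>
      rw [K_ins_true, map_zero, zero_add, d_ins_true, map_sub, map_sub, K_ins_true, K_ins_false,
        K_ins_false, sg_succ, aug_ins_true, single_zero]
      abel

/-! ### degrees and boxes -/

theorem lc_mem {n : ℕ} {M : Type*} [AddCommGroup M] [Module R M] (P : Submodule R M)
    (v : Cell n → M) (x : Ch R n) (h : ∀ s ∈ x.support, v s ∈ P) :
    Finsupp.linearCombination R v x ∈ P := by
  rw [Finsupp.linearCombination_apply, Finsupp.sum]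
  exact Submodule.sum_mem _ fun s hs => P.smul_mem _ (h s hs)


theorem d_eq_zero_of_Dg {n : ℕ} {x : Ch R n} (hx : x ∈ Dg R n 0) : d R n x = 0 := by
  unfold d
  rw [Finsupp.linearCombination_apply, Finsupp.sum]
  refine Finset.sum_eq_zero fun s hs => ?_
  rw [bd_eq_zero s ((Finsupp.mem_supported R x).1 hx hs), smul_zero]

theorem aug_eq_zero {n k : ℕ} {x : Ch R n} (hx : x ∈ Dg R n (k + 1)) : aug R n x = 0 := by
  unfold aug
  rw [Finsupp.linearCombination_apply, Finsupp.sum]
  refine Finset.sum_eq_zero fun s hs => ?_
  have : dim s = k + 1 := (Finsupp.mem_supported R x).1 hx hs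
  rw [if_neg (by omega), smul_zero]

theorem sg_mem {M : Type*} [AddCommGroup M] [Module R M] (P : Submodule R M) (a k : ℤ)
    (F : ℤ → M) (h : ∀ m, min a k ≤ m → m < max a k → F m ∈ P) : sg a k F ∈ P := by
  unfold sg
  refine sub_mem (Submodule.sum_mem _ fun m hm => ?_) (Submodule.sum_mem _ fun m hm => ?_)
  · rw [Finset.mem_Ico] at hm
    exact h m (by omega) (by omega)
  · rw [Finset.mem_Ico] at hm
    exact h m (by omega) (by omega)

theorem Kc_mem_Dg {n : ℕ} (a : Fin n → ℤ) (s : Cell n) {k : ℕ} (hk : dim s = k) :
    Kc R n a s ∈ Dg R n (k + 1) := by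
  induction n generalizing k with
  | zero => exact zero_mem _
  | succ n ih =>
    rw [dim_eq] at hk
    unfold Kc
    by_cases hb : (s 0).2 = true
    · rw [if_pos hb]; exact zero_mem _
    · rw [if_neg hb]
      rw [if_neg hb, Nat.zero_add] at hk
      refine add_mem (sg_mem _ _ _ _ fun m _ _ => ?_) ?_
      · have := single_mem_Dg (Fin.cons (m, true) (Fin.tail s) : Cell (n + 1)) (1 : R)
        rw [dim_cons] at this
        convert this using 2
        simp [hk, Nat.add_comm]
      · have := ins_mem_Dg (a 0, false) (ih (Fin.tail a) (Fin.tail s) hk)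
        convert this using 2
        simp

theorem K_mem_Dg {n k : ℕ} (a : Fin n → ℤ) {x : Ch R n} (hx : x ∈ Dg R n k) :
    K R n a x ∈ Dg R n (k + 1) :=
  lc_mem _ _ _ fun s hs => Kc_mem_Dg a s ((Finsupp.mem_supported R x).1 hx hs)

/-- cells of the box `[lo, hi]` -/
def InBox {n : ℕ} (lo hi : Fin n → ℤ) (s : Cell n) : Prop :=
  ∀ i, lo i ≤ (s i).1 ∧ (s i).1 + (if (s i).2 then 1 else 0) ≤ hi i

/-- chains in the box `[lo, hi]` -/
def Bx (R : Type*) [CommRing R] {n : ℕ} (lo hi : Fin n → ℤ) : Submodule R (Ch R n) :=
  Finsupp.supported R R {s | InBox lo hi s}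

theorem mem_Bx {n : ℕ} {lo hi : Fin n → ℤ} {x : Ch R n} :
    x ∈ Bx R lo hi ↔ ∀ s ∈ x.support, InBox lo hi s :=
  Finsupp.mem_supported R x

theorem single_mem_Bx {n : ℕ} {lo hi : Fin n → ℤ} {s : Cell n} (h : InBox lo hi s) (r : R) :
    single s r ∈ Bx R lo hi :=
  Finsupp.single_mem_supported R _ h

theorem Bx_mono {n : ℕ} {lo hi lo' hi' : Fin n → ℤ} (h1 : ∀ i, lo' i ≤ lo i)
    (h2 : ∀ i, hi i ≤ hi' i) : Bx R lo hi ≤ Bx R lo' hi' := by
  apply Finsupp.supported_mono
  intro s hs i
  exact ⟨(h1 i).trans (hs i).1, (hs i).2.trans (h2 i)⟩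

theorem inBox_cons {n : ℕ} {lo hi : Fin (n + 1) → ℤ} {c : ℤ × Bool} {s : Cell n} :
    InBox lo hi (Fin.cons c s : Cell (n + 1)) ↔
      (lo 0 ≤ c.1 ∧ c.1 + (if c.2 then 1 else 0) ≤ hi 0) ∧ InBox (Fin.tail lo) (Fin.tail hi) s := by
  unfold InBox
  rw [Fin.forall_fin_succ]
  rfl

theorem inBox_tail {n : ℕ} {lo hi : Fin (n + 1) → ℤ} {s : Cell (n + 1)} (h : InBox lo hi s) :
    InBox (Fin.tail lo) (Fin.tail hi) (Fin.tail s) := fun i => h i.succ

theorem ins_mem_Bx {n : ℕ} {lo hi : Fin (n + 1) → ℤ} {c : ℤ × Bool}
    (hc : lo 0 ≤ c.1 ∧ c.1 + (if c.2 then 1 else 0) ≤ hi 0) {x : Ch R n}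
    (hx : x ∈ Bx R (Fin.tail lo) (Fin.tail hi)) : ins c x ∈ Bx R lo hi := by
  classical
  rw [mem_Bx] at *
  intro s hs
  have h1 := Finsupp.mapDomain_support hs
  rw [Finset.mem_image] at h1
  obtain ⟨t, ht, rfl⟩ := h1
  exact inBox_cons.2 ⟨hc, hx t ht⟩

theorem bd_mem_Bx {n : ℕ} {lo hi : Fin n → ℤ} {s : Cell n} (h : InBox lo hi s) :
    bd R n s ∈ Bx R lo hi := by
  induction n with
  | zero => exact zero_mem _
  | succ n ih =>
    have h0 := h 0
    have ht := inBox_tail h
    unfold bd
    by_cases hb : (s 0).2 = true
    · rw [if_pos hb]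
      rw [if_pos hb] at h0
      refine sub_mem (sub_mem ?_ ?_) ?_
      · exact single_mem_Bx (inBox_cons.2 ⟨⟨by simp only; omega, by simp only; simp; omega⟩, ht⟩) _
      · exact single_mem_Bx (inBox_cons.2 ⟨⟨by simp only; omega, by simp only; simp; omega⟩, ht⟩) _
      · exact ins_mem_Bx (h 0) (ih ht)
    · rw [if_neg hb]
      exact ins_mem_Bx (h 0) (ih ht)

theorem d_mem_Bx {n : ℕ} {lo hi : Fin n → ℤ} {x : Ch R n} (hx : x ∈ Bx R lo hi) :
    d R n x ∈ Bx R lo hi :=
  lc_mem _ _ _ fun s hs => bd_mem_Bx (mem_Bx.1 hx s hs)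

theorem Kc_mem_Bx {n : ℕ} {lo hi : Fin n → ℤ} {a : Fin n → ℤ} (ha : ∀ i, lo i ≤ a i ∧ a i ≤ hi i)
    {s : Cell n} (h : InBox lo hi s) : Kc R n a s ∈ Bx R lo hi := by
  induction n with
  | zero => exact zero_mem _
  | succ n ih =>
    have h0 := h 0
    have ha0 := ha 0
    have ht := inBox_tail h
    unfold Kc
    by_cases hb : (s 0).2 = true
    · rw [if_pos hb]; exact zero_mem _
    · rw [if_neg hb]
      rw [if_neg hb] at h0
      refine add_mem (sg_mem _ _ _ _ fun m h1 h2 => ?_) ?_
      · exact single_mem_Bx (inBox_cons.2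
          ⟨⟨by simp only; omega, by simp only; simp; omega⟩, ht⟩) _
      · exact ins_mem_Bx (by simpa using ha0) (ih (fun i => ha i.succ) ht)

theorem K_mem_Bx {n : ℕ} {lo hi : Fin n → ℤ} {a : Fin n → ℤ} (ha : ∀ i, lo i ≤ a i ∧ a i ≤ hi i)
    {x : Ch R n} (hx : x ∈ Bx R lo hi) : K R n a x ∈ Bx R lo hi :=
  lc_mem _ _ _ fun s hs => Kc_mem_Bx ha (mem_Bx.1 hx s hs)

/-! ### faces -/

/-- `t` is a facet of `s` -/
def IsFace {n : ℕ} (t s : Cell n) : Prop :=
  ∃ i, (s i).2 = true ∧
    (t = Function.update s i ((s i).1, false) ∨ t = Function.update s i ((s i).1 + 1, false))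

theorem isFace_of_mem_bd {n : ℕ} {s t : Cell n} (h : t ∈ (bd R n s).support) : IsFace t s := by
  classical
  induction n with
  | zero => simp [bd] at h
  | succ n ih =>
    have key : t ∈ (ins (s 0) (bd R n (Fin.tail s))).support → IsFace t s := by
      intro h1
      have h2 := Finsupp.mapDomain_support h1
      rw [Finset.mem_image] at h2
      obtain ⟨u, hu, rfl⟩ := h2
      obtain ⟨i, hi, hu2⟩ := ih hu
      refine ⟨i.succ, hi, ?_⟩
      rcases hu2 with rfl | rfl
      · left
        conv_rhs => rw [← Fin.cons_self_tail s]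
        rw [Fin.cons_update]
        rfl
      · right
        conv_rhs => rw [← Fin.cons_self_tail s]
        rw [Fin.cons_update]
        rfl
    unfold bd at h
    by_cases hb : (s 0).2 = true
    · rw [if_pos hb] at h
      have h1 := Finsupp.support_sub h
      rw [Finset.mem_union] at h1
      rcases h1 with h1 | h1
      · have h2 := Finsupp.support_sub h1
        rw [Finset.mem_union] at h2
        rcases h2 with h2 | h2
        · have h3 := Finsupp.support_single_subset h2
          rw [Finset.mem_singleton] at h3
          refine ⟨0, hb, Or.inr ?_⟩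
          rw [h3]
          conv_rhs => rw [← Fin.cons_self_tail s]
          rw [Fin.update_cons_zero]
          simp
        · have h3 := Finsupp.support_single_subset h2
          rw [Finset.mem_singleton] at h3
          refine ⟨0, hb, Or.inl ?_⟩
          rw [h3]
          conv_rhs => rw [← Fin.cons_self_tail s]
          rw [Fin.update_cons_zero]
          simp
      · exact key h1
    · rw [if_neg hb] at h
      exact key h

/-! ### recursion over the dimension -/

theorem map_eq_sum {n : ℕ} {M : Type*} [AddCommGroup M] [Module R M] (φ : Ch R n →ₗ[R] M)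
    (x : Ch R n) : φ x = Finsupp.linearCombination R (fun s => φ (single s 1)) x := by
  induction x using Finsupp.induction_linear with
  | zero => simp
  | add x y hx hy => rw [map_add, map_add, hx, hy]
  | single s r =>
    rw [Finsupp.linearCombination_single, ← map_smul, smul_single, smul_eq_mul, mul_one]

theorem map_congr {n : ℕ} {M : Type*} [AddCommGroup M] [Module R M] (φ ψ : Ch R n →ₗ[R] M)
    (x : Ch R n) (h : ∀ s ∈ x.support, φ (single s 1) = ψ (single s 1)) : φ x = ψ x := by
  rw [map_eq_sum φ, map_eq_sum ψ, Finsupp.linearCombination_apply,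
    Finsupp.linearCombination_apply]
  exact Finset.sum_congr rfl fun s hs => by simp only [h s hs]

/-- iteration used in the recursion over the dimension -/
noncomputable def itF {n : ℕ} (G : Cell n → Ch R n → Ch R n) : ℕ → (Ch R n →ₗ[R] Ch R n)
  | 0 => 0
  | k + 1 => Finsupp.linearCombination R (fun s => G s (itF G k (bd R n s)))

/-- recursion over the dimension of the cells -/
theorem exists_rec {n : ℕ} (G : Cell n → Ch R n → Ch R n) :
    ∃ φ : Ch R n →ₗ[R] Ch R n, ∀ s, φ (single s 1) = G s (φ (bd R n s)) := by
  obtain ⟨F, hF⟩ : ∃ F : ℕ → (Ch R n →ₗ[R] Ch R n),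
      ∀ k s, F (k + 1) (single s 1) = G s (F k (bd R n s)) := by
    refine ⟨itF G, fun k s => ?_⟩
    change Finsupp.linearCombination R (fun s => G s (itF G k (bd R n s))) (single s 1) = _
    rw [Finsupp.linearCombination_single, one_smul]
  have key : ∀ k s, dim s < k → F k (single s 1) = F (k + 1) (single s 1) := by
    intro k
    induction k with
    | zero => intro s hs; omega
    | succ k ih =>
      intro s hs
      rw [hF k s, hF (k + 1) s]
      congr 1
      rcases Nat.eq_zero_or_pos (dim s) with h0 | h0
      · rw [bd_eq_zero s h0, map_zero, map_zero]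
      · obtain ⟨j, hj⟩ := Nat.exists_eq_add_of_lt h0
        have hj' : dim s = j + 1 := by omega
        refine map_congr _ _ _ fun t ht => ih t ?_
        have : dim t = j := (Finsupp.mem_supported R _).1 (bd_mem_Dg s hj') ht
        omega
  refine ⟨F (n + 1), fun s => ?_⟩
  rw [← hF (n + 1) s]
  refine key (n + 1) s ?_
  have := dim_le s
  omega

/-! ### acyclic carriers -/

section carriers
variable {n : ℕ} {KK : Set (Cell n)} {lo hi : Cell n → Fin n → ℤ}

theorem mem_of_faces {φ : Ch R n →ₗ[R] Ch R n}
    (hmono : ∀ s ∈ KK, ∀ t, IsFace t s → (∀ i, lo s i ≤ lo t i) ∧ (∀ i, hi t i ≤ hi s i))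
    {s : Cell n} (hs : s ∈ KK)
    (h : ∀ t ∈ (bd R n s).support, φ (single t 1) ∈ Bx R (lo t) (hi t)) :
    φ (bd R n s) ∈ Bx R (lo s) (hi s) := by
  rw [map_eq_sum φ]
  refine lc_mem _ _ _ fun t ht => ?_
  have := hmono s hs t (isFace_of_mem_bd ht)
  exact Bx_mono this.1 this.2 (h t ht)

theorem mem_Dg_of_faces {φ : Ch R n →ₗ[R] Ch R n} {s : Cell n} {j l : ℕ} (hj : dim s = j + 1)
    (h : ∀ t ∈ (bd R n s).support, φ (single t 1) ∈ Dg R n (dim t + l)) :
    φ (bd R n s) ∈ Dg R n (j + l) := by
  rw [map_eq_sum φ]
  refine lc_mem _ _ _ fun t ht => ?_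
  have : dim t = j := (Finsupp.mem_supported R _).1 (bd_mem_Dg s hj) ht
  rw [← this]
  exact h t ht

/-- **existence of a carried chain map** -/
theorem exists_map (KK : Set (Cell n)) (lo hi : Cell n → Fin n → ℤ)
    (hface : ∀ s ∈ KK, ∀ t, IsFace t s → t ∈ KK)
    (hle : ∀ s ∈ KK, ∀ i, lo s i ≤ hi s i)
    (hmono : ∀ s ∈ KK, ∀ t, IsFace t s → (∀ i, lo s i ≤ lo t i) ∧ (∀ i, hi t i ≤ hi s i))
    (φ0 : Cell n → Ch R n)
    (h0 : ∀ s ∈ KK, dim s = 0 →
      φ0 s ∈ Dg R n 0 ∧ φ0 s ∈ Bx R (lo s) (hi s) ∧ aug R n (φ0 s) = 1) :
    ∃ φ : Ch R n →ₗ[R] Ch R n, (∀ s, dim s = 0 → φ (single s 1) = φ0 s) ∧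
      ∀ s ∈ KK, φ (single s 1) ∈ Dg R n (dim s) ∧ φ (single s 1) ∈ Bx R (lo s) (hi s) ∧
        d R n (φ (single s 1)) = φ (bd R n s) := by
  obtain ⟨φ, hφ⟩ := exists_rec (fun (s : Cell n) (y : Ch R n) =>
    if dim s = 0 then φ0 s else K R n (lo s) y)
  have hv : ∀ s, dim s = 0 → φ (single s 1) = φ0 s := by
    intro s hs
    rw [hφ, if_pos hs]
  refine ⟨φ, hv, ?_⟩
  have key : ∀ k, ∀ s ∈ KK, dim s = k → φ (single s 1) ∈ Dg R n (dim s) ∧
      φ (single s 1) ∈ Bx R (lo s) (hi s) ∧ d R n (φ (single s 1)) = φ (bd R n s) := by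
    intro k
    induction k with
    | zero =>
      intro s hs hk
      rw [hv s hk, hk]
      obtain ⟨h1, h2, h3⟩ := h0 s hs hk
      refine ⟨h1, h2, ?_⟩
      rw [d_eq_zero_of_Dg h1, bd_eq_zero s hk, map_zero]
    | succ j ih =>
      intro s hs hk
      have hdt : ∀ t ∈ (bd R n s).support, t ∈ KK ∧ dim t = j := fun t ht =>
        ⟨hface s hs t (isFace_of_mem_bd ht), (Finsupp.mem_supported R _).1 (bd_mem_Dg s hk) ht⟩
      have hyD : φ (bd R n s) ∈ Dg R n (j + 0) := mem_Dg_of_faces hk fun t ht => by
        have := hdt t ht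
        exact (ih t this.1 this.2).1
      have hyB : φ (bd R n s) ∈ Bx R (lo s) (hi s) := mem_of_faces hmono hs fun t ht => by
        have := hdt t ht
        exact (ih t this.1 this.2).2.1
      have hs1 : φ (single s 1) = K R n (lo s) (φ (bd R n s)) := by
        rw [hφ, if_neg (by omega)]
      have hdy : d R n (φ (bd R n s)) = 0 := by
        have e1 : (d R n ∘ₗ φ) (bd R n s) = (φ ∘ₗ d R n) (bd R n s) := by
          refine map_congr _ _ _ fun t ht => ?_
          have := hdt t ht
          simp only [LinearMap.comp_apply]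
          rw [(ih t this.1 this.2).2.2, d_single, one_smul]
        simp only [LinearMap.comp_apply] at e1
        rw [e1]
        have : d R n (bd R n s) = 0 := by
          have := d_d (R := R) (single s 1)
          rwa [d_single, one_smul] at this
        rw [this, map_zero]
      have haug : aug R n (φ (bd R n s)) = 0 := by
        rcases j with _ | j
        · have e1 : (aug R n ∘ₗ φ) (bd R n s) = aug R n (bd R n s) := by
            refine map_congr _ _ _ fun t ht => ?_
            have := hdt t ht
            simp only [LinearMap.comp_apply]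
            rw [hv t this.2, (h0 t this.1 this.2).2.2, aug_single, if_pos this.2]
          simp only [LinearMap.comp_apply] at e1
          rw [e1]
          have := aug_d (R := R) (single s 1)
          rwa [d_single, one_smul] at this
        · exact aug_eq_zero hyD
      refine ⟨?_, ?_, ?_⟩
      · rw [hs1, hk]
        exact K_mem_Dg _ hyD
      · rw [hs1]
        exact K_mem_Bx (fun i => ⟨le_rfl, hle s hs i⟩) hyB
      · have := d_K (lo s) (φ (bd R n s))
        rw [hdy, map_zero, add_zero, haug, single_zero, sub_zero] at this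
        rw [hs1, this]
  exact fun s hs => key _ s hs rfl

/-- **homotopy lemma**: a carried chain map of augmentation `0` is carried null-homotopic -/
theorem exists_homotopy (KK : Set (Cell n)) (lo hi : Cell n → Fin n → ℤ)
    (hface : ∀ s ∈ KK, ∀ t, IsFace t s → t ∈ KK)
    (hle : ∀ s ∈ KK, ∀ i, lo s i ≤ hi s i)
    (hmono : ∀ s ∈ KK, ∀ t, IsFace t s → (∀ i, lo s i ≤ lo t i) ∧ (∀ i, hi t i ≤ hi s i))
    (F : Ch R n →ₗ[R] Ch R n)
    (hF : ∀ s ∈ KK, F (single s 1) ∈ Dg R n (dim s) ∧ F (single s 1) ∈ Bx R (lo s) (hi s) ∧
        d R n (F (single s 1)) = F (bd R n s))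
    (hF0 : ∀ s ∈ KK, dim s = 0 → aug R n (F (single s 1)) = 0) :
    ∃ h : Ch R n →ₗ[R] Ch R n, ∀ s ∈ KK, h (single s 1) ∈ Dg R n (dim s + 1) ∧
      h (single s 1) ∈ Bx R (lo s) (hi s) ∧
        d R n (h (single s 1)) + h (bd R n s) = F (single s 1) := by
  obtain ⟨h, hh⟩ := exists_rec (fun (s : Cell n) (y : Ch R n) =>
    K R n (lo s) (F (single s 1) - y))
  refine ⟨h, ?_⟩
  have key : ∀ k, ∀ s ∈ KK, dim s = k → h (single s 1) ∈ Dg R n (dim s + 1) ∧
      h (single s 1) ∈ Bx R (lo s) (hi s) ∧
      d R n (h (single s 1)) + h (bd R n s) = F (single s 1) := by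
    intro k
    induction k with
    | zero =>
      intro s hs hk
      obtain ⟨h1, h2, h3⟩ := hF s hs
      have e0 : bd R n s = 0 := bd_eq_zero s hk
      have hs1 : h (single s 1) = K R n (lo s) (F (single s 1)) := by
        rw [hh, e0, map_zero, sub_zero]
      refine ⟨?_, ?_, ?_⟩
      · rw [hs1]
        exact K_mem_Dg _ h1
      · rw [hs1]
        exact K_mem_Bx (fun i => ⟨le_rfl, hle s hs i⟩) h2
      · have := d_K (lo s) (F (single s 1))
        rw [h3, e0, map_zero, map_zero, add_zero, hF0 s hs hk, single_zero, sub_zero] at this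
        rw [hs1, e0, map_zero, add_zero, this]
    | succ j ih =>
      intro s hs hk
      obtain ⟨h1, h2, h3⟩ := hF s hs
      have hdt : ∀ t ∈ (bd R n s).support, t ∈ KK ∧ dim t = j := fun t ht =>
        ⟨hface s hs t (isFace_of_mem_bd ht), (Finsupp.mem_supported R _).1 (bd_mem_Dg s hk) ht⟩
      have hyD : h (bd R n s) ∈ Dg R n (j + 1) := mem_Dg_of_faces hk fun t ht => by
        have := hdt t ht
        exact (ih t this.1 this.2).1
      have hyB : h (bd R n s) ∈ Bx R (lo s) (hi s) := mem_of_faces hmono hs fun t ht => by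
        have := hdt t ht
        exact (ih t this.1 this.2).2.1
      have hs1 : h (single s 1) = K R n (lo s) (F (single s 1) - h (bd R n s)) := by
        rw [hh]
      have hdd : d R n (bd R n s) = 0 := by
        have := d_d (R := R) (single s 1)
        rwa [d_single, one_smul] at this
      have hdy : d R n (h (bd R n s)) = F (bd R n s) := by
        have e1 : (d R n ∘ₗ h + h ∘ₗ d R n) (bd R n s) = F (bd R n s) := by
          refine map_congr _ _ _ fun t ht => ?_
          have := hdt t ht
          simp only [LinearMap.add_apply, LinearMap.comp_apply]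
          rw [d_single, one_smul, (ih t this.1 this.2).2.2]
        simp only [LinearMap.add_apply, LinearMap.comp_apply] at e1
        rwa [hdd, map_zero, add_zero] at e1
      have hu1 : F (single s 1) - h (bd R n s) ∈ Dg R n (j + 1) := by
        rw [hk] at h1
        exact sub_mem h1 hyD
      have hu2 : F (single s 1) - h (bd R n s) ∈ Bx R (lo s) (hi s) := sub_mem h2 hyB
      have hu3 : d R n (F (single s 1) - h (bd R n s)) = 0 := by
        rw [map_sub, h3, hdy, sub_self]
      refine ⟨?_, ?_, ?_⟩
      · rw [hs1, hk]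
        exact K_mem_Dg _ hu1
      · rw [hs1]
        exact K_mem_Bx (fun i => ⟨le_rfl, hle s hs i⟩) hu2
      · have := d_K (lo s) (F (single s 1) - h (bd R n s))
        rw [hu3, map_zero, add_zero, aug_eq_zero hu1, single_zero, sub_zero] at this
        rw [hs1, this, sub_add_cancel]
  exact fun s hs => key _ s hs rfl

end carriers

/-! ### facts on faces -/

theorem dim_face {n : ℕ} {s t : Cell n} (h : IsFace t s) : dim t + 1 = dim s := by
  classical
  obtain ⟨i, hi, h⟩ := h
  have h2 : (t i).2 = false ∧ ∀ j, j ≠ i → t j = s j := by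
    rcases h with rfl | rfl
    · exact ⟨by simp, fun j hj => by simp [hj]⟩
    · exact ⟨by simp, fun j hj => by simp [hj]⟩
  unfold dim
  rw [← Finset.add_sum_erase _ _ (Finset.mem_univ i), ← Finset.add_sum_erase (a := i)
    (s := Finset.univ) (f := fun i => if (s i).2 = true then 1 else 0) (Finset.mem_univ i)]
  rw [h2.1, hi]
  have : ∑ x ∈ Finset.univ.erase i, (if (t x).2 = true then 1 else 0) =
      ∑ x ∈ Finset.univ.erase i, (if (s x).2 = true then 1 else 0) :=
    Finset.sum_congr rfl fun j hj => by rw [h2.2 j (Finset.ne_of_mem_erase hj)]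
  rw [this]
  simp
  omega


/-- the boundary of an edge -/
theorem bd_edge {n : ℕ} {e : Cell n} {i : Fin n} (hi : (e i).2 = true)
    (hne : ∀ j, j ≠ i → (e j).2 = false) :
    bd R n e = single (Function.update e i ((e i).1 + 1, false)) 1 -
      single (Function.update e i ((e i).1, false)) 1 := by
  classical
  induction n with
  | zero => exact i.elim0
  | succ n ih =>
    refine Fin.cases (motive := fun i => (e i).2 = true → (∀ j, j ≠ i → (e j).2 = false) →
      bd R (n + 1) e = single (Function.update e i ((e i).1 + 1, false)) 1 -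
      single (Function.update e i ((e i).1, false)) 1) ?_ (fun i => ?_) i hi hne
    · intro h1 h2
      have h0 : dim (Fin.tail e) = 0 := by
        unfold dim
        refine Finset.sum_eq_zero fun j _ => ?_
        have : (Fin.tail e j).2 = false := h2 j.succ (Fin.succ_ne_zero j)
        simp [this]
      unfold bd
      rw [if_pos h1, bd_eq_zero _ h0, map_zero, sub_zero]
      congr 2
      · conv_rhs => rw [← Fin.cons_self_tail e]
        rw [Fin.update_cons_zero]
        simp
      · conv_rhs => rw [← Fin.cons_self_tail e]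
        rw [Fin.update_cons_zero]
        simp
    · intro h1 h2
      have h0 : (e 0).2 = false := h2 0 (Fin.succ_ne_zero i).symm
      have := ih (e := Fin.tail e) (i := i) h1 (fun j hj => h2 j.succ (by simpa using hj))
      unfold bd
      rw [h0, if_neg (by simp), this, map_sub, ins_single, ins_single, Fin.cons_update,
        Fin.cons_update, Fin.cons_self_tail]
      rfl


theorem inBox_vx {n : ℕ} {lo hi a : Fin n → ℤ} :
    InBox lo hi (vx a) ↔ ∀ i, lo i ≤ a i ∧ a i ≤ hi i := by
  unfold InBox vx
  simp

/-- a functional which vanishes on the boundaries of the edges of a box is constant on the vertices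
of the box -/
theorem const_box {n : ℕ} {α : Ch R n →ₗ[R] R} {lo hi : Fin n → ℤ}
    (h : ∀ e, InBox lo hi e → dim e = 1 → α (bd R n e) = 0)
    {a b : Fin n → ℤ} (ha : InBox lo hi (vx a)) (hb : InBox lo hi (vx b)) :
    α (single (vx a) 1) = α (single (vx b) 1) := by
  classical
  -- one coordinate, one step
  have step : ∀ (c : Fin n → ℤ) (i : Fin n), InBox lo hi (vx c) → c i + 1 ≤ hi i →
      α (single (vx (Function.update c i (c i + 1))) 1) =
        α (single (vx c) 1) := by
    intro c i hc hci
    set e : Cell n := Function.update (vx c) i (c i, true) with he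
    have h1 : (e i).2 = true := by simp [he]
    have h2 : ∀ j, j ≠ i → (e j).2 = false := fun j hj => by simp [he, hj, vx]
    have hbox : InBox lo hi e := by
      intro j
      by_cases hj : j = i
      · subst hj
        have := hc j
        simp only [vx] at this
        simp only [he, Function.update_self]
        simp at this ⊢
        omega
      · have := hc j
        simp only [he, Function.update_of_ne hj]
        exact this
    have hdim : dim e = 1 := by
      unfold dim
      rw [Finset.sum_eq_single i]
      · simp [h1]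
      · intro j _ hj; simp [h2 j hj]
      · intro hh; exact absurd (Finset.mem_univ i) hh
    have h3 := h e hbox hdim
    rw [bd_edge h1 h2, map_sub, sub_eq_zero] at h3
    have e1 : Function.update e i ((e i).1 + 1, false) = vx (Function.update c i (c i + 1)) := by
      funext j
      by_cases hj : j = i
      · subst hj; simp [he, vx]
      · simp [he, vx, hj]
    have e2 : Function.update e i ((e i).1, false) = vx c := by
      funext j
      by_cases hj : j = i
      · subst hj; simp [he, vx]
      · simp [he, vx, hj]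
    rwa [e1, e2] at h3
  -- one coordinate
  have line : ∀ (c : Fin n → ℤ) (i : Fin n), InBox lo hi (vx c) → ∀ k : ℕ, c i + k ≤ hi i →
      α (single (vx (Function.update c i (c i + k))) 1) =
        α (single (vx c) 1) := by
    intro c i hc k
    induction k with
    | zero => intro _; simp
    | succ k ih =>
      intro hk
      rw [← ih (by push_cast at hk; omega)]
      have hc' : InBox lo hi (vx (Function.update c i (c i + k))) := by
        intro j
        by_cases hj : j = i
        · subst hj
          have := hc j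
          simp only [vx] at this ⊢
          simp at this ⊢
          push_cast at hk
          omega
        · have := hc j
          simp only [vx, Function.update_of_ne hj] at this ⊢
          exact this
      have := step _ i hc' (by simp; push_cast at hk; omega)
      rw [← this]
      simp [add_assoc]
  have line' : ∀ (c : Fin n → ℤ) (i : Fin n) (x : ℤ), InBox lo hi (vx c) → lo i ≤ x → x ≤ hi i →
      α (single (vx (Function.update c i x)) 1) =
        α (single (vx c) 1) := by
    intro c i x hc hx1 hx2
    rcases le_total (c i) x with hle | hle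
    · obtain ⟨k, hk⟩ := Int.eq_ofNat_of_zero_le (sub_nonneg.2 hle)
      have : x = c i + k := by omega
      rw [this]
      exact line c i hc k (by omega)
    · obtain ⟨k, hk⟩ := Int.eq_ofNat_of_zero_le (sub_nonneg.2 hle)
      have hc' : InBox lo hi (vx (Function.update c i x)) := by
        intro j
        by_cases hj : j = i
        · subst hj
          simp only [vx]
          simp
          omega
        · have := hc j
          simp only [vx, Function.update_of_ne hj] at this ⊢
          exact this
      have h1 := hc i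
      simp only [vx] at h1
      have := line (Function.update c i x) i hc' k (by simp at h1 ⊢; omega)
      rw [← this]
      congr 3
      have e : (Function.update c i x) i + (k : ℤ) = c i := by simp; omega
      rw [e]
      simp
  -- all coordinates
  have all : ∀ (S : Finset (Fin n)),
      α (single (vx (fun i => if i ∈ S then b i else a i)) 1) =
        α (single (vx a) 1) := by
    intro S
    induction S using Finset.induction_on with
    | empty => simp
    | insert i S hi' ih =>
      rw [← ih]
      have hc : InBox lo hi (vx (fun i => if i ∈ S then b i else a i)) := by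
        rw [inBox_vx] at *
        intro j
        have h1 := ha j
        have h2 := hb j
        split_ifs
        · exact h2
        · exact h1
      have h2 := inBox_vx.1 hb i
      have := line' _ i (b i) hc h2.1 h2.2
      rw [← this]
      congr 3
      funext j
      by_cases hj : j = i
      · subst hj; simp
      · simp [hj]
  have := all Finset.univ
  simp only [Finset.mem_univ, if_true] at this
  exact this.symm


end Crest.Agent.R217.Carrier834
private theorem rz_0f676a5001 : type_of% @_root_.Crest.Agent.R217.Carrier834.Kc.eq_def := @_root_.Crest.Agent.R217.Carrier834.Kc.eq_def -- L277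
private theorem rz_c016c7ce3e : type_of% @_root_.Crest.Agent.R217.Carrier834.Kc.eq_1 := @_root_.Crest.Agent.R217.Carrier834.Kc.eq_1 -- L277
private theorem rz_6c956329d3 : type_of% @_root_.Crest.Agent.R217.Carrier834.bd.eq_def := @_root_.Crest.Agent.R217.Carrier834.bd.eq_def -- L35
private theorem rz_f3d5db3199 : type_of% @_root_.Crest.Agent.R217.Carrier834.bd.eq_1 := @_root_.Crest.Agent.R217.Carrier834.bd.eq_1 -- L35
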