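import Crest.Agent.R217.Grid2_897
import Crest.Agent.R217.Carrier_834

/-! Row 217: comparison of the torus grid `gridT` with the integer grid of `Carrier_834`. -/

set_option autoImplicit false
set_option linter.unusedSectionVars false

open Matrix Finset
open scoped BigOperators

namespace Crest.Agent.R217.Grid897

open Crest.Agent.R217.PC473

noncomputable section

variable {N : ℕ} [NeZero N]

/-- the representative with coordinates in `(-N/2, N/2]` -/
def lift {n : ℕ} (s : Cell n N) : Carrier834.Cell n := fun i => ((s i).1.valMinAbs, (s i).2)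






theorem valMinAbs_succ {a b : ZMod N} (hb : 2 * |b.valMinAbs| + 4 ≤ N) :
    a.valMinAbs = b.valMinAbs + 1 ↔ a = b + 1 := by
  constructor
  · intro h
    rw [← ZMod.coe_valMinAbs a, h]
    push_cast
    rfl
  · intro h
    rw [ZMod.valMinAbs_spec]
    refine ⟨by rw [Int.cast_add, Int.cast_one, ZMod.coe_valMinAbs, h], ?_⟩
    have h1 := abs_le.mp (le_refl |b.valMinAbs|)
    rw [Set.mem_Ioc]
    constructor <;> omega


/-- the augmentation vector -/
def isv {n : ℕ} (t : Cell n N) : Prop := ∀ i, (t i).2 = false

instance {n : ℕ} (t : Cell n N) : Decidable (isv t) := by unfold isv; infer_instance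




/-! ### exact push-forward -/





/-! ### block form: `J × vertices`, `J = Fin n → Bool` -/

/-- block index -/
abbrev JJ (n : ℕ) := Fin n → Bool

/-- vertices -/
abbrev VV (n N : ℕ) := Fin n → ZMod N

/-- cells = block index and vertex -/
def cellEquiv (n N : ℕ) : JJ n × VV n N ≃ Cell n N where
  toFun p := fun i => (p.2 i, p.1 i)
  invFun x := (fun i => (x i).2, fun i => (x i).1)
  left_inv _ := rfl
  right_inv _ := rfl

/-- the block form of a matrix on cells -/
def blk (n N : ℕ) [NeZero N] :
    Matrix (Cell n N) (Cell n N) ℂ →+* Matrix (JJ n) (JJ n) (Matrix (VV n N) (VV n N) ℂ) where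
  toFun M := Matrix.of fun i j => Matrix.of fun v w =>
    M (cellEquiv n N (i, v)) (cellEquiv n N (j, w))
  map_one' := by
    ext i j v w
    by_cases hij : i = j
    · subst hij
      by_cases hvw : v = w
      · subst hvw; simp
      · have : cellEquiv n N (i, v) ≠ cellEquiv n N (i, w) := fun h =>
          hvw (congrArg Prod.snd ((cellEquiv n N).injective h))
        simp [Matrix.one_apply_ne this, Matrix.one_apply_ne hvw]
    · have : cellEquiv n N (i, v) ≠ cellEquiv n N (j, w) := fun h =>
          hij (congrArg Prod.fst ((cellEquiv n N).injective h))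
      simp [Matrix.one_apply_ne this, Matrix.one_apply_ne hij]
  map_mul' A B := by
    ext i j v w
    simp only [Matrix.of_apply, Matrix.mul_apply, Matrix.sum_apply]
    rw [← (cellEquiv n N).sum_comp, Fintype.sum_prod_type]
  map_zero' := by ext i j v w; simp
  map_add' A B := by ext i j v w; simp

theorem blk_apply (n N : ℕ) [NeZero N] (M : Matrix (Cell n N) (Cell n N) ℂ) (i j : JJ n)
    (v w : VV n N) : blk n N M i j v w = M (cellEquiv n N (i, v)) (cellEquiv n N (j, w)) := rfl


theorem blk_smul (n N : ℕ) [NeZero N] (c : ℂ) (M : Matrix (Cell n N) (Cell n N) ℂ) :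
    blk n N (c • M) = c • blk n N M := by
  ext i j v w
  rfl

/-- degree of a block -/
def degJ {n : ℕ} (j : JJ n) : ℕ := ∑ i, if j i then 1 else 0

theorem dm_cellEquiv {n N : ℕ} (i : JJ n) (v : VV n N) : dm N (cellEquiv n N (i, v)) = degJ i := rfl

/-- the grid tuple in block form -/
def gridB (N n : ℕ) [NeZero N] : Tup (Matrix (JJ n) (JJ n) (Matrix (VV n N) (VV n N) ℂ)) :=
  (gridT N n).map (blk n N)



theorem gridB_g (N n : ℕ) [NeZero N] :
    (gridB N n).g = Matrix.diagonal fun j => (-1) ^ degJ j := by
  show blk n N (gridT N n).g = _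
  ext i j v w
  rw [blk_apply, gridT_g_apply, Matrix.diagonal_apply]
  by_cases hij : i = j
  · subst hij
    rw [if_pos rfl]
    have hq : ((-1 : Matrix (VV n N) (VV n N) ℂ) ^ degJ i) = Matrix.diagonal fun _ => (-1 : ℂ) ^ degJ i := by
      rcases neg_one_pow_cases (A := Matrix (VV n N) (VV n N) ℂ) (degJ i) with
        ⟨h1, h2⟩ | ⟨h1, h2⟩ <;> rw [h1, h2]
      · exact Matrix.diagonal_one.symm
      · ext a b
        rw [Matrix.neg_apply, Matrix.one_apply, Matrix.diagonal_apply]
        split_ifs <;> simp
    rw [hq, Matrix.diagonal_apply, dm_cellEquiv]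
    by_cases hvw : v = w
    · subst hvw; simp
    · have : cellEquiv n N (i, v) ≠ cellEquiv n N (i, w) := fun h =>
          hvw (congrArg Prod.snd ((cellEquiv n N).injective h))
      rw [if_neg this, if_neg hvw]
  · have : cellEquiv n N (i, v) ≠ cellEquiv n N (j, w) := fun h =>
          hij (congrArg Prod.fst ((cellEquiv n N).injective h))
    rw [if_neg this, if_neg hij]
    rfl




end

end Crest.Agent.R217.Grid897
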