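import Mathlib
import Crest.Agent.R217.PC_473

/-!
Row 217 (S0336), part C, module M7 (pure algebra): averaging a homotopy action.

* `IsMap s dl dr x` : `x` is a graded map (sign `s = ±1`), `dl x = x dr`, in the corner `p A p`.
* `Ho s dl dr x y` : `x = y + dl h + h dr` with `h` graded (odd) in the corner.
  Objects: `D` has differential `d`, `D*` has differential `- star d`.
* `rp_of` : `e e ~ e`, `e S ~ S e*`  ⟹  `(e S e*, e* T e)` is a regular pair.
* `rp_one`, `rp_zero` : the cases `e ~ p`, `e ~ 0`.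
* `rp_avg` : `e = (1/|Γ|) ∑ τ(-i) η_i` for a homotopy action `η` of a finite abelian group `Γ`,
  preserving `S` up to homotopy, and a central unitary character `τ`.
-/

set_option autoImplicit false
set_option linter.unusedSectionVars false

namespace Crest.Agent.R217.Avg557

open PC473

variable {A : Type*} [Ring A] [StarRing A]

/-- graded map of sign `s` from the complex with differential `dr` to the one with `dl`. -/
structure IsMap (p g s dl dr x : A) : Prop where
  px : p * x = x
  xp : x * p = x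
  gx : g * x = s * (x * g)
  dx : dl * x = x * dr

/-- homotopy of graded maps. -/
def Ho (p g s dl dr x y : A) : Prop :=
  ∃ h, p * h = h ∧ h * p = h ∧ g * h = -(s * (h * g)) ∧ x = y + dl * h + h * dr

section basic

variable {p g s s' dl dr dm x y z w : A}

theorem Ho.refl : Ho p g s dl dr x x := ⟨0, by simp, by simp, by simp, by simp⟩

theorem Ho.of_eq (h : x = y) : Ho p g s dl dr x y := h ▸ Ho.refl

theorem Ho.symm (h : Ho p g s dl dr x y) : Ho p g s dl dr y x := by
  obtain ⟨h, h1, h2, h3, h4⟩ := h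
  refine ⟨-h, by rw [mul_neg, h1], by rw [neg_mul, h2], by rw [mul_neg, h3]; noncomm_ring, ?_⟩
  rw [h4]; noncomm_ring

theorem Ho.trans (h : Ho p g s dl dr x y) (h' : Ho p g s dl dr y z) : Ho p g s dl dr x z := by
  obtain ⟨h, h1, h2, h3, h4⟩ := h
  obtain ⟨k, k1, k2, k3, k4⟩ := h'
  refine ⟨h + k, by rw [mul_add, h1, k1], by rw [add_mul, h2, k2],
    by rw [mul_add, h3, k3]; noncomm_ring, ?_⟩
  rw [h4, k4]; noncomm_ring

theorem Ho.add {x' y' : A} (h : Ho p g s dl dr x y) (h' : Ho p g s dl dr x' y') :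
    Ho p g s dl dr (x + x') (y + y') := by
  obtain ⟨h, h1, h2, h3, h4⟩ := h
  obtain ⟨k, k1, k2, k3, k4⟩ := h'
  refine ⟨h + k, by rw [mul_add, h1, k1], by rw [add_mul, h2, k2],
    by rw [mul_add, h3, k3]; noncomm_ring, ?_⟩
  rw [h4, k4]; noncomm_ring

theorem Ho.sum {ι : Type*} (I : Finset ι) (f f' : ι → A)
    (h : ∀ i ∈ I, Ho p g s dl dr (f i) (f' i)) :
    Ho p g s dl dr (∑ i ∈ I, f i) (∑ i ∈ I, f' i) := by
  classical
  induction I using Finset.induction_on with
  | empty => simpa using Ho.refl
  | insert a I ha ih =>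
    rw [Finset.sum_insert ha, Finset.sum_insert ha]
    exact (h a (Finset.mem_insert_self _ _)).add
      (ih fun i hi => h i (Finset.mem_insert_of_mem hi))

/-- left composition -/
theorem Ho.mul_left (hs : s' = 1 ∨ s' = -1) (hs2 : s = 1 ∨ s = -1) (hz : IsMap p g s' dl dm z)
    (h : Ho p g s dm dr x y) : Ho p g (s' * s) dl dr (z * x) (z * y) := by
  obtain ⟨h, h1, h2, h3, h4⟩ := h
  refine ⟨z * h, by rw [← mul_assoc, hz.px], by rw [mul_assoc, h2], ?_, ?_⟩
  · rw [← mul_assoc, hz.gx, mul_assoc, mul_assoc, h3]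
    rcases hs with rfl | rfl <;> rcases hs2 with rfl | rfl <;> noncomm_ring
  · rw [h4, mul_add, mul_add, ← mul_assoc z dm h, ← hz.dx, ← mul_assoc z h dr, mul_assoc dl z h]

/-- right composition -/
theorem Ho.mul_right (hs : s' = 1 ∨ s' = -1) (hs2 : s = 1 ∨ s = -1) (hz : IsMap p g s' dm dr z)
    (h : Ho p g s dl dm x y) : Ho p g (s * s') dl dr (x * z) (y * z) := by
  obtain ⟨h, h1, h2, h3, h4⟩ := h
  refine ⟨h * z, by rw [← mul_assoc, h1], by rw [mul_assoc, hz.xp], ?_, ?_⟩
  · rw [← mul_assoc, h3]
    have := hz.gx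
    rcases hs with rfl | rfl <;> rcases hs2 with rfl | rfl
    · rw [one_mul] at this
      rw [one_mul, one_mul, one_mul, neg_mul, mul_assoc, this, mul_assoc]
    · rw [one_mul] at this
      rw [neg_one_mul, neg_neg, mul_one, neg_one_mul, neg_neg, mul_assoc, this, mul_assoc]
    · rw [neg_one_mul] at this
      rw [one_mul, one_mul, neg_one_mul, neg_neg, neg_mul, mul_assoc, this, mul_neg, neg_neg,
        mul_assoc]
    · rw [neg_one_mul] at this
      rw [neg_one_mul, neg_neg, neg_mul_neg, one_mul, one_mul, mul_assoc, this, mul_neg, mul_assoc]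
  · rw [h4, add_mul, add_mul, mul_assoc h dm z, hz.dx, mul_assoc dl h z, mul_assoc h z dr]

/-- adjoint: `Hom(D, D') → Hom(D'*, D*)`. -/
theorem Ho.adj (hs : s = 1 ∨ s = -1) (hp : star p = p) (hg : star g = g)
    (h : Ho p g s dl dr x y) : Ho p g s (-star dr) (-star dl) (star x) (star y) := by
  obtain ⟨h, h1, h2, h3, h4⟩ := h
  refine ⟨-star h, ?_, ?_, ?_, ?_⟩
  · have := congrArg star h2
    rw [star_mul, hp] at this
    rw [mul_neg, this]
  · have := congrArg star h1
    rw [star_mul, hp] at this
    rw [neg_mul, this]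
  · have := congrArg star h3
    rw [star_mul, hg] at this
    rcases hs with rfl | rfl
    · rw [one_mul, star_neg, star_mul, hg] at this
      rw [mul_neg, one_mul, neg_mul, neg_neg, this]
    · rw [neg_one_mul, neg_neg, star_mul, hg] at this
      rw [mul_neg, neg_one_mul, neg_neg, neg_mul, this]
  · rw [h4]
    simp only [star_add, star_mul]
    noncomm_ring

theorem IsMap.mul {z x : A} (hs : s' = 1 ∨ s' = -1) (hs2 : s = 1 ∨ s = -1)
    (hz : IsMap p g s' dl dm z) (hx : IsMap p g s dm dr x) :
    IsMap p g (s' * s) dl dr (z * x) where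
  px := by rw [← mul_assoc, hz.px]
  xp := by rw [mul_assoc, hx.xp]
  gx := by
    rw [← mul_assoc, hz.gx, mul_assoc, mul_assoc, hx.gx]
    rcases hs with rfl | rfl <;> rcases hs2 with rfl | rfl <;> noncomm_ring
  dx := by rw [← mul_assoc, hz.dx, mul_assoc, hx.dx, mul_assoc]

theorem IsMap.adj (hs : s = 1 ∨ s = -1) (hp : star p = p) (hg : star g = g)
    (h : IsMap p g s dl dr x) : IsMap p g s (-star dr) (-star dl) (star x) where
  px := by
    have := congrArg star h.xp
    rwa [star_mul, hp] at this
  xp := by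
    have := congrArg star h.px
    rwa [star_mul, hp] at this
  gx := by
    have := congrArg star h.gx
    rw [star_mul, hg] at this
    rcases hs with rfl | rfl
    · rw [one_mul, star_mul, hg] at this
      rw [one_mul, this]
    · rw [neg_one_mul, star_neg, star_mul, hg] at this
      rw [neg_one_mul, this, neg_neg]
  dx := by
    have := congrArg star h.dx
    rw [star_mul, star_mul] at this
    rw [neg_mul, mul_neg, this]

theorem IsMap.add {x' : A} (h : IsMap p g s dl dr x) (h' : IsMap p g s dl dr x') :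
    IsMap p g s dl dr (x + x') where
  px := by rw [mul_add, h.px, h'.px]
  xp := by rw [add_mul, h.xp, h'.xp]
  gx := by rw [mul_add, h.gx, h'.gx]; noncomm_ring
  dx := by rw [mul_add, h.dx, h'.dx]; noncomm_ring

theorem IsMap.zero : IsMap p g s dl dr 0 := ⟨by simp, by simp, by simp, by simp⟩

theorem IsMap.sum {ι : Type*} (I : Finset ι) (f : ι → A)
    (h : ∀ i ∈ I, IsMap p g s dl dr (f i)) : IsMap p g s dl dr (∑ i ∈ I, f i) := by
  classical
  induction I using Finset.induction_on with
  | empty => simpa using IsMap.zero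
  | insert a I ha ih =>
    rw [Finset.sum_insert ha]
    exact (h a (Finset.mem_insert_self _ _)).add
      (ih fun i hi => h i (Finset.mem_insert_of_mem hi))

/-- multiplication by a central element -/
theorem IsMap.central {t : A} (ht : ∀ a, t * a = a * t) (h : IsMap p g s dl dr x) :
    IsMap p g s dl dr (t * x) where
  px := by rw [← mul_assoc, ← ht, mul_assoc, h.px]
  xp := by rw [mul_assoc, h.xp]
  gx := by rw [← mul_assoc, ← ht, mul_assoc, h.gx, ← mul_assoc, ht s]; noncomm_ring
  dx := by rw [← mul_assoc, ← ht, mul_assoc, h.dx]; noncomm_ring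

theorem Ho.central {t : A} (ht : ∀ a, t * a = a * t) (h : Ho p g s dl dr x y) :
    Ho p g s dl dr (t * x) (t * y) := by
  obtain ⟨h, h1, h2, h3, h4⟩ := h
  refine ⟨t * h, by rw [← mul_assoc, ← ht, mul_assoc, h1], by rw [mul_assoc, h2], ?_, ?_⟩
  · rw [← mul_assoc, ← ht, mul_assoc, h3, mul_neg, ← mul_assoc, ht s]; noncomm_ring
  · rw [h4, mul_add, mul_add, ← mul_assoc t dl, ht dl]; noncomm_ring

theorem IsMap.smul {R : Type*} [CommSemiring R] [Algebra R A] (c : R)
    (h : IsMap p g s dl dr x) : IsMap p g s dl dr (c • x) where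
  px := by rw [mul_smul_comm, h.px]
  xp := by rw [smul_mul_assoc, h.xp]
  gx := by rw [mul_smul_comm, h.gx, smul_mul_assoc, mul_smul_comm]
  dx := by rw [mul_smul_comm, h.dx, smul_mul_assoc]

theorem Ho.smul {R : Type*} [CommSemiring R] [Algebra R A] (c : R)
    (h : Ho p g s dl dr x y) : Ho p g s dl dr (c • x) (c • y) := by
  obtain ⟨h, h1, h2, h3, h4⟩ := h
  refine ⟨c • h, by rw [mul_smul_comm, h1], by rw [smul_mul_assoc, h2], ?_, ?_⟩
  · rw [mul_smul_comm, h3, smul_mul_assoc, mul_smul_comm, smul_neg]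
  · rw [h4, smul_add, smul_add, mul_smul_comm, smul_mul_assoc]

end basic

section regular

variable {m : ℕ} {x : Tup A}

theorem sg_pow (m : ℕ) : ((-1 : A) ^ m = 1 ∨ (-1 : A) ^ m = -1) := by
  rcases Nat.even_or_odd m with h | h
  · left; exact h.neg_one_pow
  · right; exact h.neg_one_pow

theorem sg_sq (m : ℕ) : (-1 : A) ^ m * (-1 : A) ^ m = 1 := by
  rcases sg_pow (A := A) m with h | h <;> rw [h] <;> simp

/-- `S` as a map `D* → D`. -/
theorem isMap_S (hx : x.IsPC m) : IsMap x.p x.g ((-1) ^ m) x.d (-star x.d) x.S where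
  px := hx.pS
  xp := by
    have := congrArg star hx.pS
    rwa [star_mul, hx.sp, hx.sS] at this
  gx := hx.gS
  dx := by
    have := hx.dS
    rw [mul_neg]
    exact eq_neg_of_add_eq_zero_left this

/-- `T` as a map `D → D*`. -/
theorem isMap_T (hx : x.IsPC m) : IsMap x.p x.g ((-1) ^ m) (-star x.d) x.d x.T where
  px := hx.pT
  xp := by
    have := congrArg star hx.pT
    rwa [star_mul, hx.sp, hx.sT] at this
  gx := hx.gT
  dx := by
    have := hx.Td
    rw [neg_mul]
    exact (eq_neg_of_add_eq_zero_left this).symm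

theorem isMap_p (hx : x.IsPC m) : IsMap x.p x.g 1 x.d x.d x.p where
  px := hx.pp
  xp := hx.pp
  gx := by
    have := congrArg star hx.pg
    rw [star_mul, hx.sp, hx.sg] at this
    rw [one_mul, hx.pg, this]
  dx := by rw [hx.pd, hx.dp]

theorem Ho_ST (hx : x.IsPC m) : Ho x.p x.g 1 x.d x.d (x.S * x.T) x.p :=
  ⟨x.H, hx.pH, hx.Hp, by rw [one_mul]; exact hx.gH, hx.ST⟩

theorem Ho_TS (hx : x.IsPC m) : Ho x.p x.g 1 (-star x.d) (-star x.d) (x.T * x.S) x.p := by
  have := (Ho_ST hx).adj (Or.inl rfl) hx.sp hx.sg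
  rwa [star_mul, hx.sS, hx.sT, hx.sp] at this

/-- A homotopy idempotent compatible with the duality gives a regular pair. -/
theorem rp_of (hx : x.IsPC m) {e : A} (he : IsMap x.p x.g 1 x.d x.d e)
    (hee : Ho x.p x.g 1 x.d x.d (e * e) e)
    (heS : Ho x.p x.g ((-1) ^ m) x.d (-star x.d) (e * x.S) (x.S * star e)) :
    ∃ h, (RPr.mk x.p x.g x.d (e * x.S * star e) (star e * x.T * e) h).IsRP m := by
  have hm := sg_pow (A := A) m
  have h1 : (1 : A) = 1 ∨ (1 : A) = -1 := Or.inl rfl
  have hS := isMap_S hx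
  have hT := isMap_T hx
  have hp := isMap_p hx
  have he' : IsMap x.p x.g 1 (-star x.d) (-star x.d) (star e) := he.adj h1 hx.sp hx.sg
  have hf : IsMap x.p x.g ((-1) ^ m) x.d (-star x.d) (e * x.S * star e) := by
    have := (he.mul h1 hm hS).mul (by rwa [one_mul]) h1 he'
    simpa using this
  have hq : IsMap x.p x.g ((-1) ^ m) (-star x.d) x.d (star e * x.T * e) := by
    have := (he'.mul h1 hm hT).mul (by rwa [one_mul]) h1 he
    simpa using this
  -- `e* T ~ T e`
  have hTe : Ho x.p x.g ((-1) ^ m) (-star x.d) x.d (star e * x.T) (x.T * e) := by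
    -- T e S T ~ T e
    have a1 : Ho x.p x.g ((-1) ^ m) (-star x.d) x.d (x.T * (e * (x.S * x.T))) (x.T * (e * x.p)) := by
      have := (((Ho_ST hx).mul_left h1 h1 he).mul_left hm (by rw [one_mul]; exact h1) hT)
      simpa using this
    have a2 : Ho x.p x.g ((-1) ^ m) (-star x.d) x.d (x.T * (e * x.S) * x.T)
        (x.T * (x.S * star e) * x.T) := by
      have := (heS.mul_left hm hm hT).mul_right hm
        (by rw [sg_sq]; exact h1) hT
      rw [sg_sq, one_mul] at this
      exact this
    have a3 : Ho x.p x.g ((-1) ^ m) (-star x.d) x.d (x.T * x.S * (star e * x.T))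
        (x.p * (star e * x.T)) := by
      have := (Ho_TS hx).mul_right (s' := 1 * (-1) ^ m) (by rwa [one_mul]) h1 (he'.mul h1 hm hT)
      simpa using this
    have b1 : star e * x.T = x.p * (star e * x.T) := by rw [← mul_assoc, he'.px]
    have b2 : x.T * e = x.T * (e * x.p) := by rw [he.xp]
    rw [b1, b2]
    refine a3.symm.trans ?_
    have c1 : x.T * x.S * (star e * x.T) = x.T * (x.S * star e) * x.T := by noncomm_ring
    have c2 : x.T * (e * (x.S * x.T)) = x.T * (e * x.S) * x.T := by noncomm_ring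
    rw [c1]
    refine a2.symm.trans ?_
    rw [← c2]
    exact a1
  have hee' : Ho x.p x.g 1 (-star x.d) (-star x.d) (star e * star e) (star e) := by
    have := hee.adj h1 hx.sp hx.sg
    rwa [star_mul] at this
  -- `f q f ~ f`
  have key : Ho x.p x.g ((-1) ^ m) x.d (-star x.d)
      (e * x.S * star e * (star e * x.T * e) * (e * x.S * star e)) (e * x.S * star e) := by
    have hSe : IsMap x.p x.g ((-1) ^ m) x.d (-star x.d) (x.S * star e) := by
      have := hS.mul hm h1 he'
      simpa using this
    have heS' : IsMap x.p x.g ((-1) ^ m) x.d (-star x.d) (e * x.S) := by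
      have := he.mul h1 hm hS
      simpa using this
    -- step 1: star e star e → star e on the left
    have s1 : Ho x.p x.g ((-1) ^ m) x.d (-star x.d)
        (e * x.S * (star e * star e) * (x.T * e * (e * x.S * star e)))
        (e * x.S * (star e) * (x.T * e * (e * x.S * star e))) := by
      have t1 := (hee'.mul_left hm h1 heS')
      have t2 : IsMap x.p x.g (((-1) ^ m * 1) * (-1) ^ m) (-star x.d) (-star x.d)
          (x.T * e * (e * x.S * star e)) :=
        (hT.mul hm h1 he).mul (by rwa [mul_one]) hm hf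
      have t3 := t1.mul_right (by rw [mul_one, sg_sq]; exact h1) (by rwa [mul_one]) t2
      rw [mul_one, sg_sq, mul_one] at t3
      exact t3
    -- step 2: star e T → T e
    have s2 : Ho x.p x.g ((-1) ^ m) x.d (-star x.d)
        (e * x.S * (star e * x.T) * (e * (e * x.S * star e)))
        (e * x.S * (x.T * e) * (e * (e * x.S * star e))) := by
      have t1 := hTe.mul_left hm hm heS'
      have t2 : IsMap x.p x.g (1 * (-1) ^ m) x.d (-star x.d) (e * (e * x.S * star e)) :=
        he.mul h1 hm hf
      have t3 := t1.mul_right (by rwa [one_mul]) (by rw [sg_sq]; exact h1) t2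
      rw [sg_sq, one_mul, one_mul] at t3
      exact t3
    -- step 3: S T → p
    have s3 : Ho x.p x.g ((-1) ^ m) x.d (-star x.d)
        (e * (x.S * x.T) * (e * (e * (e * x.S * star e))))
        (e * x.p * (e * (e * (e * x.S * star e)))) := by
      have t1 := (Ho_ST hx).mul_left h1 h1 he
      have t2 : IsMap x.p x.g (1 * (1 * (-1) ^ m)) x.d (-star x.d)
          (e * (e * (e * x.S * star e))) :=
        he.mul h1 (by rwa [one_mul]) (he.mul h1 hm hf)
      have t3 := t1.mul_right (by rwa [one_mul, one_mul]) (by rw [one_mul]; exact h1) t2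
      simpa using t3
    -- step 4 : powers of e
    have s4 : Ho x.p x.g ((-1) ^ m) x.d (-star x.d)
        (e * e * (e * (e * x.S * star e))) (e * (e * (e * x.S * star e))) := by
      have t3 := hee.mul_right (s' := 1 * (-1) ^ m) (by rwa [one_mul]) h1 (he.mul h1 hm hf)
      simpa using t3
    have s5 : Ho x.p x.g ((-1) ^ m) x.d (-star x.d)
        (e * e * (e * x.S * star e)) (e * (e * x.S * star e)) := by
      have t3 := hee.mul_right hm h1 hf
      simpa using t3
    have s6 : Ho x.p x.g ((-1) ^ m) x.d (-star x.d)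
        (e * e * (x.S * star e)) (e * (x.S * star e)) := by
      have t3 := hee.mul_right hm h1 hSe
      simpa using t3
    refine (Ho.of_eq (by noncomm_ring)).trans (s1.trans ?_)
    refine (Ho.of_eq (by noncomm_ring)).trans (s2.trans ?_)
    refine (Ho.of_eq (by noncomm_ring)).trans (s3.trans ?_)
    rw [he.xp]
    refine (Ho.of_eq (by noncomm_ring)).trans (s4.trans ?_)
    refine (Ho.of_eq (by noncomm_ring)).trans (s5.trans ?_)
    refine (Ho.of_eq (by noncomm_ring)).trans (s6.trans ?_)
    exact Ho.of_eq (by noncomm_ring)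
  obtain ⟨h, k1, k2, k3, k4⟩ := key
  refine ⟨h, ?_⟩
  exact
  { pp := hx.pp
    sp := hx.sp
    gg := hx.gg
    sg := hx.sg
    pg := hx.pg
    pd := hx.pd
    dp := hx.dp
    pf := hf.px
    pq := hq.px
    ph := k1
    hp := k2
    dd := hx.dd
    sf := by simp only [star_mul, star_star, hx.sS]; noncomm_ring
    sq := by simp only [star_mul, star_star, hx.sT]; noncomm_ring
    df := by
      have := hf.dx
      rw [mul_neg] at this
      rw [this, neg_add_cancel]
    qd := by
      have := hq.dx
      rw [neg_mul] at this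
      rw [← this, neg_add_cancel]
    fqf := by rw [k4]; noncomm_ring
    gd := hx.gd
    gf := hf.gx
    gq := hq.gx
    gh := k3 }




/-- Data of a homotopy action of a finite additive group `Γ` on a Poincaré tuple,
preserving the duality up to homotopy. -/
structure HAct (m : ℕ) (x : Tup A) (Γ : Type*) [AddCommGroup Γ] (η : Γ → A) : Prop where
  map : ∀ i, IsMap x.p x.g 1 x.d x.d (η i)
  zero : Ho x.p x.g 1 x.d x.d (η 0) x.p
  add : ∀ i j, Ho x.p x.g 1 x.d x.d (η i * η j) (η (i + j))
  dual : ∀ i, Ho x.p x.g ((-1) ^ m) x.d (-star x.d) (η i * x.S * star (η i)) x.S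

/-- a central unitary character of `Γ` with values in `A`. -/
structure CChar (Γ : Type*) [AddCommGroup Γ] (τ : Γ → A) : Prop where
  central : ∀ i a, τ i * a = a * τ i
  zero : τ 0 = 1
  add : ∀ i j, τ (i + j) = τ i * τ j
  star : ∀ i, star (τ i) = τ (-i)


variable [Algebra ℂ A] [StarModule ℂ A]






end regular

end Crest.Agent.R217.Avg557
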