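import Mathlib
import Crest.Agent.R217.SpecC_478
import Crest.Agent.R217.SpecA_343

-- ▼ part R217/B2a_478
section

/-!
Row 217 (S0336), part B2a: a compact group acting on a Hausdorff space, seen in a chart:
the induced partial action on subsets of `ℝⁿ`, and the Haar averaging map.
-/

set_option autoImplicit false
set_option linter.unusedSectionVars false

open Filter Topology Metric Set MeasureTheory
open Crest.Agent.R217.SpecC478

namespace Crest.Agent.R217.B2478

section chart

variable {n : ℕ} {M : Type*} [TopologicalSpace M]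
  {A : Type*} [Group A] [MulAction A M]

/-- the action read in a chart -/
noncomputable def cact (ψ : OpenPartialHomeomorph M (E n)) (g : A) (v : E n) : E n :=
  ψ (g • ψ.symm v)

/-- `S` is an invariant set in the chart -/
def Inv (A : Type*) [Group A] [MulAction A M] (ψ : OpenPartialHomeomorph M (E n))
    (S : Set (E n)) : Prop :=
  S ⊆ ψ.target ∧ ∀ v ∈ S, ∀ g : A, g • ψ.symm v ∈ ψ.symm '' S

variable {ψ : OpenPartialHomeomorph M (E n)} {S : Set (E n)}

theorem Inv.spec (h : Inv A ψ S) {v : E n} (hv : v ∈ S) (g : A) :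
    cact ψ g v ∈ S ∧ ψ.symm (cact ψ g v) = g • ψ.symm v := by
  obtain ⟨u, hu, hu'⟩ := h.2 v hv g
  have h1 : cact ψ g v = u := by
    rw [cact, ← hu', ψ.right_inv (h.1 hu)]
  rw [h1]
  exact ⟨hu, hu'⟩

theorem Inv.act_mem (h : Inv A ψ S) (g : A) {v : E n} (hv : v ∈ S) : cact ψ g v ∈ S :=
  (h.spec hv g).1

theorem Inv.symm_act (h : Inv A ψ S) (g : A) {v : E n} (hv : v ∈ S) :
    ψ.symm (cact ψ g v) = g • ψ.symm v := (h.spec hv g).2

theorem Inv.act_one (h : Inv A ψ S) {v : E n} (hv : v ∈ S) : cact ψ (1 : A) v = v := by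
  rw [cact, one_smul, ψ.right_inv (h.1 hv)]

theorem Inv.act_mul (h : Inv A ψ S) (a b : A) {v : E n} (hv : v ∈ S) :
    cact ψ (a * b) v = cact ψ a (cact ψ b v) := by
  rw [cact, mul_smul, ← h.symm_act b hv, ← cact]

/-- a point is fixed iff it is fixed in the chart -/
theorem Inv.fixed_iff (h : Inv A ψ S) (g : A) {v : E n} (hv : v ∈ S) :
    cact ψ g v = v ↔ g • ψ.symm v = ψ.symm v := by
  constructor
  · intro h1
    rw [← h.symm_act g hv, h1]
  · intro h1
    rw [cact, h1, ψ.right_inv (h.1 hv)]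

variable [TopologicalSpace A] [ContinuousSMul A M]

theorem continuousOn_smul_symm (ψ : OpenPartialHomeomorph M (E n)) :
    ContinuousOn (fun p : A × E n => p.1 • ψ.symm p.2) (univ ×ˢ ψ.target) := by
  have h2 : ContinuousOn (fun p : A × E n => ψ.symm p.2) (univ ×ˢ ψ.target) :=
    ψ.continuousOn_symm.comp continuousOn_snd (fun p hp => hp.2)
  exact continuousOn_fst.smul h2

theorem Inv.act_cont (h : Inv A ψ S) :
    ContinuousOn (fun p : A × E n => cact ψ p.1 p.2) (univ ×ˢ S) := by
  refine ψ.continuousOn.comp ((continuousOn_smul_symm ψ).mono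
    (prod_mono le_rfl h.1)) ?_
  rintro ⟨g, v⟩ ⟨-, hv⟩
  obtain ⟨u, hu, hu'⟩ := h.2 v hv g
  simp only at hu' ⊢
  rw [← hu']
  exact ψ.map_target (h.1 hu)

/-- the invariant part of an open set is open -/
theorem isOpen_invPart [CompactSpace A] (ψ : OpenPartialHomeomorph M (E n)) {B : Set (E n)}
    (hB : IsOpen B) (hBt : B ⊆ ψ.target) :
    IsOpen {v | v ∈ B ∧ ∀ g : A, g • ψ.symm v ∈ ψ.symm '' B} := by
  rw [isOpen_iff_mem_nhds]
  rintro v ⟨hv, hvg⟩
  have hO : IsOpen (ψ.symm '' B) := ψ.symm.isOpen_image_of_subset_source hB hBt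
  have h1 : ∀ᶠ u in 𝓝 v, ∀ g ∈ (univ : Set A), g • ψ.symm u ∈ ψ.symm '' B := by
    refine isCompact_univ.eventually_forall_of_forall_eventually ?_
    intro g _
    have h2 : ContinuousAt (fun p : E n × A => p.2 • ψ.symm p.1) (v, g) := by
      have h3 : ContinuousAt (fun p : A × E n => p.1 • ψ.symm p.2) (g, v) :=
        (continuousOn_smul_symm ψ).continuousAt
          (prod_mem_nhds univ_mem (ψ.open_target.mem_nhds (hBt hv)))
      exact ContinuousAt.comp (g := fun p : A × E n => p.1 • ψ.symm p.2)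
        (f := fun p : E n × A => (p.2, p.1)) h3 (by fun_prop)
    exact h2.eventually_mem (hO.mem_nhds (hvg g))
  filter_upwards [hB.mem_nhds hv, h1] with u hu hu'
  exact ⟨hu, fun g => hu' g (mem_univ _)⟩

theorem inv_invPart (A : Type*) [Group A] [MulAction A M] (ψ : OpenPartialHomeomorph M (E n))
    {B : Set (E n)} (hBt : B ⊆ ψ.target) :
    Inv A ψ {v | v ∈ B ∧ ∀ g : A, g • ψ.symm v ∈ ψ.symm '' B} := by
  refine ⟨fun v hv => hBt hv.1, ?_⟩
  rintro v ⟨hv, hvg⟩ g
  obtain ⟨u, hu, hu'⟩ := hvg g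
  refine ⟨u, ⟨hu, fun k => ?_⟩, hu'⟩
  rw [hu', smul_smul]
  exact hvg _

/-- the invariant part of a compact set is compact -/
theorem isCompact_invPart [T2Space M] (A : Type*) [Group A] [MulAction A M]
    [ContinuousConstSMul A M]
    (ψ : OpenPartialHomeomorph M (E n)) {B : Set (E n)}
    (hB : IsCompact B) (hBt : B ⊆ ψ.target) :
    IsCompact {v | v ∈ B ∧ ∀ g : A, g • ψ.symm v ∈ ψ.symm '' B} := by
  have hC : IsClosed (ψ.symm '' B) :=
    (hB.image_of_continuousOn (ψ.continuousOn_symm.mono hBt)).isClosed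
  have : {v | v ∈ B ∧ ∀ g : A, g • ψ.symm v ∈ ψ.symm '' B} =
      B ∩ ⋂ g : A, (B ∩ (fun v => g • ψ.symm v) ⁻¹' (ψ.symm '' B)) := by
    ext v
    simp only [mem_ofPred_eq, mem_inter_iff, mem_iInter, mem_preimage]
    constructor
    · rintro ⟨h1, h2⟩
      exact ⟨h1, fun g => ⟨h1, h2 g⟩⟩
    · rintro ⟨h1, h2⟩
      exact ⟨h1, fun g => (h2 g).2⟩
  rw [this]
  refine hB.inter_right (isClosed_iInter fun g => ?_)
  refine ContinuousOn.preimage_isClosed_of_isClosed ?_ hB.isClosed hC
  exact (ψ.continuousOn_symm.mono hBt).const_smul g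

end chart

section haar

variable {n : ℕ} {M : Type*} [TopologicalSpace M]
  {A : Type*} [Group A] [TopologicalSpace A] [IsTopologicalGroup A] [CompactSpace A]
  [MulAction A M] [ContinuousSMul A M]
  [MeasurableSpace A] [BorelSpace A]
  {ψ : OpenPartialHomeomorph M (E n)} {S : Set (E n)}

/-- normalised Haar measure -/
noncomputable def hm (A : Type*) [Group A] [TopologicalSpace A] [IsTopologicalGroup A]
    [CompactSpace A] [MeasurableSpace A] [BorelSpace A] : Measure A :=
  Measure.haarMeasure ⊤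

instance : IsProbabilityMeasure (hm A) := by
  constructor
  have := Measure.haarMeasure_self (K₀ := (⊤ : TopologicalSpace.PositiveCompacts A))
  simpa [hm] using this

instance : (hm A).IsMulLeftInvariant := by unfold hm; infer_instance

instance : (hm A).IsHaarMeasure := by unfold hm; infer_instance

/-- the averaging map -/
noncomputable def favg (A : Type*) [Group A] [TopologicalSpace A] [IsTopologicalGroup A]
    [CompactSpace A] [MulAction A M] [MeasurableSpace A] [BorelSpace A]
    (ψ : OpenPartialHomeomorph M (E n)) (v : E n) : E n :=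
  ∫ g, cact ψ (g⁻¹ : A) v ∂(hm A)

theorem Inv.orbit_cont (h : Inv A ψ S) {v : E n} (hv : v ∈ S) :
    Continuous (fun g : A => cact ψ (g⁻¹ : A) v) := by
  have h1 : ContinuousOn (fun g : A => ((g⁻¹ : A), v)) univ := by fun_prop
  have := h.act_cont.comp h1 (fun g _ => ⟨mem_univ _, hv⟩)
  exact continuousOn_univ.mp this

theorem Inv.orbit_int (h : Inv A ψ S) {v : E n} (hv : v ∈ S) :
    Integrable (fun g : A => cact ψ (g⁻¹ : A) v) (hm A) :=
  (h.orbit_cont hv).integrable_of_hasCompactSupport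
    (HasCompactSupport.of_compactSpace _)

theorem Inv.favg_inv (h : Inv A ψ S) (a : A) {v : E n} (hv : v ∈ S) :
    favg A ψ (cact ψ a v) = favg A ψ v := by
  unfold favg
  have h1 : ∀ g : A, cact ψ (g⁻¹ : A) (cact ψ a v) = cact ψ ((a⁻¹ * g)⁻¹ : A) v := by
    intro g
    rw [← h.act_mul _ _ hv]; simp
  simp_rw [h1]
  exact integral_mul_left_eq_self (fun g => cact ψ (g⁻¹ : A) v) a⁻¹

theorem Inv.favg_cont (h : Inv A ψ S) [LocallyCompactSpace S] :
    ContinuousOn (favg A ψ) S := by
  rw [continuousOn_iff_continuous_domRestrict]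
  have h1 : Continuous (Function.uncurry fun (v : S) (g : A) => cact ψ (g⁻¹ : A) (v : E n)) := by
    have h2 : ContinuousOn (fun p : S × A => ((p.2⁻¹ : A), (p.1 : E n))) univ := by fun_prop
    exact continuousOn_univ.mp (h.act_cont.comp h2 (fun p _ => ⟨mem_univ _, p.1.2⟩))
  have h3 := continuous_parametric_integral_of_continuous (μ := hm A) h1
    (isCompact_univ : IsCompact (univ : Set A))
  simpa [favg, domRestrict_def] using h3

theorem Inv.favg_mem_closedBall (h : Inv A ψ S) {v : E n} (hv : v ∈ S) {z : E n} {ρ : ℝ}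
    (hb : ∀ g : A, dist (cact ψ g v) z ≤ ρ) : dist (favg A ψ v) z ≤ ρ := by
  have h1 : favg A ψ v - z = ∫ g, (cact ψ (g⁻¹ : A) v - z) ∂(hm A) := by
    rw [integral_sub (h.orbit_int hv) (integrable_const _)]
    simp [favg]
  rw [dist_eq_norm, h1]
  have := norm_integral_le_of_norm_le_const (μ := hm A)
    (f := fun g => cact ψ (g⁻¹ : A) v - z) (C := ρ)
    (Eventually.of_forall fun g => by rw [← dist_eq_norm]; exact hb _)
  simpa using this

theorem favg_fixed {v : E n} (hb : ∀ g : A, cact ψ g v = v) : favg A ψ v = v := by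
  unfold favg
  simp [hb]

end haar

end Crest.Agent.R217.B2478
end

-- ▼ part R217/B2b_478
section

/-!
Row 217 (S0336), part B2b: the two uses of the crux in a chart.
-/

set_option autoImplicit false
set_option linter.unusedSectionVars false

open Filter Topology Metric Set MeasureTheory
open Crest.Agent.R217.SpecC478

namespace Crest.Agent.R217.B2478

/-- the crux with a given constant -/
def CruxAt.{u} (n : ℕ) (c : ℝ) : Prop :=
  ∀ (G : Type u) [Group G] [TopologicalSpace G] [IsTopologicalGroup G]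
    [CompactSpace G] [T2Space G] [SecondCountableTopology G]
    (x : G), Dense (range fun k : ℤ => x ^ k) →
    ∀ q : ℕ, q.Prime → ∀ χ : G →* ℂ, Continuous χ → (∀ g, χ g ^ q = 1) → χ x ≠ 1 →
    ∀ (D : Setup n G) (y0 : E n) (r0 : ℝ), 0 < r0 →
    ball y0 r0 ⊆ ball D.w D.R → ball y0 r0 ⊆ D.V →
    (∀ v ∈ D.V, (v ∈ ball y0 r0 ∨ D.f v ∈ ball y0 r0) →
      (∀ g, dist (D.act g v) v ≤ c * r0) ∧ dist (D.f v) v ≤ c * r0) →
    ∀ y1 ∈ ball D.w D.R,
    (∀ v ∈ D.V, D.f v = y1 → ∀ g, χ g ≠ 1 → D.act g v ≠ v) → False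

theorem crux_iff.{u} (n : ℕ) : Crux.{u} n ↔ ∃ c : ℝ, 0 < c ∧ CruxAt.{u} n c := Iff.rfl

/-- A minimal group: topologically generated by `x`, with a character of order `q`, nontrivial at
`x`, such that all closed subgroups outside the kernel are everything. -/
structure MC (A : Type*) [Group A] [TopologicalSpace A] where
  x : A
  dense : Dense (range fun k : ℤ => x ^ k)
  q : ℕ
  prime : q.Prime
  χ : A →* ℂ
  cont : Continuous χ
  pow : ∀ g, χ g ^ q = 1
  ne : χ x ≠ 1
  min : ∀ B : Subgroup A, IsClosed (B : Set A) → (∃ b ∈ B, χ b ≠ 1) → B = ⊤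

theorem MC.fixed {A : Type*} [Group A] [TopologicalSpace A] (mc : MC A)
    {M : Type*} [TopologicalSpace M] [T2Space M] [MulAction A M] [ContinuousSMul A M]
    {m : M} {g : A} (hg : mc.χ g ≠ 1) (hm : g • m = m) : ∀ a : A, a • m = m := by
  have h1 : MulAction.stabilizer A m = ⊤ := by
    refine mc.min _ ?_ ⟨g, hm, hg⟩
    have : ((MulAction.stabilizer A m : Subgroup A) : Set A) = {a : A | a • m = m} := by
      ext a; simp [MulAction.mem_stabilizer_iff]
    rw [this]
    exact isClosed_eq (by fun_prop) continuous_const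
  intro a
  have : a ∈ MulAction.stabilizer A m := by rw [h1]; trivial
  exact this

universe u v

section uses

variable {n : ℕ} {c : ℝ} {M : Type v} [TopologicalSpace M] [T2Space M]
  {A : Type u} [Group A] [TopologicalSpace A] [IsTopologicalGroup A] [CompactSpace A]
  [T2Space A] [SecondCountableTopology A] [MulAction A M] [ContinuousSMul A M]

/-- USE 1: small orbits. -/
theorem use1 (hc : 0 < c) (hC : CruxAt.{u} n c) (mc : MC A)
    (ψ : OpenPartialHomeomorph M (E n)) (z : E n) (ρ : ℝ) (hρ : 0 < ρ)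
    (hz : closedBall z (2 * ρ) ⊆ ψ.target)
    (hd : ∀ g : A, ∀ v ∈ closedBall z (2 * ρ), g • ψ.symm v ∈ ψ.source ∧
      dist (ψ (g • ψ.symm v)) v ≤ min (ρ / 8) (c * ρ / 2)) :
    ∀ v ∈ ball z ρ, ∀ g : A, g • ψ.symm v = ψ.symm v := by
  borelize A
  intro v0 hv0
  by_contra hne
  push Not at hne
  obtain ⟨g0, hg0⟩ := hne
  set δ : ℝ := min (ρ / 8) (c * ρ / 2) with hδdef
  have hδ1 : δ ≤ ρ / 8 := min_le_left _ _
  have hδ2 : δ ≤ c * ρ / 2 := min_le_right _ _
  have hδ0 : 0 < δ := lt_min (by positivity) (by positivity)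
  have hbt : ball z (2 * ρ) ⊆ ψ.target := ball_subset_closedBall.trans hz
  set V : Set (E n) := {v | v ∈ ball z (2 * ρ) ∧ ∀ g : A, g • ψ.symm v ∈ ψ.symm '' ball z (2 * ρ)}
    with hV
  have hVo : IsOpen V := isOpen_invPart ψ isOpen_ball hbt
  have hI : Inv A ψ V := inv_invPart A ψ hbt
  have hVb : V ⊆ ball z (2 * ρ) := fun v hv => hv.1
  have hVmem : ∀ v : E n, dist v z < 2 * ρ - δ → v ∈ V := by
    intro v hv
    have hvb : v ∈ ball z (2 * ρ) := by rw [mem_ball]; linarith
    refine ⟨hvb, fun g => ?_⟩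
    obtain ⟨h1, h2⟩ := hd g v (ball_subset_closedBall hvb)
    refine ⟨ψ (g • ψ.symm v), ?_, ψ.left_inv h1⟩
    rw [mem_ball]
    calc dist (ψ (g • ψ.symm v)) z ≤ dist (ψ (g • ψ.symm v)) v + dist v z := dist_triangle _ _ _
      _ < 2 * ρ := by linarith
  have hdis : ∀ v ∈ V, ∀ g : A, dist (cact ψ g v) v ≤ δ := fun v hv g =>
    (hd g v (ball_subset_closedBall (hVb hv))).2
  have hfdis : ∀ v ∈ V, dist (favg A ψ v) v ≤ δ := fun v hv =>
    hI.favg_mem_closedBall hv (hdis v hv)
  have : LocallyCompactSpace V := hVo.locallyCompactSpace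
  have hfc : ContinuousOn (favg A ψ) V := hI.favg_cont
  let D : Setup n A :=
    { V := V
      isOpen_V := hVo
      act := fun g v => cact ψ g v
      act_mem := fun g v hv => hI.act_mem g hv
      act_one := fun v hv => hI.act_one hv
      act_mul := fun a b v hv => hI.act_mul a b hv
      act_cont := hI.act_cont
      f := favg A ψ
      f_cont := hfc
      f_inv := fun g v hv => hI.favg_inv g hv
      w := z
      R := 2 * ρ - 2 * δ
      proper := by
        intro ρ' hρ'
        have h1 : {v | v ∈ V ∧ favg A ψ v ∈ closedBall z ρ'} =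
            closedBall z (ρ' + δ) ∩ favg A ψ ⁻¹' closedBall z ρ' := by
          ext v
          simp only [mem_ofPred_eq, mem_inter_iff, mem_closedBall, mem_preimage]
          constructor
          · rintro ⟨h1, h2⟩
            refine ⟨?_, h2⟩
            have := hfdis v h1
            rw [dist_comm] at this
            linarith [dist_triangle v (favg A ψ v) z]
          · rintro ⟨h1, h2⟩
            exact ⟨hVmem v (by linarith), h2⟩
        rw [h1]
        have h2 : closedBall z (ρ' + δ) ⊆ V := fun v hv =>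
          hVmem v (by rw [mem_closedBall] at hv; linarith)
        refine (isCompact_closedBall z (ρ' + δ)).of_isClosed_subset ?_ inter_subset_left
        exact (hfc.mono h2).preimage_isClosed_of_isClosed isClosed_closedBall isClosed_closedBall }
  have hv0z : dist v0 z < ρ := hv0
  refine hC A mc.x mc.dense mc.q mc.prime mc.χ mc.cont mc.pow mc.ne D v0 (ρ / 2) (by positivity)
    ?_ ?_ ?_ v0 ?_ ?_
  · intro v hv
    change dist v z < 2 * ρ - 2 * δ
    have : dist v v0 < ρ / 2 := hv
    linarith [dist_triangle v v0 z]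
  · intro v hv
    refine hVmem v ?_
    have : dist v v0 < ρ / 2 := hv
    linarith [dist_triangle v v0 z]
  · intro v hv _
    refine ⟨fun g => (hdis v hv g).trans (by linarith), (hfdis v hv).trans (by linarith)⟩
  · change dist v0 z < 2 * ρ - 2 * δ
    linarith
  · intro v hv hfv g hg hfix
    have h1 : g • ψ.symm v = ψ.symm v := (hI.fixed_iff g hv).1 hfix
    have h2 := mc.fixed hg h1
    have h3 : favg A ψ v = v := favg_fixed fun a => (hI.fixed_iff a hv).2 (h2 a)
    have h4 : v = v0 := by rw [← h3]; exact hfv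
    subst h4
    exact hg0 (h2 g0)

theorem inner_nonneg_of_ball {w z u : E n} (hu : u ∈ closedBall z (dist w z)) :
    0 ≤ inner ℝ (w - u) (w - z) := by
  have h1 : inner ℝ (w - u) (w - z) = inner ℝ (w - z) (w - z) - inner ℝ (u - z) (w - z) := by
    rw [← inner_sub_left]; congr 1; abel
  have h2 : inner ℝ (u - z) (w - z) ≤ ‖u - z‖ * ‖w - z‖ := real_inner_le_norm _ _
  have h3 : ‖u - z‖ ≤ ‖w - z‖ := by
    rw [← dist_eq_norm, ← dist_eq_norm]; exact hu
  have h4 : inner ℝ (w - z) (w - z) = ‖w - z‖ * ‖w - z‖ := real_inner_self_eq_norm_mul_norm _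
  rw [h1, h4]
  nlinarith [norm_nonneg (w - z), norm_nonneg (u - z)]

theorem eq_of_inner_eq_zero {w z u : E n} (hu : u ∈ closedBall z (dist w z))
    (h0 : inner ℝ (w - u) (w - z) = 0) : u = w := by
  have h3 : ‖u - z‖ ≤ ‖w - z‖ := by
    rw [← dist_eq_norm, ← dist_eq_norm]; exact hu
  have h5 : ‖u - z‖ ^ 2 = ‖w - z‖ ^ 2 - 2 * inner ℝ (w - u) (w - z) + ‖w - u‖ ^ 2 := by
    have : u - z = (w - z) - (w - u) := by abel
    rw [this, norm_sub_sq_real, real_inner_comm]
  have h6 : ‖w - u‖ ^ 2 ≤ 0 := by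
    rw [h0] at h5
    have : ‖u - z‖ ^ 2 ≤ ‖w - z‖ ^ 2 := by gcongr
    linarith
  have h7 : ‖w - u‖ = 0 := by
    have := sq_nonneg ‖w - u‖
    exact pow_eq_zero_iff (two_ne_zero) |>.1 (le_antisymm h6 this)
  rw [norm_eq_zero, sub_eq_zero] at h7
  exact h7.symm

/-- points on the far side of `w` -/
theorem farpt {w z : E n} {t : ℝ} (ht : 0 < t) :
    dist (w + t • (w - z)) z = (1 + t) * dist w z ∧
    dist (w + t • (w - z)) w = t * dist w z := by
  constructor
  · have : w + t • (w - z) - z = (1 + t) • (w - z) := by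
      rw [add_smul, one_smul]; abel
    rw [dist_eq_norm, this, norm_smul, dist_eq_norm, Real.norm_of_nonneg (by positivity)]
  · have : w + t • (w - z) - w = t • (w - z) := by abel
    rw [dist_eq_norm, this, norm_smul, dist_eq_norm, Real.norm_of_nonneg ht.le]

/-- USE 2: the frontier of the interior of the fixed point set (chart already inverted). -/
theorem use2 (hc : 0 < c) (hC : CruxAt.{u} n c) (mc : MC A)
    (ψ : OpenPartialHomeomorph M (E n)) (w z : E n) (r : ℝ) (hr : 0 < r)
    (hw : closedBall w r ⊆ ψ.target) (hρ : 0 < dist w z)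
    (hB : ∀ v ∈ closedBall w r, (∃ g : A, g • ψ.symm v ≠ ψ.symm v) →
      v ∈ closedBall z (dist w z))
    (hcl : ∀ ε > 0, ∃ v ∈ ball w ε, ∃ g : A, g • ψ.symm v ≠ ψ.symm v) : False := by
  borelize A
  set ρ := dist w z with hρdef
  have hwt : w ∈ ψ.target := hw (mem_closedBall_self hr.le)
  -- `w` is fixed
  have hwfix : ∀ g : A, g • ψ.symm w = ψ.symm w := by
    by_contra hne
    push Not at hne
    obtain ⟨g, hg⟩ := hne
    have h1 : ContinuousAt (fun v => g • ψ.symm v) w :=
      (ψ.continuousAt_symm hwt).const_smul g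
    have h2 : ∀ᶠ v in 𝓝 w, g • ψ.symm v ≠ ψ.symm v :=
      (h1.ne_iff_eventually_ne (ψ.continuousAt_symm hwt)).1 hg
    obtain ⟨ε, hε, hεw⟩ := Metric.eventually_nhds_iff.1 h2
    set t : ℝ := min ε r / (2 * ρ) with ht
    have hm : 0 < min ε r := lt_min hε hr
    have ht0 : 0 < t := by positivity
    obtain ⟨hp1, hp2⟩ := farpt (w := w) (z := z) ht0
    rw [← hρdef] at hp1 hp2
    have htρ : t * ρ = min ε r / 2 := by rw [ht]; field_simp
    have h3 : dist (w + t • (w - z)) w < min ε r := by rw [hp2, htρ]; linarith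
    have h4 := hεw (h3.trans_le (min_le_left _ _))
    have h5 := hB _ (mem_closedBall.2 (h3.trans_le (min_le_right _ _)).le) ⟨g, h4⟩
    rw [mem_closedBall, hp1] at h5
    nlinarith
  have hbt : ball w r ⊆ ψ.target := ball_subset_closedBall.trans hw
  set V : Set (E n) := {v | v ∈ ball w r ∧ ∀ g : A, g • ψ.symm v ∈ ψ.symm '' ball w r} with hV
  have hVo : IsOpen V := isOpen_invPart ψ isOpen_ball hbt
  have hI : Inv A ψ V := inv_invPart A ψ hbt
  set K : Set (E n) := {v | v ∈ closedBall w r ∧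
    ∀ g : A, g • ψ.symm v ∈ ψ.symm '' closedBall w r} with hK
  have hKc : IsCompact K := isCompact_invPart A ψ (isCompact_closedBall w r) hw
  have hIK : Inv A ψ K := inv_invPart A ψ hw
  have hVK : V ⊆ K := fun v hv => ⟨ball_subset_closedBall hv.1, fun g =>
    image_mono ball_subset_closedBall (hv.2 g)⟩
  have hwV : w ∈ V := ⟨mem_ball_self hr, fun g => ⟨w, mem_ball_self hr, (hwfix g).symm⟩⟩
  have : CompactSpace K := isCompact_iff_compactSpace.1 hKc
  have hfK : ContinuousOn (favg A ψ) K := hIK.favg_cont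
  have hfV : ContinuousOn (favg A ψ) V := hfK.mono hVK
  -- fixed points
  have hfix : ∀ v ∈ K, (¬ ∃ g : A, g • ψ.symm v ≠ ψ.symm v) →
      (∀ g : A, cact ψ g v = v) ∧ favg A ψ v = v := by
    intro v hv h
    push Not at h
    have h1 : ∀ g : A, cact ψ g v = v := fun g => (hIK.fixed_iff g hv).2 (h g)
    exact ⟨h1, favg_fixed h1⟩
  -- nonfixed points
  have hnf : ∀ v ∈ K, (∃ g : A, g • ψ.symm v ≠ ψ.symm v) →
      (∀ g : A, cact ψ g v ∈ closedBall z ρ) ∧ favg A ψ v ∈ closedBall z ρ := by
    intro v hv h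
    obtain ⟨a, ha⟩ := h
    have h1 : ∀ g : A, cact ψ g v ∈ closedBall z ρ := by
      intro g
      refine hB _ (hIK.act_mem g hv).1 ⟨g * a * g⁻¹, ?_⟩
      rw [hIK.symm_act g hv, smul_smul]
      intro h2
      apply ha
      have h3 : g • (a • ψ.symm v) = g • ψ.symm v := by
        rw [smul_smul]; rw [show g * a = g * a * g⁻¹ * g by group]; exact h2
      exact smul_left_cancel g h3
    exact ⟨h1, hIK.favg_mem_closedBall hv fun g => h1 g⟩
  have hfw : ∀ v ∈ K, favg A ψ v = w → v = w := by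
    intro v hv hfv
    by_cases h : ∃ g : A, g • ψ.symm v ≠ ψ.symm v
    · exfalso
      obtain ⟨h1, h2⟩ := hnf v hv h
      have h3 : Continuous (fun g : A => inner ℝ (w - cact ψ (g⁻¹ : A) v) (w - z)) := by
        have := hIK.orbit_cont hv
        fun_prop
      have h4 : ∀ g : A, 0 ≤ inner ℝ (w - cact ψ (g⁻¹ : A) v) (w - z) := fun g =>
        inner_nonneg_of_ball (h1 _)
      have h5 : ∫ g : A, inner ℝ (w - cact ψ (g⁻¹ : A) v) (w - z) ∂(hm A) = 0 := by
        have h6 : ∫ g : A, (w - cact ψ (g⁻¹ : A) v) ∂(hm A) = 0 := by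
          rw [integral_sub (integrable_const _) (hIK.orbit_int hv)]
          have : ∫ g : A, cact ψ (g⁻¹ : A) v ∂(hm A) = w := hfv
          rw [this]; simp
        have h7 : ∫ g : A, inner ℝ (w - z) (w - cact ψ (g⁻¹ : A) v) ∂(hm A) =
            inner ℝ (w - z) (∫ g : A, (w - cact ψ (g⁻¹ : A) v) ∂(hm A)) :=
          integral_inner ((integrable_const _).sub (hIK.orbit_int hv)) _
        rw [h6, inner_zero_right] at h7
        simpa [real_inner_comm] using h7
      have h8 : (fun g : A => inner ℝ (w - cact ψ (g⁻¹ : A) v) (w - z)) = 0 := by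
        have h9 := (integral_eq_zero_iff_of_nonneg (fun g => h4 g)
          (h3.integrable_of_hasCompactSupport (HasCompactSupport.of_compactSpace _))).1 h5
        exact (h3.ae_eq_iff_eq (μ := hm A) continuous_const).1 h9
      have h10 := congrFun h8 1
      simp only [inv_one, Pi.zero_apply] at h10
      rw [hIK.act_one hv] at h10
      have h11 := h1 1
      rw [hIK.act_one hv] at h11
      have h12 := eq_of_inner_eq_zero h11 h10
      obtain ⟨a, ha⟩ := h
      rw [h12] at ha
      exact ha (hwfix a)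
    · rw [(hfix v hv h).2] at hfv; exact hfv
  obtain ⟨r1, hr1, hr1V⟩ := Metric.isOpen_iff.1 hVo w hwV
  set r2 := r1 / 2 with hr2
  have hr20 : 0 < r2 := by positivity
  have hr2V : closedBall w r2 ⊆ V := (closedBall_subset_ball (by linarith)).trans hr1V
  have hR : ∃ R > 0, ∀ v ∈ K, r2 ≤ dist v w → R ≤ dist (favg A ψ v) w := by
    have hK' : IsCompact (K \ ball w r2) := hKc.diff isOpen_ball
    rcases (K \ ball w r2).eq_empty_or_nonempty with he | hne
    · refine ⟨1, one_pos, fun v hv hv2 => ?_⟩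
      exfalso
      have : v ∈ K \ ball w r2 := ⟨hv, by rw [mem_ball]; linarith⟩
      rw [he] at this; exact this
    · obtain ⟨v0, hv0, hmin⟩ := hK'.exists_isMinOn hne
        (f := fun v => dist (favg A ψ v) w)
        ((continuous_id.dist continuous_const).comp_continuousOn (hfK.mono sdiff_subset))
      refine ⟨dist (favg A ψ v0) w, ?_, fun v hv hv2 => ?_⟩
      · rw [gt_iff_lt, dist_pos]
        intro h
        have := hfw v0 hv0.1 h
        apply hv0.2
        rw [this]; exact mem_ball_self hr20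
      · exact hmin ⟨hv, by rw [mem_ball]; linarith⟩
  obtain ⟨R, hR0, hR⟩ := hR
  let D : Setup n A :=
    { V := V
      isOpen_V := hVo
      act := fun g v => cact ψ g v
      act_mem := fun g v hv => hI.act_mem g hv
      act_one := fun v hv => hI.act_one hv
      act_mul := fun a b v hv => hI.act_mul a b hv
      act_cont := hI.act_cont
      f := favg A ψ
      f_cont := hfV
      f_inv := fun g v hv => hI.favg_inv g hv
      w := w
      R := R
      proper := by
        intro ρ' hρ'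
        have h1 : {v | v ∈ V ∧ favg A ψ v ∈ closedBall w ρ'} =
            closedBall w r2 ∩ favg A ψ ⁻¹' closedBall w ρ' := by
          ext v
          simp only [mem_ofPred_eq, mem_inter_iff, mem_closedBall, mem_preimage]
          constructor
          · rintro ⟨h1, h2⟩
            refine ⟨?_, h2⟩
            by_contra h3
            push Not at h3
            have := hR v (hVK h1) h3.le
            linarith
          · rintro ⟨h1, h2⟩
            exact ⟨hr2V h1, h2⟩
        rw [h1]
        refine (isCompact_closedBall w r2).of_isClosed_subset ?_ inter_subset_left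
        exact (hfV.mono hr2V).preimage_isClosed_of_isClosed isClosed_closedBall
          isClosed_closedBall }
  obtain ⟨y1, hy1, a1, ha1⟩ := hcl R hR0
  set m := min R r2 with hm
  have hm0 : 0 < m := lt_min hR0 hr20
  set t : ℝ := m / (2 * ρ) with ht
  have ht0 : 0 < t := by positivity
  obtain ⟨hp1, hp2⟩ := farpt (w := w) (z := z) ht0
  rw [← hρdef] at hp1 hp2
  have htρ : t * ρ = m / 2 := by rw [ht]; field_simp
  set y0 := w + t • (w - z) with hy0
  have hnear : ∀ v ∈ ball y0 (m / 4), dist v w < m ∧ v ∉ closedBall z ρ := by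
    intro v hv
    have h1 : dist v y0 < m / 4 := hv
    constructor
    · linarith [dist_triangle v y0 w]
    · rw [mem_closedBall, not_le]
      have h2 : dist y0 v < m / 4 := by rw [dist_comm]; exact h1
      have h3 := dist_triangle y0 v z
      nlinarith
  have hfixnear : ∀ v ∈ V, (v ∈ ball y0 (m / 4) ∨ favg A ψ v ∈ ball y0 (m / 4)) →
      ¬ ∃ g : A, g • ψ.symm v ≠ ψ.symm v := by
    intro v hv h hn
    obtain ⟨h1, h2⟩ := hnf v (hVK hv) hn
    rcases h with h | h
    · have h3 := h1 1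
      rw [hI.act_one hv] at h3
      exact (hnear v h).2 h3
    · exact (hnear _ h).2 h2
  refine hC A mc.x mc.dense mc.q mc.prime mc.χ mc.cont mc.pow mc.ne D y0 (m / 4) (by positivity)
    ?_ ?_ ?_ y1 hy1 ?_
  · intro v hv
    exact (hnear v hv).1.trans_le (min_le_left _ _)
  · intro v hv
    exact hr2V ((hnear v hv).1.trans_le (min_le_right _ _)).le
  · intro v hv h
    obtain ⟨h1, h2⟩ := hfix v (hVK hv) (hfixnear v hv h)
    have hp : 0 ≤ c * (m / 4) := by positivity
    refine ⟨fun g => ?_, ?_⟩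
    · change dist (cact ψ g v) v ≤ _
      rw [h1 g, dist_self]; exact hp
    · change dist (favg A ψ v) v ≤ _
      rw [h2, dist_self]; exact hp
  · intro v hv hfv g hg hfixg
    have h1 : g • ψ.symm v = ψ.symm v := (hI.fixed_iff g hv).1 hfixg
    have h2 := mc.fixed hg h1
    have h3 : favg A ψ v = v := favg_fixed fun a => (hI.fixed_iff a hv).2 (h2 a)
    have h4 : v = y1 := by rw [← h3]; exact hfv
    subst h4
    exact ha1 (h2 a1)

end uses

end Crest.Agent.R217.B2478
end

-- ▼ part R217/B1_889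
section

/-!
Row 217 (S0336), part B, piece B1 (helper889).

Characters of compact commutative groups via the spectral theorem for compact self-adjoint
operators on `L²` (Haar measure), and the minimal compact monothetic subgroup with a character
of prime order.
-/

set_option autoImplicit false
set_option linter.unusedSectionVars false
set_option linter.overlappingInstances false

open MeasureTheory Module Module.End
open scoped InnerProductSpace ENNReal BoundedContinuousFunction Topology

namespace Crest.Agent.R217.B1_889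

section Hilbert

variable {E : Type*} [NormedAddCommGroup E] [InnerProductSpace ℂ E] [CompleteSpace E]
variable {A : Type*} [CommGroup A]

/-- A commuting family of operators on a nonzero finite-dimensional invariant subspace has a
common eigenvector. -/
theorem exists_common_eigenvector (T : A → (E →L[ℂ] E)) (hTc : ∀ a b, Commute (T a) (T b))
    (W₀ : Submodule ℂ E) [FiniteDimensional ℂ W₀] (hW₀ : W₀ ≠ ⊥)
    (hinv : ∀ a, ∀ w ∈ W₀, T a w ∈ W₀) :
    ∃ w ∈ W₀, w ≠ 0 ∧ ∃ c : A → ℂ, ∀ a, T a w = c a • w := by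
  classical
  -- choose a nonzero invariant subspace of minimal dimension
  let P : ℕ → Prop := fun n => ∃ W : Submodule ℂ E, W ≤ W₀ ∧ W ≠ ⊥ ∧
    (∀ a, ∀ w ∈ W, T a w ∈ W) ∧ finrank ℂ W = n
  have hP : ∃ n, P n := ⟨_, W₀, le_rfl, hW₀, hinv, rfl⟩
  obtain ⟨W, hWW₀, hWne, hWinv, hWn⟩ := Nat.find_spec hP
  have hmin : ∀ W' : Submodule ℂ E, W' ≤ W → W' ≠ ⊥ → (∀ a, ∀ w ∈ W', T a w ∈ W') → W' = W := by
    intro W' hle hne hinv'
    have : FiniteDimensional ℂ W := Submodule.finiteDimensional_of_le hWW₀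
    refine Submodule.eq_of_le_of_finrank_le hle ?_
    rw [hWn]
    exact Nat.find_min' hP ⟨W', hle.trans hWW₀, hne, hinv', rfl⟩
  have : FiniteDimensional ℂ W := Submodule.finiteDimensional_of_le hWW₀
  have : Nontrivial W := Submodule.nontrivial_iff_ne_bot.mpr hWne
  have hscal : ∀ a, ∃ c : ℂ, ∀ w ∈ W, T a w = c • w := by
    intro a
    let Ta : W →ₗ[ℂ] W := (T a : E →ₗ[ℂ] E).restrict (hWinv a)
    obtain ⟨c, hc⟩ := Module.End.exists_eigenvalue Ta
    obtain ⟨v, hv⟩ := hc.exists_hasEigenvector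
    refine ⟨c, ?_⟩
    let W' : Submodule ℂ E := W ⊓ Module.End.eigenspace (T a : E →ₗ[ℂ] E) c
    have hvW' : (v : E) ∈ W' := by
      refine Submodule.mem_inf.mpr ⟨v.2, ?_⟩
      rw [Module.End.mem_eigenspace_iff]
      have := hv.apply_eq_smul
      have h2 := congrArg (Subtype.val) this
      simpa [Ta] using h2
    have hW'ne : W' ≠ ⊥ := by
      intro h
      have : (v : E) ∈ (⊥ : Submodule ℂ E) := h ▸ hvW'
      rw [Submodule.mem_bot] at this
      exact hv.2 (Subtype.ext this)
    have hW'inv : ∀ b, ∀ w ∈ W', T b w ∈ W' := by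
      intro b w hw
      refine Submodule.mem_inf.mpr ⟨hWinv b w (Submodule.mem_inf.mp hw).1, ?_⟩
      have hw2 := (Submodule.mem_inf.mp hw).2
      rw [Module.End.mem_eigenspace_iff] at hw2 ⊢
      have hcomm : T a (T b w) = T b (T a w) := by
        have := hTc a b
        exact congrArg (fun L : E →L[ℂ] E => L w) this.eq
      have hw2' : T a w = c • w := hw2
      change T a (T b w) = c • (T b w)
      rw [hcomm, hw2', map_smul]
    have hEq : W' = W := hmin W' inf_le_left hW'ne hW'inv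
    intro w hw
    have : w ∈ W' := hEq ▸ hw
    have := (Submodule.mem_inf.mp this).2
    rw [Module.End.mem_eigenspace_iff] at this
    exact this
  choose c hc using hscal
  obtain ⟨w, hw, hw0⟩ := Submodule.exists_mem_ne_zero_of_ne_bot hWne
  exact ⟨w, hWW₀ hw, hw0, c, fun a => hc a w hw⟩

/-- Abstract existence of a common eigenvector on which `T x` is not trivial. -/
theorem exists_eigenvector_ne (T : A → (E →L[ℂ] E))
    (hT1 : T 1 = ContinuousLinearMap.id ℂ E)
    (hTmul : ∀ a b, T (a * b) = (T a).comp (T b))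
    (hTi : ∀ a v, ‖T a v‖ = ‖v‖)
    (x : A) (J : E →L[ℂ] E) (hJ : IsCompactOperator J)
    (hJT : ∀ a v, J (T a v) = T a (J v))
    (f : E) (hf : ∀ u, T x u = u → ⟪u, f⟫_ℂ = 0) (hJf : J f ≠ 0) :
    ∃ w : E, w ≠ 0 ∧ ∃ c : A → ℂ, (∀ a, T a w = c a • w) ∧ c x ≠ 1 := by
  classical
  have hTinner : ∀ a u v, ⟪T a u, T a v⟫_ℂ = ⟪u, v⟫_ℂ := by
    intro a u v
    let L : E →ₗᵢ[ℂ] E := ⟨(T a : E →ₗ[ℂ] E), hTi a⟩
    exact L.inner_map_map u v
  have hTinv : ∀ a v, T a (T a⁻¹ v) = v := by
    intro a v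
    have := hTmul a a⁻¹
    rw [mul_inv_cancel, hT1] at this
    exact (congrArg (fun L : E →L[ℂ] E => L v) this).symm
  have hTcomm : ∀ a b, Commute (T a) (T b) := by
    intro a b
    change T a * T b = T b * T a
    have h1 := hTmul a b
    have h2 := hTmul b a
    rw [mul_comm] at h1
    exact h1.symm.trans h2
  have hTadj : ∀ a u v, ⟪u, T a v⟫_ℂ = ⟪T a⁻¹ u, v⟫_ℂ := by
    intro a u v
    calc ⟪u, T a v⟫_ℂ = ⟪T a (T a⁻¹ u), T a v⟫_ℂ := by rw [hTinv]
      _ = _ := hTinner _ _ _
  -- S = J† J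
  let S : E →L[ℂ] E := (ContinuousLinearMap.adjoint J).comp J
  have hScomp : IsCompactOperator S := hJ.clm_comp (ContinuousLinearMap.adjoint J)
  have hSsymm : (S : E →L[ℂ] E).IsSymmetric := by
    intro u v
    change ⟪ContinuousLinearMap.adjoint J (J u), v⟫_ℂ = ⟪u, ContinuousLinearMap.adjoint J (J v)⟫_ℂ
    rw [ContinuousLinearMap.adjoint_inner_left, ContinuousLinearMap.adjoint_inner_right]
  have hST : ∀ a v, S (T a v) = T a (S v) := by
    intro a v
    refine ext_inner_left ℂ fun u => ?_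
    change ⟪u, ContinuousLinearMap.adjoint J (J (T a v))⟫_ℂ =
      ⟪u, T a (ContinuousLinearMap.adjoint J (J v))⟫_ℂ
    rw [ContinuousLinearMap.adjoint_inner_right, hTadj, ContinuousLinearMap.adjoint_inner_right,
      hJT, hJT, hTadj]
  let K : Submodule ℂ E := LinearMap.ker ((T x : E →ₗ[ℂ] E) - LinearMap.id)
  have hK : ∀ u, u ∈ K ↔ T x u = u := by
    intro u
    simp only [K, LinearMap.mem_ker, LinearMap.sub_apply, LinearMap.id_apply, sub_eq_zero]
    rfl
  let F : Submodule ℂ E := Kᗮ
  have hF : ∀ v, v ∈ F ↔ ∀ u, T x u = u → ⟪u, v⟫_ℂ = 0 := by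
    intro v
    rw [Submodule.mem_orthogonal]
    exact forall_congr' fun u => by rw [hK]
  have hfF : f ∈ F := (hF f).mpr hf
  have hSF : ∀ v ∈ F, S v ∈ F := by
    intro v hv
    rw [hF] at hv ⊢
    intro u hu
    have : ⟪u, S v⟫_ℂ = ⟪S u, v⟫_ℂ := (hSsymm u v).symm
    rw [this]
    apply hv
    rw [← hST, hu]
  have hTF : ∀ a, ∀ v ∈ F, T a v ∈ F := by
    intro a v hv
    rw [hF] at hv ⊢
    intro u hu
    rw [hTadj]
    apply hv
    have hc : T x (T a⁻¹ u) = T a⁻¹ (T x u) :=
      congrArg (fun L : E →L[ℂ] E => L u) (hTcomm x a⁻¹).eq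
    rw [hc, hu]
  have : CompleteSpace F := (Submodule.isClosed_orthogonal K).completeSpace_coe
  let SF : F →L[ℂ] F := S.restrict hSF
  have hSFcomp : IsCompactOperator SF := hScomp.restrict' hSF
  have hSFsymm : SF.IsSymmetric := by
    intro u v
    exact hSsymm u v
  have hSFne : SF ≠ 0 := by
    intro h
    have h1 : SF ⟨f, hfF⟩ = 0 := by rw [h]; rfl
    have h2 : S f = 0 := congrArg Subtype.val h1
    have h3 : ⟪f, S f⟫_ℂ = ⟪J f, J f⟫_ℂ := by
      change ⟪f, ContinuousLinearMap.adjoint J (J f)⟫_ℂ = _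
      rw [ContinuousLinearMap.adjoint_inner_right]
    rw [h2, inner_zero_right] at h3
    exact hJf (inner_self_eq_zero.mp h3.symm)
  have hex : ∃ μ : ℂ, HasEigenvalue (SF : End ℂ F) μ ∧ μ ≠ 0 := by
    by_contra hcon
    push Not at hcon
    exact hSFne
      ((ContinuousLinearMap.eq_zero_of_forall_hasEigenvalue_eq_zero hSFcomp hSFsymm).mp hcon)
  obtain ⟨μ, hμ, hμ0⟩ := hex
  have hfd : FiniteDimensional ℂ (eigenspace (S : End ℂ E) μ) :=
    ContinuousLinearMap.finite_dimensional_eigenspace hScomp μ hμ0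
  let W₀ : Submodule ℂ E := eigenspace (S : End ℂ E) μ ⊓ F
  have : FiniteDimensional ℂ W₀ := Submodule.finiteDimensional_of_le inf_le_left
  have hW₀ne : W₀ ≠ ⊥ := by
    obtain ⟨v, hv⟩ := hμ.exists_hasEigenvector
    intro h
    have hvW : (v : E) ∈ W₀ := by
      refine Submodule.mem_inf.mpr ⟨?_, v.2⟩
      rw [Module.End.mem_eigenspace_iff]
      exact congrArg Subtype.val hv.apply_eq_smul
    rw [h, Submodule.mem_bot] at hvW
    exact hv.2 (Subtype.ext hvW)
  have hW₀inv : ∀ a, ∀ w ∈ W₀, T a w ∈ W₀ := by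
    intro a w hw
    have hw' := Submodule.mem_inf.mp hw
    refine Submodule.mem_inf.mpr ⟨?_, hTF a w hw'.2⟩
    have hw1 := hw'.1
    rw [Module.End.mem_eigenspace_iff] at hw1 ⊢
    have hw1' : S w = μ • w := hw1
    change S (T a w) = μ • T a w
    rw [hST, hw1', map_smul]
  obtain ⟨w, hwW, hw0, c, hc⟩ := exists_common_eigenvector T hTcomm W₀ hW₀ne hW₀inv
  refine ⟨w, hw0, c, hc, ?_⟩
  intro hcx
  have hwx : T x w = w := by rw [hc, hcx, one_smul]
  have := (hF w).mp (Submodule.mem_inf.mp hwW).2 w hwx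
  exact hw0 (inner_self_eq_zero.mp this)

end Hilbert

section Haar

variable {A : Type*} [CommGroup A] [TopologicalSpace A] [IsTopologicalGroup A] [CompactSpace A]
  [T2Space A] [MeasurableSpace A] [BorelSpace A]
  (μ : Measure A) [μ.IsHaarMeasure] [μ.Regular]

/-- Translation operator on `L²`. -/
noncomputable def TT (a : A) : Lp ℂ 2 μ →L[ℂ] Lp ℂ 2 μ :=
  (Lp.compMeasurePreservingₗᵢ ℂ (fun x => a * x)
    (measurePreserving_mul_left μ a)).toContinuousLinearMap

theorem TT_apply (a : A) (v : Lp ℂ 2 μ) :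
    TT μ a v = Lp.compMeasurePreserving (fun x => a * x) (measurePreserving_mul_left μ a) v := rfl

theorem TT_norm (a : A) (v : Lp ℂ 2 μ) : ‖TT μ a v‖ = ‖v‖ :=
  Lp.norm_compMeasurePreserving v _

theorem TT_toLp (a : A) (g : C(A, ℂ)) :
    TT μ a (ContinuousMap.toLp 2 μ ℂ g) =
      ContinuousMap.toLp 2 μ ℂ (g.comp ⟨fun x => a * x, continuous_const_mul a⟩) := by
  refine Lp.ext ?_
  rw [TT_apply]
  have h1 := Lp.coeFn_compMeasurePreserving (ContinuousMap.toLp 2 μ ℂ g)
    (measurePreserving_mul_left μ a)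
  have h2 := ContinuousMap.coeFn_toLp (p := 2) μ (𝕜 := ℂ) g
  have h3 := ContinuousMap.coeFn_toLp (p := 2) μ (𝕜 := ℂ)
    (g.comp ⟨fun x => a * x, continuous_const_mul a⟩)
  have h4 := (measurePreserving_mul_left μ a).quasiMeasurePreserving.ae_eq_comp h2
  exact h1.trans (h4.trans h3.symm)

theorem TT_one : TT μ 1 = ContinuousLinearMap.id ℂ (Lp ℂ 2 μ) := by
  refine ContinuousLinearMap.ext fun v => ?_
  refine Lp.ext ?_
  have h1 := Lp.coeFn_compMeasurePreserving v (measurePreserving_mul_left μ (1 : A))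
  refine h1.trans ?_
  refine Filter.Eventually.of_forall fun x => ?_
  simp

theorem TT_mul (a b : A) : TT μ (a * b) = (TT μ a).comp (TT μ b) := by
  refine ContinuousLinearMap.ext fun v => ?_
  refine Lp.ext ?_
  have h1 := Lp.coeFn_compMeasurePreserving v (measurePreserving_mul_left μ (a * b))
  have h2 := Lp.coeFn_compMeasurePreserving (TT μ b v) (measurePreserving_mul_left μ a)
  have h3 := Lp.coeFn_compMeasurePreserving v (measurePreserving_mul_left μ b)
  have h4 := (measurePreserving_mul_left μ a).quasiMeasurePreserving.ae_eq_comp h3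
  refine h1.trans ?_
  refine Filter.EventuallyEq.trans ?_ (h2.trans h4).symm
  refine Filter.Eventually.of_forall fun x => ?_
  simp only [Function.comp_apply]
  congr 1
  rw [← mul_assoc, mul_comm b a]

/-- The curried kernel `y ↦ (z ↦ φ (y * z⁻¹))`. -/
noncomputable def Phi (φ : C(A, ℂ)) : C(A, C(A, ℂ)) :=
  ContinuousMap.curry (φ.comp ⟨fun p : A × A => p.1 * p.2⁻¹, by fun_prop⟩)


/-- The kernel with values in `L²`. -/
noncomputable def Psi (φ : C(A, ℂ)) (y : A) : Lp ℂ 2 μ := ContinuousMap.toLp 2 μ ℂ (Phi φ y)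

theorem continuous_Psi (φ : C(A, ℂ)) : Continuous (Psi μ φ) :=
  (ContinuousMap.toLp 2 μ ℂ).continuous.comp (Phi φ).continuous

theorem TT_Psi (φ : C(A, ℂ)) (a y : A) : TT μ a⁻¹ (Psi μ φ y) = Psi μ φ (a * y) := by
  rw [Psi, TT_toLp, Psi]
  congr 1
  refine ContinuousMap.ext fun z => ?_
  change φ (y * (a⁻¹ * z)⁻¹) = φ (a * y * z⁻¹)
  congr 1
  rw [mul_inv_rev, inv_inv, ← mul_assoc, mul_comm (y * z⁻¹) a, mul_assoc]

theorem norm_Psi_le (φ : C(A, ℂ)) (y : A) :
    ‖Psi μ φ y‖ ≤ ‖(ContinuousMap.toLp 2 μ ℂ : C(A, ℂ) →L[ℂ] Lp ℂ 2 μ)‖ * ‖φ‖ := by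
  refine (ContinuousLinearMap.le_opNorm _ _).trans ?_
  refine mul_le_mul_of_nonneg_left ?_ (norm_nonneg _)
  refine (ContinuousMap.norm_le _ (norm_nonneg _)).mpr fun z => ?_
  exact φ.norm_coe_le_norm _

/-- The integral operator with values in continuous functions. -/
noncomputable def J₀ (φ : C(A, ℂ)) : Lp ℂ 2 μ →L[ℂ] (A →ᵇ ℂ) :=
  LinearMap.mkContinuous
    { toFun := fun f => BoundedContinuousFunction.mkOfCompact
        ⟨fun y => ⟪Psi μ φ y, f⟫_ℂ, (continuous_Psi μ φ).inner continuous_const⟩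
      map_add' := fun f g => by
        ext y
        exact inner_add_right (𝕜 := ℂ) (Psi μ φ y) f g
      map_smul' := fun c f => by
        ext y
        exact inner_smul_right (𝕜 := ℂ) (Psi μ φ y) f c }
    (‖(ContinuousMap.toLp 2 μ ℂ : C(A, ℂ) →L[ℂ] Lp ℂ 2 μ)‖ * ‖φ‖)
    (fun f => by
      refine (BoundedContinuousFunction.norm_le (by positivity)).mpr fun y => ?_
      exact (norm_inner_le_norm _ _).trans
        (mul_le_mul_of_nonneg_right (norm_Psi_le μ φ y) (norm_nonneg _)))

theorem J₀_apply (φ : C(A, ℂ)) (f : Lp ℂ 2 μ) (y : A) : J₀ μ φ f y = ⟪Psi μ φ y, f⟫_ℂ := rfl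

theorem J₀_compact (φ : C(A, ℂ)) : IsCompactOperator (J₀ μ φ) := by
  let M := ‖(ContinuousMap.toLp 2 μ ℂ : C(A, ℂ) →L[ℂ] Lp ℂ 2 μ)‖ * ‖φ‖
  let S : Set (A →ᵇ ℂ) := J₀ μ φ '' Metric.closedBall 0 1
  refine ⟨closure S, ?_, ?_⟩
  · refine BoundedContinuousFunction.arzela_ascoli (Metric.closedBall (0 : ℂ) M)
      (isCompact_closedBall _ _) S ?_ ?_
    · rintro _ y ⟨f, hf, rfl⟩
      rw [mem_closedBall_zero_iff] at hf ⊢
      rw [J₀_apply]
      refine (norm_inner_le_norm _ _).trans ?_
      calc ‖Psi μ φ y‖ * ‖f‖ ≤ M * 1 :=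
            mul_le_mul (norm_Psi_le μ φ y) hf (norm_nonneg _) (by positivity)
        _ = M := mul_one _
    · intro y₀
      rw [Metric.equicontinuousAt_iff_right]
      intro ε hε
      have hc := (continuous_Psi μ φ).continuousAt (x := y₀)
      filter_upwards [hc (Metric.ball_mem_nhds _ hε)] with y hy
      rintro ⟨_, f, hf, rfl⟩
      rw [mem_closedBall_zero_iff] at hf
      rw [dist_comm, dist_eq_norm]
      change ‖⟪Psi μ φ y, f⟫_ℂ - ⟪Psi μ φ y₀, f⟫_ℂ‖ < ε
      rw [← inner_sub_left]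
      have hy' : ‖Psi μ φ y - Psi μ φ y₀‖ < ε := by
        rw [← dist_eq_norm]
        exact hy
      calc ‖⟪Psi μ φ y - Psi μ φ y₀, f⟫_ℂ‖ ≤ ‖Psi μ φ y - Psi μ φ y₀‖ * ‖f‖ :=
            norm_inner_le_norm _ _
        _ ≤ ‖Psi μ φ y - Psi μ φ y₀‖ * 1 := mul_le_mul_of_nonneg_left hf (norm_nonneg _)
        _ < ε := by rw [mul_one]; exact hy'
  · refine Filter.mem_of_superset (Metric.closedBall_mem_nhds 0 one_pos) ?_
    intro f hf
    exact subset_closure ⟨f, hf, rfl⟩

/-- The compact integral operator on `L²`. -/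
noncomputable def JJ (φ : C(A, ℂ)) : Lp ℂ 2 μ →L[ℂ] Lp ℂ 2 μ :=
  (BoundedContinuousFunction.toLp 2 μ ℂ).comp (J₀ μ φ)

theorem JJ_compact (φ : C(A, ℂ)) : IsCompactOperator (JJ μ φ) :=
  (J₀_compact μ φ).clm_comp (BoundedContinuousFunction.toLp 2 μ ℂ)

theorem TT_inner (a : A) (u v : Lp ℂ 2 μ) : ⟪TT μ a u, TT μ a v⟫_ℂ = ⟪u, v⟫_ℂ :=
  (Lp.compMeasurePreservingₗᵢ ℂ (fun x => a * x)
    (measurePreserving_mul_left μ a) : Lp ℂ 2 μ →ₗᵢ[ℂ] Lp ℂ 2 μ).inner_map_map u v

theorem TT_adj (a : A) (u v : Lp ℂ 2 μ) : ⟪u, TT μ a v⟫_ℂ = ⟪TT μ a⁻¹ u, v⟫_ℂ := by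
  have h : TT μ a (TT μ a⁻¹ u) = u := by
    have := TT_mul μ a a⁻¹
    rw [mul_inv_cancel, TT_one] at this
    exact (congrArg (fun L : Lp ℂ 2 μ →L[ℂ] Lp ℂ 2 μ => L u) this).symm
  calc ⟪u, TT μ a v⟫_ℂ = ⟪TT μ a (TT μ a⁻¹ u), TT μ a v⟫_ℂ := by rw [h]
    _ = _ := TT_inner μ _ _ _

theorem JJ_TT (φ : C(A, ℂ)) (a : A) (v : Lp ℂ 2 μ) : JJ μ φ (TT μ a v) = TT μ a (JJ μ φ v) := by
  change BoundedContinuousFunction.toLp 2 μ ℂ (J₀ μ φ (TT μ a v)) =
    TT μ a (BoundedContinuousFunction.toLp 2 μ ℂ (J₀ μ φ v))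
  rw [← ContinuousMap.toLp_comp_toContinuousMap, ← ContinuousMap.toLp_comp_toContinuousMap,
    TT_toLp]
  congr 1
  refine ContinuousMap.ext fun y => ?_
  change ⟪Psi μ φ y, TT μ a v⟫_ℂ = ⟪Psi μ φ (a * y), v⟫_ℂ
  rw [TT_adj, TT_Psi]

theorem continuous_TT (v : Lp ℂ 2 μ) : Continuous fun a => TT μ a v := by
  let g : A → C(A, A) := fun a => ⟨fun x => a * x, continuous_const_mul a⟩
  have hg : Continuous g :=
    (ContinuousMap.curry (⟨fun p : A × A => p.1 * p.2, continuous_mul⟩ : C(A × A, A))).continuous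
  exact Continuous.compMeasurePreservingLp (f := fun _ : A => v) (g := g) continuous_const hg
    (fun a => measurePreserving_mul_left μ a) (by norm_num)

include μ in
theorem exists_character_aux (x : A) (hx : x ≠ 1) :
    ∃ χ : A →* Circle, Continuous χ ∧ χ x ≠ 1 := by
  classical
  -- a continuous function separating `1` and `x`
  obtain ⟨g, hg0, hg1, -⟩ := exists_continuous_zero_one_of_isClosed (isClosed_singleton (x := x))
    (isClosed_singleton (x := (1 : A))) (by simpa using hx)
  let gc : C(A, ℂ) := ⟨fun z => (g z : ℂ), Complex.continuous_ofReal.comp g.continuous⟩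
  let h : C(A, ℂ) := gc.comp ⟨fun z => x * z, continuous_const_mul x⟩ - gc
  let f : Lp ℂ 2 μ := ContinuousMap.toLp 2 μ ℂ h
  have hh : h 1 = -1 := by
    have e1 : g x = 0 := hg0 rfl
    have e2 : g 1 = 1 := hg1 rfl
    change ((g (x * 1) : ℝ) : ℂ) - ((g 1 : ℝ) : ℂ) = -1
    rw [mul_one, e1, e2]
    norm_num
  have hf0 : f ≠ 0 := by
    intro hf
    have h2 : h = 0 := ContinuousMap.toLp_injective (p := 2) (𝕜 := ℂ) μ
      (show ContinuousMap.toLp 2 μ ℂ h = ContinuousMap.toLp 2 μ ℂ 0 by rw [map_zero]; exact hf)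
    rw [h2] at hh
    norm_num at hh
  have hfT : f = TT μ x (ContinuousMap.toLp 2 μ ℂ gc) - ContinuousMap.toLp 2 μ ℂ gc := by
    rw [TT_toLp, ← map_sub]
  have hforth : ∀ u, TT μ x u = u → ⟪u, f⟫_ℂ = 0 := by
    intro u hu
    have hu' : TT μ x⁻¹ u = u := by
      have h3 := TT_mul μ x⁻¹ x
      rw [inv_mul_cancel, TT_one] at h3
      have h4 : u = TT μ x⁻¹ (TT μ x u) := congrArg (fun L : Lp ℂ 2 μ →L[ℂ] Lp ℂ 2 μ => L u) h3
      rw [hu] at h4
      exact h4.symm
    rw [hfT, inner_sub_right, TT_adj, hu', sub_self]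
  -- the function `φ`
  let φ : C(A, ℂ) := h.comp ⟨fun z => z⁻¹, continuous_inv⟩
  have hJf : JJ μ φ f ≠ 0 := by
    intro hJ
    have h3 : J₀ μ φ f = 0 := by
      have := BoundedContinuousFunction.toLp_injective (p := 2) (𝕜 := ℂ) μ
        (show BoundedContinuousFunction.toLp 2 μ ℂ (J₀ μ φ f) =
          BoundedContinuousFunction.toLp 2 μ ℂ 0 by rw [map_zero]; exact hJ)
      exact this
    have h4 : ⟪Psi μ φ 1, f⟫_ℂ = 0 := by
      rw [← J₀_apply, h3]
      rfl
    have h5 : Psi μ φ 1 = f := by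
      change ContinuousMap.toLp 2 μ ℂ (Phi φ 1) = ContinuousMap.toLp 2 μ ℂ h
      congr 1
      refine ContinuousMap.ext fun z => ?_
      change h ((1 * z⁻¹)⁻¹) = h z
      rw [one_mul, inv_inv]
    rw [h5] at h4
    exact hf0 (inner_self_eq_zero.mp h4)
  obtain ⟨w, hw0, c, hc, hcx⟩ := exists_eigenvector_ne (TT μ) (TT_one μ) (TT_mul μ) (TT_norm μ) x
    (JJ μ φ) (JJ_compact μ φ) (JJ_TT μ φ) f hforth hJf
  have hcmul : ∀ a b, c (a * b) = c a * c b := by
    intro a b
    have h1 : c (a * b) • w = (c a * c b) • w := by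
      rw [← hc, TT_mul]
      change TT μ a (TT μ b w) = _
      rw [hc b, map_smul, hc a, smul_smul, mul_comm]
    exact smul_left_injective ℂ hw0 h1
  have hc1 : c 1 = 1 := by
    have h1 : c 1 • w = (1 : ℂ) • w := by
      rw [← hc, TT_one, one_smul]
      rfl
    exact smul_left_injective ℂ hw0 h1
  have hcn : ∀ a, ‖c a‖ = 1 := by
    intro a
    have h1 := TT_norm μ a w
    rw [hc, norm_smul] at h1
    exact (mul_eq_right₀ (norm_ne_zero_iff.mpr hw0)).mp h1
  have hww : (⟪w, w⟫_ℂ : ℂ) ≠ 0 := fun h => hw0 (inner_self_eq_zero.mp h)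
  have hcc : Continuous c := by
    have h1 : c = fun a => ⟪w, TT μ a w⟫_ℂ / ⟪w, w⟫_ℂ := by
      funext a
      rw [hc, inner_smul_right, mul_div_assoc, div_self hww, mul_one]
    rw [h1]
    exact (continuous_const.inner (continuous_TT μ w)).div_const _
  refine ⟨{ toFun := fun a => ⟨c a, by simpa [Submonoid.unitSphere] using hcn a⟩
            map_one' := by
              ext
              exact hc1
            map_mul' := fun a b => by
              ext
              exact hcmul a b }, ?_, ?_⟩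
  · exact Continuous.subtype_mk hcc _
  · intro h
    exact hcx (congrArg Subtype.val h)

end Haar

/-- **Characters separate points** of a compact Hausdorff commutative group. -/
theorem exists_character {A : Type*} [CommGroup A] [TopologicalSpace A] [IsTopologicalGroup A]
    [CompactSpace A] [T2Space A] (x : A) (hx : x ≠ 1) :
    ∃ χ : A →* Circle, Continuous χ ∧ χ x ≠ 1 := by
  let : MeasurableSpace A := borel A
  have : BorelSpace A := ⟨rfl⟩
  exact exists_character_aux (Measure.haarMeasure (⊤ : TopologicalSpace.PositiveCompacts A)) x hx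

end Crest.Agent.R217.B1_889
end

-- ▼ part R217/B1b_889
section

/-!
Row 217 (S0336), part B, piece B1b (helper889).

Every nontrivial compact Hausdorff group contains a compact monothetic subgroup `A` with
topological generator `x`, and a continuous character `χ` of prime order `q` of `A` such that
every closed subgroup of `A` on which `χ` is not trivial is all of `A`; and recurrence.
-/

set_option autoImplicit false
set_option linter.unusedSectionVars false

open scoped Topology

namespace Crest.Agent.R217.B1b_889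

open Crest.Agent.R217.B1_889

/-- A closed subgroup of the circle containing an element of infinite order contains `-1`. -/
theorem circle_closed_subgroup (K : Subgroup Circle) (hK : IsClosed (K : Set Circle)) (z : Circle)
    (hz : z ∈ K) : (∃ n : ℕ, 0 < n ∧ z ^ n = 1) ∨ (Circle.exp Real.pi ∈ K) := by
  let S : AddSubgroup ℝ :=
    { carrier := {t | Circle.exp t ∈ K}
      zero_mem' := by
        change Circle.exp 0 ∈ K
        rw [Circle.exp_zero]
        exact K.one_mem
      add_mem' := by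
        intro a b ha hb
        change Circle.exp (a + b) ∈ K
        rw [Circle.exp_add]
        exact K.mul_mem ha hb
      neg_mem' := by
        intro a ha
        change Circle.exp (-a) ∈ K
        rw [Circle.exp_neg]
        exact K.inv_mem ha }
  have hSc : IsClosed (S : Set ℝ) := hK.preimage Circle.exp.continuous
  rcases S.dense_or_cyclic with hd | ⟨a, ha⟩
  · right
    have : (S : Set ℝ) = Set.univ := by rw [← hSc.closure_eq]; exact hd.closure_eq
    have h2 : Real.pi ∈ (S : Set ℝ) := by rw [this]; trivial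
    exact h2
  · left
    have h2pi : (2 * Real.pi) ∈ S := by
      change Circle.exp (2 * Real.pi) ∈ K
      rw [Circle.exp_two_pi]
      exact K.one_mem
    rw [ha, AddSubgroup.mem_closure_singleton] at h2pi
    obtain ⟨n, hn⟩ := h2pi
    have hn0 : n ≠ 0 := by
      rintro rfl
      rw [zero_smul] at hn
      have := Real.pi_pos
      linarith
    obtain ⟨t, ht⟩ : ∃ t : ℝ, Circle.exp t = z := ⟨Complex.arg z, Circle.exp_arg z⟩
    have htS : t ∈ S := by
      change Circle.exp t ∈ K
      rw [ht]; exact hz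
    rw [ha, AddSubgroup.mem_closure_singleton] at htS
    obtain ⟨k, hk⟩ := htS
    have hzn : z ^ n = 1 := by
      have h1 : z ^ n = Circle.exp (n * t) := by
        rw [← ht, ← Circle.exp_zsmul, zsmul_eq_mul]
      rw [h1]
      have h2 : (n : ℝ) * t = (k : ℝ) * (2 * Real.pi) := by
        rw [← hk, ← hn]
        simp only [zsmul_eq_mul]
        ring
      rw [h2, ← zsmul_eq_mul, Circle.exp_zsmul, Circle.exp_two_pi, one_zpow]
    refine ⟨n.natAbs, Int.natAbs_pos.mpr hn0, ?_⟩
    rcases Int.natAbs_eq n with h | h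
    · rw [h, zpow_natCast] at hzn
      exact hzn
    · rw [h, zpow_neg, zpow_natCast, inv_eq_one] at hzn
      exact hzn

/-- A closed nontrivial subgroup of the circle contains an element of prime order. -/
theorem circle_exists_prime (K : Subgroup Circle) (hK : IsClosed (K : Set Circle)) (z : Circle)
    (hz : z ∈ K) (hz1 : z ≠ 1) : ∃ q : ℕ, q.Prime ∧ ∃ ζ ∈ K, IsPrimitiveRoot ζ q := by
  rcases circle_closed_subgroup K hK z hz with ⟨n, hn, hzn⟩ | h
  · have hfin : IsOfFinOrder z := isOfFinOrder_iff_pow_eq_one.mpr ⟨n, hn, hzn⟩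
    have hord : orderOf z ≠ 1 := fun h => hz1 (orderOf_eq_one_iff.mp h)
    obtain ⟨q, hq, hqd⟩ := Nat.exists_prime_and_dvd hord
    refine ⟨q, hq, z ^ (orderOf z / q), K.pow_mem hz _, ?_⟩
    have hpos : 0 < orderOf z := hfin.orderOf_pos
    exact (IsPrimitiveRoot.orderOf z).pow hpos (Nat.div_mul_cancel hqd).symm
  · refine ⟨2, Nat.prime_two, Circle.exp Real.pi, h, ?_⟩
    have hne : Circle.exp Real.pi ≠ 1 := by
      intro h1
      have h2 := congrArg (fun z : Circle => (z : ℂ)) h1
      simp only [Circle.coe_exp, Complex.exp_pi_mul_I, Circle.coe_one] at h2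
      norm_num at h2
    refine IsPrimitiveRoot.iff_def _ _ |>.mpr ⟨?_, ?_⟩
    · rw [← Circle.exp_nsmul, nsmul_eq_mul, Nat.cast_ofNat, Circle.exp_two_pi]
    · intro l hl
      by_contra hcon
      have hodd : l % 2 = 1 := by omega
      obtain ⟨m, hm⟩ : ∃ m, l = 2 * m + 1 := ⟨l / 2, by omega⟩
      rw [hm, pow_add, pow_mul, ← Circle.exp_nsmul, nsmul_eq_mul, Nat.cast_ofNat,
        Circle.exp_two_pi, one_pow, one_mul, pow_one] at hl
      exact hne hl

/-- If the value of a character is a nontrivial `q`-th root of unity with `q` prime then some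
power of it is any given primitive `q`-th root. -/
theorem exists_pow_eq {q : ℕ} (hq : q.Prime) {ζ z : Circle} (hζ : IsPrimitiveRoot ζ q)
    (hz : z ^ q = 1) (hz1 : z ≠ 1) : ∃ n : ℕ, z ^ n = ζ := by
  have hzord : orderOf z = q := by
    rcases (Nat.dvd_prime hq).mp (orderOf_dvd_of_pow_eq_one hz) with h | h
    · exact absurd (orderOf_eq_one_iff.mp h) hz1
    · exact h
  have hzp : IsPrimitiveRoot z q := hzord ▸ IsPrimitiveRoot.orderOf z
  have hzc : IsPrimitiveRoot (z : ℂ) q := hzp.map_of_injective (f := Circle.coeHom)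
    (fun a b h => Circle.ext h)
  have : NeZero q := ⟨hq.ne_zero⟩
  have h1 : ((ζ : Circle) : ℂ) ^ q = 1 := by
    rw [← Circle.coe_pow, hζ.pow_eq_one, Circle.coe_one]
  obtain ⟨n, -, hn⟩ := hzc.eq_pow_of_pow_eq_one h1
  exact ⟨n, Circle.ext (by rw [Circle.coe_pow]; exact hn)⟩

section Zorn

variable {A : Type*} [CommGroup A] [TopologicalSpace A] [IsTopologicalGroup A] [CompactSpace A]
  [T2Space A]

/-- A minimal closed subgroup on which `χ` is nontrivial. -/
theorem exists_minimal (χ : A →* Circle) (hχ : Continuous χ) {q : ℕ} (hq : q.Prime)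
    (hpow : ∀ a, χ a ^ q = 1) (x : A) (hx : χ x ≠ 1) :
    ∃ B : Subgroup A, IsClosed (B : Set A) ∧ (∃ b ∈ B, χ b ≠ 1) ∧
      ∀ B' : Subgroup A, B' ≤ B → IsClosed (B' : Set A) → (∃ b ∈ B', χ b ≠ 1) → B' = B := by
  classical
  set ζ := χ x with hζdef
  have hζ : IsPrimitiveRoot ζ q := by
    have h1 : orderOf ζ = q := by
      rcases (Nat.dvd_prime hq).mp (orderOf_dvd_of_pow_eq_one (hpow x)) with h | h
      · exact absurd (orderOf_eq_one_iff.mp h) hx
      · exact h
    exact h1 ▸ IsPrimitiveRoot.orderOf ζ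
  have hkey : ∀ B : Subgroup A, (∃ b ∈ B, χ b ≠ 1) → ∃ b ∈ B, χ b = ζ := by
    rintro B ⟨b, hb, hb1⟩
    obtain ⟨n, hn⟩ := exists_pow_eq hq hζ (hpow b) hb1
    exact ⟨b ^ n, B.pow_mem hb n, by rw [map_pow, hn]⟩
  let 𝒮 : Set (Subgroup A) := {B | IsClosed (B : Set A) ∧ ∃ b ∈ B, χ b ≠ 1}
  have hzorn : ∃ B, Minimal (· ∈ 𝒮) B := by
    refine zorn_le₀ (α := (Subgroup A)ᵒᵈ) (OrderDual.ofDual ⁻¹' 𝒮) ?_
    intro C hC hchain
    by_cases hne : C.Nonempty
    · refine ⟨OrderDual.toDual (sInf (OrderDual.toDual ⁻¹' C)), ⟨?_, ?_⟩, ?_⟩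
      · change IsClosed ((sInf (OrderDual.toDual ⁻¹' C) : Subgroup A) : Set A)
        rw [Subgroup.coe_sInf]
        refine isClosed_biInter fun B hB => ?_
        exact (hC hB).1
      · have hne' : Nonempty C := hne.to_subtype
        have hdir : ∀ B B' : C, ∃ B'' : C,
            (OrderDual.ofDual B''.1 : Subgroup A) ≤ OrderDual.ofDual B.1 ∧
            (OrderDual.ofDual B''.1 : Subgroup A) ≤ OrderDual.ofDual B'.1 := by
          intro B B'
          rcases hchain.total B.2 B'.2 with h | h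
          · exact ⟨B', h, le_rfl⟩
          · exact ⟨B, le_rfl, h⟩
        have hcomp := IsCompact.nonempty_iInter_of_directed_nonempty_isCompact_isClosed
          (fun B : C => ((OrderDual.ofDual B.1 : Subgroup A) : Set A) ∩ χ ⁻¹' {ζ})
          (by
            intro B B'
            obtain ⟨B'', h1, h2⟩ := hdir B B'
            exact ⟨B'', Set.inter_subset_inter_left _ h1, Set.inter_subset_inter_left _ h2⟩)
          (by
            intro B
            obtain ⟨b, hb, hb1⟩ := hkey _ (hC B.2).2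
            exact ⟨b, hb, hb1⟩)
          (by
            intro B
            exact (((hC B.2).1).inter ((isClosed_singleton).preimage hχ)).isCompact)
          (by
            intro B
            exact ((hC B.2).1).inter ((isClosed_singleton).preimage hχ))
        obtain ⟨b, hb⟩ := hcomp
        rw [Set.mem_iInter] at hb
        refine ⟨b, ?_, ?_⟩
        · change b ∈ sInf (OrderDual.toDual ⁻¹' C)
          rw [Subgroup.mem_sInf]
          intro B hB
          exact (hb ⟨OrderDual.toDual B, hB⟩).1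
        · obtain ⟨B₀, hB₀⟩ := hne
          have := (hb ⟨B₀, hB₀⟩).2
          rw [Set.mem_preimage, Set.mem_singleton_iff] at this
          rw [this]
          exact hx
      · intro B hB
        change sInf (OrderDual.toDual ⁻¹' C) ≤ OrderDual.ofDual B
        exact sInf_le hB
    · refine ⟨OrderDual.toDual ⊤, ⟨isClosed_univ, x, trivial, hx⟩, ?_⟩
      intro B hB
      exact absurd ⟨B, hB⟩ hne
  obtain ⟨B, hB, hmin⟩ := hzorn
  refine ⟨B, hB.1, hB.2, ?_⟩
  intro B' hle hcl hex
  exact le_antisymm hle (hmin ⟨hcl, hex⟩ hle)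

end Zorn

/-- The data delivered by B1b on a compact commutative group: a topological generator `x`, a prime
`q`, a continuous character `χ` of order `q`, with `χ x` a primitive `q`-th root of unity and such
that every closed subgroup on which `χ` is nontrivial is everything. -/
structure MinData (A : Type*) [Group A] [TopologicalSpace A] (x : A) (q : ℕ)
    (χ : A →* Circle) : Prop where
  prime : q.Prime
  cont : Continuous χ
  prim : IsPrimitiveRoot (χ x) q
  pow : ∀ a, χ a ^ q = 1
  dense : Dense ((Subgroup.zpowers x : Subgroup A) : Set A)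
  min : ∀ B : Subgroup A, IsClosed (B : Set A) → (∃ b ∈ B, χ b ≠ 1) → B = ⊤

/-- **B1b, type-level form.** A compact Hausdorff group with an element `x₀ ≠ 1` receives an
injective continuous homomorphism from a compact Hausdorff commutative group with `MinData`. -/
theorem exists_minData {H : Type*} [Group H] [TopologicalSpace H] [IsTopologicalGroup H]
    [CompactSpace H] [T2Space H] (x₀ : H) (hx₀ : x₀ ≠ 1) :
    ∃ A : Subgroup H, IsClosed (A : Set H) ∧ (∀ a b : A, a * b = b * a) ∧
      ∃ (x : A) (q : ℕ) (χ : A →* Circle), MinData A x q χ := by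
  classical
  -- the closed commutative subgroup generated by `x₀`
  let A₀ : Subgroup H := (Subgroup.zpowers x₀).topologicalClosure
  have hcomm : ∀ a b : Subgroup.zpowers x₀, a * b = b * a := by
    rintro ⟨_, m, rfl⟩ ⟨_, n, rfl⟩
    refine Subtype.ext ?_
    change x₀ ^ m * x₀ ^ n = x₀ ^ n * x₀ ^ m
    rw [← zpow_add, ← zpow_add, add_comm]
  let cg₀ : CommGroup A₀ := Subgroup.commGroupTopologicalClosure (Subgroup.zpowers x₀) hcomm
  have hA₀c : IsClosed (A₀ : Set H) := Subgroup.isClosed_topologicalClosure _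
  have : CompactSpace A₀ := isCompact_iff_compactSpace.mp hA₀c.isCompact
  have htg : IsTopologicalGroup A₀ := inferInstance
  have hx₀A : x₀ ∈ A₀ := Subgroup.le_topologicalClosure _ (Subgroup.mem_zpowers x₀)
  have hx₀1 : (⟨x₀, hx₀A⟩ : A₀) ≠ 1 := fun h => hx₀ (congrArg Subtype.val h)
  obtain ⟨χ₀, hχ₀, hχx₀⟩ := exists_character (⟨x₀, hx₀A⟩ : A₀) hx₀1
  -- an element of prime order in the image
  have hK : IsClosed ((χ₀.range : Subgroup Circle) : Set Circle) := by
    rw [MonoidHom.coe_range]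
    exact (isCompact_range hχ₀).isClosed
  obtain ⟨q, hq, ζ, ⟨x₁, hx₁⟩, hζ⟩ := circle_exists_prime χ₀.range hK (χ₀ ⟨x₀, hx₀A⟩)
    ⟨_, rfl⟩ hχx₀
  -- the closed subgroup where `χ₀ ^ q = 1`
  let A₁ : Subgroup A₀ :=
    { carrier := {a | χ₀ a ^ q = 1}
      one_mem' := by
        change χ₀ 1 ^ q = 1
        rw [map_one, one_pow]
      mul_mem' := by
        intro a b ha hb
        change χ₀ (a * b) ^ q = 1
        change χ₀ a ^ q = 1 at ha
        change χ₀ b ^ q = 1 at hb
        rw [map_mul, mul_pow, ha, hb, one_mul]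
      inv_mem' := by
        intro a ha
        change χ₀ a⁻¹ ^ q = 1
        change χ₀ a ^ q = 1 at ha
        rw [map_inv, inv_pow, ha, inv_one] }
  have hA₁c : IsClosed (A₁ : Set A₀) :=
    isClosed_singleton.preimage (hχ₀.pow q)
  have : CompactSpace A₁ := isCompact_iff_compactSpace.mp hA₁c.isCompact
  let χ₁ : A₁ →* Circle := χ₀.comp A₁.subtype
  have hχ₁ : Continuous χ₁ := hχ₀.comp continuous_subtype_val
  have hpow₁ : ∀ a : A₁, χ₁ a ^ q = 1 := fun a => a.2
  have hx₁A : x₁ ∈ A₁ := by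
    change χ₀ x₁ ^ q = 1
    rw [hx₁, hζ.pow_eq_one]
  have hζ1 : ζ ≠ 1 := hζ.ne_one hq.one_lt
  obtain ⟨B, hBc, ⟨b, hbB, hb1⟩, hBmin⟩ := exists_minimal χ₁ hχ₁ hq hpow₁ ⟨x₁, hx₁A⟩
    (by change χ₀ x₁ ≠ 1; rw [hx₁]; exact hζ1)
  -- transport to `H`
  let j₁ : A₁ →* H := A₀.subtype.comp A₁.subtype
  have hj₁c : Continuous j₁ := continuous_subtype_val.comp continuous_subtype_val
  have hj₁i : Function.Injective j₁ := fun a b h => Subtype.ext (Subtype.ext h)
  have hj₁e : Topology.IsClosedEmbedding j₁ :=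
    hj₁c.isClosedEmbedding hj₁i
  let A : Subgroup H := B.map j₁
  have hAc : IsClosed (A : Set H) := by
    rw [Subgroup.coe_map]
    exact hj₁e.isClosedMap _ hBc
  -- the inverse map
  let e : B ≃* A := Subgroup.equivMapOfInjective B j₁ hj₁i
  have he : ∀ b : B, ((e b : A) : H) = j₁ b := fun b => Subgroup.coe_equivMapOfInjective_apply ..
  have hecont : Continuous e := by
    rw [continuous_induced_rng]
    exact hj₁c.comp continuous_subtype_val
  have : CompactSpace B := isCompact_iff_compactSpace.mp hBc.isCompact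
  let eh : B ≃ₜ A := Continuous.homeoOfEquivCompactToT2 (f := e.toEquiv) hecont
  have hesymm : Continuous e.symm := eh.symm.continuous
  let χ : A →* Circle := (χ₁.comp B.subtype).comp e.symm.toMonoidHom
  have hχc : Continuous χ := (hχ₁.comp continuous_subtype_val).comp hesymm
  have hχe : ∀ b : B, χ (e b) = χ₁ b := by
    intro b
    change χ₁ (e.symm (e b) : A₁) = χ₁ b
    rw [MulEquiv.symm_apply_apply]
  -- the generator
  have hminA : ∀ B' : Subgroup A, IsClosed (B' : Set A) → (∃ b ∈ B', χ b ≠ 1) → B' = ⊤ := by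
    rintro B' hB'c ⟨b', hb'B, hb'1⟩
    let B₂ : Subgroup A₁ := (B'.comap e.toMonoidHom).map B.subtype
    have hle : B₂ ≤ B := by
      rintro _ ⟨c, -, rfl⟩
      exact c.2
    have hB₂c : IsClosed (B₂ : Set A₁) := by
      rw [Subgroup.coe_map]
      refine (hBc.isClosedEmbedding_subtypeVal).isClosedMap _ ?_
      exact hB'c.preimage hecont
    have hB₂ex : ∃ b ∈ B₂, χ₁ b ≠ 1 := by
      refine ⟨e.symm b', ⟨e.symm b', ?_, rfl⟩, hb'1⟩
      change e (e.symm b') ∈ B'
      rw [MulEquiv.apply_symm_apply]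
      exact hb'B
    have hEq := hBmin B₂ hle hB₂c hB₂ex
    rw [eq_top_iff]
    intro a _
    have h1 : ((e.symm a : B) : A₁) ∈ B₂ := by
      rw [hEq]
      exact (e.symm a).2
    obtain ⟨c, hc, hca⟩ := h1
    have hc2 : c = e.symm a := Subtype.ext hca
    have hc3 : e c ∈ B' := hc
    rw [hc2, MulEquiv.apply_symm_apply] at hc3
    exact hc3
  have hpowA : ∀ a : A, χ a ^ q = 1 := fun a => hpow₁ _
  let x : A := e ⟨b, hbB⟩
  have hx1 : χ x ≠ 1 := by
    change χ (e ⟨b, hbB⟩) ≠ 1
    rw [hχe]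
    exact hb1
  refine ⟨A, hAc, ?_, x, q, χ, ?_⟩
  · intro a a'
    apply e.symm.injective
    rw [map_mul, map_mul]
    exact mul_comm _ _
  · refine ⟨hq, hχc, ?_, hpowA, ?_, hminA⟩
    · have hord : orderOf (χ x) = q := by
        rcases (Nat.dvd_prime hq).mp (orderOf_dvd_of_pow_eq_one (hpowA x)) with h | h
        · exact absurd (orderOf_eq_one_iff.mp h) hx1
        · exact h
      exact hord ▸ IsPrimitiveRoot.orderOf _
    · have htop := hminA (Subgroup.zpowers x).topologicalClosure
        (Subgroup.isClosed_topologicalClosure _)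
        ⟨x, Subgroup.le_topologicalClosure _ (Subgroup.mem_zpowers x), hx1⟩
      rw [dense_iff_closure_eq]
      have h2 := congrArg (fun S : Subgroup A => (S : Set A)) htop
      simpa [Subgroup.topologicalClosure_coe] using h2




end Crest.Agent.R217.B1b_889
end

-- ▼ part R217/SpecB_837
section

/-!
Row 217 (S0336), PART B: interfaces between the group/manifold side and the chain-level crux.

* `HData E q` : the powers `h i` (`i : ℕ`) of one homeomorphism of an open set `Ω` of `E`,
  equicontinuous and recurrent along multiples of `q`, with an invariant map `f : Ω → E`.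
* `CruxT` : small orbits near a ball and separation over one point: impossible.
* `CruxP` : `f` proper over a convex open `Y`, everything trivial over a neighbourhood of `y0 ∈ Y`,
  separation over `y1 ∈ Y`: impossible.
* `TaskB1` : a nontrivial compact group contains a closed subgroup with `Mono` data (helper889).
* `PartB`: `TaskB1 → CruxT → CruxP → (faithful action on a connected manifold → NSCS G)`.
-/

set_option autoImplicit false

open Set Metric Topology
open scoped Topology Manifold ContDiff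

namespace Crest.Agent.R217.SpecB837

open Crest.Agent.R217.SpecA343

/-! ## Euclidean data -/

/-- `h i` is the action of the `i`-th power of the generator on the open set `Ω`,
`f` is an invariant map (an average). -/
structure HData (E : Type*) [PseudoMetricSpace E] (q : ℕ) where
  Ω : Set E
  h : ℕ → E → E
  f : E → E
  isOpen : IsOpen Ω
  maps : ∀ i, ∀ v ∈ Ω, h i v ∈ Ω
  zero : ∀ v ∈ Ω, h 0 v = v
  add : ∀ i j, ∀ v ∈ Ω, h (i + j) v = h i (h j v)
  /-- uniform equicontinuity on compact sets -/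
  equi : ∀ K ⊆ Ω, IsCompact K → ∀ ε > 0, ∃ δ > 0, ∀ v ∈ K, ∀ w ∈ Ω, dist w v < δ →
    ∀ i, dist (h i w) (h i v) < ε
  /-- compact sets are contained in invariant compact sets -/
  hull : ∀ K ⊆ Ω, IsCompact K → ∃ K' ⊆ Ω, IsCompact K' ∧ K ⊆ K' ∧ ∀ i, ∀ v ∈ K', h i v ∈ K'
  /-- recurrence, uniform on compact sets, along multiples of `q` -/
  recur : ∀ K ⊆ Ω, IsCompact K → ∀ ε > 0, ∃ m > 0, q ∣ m ∧ ∀ v ∈ K, dist (h m v) v < ε
  f_cont : ContinuousOn f Ω
  f_inv : ∀ i, ∀ v ∈ Ω, f (h i v) = f v

/-- **CRUX T** (small orbits).  In `Fin n → ℝ` with the sup norm: if all orbits of points of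
`closedBall 0 2` are `δ`-small, `f` is `δ`-close to the identity there, then it is impossible that
over (a neighbourhood of) some `y ∈ ball 0 1` the points are moved by at least `s` by all `h i`
with `q ∤ i`.  (`δ` depends on `n` only.) -/
def CruxT (n : ℕ) : Prop :=
  ∃ δ > 0, ∀ q : ℕ, q.Prime → ∀ D : HData (Fin n → ℝ) q, closedBall 0 2 ⊆ D.Ω →
    (∀ v ∈ closedBall (0 : Fin n → ℝ) 2, ∀ i, dist (D.h i v) v ≤ δ) →
    (∀ v ∈ closedBall (0 : Fin n → ℝ) 2, dist (D.f v) v ≤ δ) →
    ∀ y ∈ ball (0 : Fin n → ℝ) 1, ∀ r > 0, ∀ s > 0,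
      (∀ v ∈ closedBall (0 : Fin n → ℝ) 2, dist (D.f v) y < r → ∀ i, ¬ q ∣ i → s ≤ dist (D.h i v) v) →
      False

/-- **CRUX P** (proper version).  `f` is proper over the convex open set `Y`; over the ball
`ball y0 r` everything is trivial; over `ball y1 r` the points are separated. -/
def CruxP (n : ℕ) : Prop :=
  ∀ q : ℕ, q.Prime → ∀ D : HData (Fin n → ℝ) q, ∀ Y : Set (Fin n → ℝ), IsOpen Y → Convex ℝ Y →
    (∀ L ⊆ Y, IsCompact L → IsCompact (D.Ω ∩ D.f ⁻¹' L)) →
    ∀ y0 ∈ Y, ∀ y1 ∈ Y, ∀ r > 0, ∀ s > 0,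
      (∀ v ∈ ball y0 r, v ∈ D.Ω ∧ D.f v = v ∧ ∀ i, D.h i v = v) →
      (∀ v ∈ D.Ω, D.f v ∈ ball y0 r → D.f v = v) →
      (∀ v ∈ D.Ω, D.f v ∈ ball y1 r → ∀ i, ¬ q ∣ i → s ≤ dist (D.h i v) v) →
      False

/-! ## Compact groups -/

/-- a monothetic group with a character of prime order and the minimality property of helper67 -/
structure Mono (A : Type*) [Group A] [TopologicalSpace A] where
  x : A
  q : ℕ
  prime : q.Prime
  chi : A →* Circle
  cont : Continuous chi
  pow : chi x ^ q = 1
  ne : chi x ≠ 1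
  mini : ∀ B : Subgroup A, IsClosed (B : Set A) → (∃ b ∈ B, chi b ≠ 1) → B = ⊤

/-- TASK B1 (helper889) -/
def TaskB1.{u} : Prop := ∀ (H : Type u) [Group H] [TopologicalSpace H] [IsTopologicalGroup H]
    [T2Space H] [CompactSpace H] [SecondCountableTopology H], Nontrivial H →
    ∃ A : Subgroup H, IsClosed (A : Set H) ∧ Nonempty (Mono A)

/-! ## Part B -/

/-- PART B: a locally compact group acting faithfully on a connected manifold has no small compact
subgroups. -/
def PartB.{u, v} : Prop :=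
    ∀ (n : ℕ) (_ : 1 ≤ n)
    (M : Type u) [TopologicalSpace M] [T2Space M] [SecondCountableTopology M] [ConnectedSpace M]
    [ChartedSpace (EuclideanSpace ℝ (Fin n)) M]
    (G : Type v) [Group G] [TopologicalSpace G] [IsTopologicalGroup G] [T2Space G]
    [SecondCountableTopology G] [LocallyCompactSpace G]
    [MulAction G M] [ContinuousSMul G M] [FaithfulSMul G M], NSCS G

/-- S0336 from the parts -/
theorem s0336_of.{u, v} (hA : PartA.{v}) (hB : PartB.{u, v})
    (n : ℕ) (hn : 1 ≤ n)
    (M : Type u) [TopologicalSpace M] [T2Space M] [SecondCountableTopology M] [ConnectedSpace M]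
    [ChartedSpace (EuclideanSpace ℝ (Fin n)) M]
    (G : Type v) [Group G] [TopologicalSpace G] [IsTopologicalGroup G] [T2Space G]
    [SecondCountableTopology G] [LocallyCompactSpace G]
    [MulAction G M] [ContinuousSMul G M] [FaithfulSMul G M] :
    ∃ (d : ℕ) (c : ChartedSpace (EuclideanSpace ℝ (Fin d)) G),
      @LieGroup ℝ _ (EuclideanSpace ℝ (Fin d)) _ (EuclideanSpace ℝ (Fin d)) _ _
        𝓘(ℝ, EuclideanSpace ℝ (Fin d)) ∞ G _ _ c :=
  hA G (hB n hn M G)

/-- TASK B (helper837) -/
def TaskB.{u, v} : Prop := TaskB1.{v} → (∀ n, 1 ≤ n → CruxT n) → (∀ n, 1 ≤ n → CruxP n) →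
  PartB.{u, v}

end Crest.Agent.R217.SpecB837
end

-- ▼ part R217/B1c_889
section

/-!
Row 217 (S0336), part B, piece B1c (helper889): adapters.

* `taskB1 : SpecB837.TaskB1` (helper837's interface);
* `exists_complex_character` : the same with a complex valued character (helper478's `Crux`).
-/

set_option autoImplicit false

open scoped Topology

namespace Crest.Agent.R217.B1c_889

open Crest.Agent.R217.B1b_889

/-- TASK B1 in the form of `SpecB_837`. -/
theorem taskB1.{u} : Crest.Agent.R217.SpecB837.TaskB1.{u} := by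
  intro H _ _ _ _ _ _ hH
  obtain ⟨x₀, hx₀⟩ := exists_ne (1 : H)
  obtain ⟨A, hA, -, x, q, χ, hχ⟩ := exists_minData x₀ hx₀
  refine ⟨A, hA, ⟨{
    x := x
    q := q
    prime := hχ.prime
    chi := χ
    cont := hχ.cont
    pow := hχ.pow x
    ne := hχ.prim.ne_one hχ.prime.one_lt
    mini := hχ.min }⟩⟩

/-- The same with a character with values in `ℂ` and dense integer powers. -/
theorem exists_complex_character {H : Type*} [Group H] [TopologicalSpace H] [IsTopologicalGroup H]
    [CompactSpace H] [T2Space H] (x₀ : H) (hx₀ : x₀ ≠ 1) :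
    ∃ A : Subgroup H, IsClosed (A : Set H) ∧ (∀ a b : A, a * b = b * a) ∧
      ∃ (x : A) (q : ℕ) (χ : A →* ℂ), q.Prime ∧ Dense (Set.range fun k : ℤ => x ^ k) ∧
        Continuous χ ∧ (∀ g, χ g ^ q = 1) ∧ χ x ≠ 1 ∧
        ∀ B : Subgroup A, IsClosed (B : Set A) → (∃ b ∈ B, χ b ≠ 1) → B = ⊤ := by
  obtain ⟨A, hA, hcomm, x, q, χ, hχ⟩ := exists_minData x₀ hx₀
  refine ⟨A, hA, hcomm, x, q, Circle.coeHom.comp χ, hχ.prime, ?_, ?_, ?_, ?_, ?_⟩
  · have := hχ.dense
    rwa [Subgroup.coe_zpowers] at this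
  · exact continuous_subtype_val.comp hχ.cont
  · intro g
    change ((χ g : Circle) : ℂ) ^ q = 1
    rw [← Circle.coe_pow, hχ.pow, Circle.coe_one]
  · intro h
    have h1 : ((χ x : Circle) : ℂ) = ((1 : Circle) : ℂ) := h
    exact hχ.prim.ne_one hχ.prime.one_lt (Circle.ext h1)
  · rintro B hB ⟨b, hb, hb1⟩
    refine hχ.min B hB ⟨b, hb, fun h => hb1 ?_⟩
    change ((χ b : Circle) : ℂ) = 1
    rw [h, Circle.coe_one]

end Crest.Agent.R217.B1c_889
end

-- ▼ part R217/B2c_478

/-!
Row 217 (S0336), part B2c: from the crux to "no small compact subgroups".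
-/

set_option autoImplicit false
set_option linter.unusedSectionVars false

open Filter Topology Metric Set MeasureTheory EuclideanGeometry
open Crest.Agent.R217.SpecC478

namespace Crest.Agent.R217.B2478

/-- inversion as a partial homeomorphism -/
noncomputable def invH {n : ℕ} (z : E n) (ρ : ℝ) (hρ : ρ ≠ 0) : OpenPartialHomeomorph (E n) (E n) where
  toFun := inversion z ρ
  invFun := inversion z ρ
  source := {z}ᶜ
  target := {z}ᶜ
  map_source' := fun x hx => by
    simp only [mem_compl_iff, mem_singleton_iff] at hx ⊢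
    rw [inversion_eq_center hρ]; exact hx
  map_target' := fun x hx => by
    simp only [mem_compl_iff, mem_singleton_iff] at hx ⊢
    rw [inversion_eq_center hρ]; exact hx
  left_inv' := fun x _ => inversion_inversion z hρ x
  right_inv' := fun x _ => inversion_inversion z hρ x
  open_source := isOpen_compl_singleton
  open_target := isOpen_compl_singleton
  continuousOn_toFun := continuousOn_const.inversion continuousOn_const continuousOn_id
    (fun x hx => hx)
  continuousOn_invFun := continuousOn_const.inversion continuousOn_const continuousOn_id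
    (fun x hx => hx)

universe u v

variable {n : ℕ} {c : ℝ} {M : Type v} [TopologicalSpace M] [T2Space M]
  {A : Type u} [Group A] [TopologicalSpace A] [IsTopologicalGroup A] [CompactSpace A]
  [T2Space A] [SecondCountableTopology A] [MulAction A M] [ContinuousSMul A M]

/-- the fixed point set -/
def FixS (A : Type*) [Group A] (M : Type*) [MulAction A M] : Set M := {m | ∀ a : A, a • m = m}

theorem not_mem_fixS {m : M} : m ∉ FixS A M ↔ ∃ a : A, a • m ≠ m := by
  simp [FixS]

/-- N2: trivial on an open set implies trivial. -/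
theorem n2 [ChartedSpace (E n) M] [PreconnectedSpace M] (hc : 0 < c) (hC : CruxAt.{u} n c)
    (mc : MC A) (hne : (interior (FixS A M)).Nonempty) : FixS A M = univ := by
  have hcl : IsClosed (interior (FixS A M)) := by
    by_contra hncl
    have h0 : ∃ m1 ∈ closure (interior (FixS A M)), m1 ∉ interior (FixS A M) := by
      by_contra h
      push Not at h
      exact hncl (closure_subset_iff_isClosed.1 h)
    obtain ⟨m1, hm1, hm1'⟩ := h0
    set φ : OpenPartialHomeomorph M (E n) := chartAt (E n) m1 with hφ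
    have hm1s : m1 ∈ φ.source := mem_chart_source _ _
    set z1 := φ m1 with hz1
    have hz1t : z1 ∈ φ.target := φ.map_source hm1s
    obtain ⟨r0', hr0', hr0t'⟩ := Metric.isOpen_iff.1 φ.open_target z1 hz1t
    set r0 := r0' / 2 with hr0def
    have hr0 : 0 < r0 := by positivity
    have hr0t : closedBall z1 r0 ⊆ φ.target :=
      (closedBall_subset_ball (by linarith)).trans hr0t'
    have hnh : ∀ ε > 0, φ.source ∩ φ ⁻¹' ball z1 ε ∈ 𝓝 m1 := fun ε hε =>
      (φ.isOpen_inter_preimage isOpen_ball).mem_nhds ⟨hm1s, mem_ball_self hε⟩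
    -- the center
    obtain ⟨p, ⟨hps, hpb⟩, hpO⟩ := mem_closure_iff_nhds.1 hm1 _ (hnh (r0 / 4) (by positivity))
    set z := φ p with hz
    have hzz1 : dist z z1 < r0 / 4 := hpb
    -- nonfixed points in the chart
    set NF : Set (E n) := {v | v ∈ closedBall z1 r0 ∧ ∃ a : A, a • φ.symm v ≠ φ.symm v} with hNF
    have hNF0 : ∀ ε > 0, ∃ v ∈ NF, dist v z1 < ε := by
      intro ε hε
      have h1 : ¬ (φ.source ∩ φ ⁻¹' ball z1 (min ε r0) ⊆ FixS A M) := fun h =>
        hm1' (mem_interior_iff_mem_nhds.2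
          (mem_of_superset (hnh (min ε r0) (lt_min hε hr0)) h))
      obtain ⟨q, ⟨hq1, hq2⟩, hq3⟩ := not_subset.1 h1
      rw [not_mem_fixS] at hq3
      have hq4 : dist (φ q) z1 < min ε r0 := hq2
      refine ⟨φ q, ⟨(hq4.trans_le (min_le_right _ _)).le, ?_⟩, hq4.trans_le (min_le_left _ _)⟩
      rw [φ.left_inv hq1]; exact hq3
    have hz1C : z1 ∈ closure NF := by
      rw [Metric.mem_closure_iff]
      intro ε hε
      obtain ⟨v, hv, hv'⟩ := hNF0 ε hε
      exact ⟨v, hv, by rw [dist_comm]; exact hv'⟩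
    have hzC : z ∉ closure NF := by
      intro h
      have hop : IsOpen (φ '' (interior (FixS A M) ∩ φ.source)) :=
        φ.isOpen_image_of_subset_source (isOpen_interior.inter φ.open_source) inter_subset_right
      obtain ⟨v, hv1, hv2⟩ := mem_closure_iff.1 h _ hop ⟨p, ⟨hpO, hps⟩, rfl⟩
      obtain ⟨q, ⟨hq1, hq2⟩, rfl⟩ := hv1
      obtain ⟨a, ha⟩ := hv2.2
      rw [φ.left_inv hq2] at ha
      exact ha (interior_subset hq1 a)
    obtain ⟨w, hwC, hw⟩ := isClosed_closure.exists_infDist_eq_dist ⟨z1, hz1C⟩ z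
    have hρpos : 0 < dist w z := by
      rw [dist_pos]; rintro rfl; exact hzC hwC
    have hwz : dist w z < r0 / 4 := by
      rw [dist_comm, ← hw]; exact (infDist_le_dist_of_mem hz1C).trans_lt hzz1
    have hwz1 : dist w z1 < r0 / 2 := by linarith [dist_triangle w z z1]
    have hNFρ : ∀ v ∈ NF, dist w z ≤ dist v z := by
      intro v hv
      rw [dist_comm w z, ← hw, dist_comm v z]
      exact infDist_le_dist_of_mem (subset_closure hv)
    -- inversion
    set ρ := dist w z with hρ
    have hρ0 : ρ ≠ 0 := hρpos.ne'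
    have hιw : inversion z ρ w = w := inversion_dist_center z w
    have hwne : w ≠ z := by rw [← dist_pos]; exact hρpos
    have hιc : ContinuousAt (inversion z ρ) w :=
      ContinuousAt.inversion continuousAt_const continuousAt_const continuousAt_id hwne
    have hev : ∀ᶠ v in 𝓝 w, inversion z ρ v ∈ ball z1 r0 ∧ v ≠ z := by
      refine Filter.Eventually.and ?_ (eventually_ne_nhds hwne)
      refine hιc.eventually_mem (isOpen_ball.mem_nhds ?_)
      rw [hιw, mem_ball]; linarith
    obtain ⟨r', hr', hr'w⟩ := Metric.eventually_nhds_iff.1 hev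
    let ψ : OpenPartialHomeomorph M (E n) := φ.trans (invH z ρ hρ0)
    have hψs : ∀ v, ψ.symm v = φ.symm (inversion z ρ v) := fun v => rfl
    have hψt : ∀ v, v ≠ z → inversion z ρ v ∈ φ.target → v ∈ ψ.target := by
      intro v hv1 hv2
      change v ∈ (φ.trans (invH z ρ hρ0)).target
      rw [OpenPartialHomeomorph.trans_target]
      exact ⟨hv1, hv2⟩
    refine use2 hc hC mc ψ w z (r' / 2) (by positivity) ?_ hρpos ?_ ?_
    · intro v hv
      have h1 : dist v w < r' := lt_of_le_of_lt hv (by linarith)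
      obtain ⟨h2, h3⟩ := hr'w h1
      exact hψt v h3 (hr0t (ball_subset_closedBall h2))
    · intro v hv hg
      have h1 : dist v w < r' := lt_of_le_of_lt hv (by linarith)
      obtain ⟨h2, h3⟩ := hr'w h1
      have h4 : inversion z ρ v ∈ NF := ⟨ball_subset_closedBall h2, by simpa only [hψs] using hg⟩
      have h5 := hNFρ _ h4
      rw [dist_inversion_center] at h5
      have h6 : 0 < dist v z := dist_pos.2 h3
      rw [le_div_iff₀ h6] at h5
      rw [mem_closedBall, ← hρ]
      nlinarith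
    · intro ε hε
      have h1 : ∀ᶠ u in 𝓝 w, inversion z ρ u ∈ ball w ε :=
        hιc.eventually_mem (isOpen_ball.mem_nhds (by rw [hιw]; exact mem_ball_self hε))
      obtain ⟨u, hu1, hu2⟩ := mem_closure_iff_nhds.1 hwC _ h1
      refine ⟨inversion z ρ u, hu1, ?_⟩
      obtain ⟨a, ha⟩ := hu2.2
      refine ⟨a, ?_⟩
      rw [hψs, inversion_inversion z hρ0]; exact ha
  rcases isClopen_iff.1 ⟨hcl, isOpen_interior⟩ with h | h
  · exact absurd h hne.ne_empty
  · exact univ_subset_iff.1 (h ▸ interior_subset)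

/-- The reduction: the crux implies that a group acting faithfully has no small compact
subgroups. -/
theorem nscs_of_crux (hC : Crux.{u} n)
    (M : Type v) [TopologicalSpace M] [T2Space M] [ConnectedSpace M] [ChartedSpace (E n) M]
    (G : Type u) [Group G] [TopologicalSpace G] [IsTopologicalGroup G] [T2Space G]
    [SecondCountableTopology G] [MulAction G M] [ContinuousSMul G M] [FaithfulSMul G M] :
    SpecA343.NSCS G := by
  obtain ⟨c, hc, hC⟩ := (crux_iff n).1 hC
  obtain ⟨m0⟩ : Nonempty M := inferInstance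
  set φ : OpenPartialHomeomorph M (E n) := chartAt (E n) m0 with hφ
  have hm0 : m0 ∈ φ.source := mem_chart_source _ _
  set z := φ m0 with hz
  have hzt : z ∈ φ.target := φ.map_source hm0
  obtain ⟨r, hr, hrt⟩ := Metric.isOpen_iff.1 φ.open_target z hzt
  set ρ := r / 4 with hρdef
  have hρ : 0 < ρ := by positivity
  have hzt2 : closedBall z (2 * ρ) ⊆ φ.target :=
    (closedBall_subset_ball (by linarith)).trans hrt
  set δ := min (ρ / 8) (c * ρ / 2) with hδ
  have hδ0 : 0 < δ := lt_min (by positivity) (by positivity)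
  refine ⟨{g : G | ∀ v ∈ closedBall z (2 * ρ), g • φ.symm v ∈ φ.source ∧
    dist (φ (g • φ.symm v)) v ≤ δ}, ?_, ?_⟩
  · refine (isCompact_closedBall z (2 * ρ)).eventually_forall_of_forall_eventually ?_
    intro v hv
    have hvt : v ∈ φ.target := hzt2 hv
    have h1 : ContinuousAt (fun p : G × E n => p.1 • φ.symm p.2) (1, v) :=
      (continuousOn_smul_symm φ).continuousAt
        (prod_mem_nhds univ_mem (φ.open_target.mem_nhds hvt))
    have h2 : (fun p : G × E n => p.1 • φ.symm p.2) (1, v) = φ.symm v := by simp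
    have h3 : ∀ᶠ p : G × E n in 𝓝 (1, v), p.1 • φ.symm p.2 ∈ φ.source :=
      h1.eventually_mem (φ.open_source.mem_nhds (by simpa using φ.map_target hvt))
    have h4 : ContinuousAt (fun p : G × E n => dist (φ (p.1 • φ.symm p.2)) p.2) (1, v) := by
      have h5 : ContinuousAt φ ((fun p : G × E n => p.1 • φ.symm p.2) (1, v)) := by
        rw [h2]; exact φ.continuousAt (φ.map_target hvt)
      exact (ContinuousAt.comp (g := φ) (f := fun p : G × E n => p.1 • φ.symm p.2) h5 h1).dist
        continuousAt_snd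
    have h6 : ∀ᶠ p : G × E n in 𝓝 (1, v), dist (φ (p.1 • φ.symm p.2)) p.2 < δ := by
      refine h4.eventually_lt_const ?_
      simp only [one_smul, φ.right_inv hvt, dist_self]; exact hδ0
    filter_upwards [h3, h6] with p hp3 hp6
    exact ⟨hp3, hp6.le⟩
  · intro H hHc hHU
    by_contra hH
    obtain ⟨x0, hx0H, hx0⟩ := (Subgroup.ne_bot_iff_exists_ne_one (H := H)).1 hH |>.elim
      fun a ha => (⟨a.1, a.2, fun h => ha (Subtype.ext h)⟩ : ∃ x ∈ H, x ≠ (1 : G))
    have : CompactSpace H := isCompact_iff_compactSpace.1 hHc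
    obtain ⟨A, hAc, -, x, q, χ, hq, hx, hχc, hχq, hχx, hmin⟩ :=
      B1c_889.exists_complex_character (H := H) ⟨x0, hx0H⟩ (fun h => hx0 (congrArg Subtype.val h))
    have : CompactSpace A := isCompact_iff_compactSpace.1 hAc.isCompact
    have : SecondCountableTopology H :=
      TopologicalSpace.Subtype.secondCountableTopology (H : Set G)
    have : SecondCountableTopology A :=
      TopologicalSpace.Subtype.secondCountableTopology (A : Set H)
    let mc : MC A := ⟨x, hx, q, hq, χ, hχc, hχq, hχx, hmin⟩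
    have hsm : ∀ (a : A) (m : M), a • m = ((a : H) : G) • m := fun a m => rfl
    have h1 := use1 hc hC mc φ z ρ hρ hzt2 (fun a v hv => hHU ((a : H).2) v hv)
    have h2 : (interior (FixS A M)).Nonempty := by
      refine ⟨m0, ?_⟩
      rw [mem_interior]
      refine ⟨φ.symm '' ball z ρ, ?_, ?_, ?_⟩
      · rintro _ ⟨v, hv, rfl⟩ a
        exact h1 v hv a
      · refine φ.symm.isOpen_image_of_subset_source isOpen_ball ?_
        exact (ball_subset_closedBall.trans (closedBall_subset_closedBall (by linarith))).trans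
          hzt2
      · exact ⟨z, mem_ball_self hρ, φ.left_inv hm0⟩
    have h3 := n2 (n := n) hc hC mc h2
    have h4 : ((x : H) : G) = 1 := by
      apply eq_of_smul_eq_smul (α := M)
      intro m
      have h5 : m ∈ FixS A M := by rw [h3]; trivial
      rw [one_smul]
      exact h5 x
    apply hχx
    have h5 : x = 1 := Subtype.ext (Subtype.ext h4)
    rw [h5, map_one]

end Crest.Agent.R217.B2478
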