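import Mathlib
import Crest.Agent.R217.SpecC_478
import Crest.Agent.R217.CruxN_559
import Crest.Agent.R217.Flow_373

-- ▼ part R217/Act_970
section

/-!
Row 217 (S0336), part C, topological input (helper970).

`G` is a compact group acting continuously on a metric space `V`.

* X1: `rho G u v = sup_g dist (g • u) (g • v)` (an invariant metric) and the orbit pseudo-metric
  `rhoX G u v = inf_g rho (g • u) v`.
* X2: separation and degrees, for `χ : G →* Circle` with `χ g ^ q = 1`.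
* X3: gauge cover.
* X4: return times of a topological generator.
* X5: invariant functions are uniformly continuous for `rhoX`; invariant compact neighbourhoods.
-/

set_option autoImplicit false
set_option linter.unusedSectionVars false
set_option linter.unusedVariables false

open Filter Topology Set

namespace Crest.Agent.R217.Act970

section Basic

variable (G : Type*) [Group G] [TopologicalSpace G] [CompactSpace G]
variable {V : Type*} [MetricSpace V] [MulAction G V] [ContinuousSMul G V]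

/-- The orbit map `u ↦ (g ↦ g • u)`. -/
def orb : C(V, C(G, V)) :=
  ContinuousMap.curry ⟨fun p : V × G => p.2 • p.1, by fun_prop⟩

@[simp] theorem orb_apply (u : V) (g : G) : orb G u g = g • u := rfl

/-- The invariant metric `sup_g dist (g • u) (g • v)`. -/
noncomputable def rho (u v : V) : ℝ := dist (orb G u) (orb G v)

theorem rho_self (u : V) : rho G u u = 0 := dist_self _

theorem rho_nonneg (u v : V) : 0 ≤ rho G u v := dist_nonneg

theorem rho_comm (u v : V) : rho G u v = rho G v u := dist_comm _ _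

theorem rho_triangle (u v w : V) : rho G u w ≤ rho G u v + rho G v w := dist_triangle _ _ _

theorem dist_smul_le_rho (g : G) (u v : V) : dist (g • u) (g • v) ≤ rho G u v :=
  ContinuousMap.dist_apply_le_dist (f := orb G u) (g := orb G v) g

theorem dist_le_rho (u v : V) : dist u v ≤ rho G u v := by
  have h := dist_smul_le_rho G (1 : G) u v
  simpa using h

theorem rho_le {u v : V} {c : ℝ} (h : ∀ g : G, dist (g • u) (g • v) ≤ c) : rho G u v ≤ c :=
  (ContinuousMap.dist_le_iff_of_nonempty (f := orb G u) (g := orb G v)).2 h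

theorem rho_smul_le (g : G) (u v : V) : rho G (g • u) (g • v) ≤ rho G u v := by
  refine rho_le G fun h => ?_
  rw [← mul_smul, ← mul_smul]
  exact dist_smul_le_rho G _ u v

@[simp] theorem rho_smul (g : G) (u v : V) : rho G (g • u) (g • v) = rho G u v := by
  refine le_antisymm (rho_smul_le G g u v) ?_
  have h := rho_smul_le G g⁻¹ (g • u) (g • v)
  simpa using h

theorem rho_smul_left (g : G) (u v : V) : rho G (g • u) v = rho G u (g⁻¹ • v) := by
  have h := rho_smul G g u (g⁻¹ • v)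
  rw [smul_inv_smul] at h
  exact h

theorem cont_rho {α : Type*} [TopologicalSpace α] {a b : α → V} (ha : Continuous a)
    (hb : Continuous b) : Continuous fun x => rho G (a x) (b x) :=
  ((orb G).continuous.comp ha).dist ((orb G).continuous.comp hb)


/-- `rho` is uniformly small on compact sets. -/
theorem exists_rho_lt {K : Set V} (hK : IsCompact K) {ε : ℝ} (hε : 0 < ε) :
    ∃ δ > 0, ∀ u ∈ K, ∀ v, dist u v < δ → rho G u v < ε := by
  have h := hK.uniformContinuousAt_of_continuousAt (r := {p : C(G, V) × C(G, V) | dist p.1 p.2 < ε})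
    (orb G) (fun a _ => (orb G).continuous.continuousAt) (Metric.dist_mem_uniformity hε)
  obtain ⟨δ, hδ, hd⟩ := Metric.mem_uniformity_dist.1 h
  exact ⟨δ, hδ, fun u hu v huv => hd huv hu⟩

/-- The orbit pseudo-metric. -/
noncomputable def rhoX (u v : V) : ℝ := ⨅ g : G, rho G (g • u) v

theorem rhoX_bddBelow (u v : V) : BddBelow (Set.range fun g : G => rho G (g • u) v) :=
  ⟨0, by rintro _ ⟨g, rfl⟩; exact rho_nonneg G _ _⟩

theorem rhoX_le_smul (g : G) (u v : V) : rhoX G u v ≤ rho G (g • u) v :=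
  ciInf_le (rhoX_bddBelow G u v) g

theorem rhoX_le_rho (u v : V) : rhoX G u v ≤ rho G u v := by
  simpa using rhoX_le_smul G (1 : G) u v

theorem rhoX_nonneg (u v : V) : 0 ≤ rhoX G u v :=
  le_ciInf fun g => rho_nonneg G _ _

theorem exists_smul_lt {u v : V} {c : ℝ} (h : rhoX G u v < c) : ∃ g : G, rho G (g • u) v < c :=
  exists_lt_of_ciInf_lt h

@[simp] theorem rhoX_self (u : V) : rhoX G u u = 0 :=
  le_antisymm (by simpa [rho_self] using rhoX_le_rho G u u) (rhoX_nonneg G u u)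

theorem rhoX_comm_le (u v : V) : rhoX G u v ≤ rhoX G v u := by
  refine le_ciInf fun g => ?_
  rw [rho_smul_left, rho_comm]
  exact rhoX_le_smul G g⁻¹ u v

theorem rhoX_comm (u v : V) : rhoX G u v = rhoX G v u :=
  le_antisymm (rhoX_comm_le G u v) (rhoX_comm_le G v u)

theorem rhoX_triangle (u v w : V) : rhoX G u w ≤ rhoX G u v + rhoX G v w := by
  refine le_of_forall_pos_lt_add fun ε hε => ?_
  obtain ⟨g, hg⟩ := exists_smul_lt G (show rhoX G u v < rhoX G u v + ε / 2 by linarith)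
  obtain ⟨h, hh⟩ := exists_smul_lt G (show rhoX G v w < rhoX G v w + ε / 2 by linarith)
  have h1 : rhoX G u w ≤ rho G ((h * g) • u) w := rhoX_le_smul G _ _ _
  have h2 : rho G ((h * g) • u) w ≤ rho G ((h * g) • u) (h • v) + rho G (h • v) w :=
    rho_triangle G _ _ _
  have h3 : rho G ((h * g) • u) (h • v) = rho G (g • u) v := by
    rw [mul_smul, rho_smul]
  linarith

@[simp] theorem rhoX_smul_left (g : G) (u v : V) : rhoX G (g • u) v = rhoX G u v := by
  refine le_antisymm ?_ ?_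
  · refine le_ciInf fun h => ?_
    have := rhoX_le_smul G (h * g⁻¹) (g • u) v
    rwa [smul_smul, inv_mul_cancel_right] at this
  · refine le_ciInf fun h => ?_
    have := rhoX_le_smul G (h * g) u v
    rwa [mul_smul] at this

@[simp] theorem rhoX_smul_right (g : G) (u v : V) : rhoX G u (g • v) = rhoX G u v := by
  rw [rhoX_comm, rhoX_smul_left, rhoX_comm]

theorem abs_rhoX_sub_le (u v w : V) : |rhoX G u v - rhoX G u w| ≤ rhoX G v w := by
  rw [abs_le]
  have h1 := rhoX_triangle G u v w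
  have h2 := rhoX_triangle G u w v
  rw [rhoX_comm G w v] at h2
  constructor <;> linarith

theorem continuous_rhoX : Continuous fun p : V × V => rhoX G p.1 p.2 := by
  rw [continuous_iff_continuousAt]
  rintro ⟨u, v⟩
  rw [Metric.continuousAt_iff']
  intro ε hε
  have h1 : ∀ᶠ p : V × V in 𝓝 (u, v), rho G p.1 u < ε / 2 := by
    have hc : Continuous fun p : V × V => rho G p.1 u :=
      cont_rho G continuous_fst continuous_const
    exact (hc.tendsto (u, v)).eventually_lt_const (by simpa [rho_self] using half_pos hε)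
  have h2 : ∀ᶠ p : V × V in 𝓝 (u, v), rho G p.2 v < ε / 2 := by
    have hc : Continuous fun p : V × V => rho G p.2 v :=
      cont_rho G continuous_snd continuous_const
    exact (hc.tendsto (u, v)).eventually_lt_const (by simpa [rho_self] using half_pos hε)
  filter_upwards [h1, h2] with p hp1 hp2
  rw [Real.dist_eq]
  have e1 := abs_rhoX_sub_le G p.1 p.2 v
  have e2 := abs_rhoX_sub_le G v p.1 u
  rw [rhoX_comm G v p.1, rhoX_comm G v u] at e2
  have e3 := rhoX_le_rho G p.2 v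
  have e4 := rhoX_le_rho G p.1 u
  calc |rhoX G p.1 p.2 - rhoX G u v|
      = |(rhoX G p.1 p.2 - rhoX G p.1 v) + (rhoX G p.1 v - rhoX G u v)| := by ring_nf
    _ ≤ |rhoX G p.1 p.2 - rhoX G p.1 v| + |rhoX G p.1 v - rhoX G u v| := abs_add_le _ _
    _ < ε := by linarith

theorem cont_rhoX {α : Type*} [TopologicalSpace α] {a b : α → V} (ha : Continuous a)
    (hb : Continuous b) : Continuous fun x => rhoX G (a x) (b x) := by
  have h : Continuous fun x => (a x, b x) := ha.prodMk hb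
  exact Continuous.comp (g := fun p : V × V => rhoX G p.1 p.2) (f := fun x => (a x, b x))
    (continuous_rhoX G) h

end Basic

section Generator

variable {G : Type*} [Group G] [TopologicalSpace G] [IsTopologicalGroup G] [CompactSpace G]

/-- X4: in a compact group the positive powers of `y` return to every neighbourhood of `1`. -/
theorem exists_pow_mem (y : G) {U : Set G} (hU : U ∈ 𝓝 (1 : G)) (n : ℕ) :
    ∃ m, n < m ∧ y ^ m ∈ U := by
  obtain ⟨z, hz⟩ : ∃ z, MapClusterPt z atTop (fun k : ℕ => y ^ k) :=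
    exists_clusterPt_of_compactSpace _
  have hc : Continuous fun p : G × G => p.1 * p.2⁻¹ := by fun_prop
  have hU' : (fun p : G × G => p.1 * p.2⁻¹) ⁻¹' U ∈ 𝓝 (z, z) :=
    hc.continuousAt.preimage_mem_nhds (by simpa using hU)
  rw [nhds_prod_eq, Filter.mem_prod_same_iff] at hU'
  obtain ⟨W, hW, hWU⟩ := hU'
  have hf := (mapClusterPt_iff_frequently.1 hz) W hW
  rw [Filter.frequently_atTop] at hf
  obtain ⟨i, _, hi⟩ := hf 0
  obtain ⟨j, hj, hj'⟩ := hf (i + n + 1)
  refine ⟨j - i, by omega, ?_⟩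
  have hmem : (y ^ j, y ^ i) ∈ W ×ˢ W := ⟨hj', hi⟩
  have h := hWU hmem
  have he : y ^ (j - i) = y ^ j * (y ^ i)⁻¹ := by
    rw [eq_mul_inv_iff_mul_eq, ← pow_add]
    congr 1
    omega
  rw [he]
  exact h

end Generator

section Return

variable {G : Type*} [Group G] [TopologicalSpace G] [IsTopologicalGroup G] [CompactSpace G]
variable {V : Type*} [MetricSpace V] [MulAction G V] [ContinuousSMul G V]

/-- Elements of `G` near `1` move points of a compact set little. -/
theorem eventually_rho_smul_lt {K : Set V} (hK : IsCompact K) {ε : ℝ} (hε : 0 < ε) :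
    ∀ᶠ g : G in 𝓝 1, ∀ v ∈ K, rho G (g • v) v < ε := by
  refine hK.eventually_forall_of_forall_eventually fun v _ => ?_
  have hc : Continuous fun p : G × V => rho G (p.1 • p.2) p.2 :=
    cont_rho G (continuous_smul (M := G) (X := V)) continuous_snd
  have h := hc.tendsto ((1 : G), v)
  simp only [one_smul, rho_self] at h
  exact h.eventually_lt_const hε

/-- X4: return times for the action. -/
theorem exists_return (x : G) {q : ℕ} (hq : 0 < q) {K : Set V} (hK : IsCompact K) {ε : ℝ}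
    (hε : 0 < ε) (n : ℕ) :
    ∃ m, n < m ∧ ∀ v ∈ K, rho G (x ^ (q * m) • v) v < ε := by
  obtain ⟨m, hm, hm'⟩ := exists_pow_mem (x ^ q) (eventually_rho_smul_lt (G := G) hK hε) n
  refine ⟨m, hm, ?_⟩
  rw [← pow_mul] at hm'
  exact hm'

end Return

section Degree

variable {G : Type*} [Group G] [TopologicalSpace G] [IsTopologicalGroup G] [CompactSpace G]
variable {V : Type*} [MetricSpace V] [MulAction G V] [ContinuousSMul G V]

theorem finite_circle_pow {q : ℕ} (hq : 0 < q) : {z : Circle | z ^ q = 1}.Finite := by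
  have h1 : {z : ℂ | z ^ q = 1}.Finite := by
    have h2 : {z : ℂ | z ^ q = 1} ⊆ (Polynomial.nthRootsFinset q (1 : ℂ) : Set ℂ) := by
      intro z hz
      exact (Polynomial.mem_nthRootsFinset hq 1).2 hz
    exact (Finset.finite_toSet _).subset h2
  refine (h1.preimage (f := fun z : Circle => (z : ℂ)) (Circle.coe_injective.injOn)).subset ?_
  intro z hz
  have hz' : z ^ q = 1 := hz
  show ((z : ℂ)) ^ q = 1
  rw [← Circle.coe_pow, hz', Circle.coe_one]

theorem isClosed_ne_one {χ : G →* Circle} (hχ : Continuous χ) {q : ℕ} (hq : 0 < q)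
    (hχq : ∀ g, χ g ^ q = 1) : IsClosed {g : G | χ g ≠ 1} := by
  have h1 : {g : G | χ g ≠ 1} = χ ⁻¹' ({z : Circle | z ^ q = 1} \ {1}) := by
    ext g
    simp [hχq g]
  rw [h1]
  exact (((finite_circle_pow hq).subset Set.sdiff_subset).isClosed).preimage hχ


/-- The set of points not fixed by any `g` with `χ g ≠ 1` is open. -/
theorem isOpen_free {χ : G →* Circle} (hχ : Continuous χ) {q : ℕ} (hq : 0 < q)
    (hχq : ∀ g, χ g ^ q = 1) : IsOpen {v : V | ∀ g : G, χ g ≠ 1 → g • v ≠ v} := by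
  rw [isOpen_iff_mem_nhds]
  intro v hv
  have hC : IsCompact {g : G | χ g ≠ 1} := (isClosed_ne_one hχ hq hχq).isCompact
  refine hC.eventually_forall_of_forall_eventually (x₀ := v)
    (P := fun v g => g • v ≠ v) fun g hg => ?_
  have hc : Continuous fun p : V × G => p.2 • p.1 := by fun_prop
  exact (isOpen_ne_fun hc continuous_fst).mem_nhds (hv g hg)

/-- X2, separation on a compact set. -/
theorem exists_sep {χ : G →* Circle} (hχ : Continuous χ) {q : ℕ} (hq : 0 < q)
    (hχq : ∀ g, χ g ^ q = 1) {K : Set V} (hK : IsCompact K)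
    (hfree : ∀ v ∈ K, ∀ g : G, χ g ≠ 1 → g • v ≠ v) :
    ∃ δ > 0, ∀ u ∈ K, ∀ g : G, rho G (g • u) u < δ → χ g = 1 := by
  have hC : IsCompact ({g : G | χ g ≠ 1} ×ˢ K) := (isClosed_ne_one hχ hq hχq).isCompact.prod hK
  rcases ({g : G | χ g ≠ 1} ×ˢ K).eq_empty_or_nonempty with he | hne
  · refine ⟨1, one_pos, fun u hu g _ => ?_⟩
    by_contra hg
    have : (g, u) ∈ ({g : G | χ g ≠ 1} ×ˢ K) := ⟨hg, hu⟩
    rw [he] at this
    exact this
  · have hc : Continuous fun p : G × V => rho G (p.1 • p.2) p.2 :=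
      cont_rho G (continuous_smul (M := G) (X := V)) continuous_snd
    obtain ⟨⟨g0, u0⟩, ⟨hg0, hu0⟩, hmin⟩ := hC.exists_isMinOn hne hc.continuousOn
    refine ⟨rho G (g0 • u0) u0, ?_, fun u hu g hgu => ?_⟩
    · have h1 : 0 < dist (g0 • u0) u0 := dist_pos.2 (hfree u0 hu0 g0 hg0)
      exact lt_of_lt_of_le h1 (dist_le_rho G _ _)
    · by_contra hg
      have := hmin (show (g, u) ∈ ({g : G | χ g ≠ 1} ×ˢ K) from ⟨hg, hu⟩)
      exact absurd hgu (not_lt.2 this)

variable (χ : G →* Circle)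

/-- `Sep χ K δ`: for `u ∈ K`, `rho (g • u) u < δ` forces `χ g = 1`. -/
def Sep (K : Set V) (δ : ℝ) : Prop := ∀ u ∈ K, ∀ g : G, rho G (g • u) u < δ → χ g = 1

theorem Sep.eq {K : Set V} {δ : ℝ} (h : Sep χ K δ) {u v : V} (hu : u ∈ K) {g g' : G} {a b : ℝ}
    (hab : a + b ≤ δ) (hg : rho G (g • u) v < a) (hg' : rho G (g' • u) v < b) : χ g = χ g' := by
  have h1 : rho G ((g'⁻¹ * g) • u) u < δ := by
    have h2 : rho G ((g'⁻¹ * g) • u) u = rho G (g • u) (g' • u) := by
      rw [mul_smul, rho_smul_left, inv_inv]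
    rw [h2]
    have h3 := rho_triangle G (g • u) v (g' • u)
    rw [rho_comm G v] at h3
    linarith
  have h4 := h u hu _ h1
  rw [map_mul, map_inv, inv_mul_eq_one] at h4
  exact h4.symm

open Classical in
/-- The degree `χ g` where `g • u` is `δ`-near `v` (junk value `1` if there is no such `g`). -/
noncomputable def deg (δ : ℝ) (v u : V) : Circle :=
  if h : ∃ g : G, rho G (g • u) v < δ then χ h.choose else 1

theorem deg_eq {K : Set V} {δ : ℝ} (h : Sep χ K δ) {c : ℝ} (hc : c + c ≤ δ) {u v : V}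
    (hu : u ∈ K) {g : G} (hg : rho G (g • u) v < c) : deg χ c v u = χ g := by
  have hex : ∃ g : G, rho G (g • u) v < c := ⟨g, hg⟩
  unfold deg
  rw [dif_pos hex]
  exact h.eq χ hu hc hex.choose_spec hg




/-- Cocycle property of the degree. -/
theorem deg_mul {K : Set V} {δ : ℝ} (h : Sep χ K δ) {c : ℝ} (hc : c + c ≤ δ) {u v w : V}
    (hu : u ∈ K) (hv : v ∈ K) {a b : ℝ} (hab : a + b ≤ c) (ha : 0 ≤ a) (hb : 0 ≤ b)
    (huv : rhoX G u v < a) (hvw : rhoX G v w < b) :
    deg χ c w v * deg χ c v u = deg χ c w u := by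
  obtain ⟨g, hg⟩ := exists_smul_lt G huv
  obtain ⟨g', hg'⟩ := exists_smul_lt G hvw
  have h1 : rho G ((g' * g) • u) w < c := by
    have h2 := rho_triangle G ((g' * g) • u) (g' • v) w
    have h3 : rho G ((g' * g) • u) (g' • v) = rho G (g • u) v := by rw [mul_smul, rho_smul]
    linarith
  rw [deg_eq χ h hc hv (lt_of_lt_of_le hg' (by linarith)),
    deg_eq χ h hc hu (lt_of_lt_of_le hg (by linarith)), deg_eq χ h hc hu h1, map_mul]


/-- X3, gauge: on the `rhoX`-ball of radius `c/2` around `v₀` the degree is a coboundary. -/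
theorem deg_gauge {K : Set V} {δ : ℝ} (h : Sep χ K δ) {c : ℝ} (hc : c + c ≤ δ) {v₀ u v : V}
    (h0 : v₀ ∈ K) (hu : u ∈ K) (huv : rhoX G u v < c / 2) (h0u : rhoX G v₀ u < c / 2) :
    deg χ c v u = deg χ c v v₀ * (deg χ c u v₀)⁻¹ := by
  have hc0 : 0 ≤ c / 2 := le_trans (rhoX_nonneg G u v) huv.le
  have h1 := deg_mul χ h hc h0 hu (a := c / 2) (b := c / 2) (by linarith) hc0 hc0 h0u huv
  rw [← h1, mul_inv_cancel_right]

/-- X3, finite cover by `rhoX`-balls. -/
theorem exists_gauge_cover {K : Set V} (hK : IsCompact K) {c : ℝ} (hc : 0 < c) :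
    ∃ t : Finset V, (∀ v ∈ t, v ∈ K) ∧ ∀ u ∈ K, ∃ v ∈ t, rhoX G v u < c := by
  obtain ⟨t, ht, htc⟩ := hK.elim_nhds_subcover (fun v => {u | rhoX G v u < c}) (fun v _ => by
    have hcont : Continuous fun u => rhoX G v u := cont_rhoX G continuous_const continuous_id
    exact (isOpen_lt hcont continuous_const).mem_nhds (by simpa using hc))
  refine ⟨t, ht, fun u hu => ?_⟩
  obtain ⟨v, hv, huv⟩ := Set.mem_iUnion₂.1 (htc hu)
  exact ⟨v, hv, huv⟩

end Degree

section Invariant

variable {G : Type*} [Group G] [TopologicalSpace G] [IsTopologicalGroup G] [CompactSpace G]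
variable {V : Type*} [MetricSpace V] [MulAction G V] [ContinuousSMul G V]





end Invariant

end Crest.Agent.R217.Act970
end

-- ▼ part R217/Ctrl_970
section

/-!
Row 217 (S0336), part C, piece M7b-1 (helper970): control functions, gauges and return times
for a `Setup` (SpecC_478).
-/

set_option autoImplicit false
set_option linter.unusedSectionVars false
set_option linter.unusedVariables false

open Filter Topology Metric Set
open Crest.Agent.R217.SpecC478 Crest.Agent.R217.Act970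

namespace Crest.Agent.R217.Ctrl970

universe u

section Ext

/-- Extension by zero: if `φ` is continuous on the open set `V` and vanishes on `V` outside of a
closed set `K ⊆ V` then `V.indicator φ` is continuous. -/
theorem continuous_indicator_of_closed {X Y : Type*} [TopologicalSpace X] [TopologicalSpace Y]
    [Zero Y] {V K : Set X} (hV : IsOpen V) (hK : IsClosed K) (hKV : K ⊆ V) {φ : X → Y}
    (hφ : ContinuousOn φ V) (h0 : ∀ v ∈ V, v ∉ K → φ v = 0) : Continuous (V.indicator φ) := by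
  rw [continuous_iff_continuousAt]
  intro v
  by_cases hv : v ∈ V
  · have h1 : ContinuousAt φ v := hφ.continuousAt (hV.mem_nhds hv)
    refine h1.congr ?_
    filter_upwards [hV.mem_nhds hv] with y hy
    rw [Set.indicator_of_mem hy]
  · have h2 : v ∉ K := fun h => hv (hKV h)
    have h3 : ContinuousAt (fun _ : X => (0 : Y)) v := continuousAt_const
    refine h3.congr ?_
    filter_upwards [hK.isOpen_compl.mem_nhds h2] with y hy
    by_cases hyV : y ∈ V
    · rw [Set.indicator_of_mem hyV, h0 y hyV hy]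
    · rw [Set.indicator_of_notMem hyV]

end Ext

variable {n : ℕ} {G : Type u} [Group G] [TopologicalSpace G]

/-- The subtype on which `G` acts. -/
def Vt (D : Setup n G) : Type := {v : E n // v ∈ D.V}

noncomputable instance (D : Setup n G) : MetricSpace (Vt D) :=
  inferInstanceAs (MetricSpace {v : E n // v ∈ D.V})

/-- constructor -/
def mk (D : Setup n G) (v : E n) (hv : v ∈ D.V) : Vt D := ⟨v, hv⟩

instance (D : Setup n G) : LocallyCompactSpace (Vt D) := D.isOpen_V.locallyCompactSpace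

instance (D : Setup n G) : MulAction G (Vt D) where
  smul g v := ⟨D.act g v.1, D.act_mem g v.1 v.2⟩
  one_smul v := Subtype.ext (D.act_one v.1 v.2)
  mul_smul g h v := Subtype.ext (D.act_mul g h v.1 v.2)


theorem continuous_val (D : Setup n G) : Continuous fun v : Vt D => v.1 :=
  continuous_subtype_val

instance (D : Setup n G) : ContinuousSMul G (Vt D) where
  continuous_smul := by
    have h1 : Continuous fun p : G × Vt D => (p.1, p.2.1) :=
      continuous_fst.prodMk ((continuous_val D).comp continuous_snd)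
    have h2 : Continuous fun p : G × Vt D => D.act p.1 p.2.1 :=
      D.act_cont.comp_continuous h1 fun p => ⟨mem_univ _, p.2.2⟩
    exact Continuous.subtype_mk h2 _


/-- `f` on the subtype. -/
def ft (D : Setup n G) (v : Vt D) : E n := D.f v.1

theorem continuous_ft (D : Setup n G) : Continuous (ft D) :=
  D.f_cont.comp_continuous (continuous_val D) fun v => v.2

theorem ft_smul (D : Setup n G) (g : G) (v : Vt D) : ft D (g • v) = ft D v :=
  D.f_inv g v.1 v.2

/-- The compact invariant regions. -/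
def reg (D : Setup n G) (c : E n) (ρ : ℝ) : Set (E n) := {v | v ∈ D.V ∧ D.f v ∈ closedBall c ρ}

theorem reg_subset (D : Setup n G) (c : E n) (ρ : ℝ) : reg D c ρ ⊆ D.V := fun _ h => h.1

theorem act_mem_reg (D : Setup n G) {c : E n} {ρ : ℝ} (g : G) {v : E n} (hv : v ∈ reg D c ρ) :
    D.act g v ∈ reg D c ρ := by
  refine ⟨D.act_mem g v hv.1, ?_⟩
  rw [D.f_inv g v hv.1]
  exact hv.2

theorem isCompact_reg (D : Setup n G) {c : E n} {ρ : ℝ} (h : dist c D.w + ρ < D.R) :
    IsCompact (reg D c ρ) := by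
  have h1 := D.proper _ h
  have h2 : reg D c ρ = {v | v ∈ D.V ∧ D.f v ∈ closedBall D.w (dist c D.w + ρ)} ∩ reg D c ρ := by
    refine (Set.inter_eq_right.2 ?_).symm
    intro v hv
    refine ⟨hv.1, ?_⟩
    have h3 : dist (D.f v) c ≤ ρ := hv.2
    have h4 := dist_triangle (D.f v) c D.w
    simp only [mem_closedBall]
    linarith
  rw [h2]
  -- closedness inside a compact set on which `f` is continuous
  have h5 : ContinuousOn D.f {v | v ∈ D.V ∧ D.f v ∈ closedBall D.w (dist c D.w + ρ)} :=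
    D.f_cont.mono fun v hv => hv.1
  have h6 := h5.preimage_isClosed_of_isClosed h1.isClosed (isClosed_closedBall (x := c) (ε := ρ))
  have h7 : {v | v ∈ D.V ∧ D.f v ∈ closedBall D.w (dist c D.w + ρ)} ∩ reg D c ρ =
      {v | v ∈ D.V ∧ D.f v ∈ closedBall D.w (dist c D.w + ρ)} ∩ D.f ⁻¹' closedBall c ρ := by
    ext v
    constructor
    · rintro ⟨a, b⟩
      exact ⟨a, b.2⟩
    · rintro ⟨a, b⟩
      exact ⟨a, a.1, b⟩
  rw [h7]
  exact h1.of_isClosed_subset h6 Set.inter_subset_left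

theorem isCompact_reg_w (D : Setup n G) {ρ : ℝ} (h : ρ < D.R) : IsCompact (reg D D.w ρ) :=
  isCompact_reg D (by simpa using h)

/-- The regions in the subtype. -/
def regt (D : Setup n G) (c : E n) (ρ : ℝ) : Set (Vt D) := {v | ft D v ∈ closedBall c ρ}

theorem val_image_regt (D : Setup n G) (c : E n) (ρ : ℝ) :
    (fun v : Vt D => v.1) '' regt D c ρ = reg D c ρ := by
  ext v
  constructor
  · rintro ⟨u, hu, rfl⟩
    exact ⟨u.2, hu⟩
  · rintro ⟨h1, h2⟩
    exact ⟨⟨v, h1⟩, h2, rfl⟩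

theorem isCompact_regt (D : Setup n G) {c : E n} {ρ : ℝ} (h : dist c D.w + ρ < D.R) :
    IsCompact (regt D c ρ) := by
  have h1 := isCompact_reg D h
  rw [← val_image_regt] at h1
  exact (Subtype.isCompact_iff (p := fun v => v ∈ D.V) (s := regt D c ρ)).2 h1

theorem smul_mem_regt (D : Setup n G) {c : E n} {ρ : ℝ} (g : G) {v : Vt D}
    (hv : v ∈ regt D c ρ) : g • v ∈ regt D c ρ := by
  show ft D (g • v) ∈ closedBall c ρ
  rw [ft_smul]
  exact hv

/-! ### Uniform continuity of invariant control functions -/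

/-- An invariant continuous `u : E n → Y` is uniformly invariant under "near an orbit". -/
theorem exists_control (D : Setup n G) {Y : Type*} [PseudoMetricSpace Y] {u : E n → Y}
    (hu : Continuous u) (hinv : ∀ g, ∀ v ∈ D.V, u (D.act g v) = u v) {c : E n} {ρ : ℝ}
    (hρ : dist c D.w + ρ < D.R) {ε : ℝ} (hε : 0 < ε) :
    ∃ δ > 0, ∀ v ∈ reg D c ρ, ∀ g : G, ∀ v', dist v' (D.act g v) < δ → dist (u v') (u v) < ε := by
  have h := (isCompact_reg D hρ).uniformContinuousAt_of_continuousAt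
    (r := {p : Y × Y | dist p.1 p.2 < ε}) u (fun a _ => hu.continuousAt)
    (Metric.dist_mem_uniformity hε)
  obtain ⟨δ, hδ, hd⟩ := Metric.mem_uniformity_dist.1 h
  refine ⟨δ, hδ, fun v hv g v' hv' => ?_⟩
  have h1 := hd (show dist (D.act g v) v' < δ by rwa [dist_comm]) (act_mem_reg D g hv)
  have h2 : dist (u (D.act g v)) (u v') < ε := h1
  rwa [hinv g v hv.1, dist_comm] at h2

/-! ### The extended map and the noise function -/







theorem continuousOn_distf (D : Setup n G) : ContinuousOn (fun v => dist (D.f v) D.w) D.V :=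
  (continuous_id.dist continuous_const).comp_continuousOn D.f_cont





/-- The noise function: `< 1` exactly over `ball w R1`. -/
noncomputable def noise (D : Setup n G) (R1 : ℝ) (v : E n) : ℝ :=
  1 - D.V.indicator (fun v => max 0 (1 - dist (D.f v) D.w / R1)) v

theorem continuous_noise (D : Setup n G) {R1 : ℝ} (h0 : 0 < R1) (h1 : R1 < D.R) :
    Continuous (noise D R1) := by
  unfold noise
  refine continuous_const.sub ?_
  refine continuous_indicator_of_closed D.isOpen_V (isCompact_reg_w D h1).isClosed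
    (reg_subset D _ _) ?_ ?_
  · have h4 : Continuous fun t : ℝ => max 0 (1 - t / R1) := by fun_prop
    exact h4.comp_continuousOn (continuousOn_distf D)
  · intro v hv hvn
    have h4 : R1 < dist (D.f v) D.w := by
      by_contra hcon
      exact hvn ⟨hv, mem_closedBall.2 (not_lt.1 hcon)⟩
    have h5 : 1 < dist (D.f v) D.w / R1 := by rwa [one_lt_div h0]
    simp only [max_eq_left_iff]
    linarith

theorem noise_act (D : Setup n G) {R1 : ℝ} (g : G) {v : E n} (hv : v ∈ D.V) :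
    noise D R1 (D.act g v) = noise D R1 v := by
  unfold noise
  rw [Set.indicator_of_mem hv, Set.indicator_of_mem (D.act_mem g v hv), D.f_inv g v hv]



/-! ### Return times -/

theorem exists_return_time (D : Setup n G) [IsTopologicalGroup G] [CompactSpace G] (x : G) {q : ℕ}
    (hq : 0 < q) {c : E n} {ρ : ℝ} (hρ : dist c D.w + ρ < D.R) {ε : ℝ} (hε : 0 < ε) :
    ∃ N : ℕ, 0 < N ∧ q ∣ N ∧ ∀ v ∈ reg D c ρ, ∀ g : G, dist (D.act (x ^ N * g) v) (D.act g v) < ε := by
  obtain ⟨m, hm, h⟩ := exists_return (V := Vt D) x hq (isCompact_regt D hρ) hε 0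
  refine ⟨q * m, Nat.mul_pos hq hm, Dvd.intro m rfl, fun v hv g => ?_⟩
  have hmem : g • mk D v hv.1 ∈ regt D c ρ := smul_mem_regt D g (v := mk D v hv.1) hv.2
  have h1 : rho G (x ^ (q * m) • g • mk D v hv.1) (g • mk D v hv.1) < ε := h _ hmem
  have h2 : dist (x ^ (q * m) • g • mk D v hv.1) (g • mk D v hv.1) < ε :=
    lt_of_le_of_lt (dist_le_rho G _ _) h1
  rw [← mul_smul] at h2
  exact h2

/-! ### Roots of unity -/

section Root

open Classical in
/-- discrete logarithm: `dlog ζ q z = i` if `z = ζ ^ i`. -/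
noncomputable def dlog (ζ : ℂ) (q : ℕ) (z : ℂ) : ZMod q :=
  if h : ∃ i : ℕ, ζ ^ i = z then (h.choose : ZMod q) else 0

theorem orderOf_eq {ζ : ℂ} {q : ℕ} (hq : q.Prime) (h1 : ζ ^ q = 1) (h2 : ζ ≠ 1) :
    orderOf ζ = q := by
  have := Fact.mk hq
  exact orderOf_eq_prime h1 h2

theorem isPrimitiveRoot {ζ : ℂ} {q : ℕ} (hq : q.Prime) (h1 : ζ ^ q = 1) (h2 : ζ ≠ 1) :
    IsPrimitiveRoot ζ q := by
  have h := IsPrimitiveRoot.orderOf ζ
  rwa [orderOf_eq hq h1 h2] at h

theorem dlog_pow {ζ : ℂ} {q : ℕ} (hq : q.Prime) (h1 : ζ ^ q = 1) (h2 : ζ ≠ 1) (i : ℕ) :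
    dlog ζ q (ζ ^ i) = (i : ZMod q) := by
  have hex : ∃ j : ℕ, ζ ^ j = ζ ^ i := ⟨i, rfl⟩
  unfold dlog
  rw [dif_pos hex]
  have h3 := hex.choose_spec
  have hz : ζ ≠ 0 := by
    rintro rfl
    rw [zero_pow hq.ne_zero] at h1
    exact zero_ne_one h1
  have hprim := isPrimitiveRoot hq h1 h2
  have h4 : (hex.choose : ℕ) ≡ i [MOD q] := by
    have h5 := pow_eq_pow_iff_modEq (x := Units.mk0 ζ hz) (n := hex.choose) (m := i)
    have h6 : orderOf (Units.mk0 ζ hz) = q := by
      rw [← orderOf_units]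
      exact orderOf_eq hq h1 h2
    rw [h6] at h5
    refine h5.1 ?_
    apply Units.ext
    simpa using h3
  exact (ZMod.natCast_eq_natCast_iff _ _ _).2 h4

theorem exists_pow_eq {ζ : ℂ} {q : ℕ} (hq : q.Prime) (h1 : ζ ^ q = 1) (h2 : ζ ≠ 1) {z : ℂ}
    (hz : z ^ q = 1) : ∃ i : ℕ, ζ ^ i = z := by
  have : NeZero q := ⟨hq.ne_zero⟩
  obtain ⟨i, _, hi⟩ := (isPrimitiveRoot hq h1 h2).eq_pow_of_pow_eq_one hz
  exact ⟨i, hi⟩

theorem norm_eq_one {q : ℕ} (hq : 0 < q) {z : ℂ} (hz : z ^ q = 1) : ‖z‖ = 1 := by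
  have h1 : ‖z‖ ^ q = 1 := by rw [← norm_pow, hz, norm_one]
  exact (pow_eq_one_iff_of_nonneg (norm_nonneg z) hq.ne').1 h1

/-- the circle valued version of `χ`. -/
noncomputable def circ (χ : G →* ℂ) {q : ℕ} (hq : 0 < q) (hχ : ∀ g, χ g ^ q = 1) : G →* Circle where
  toFun g := ⟨χ g, mem_sphere_zero_iff_norm.2 (norm_eq_one hq (hχ g))⟩
  map_one' := by
    apply Circle.ext
    exact χ.map_one
  map_mul' a b := by
    apply Circle.ext
    exact χ.map_mul a b

@[simp] theorem circ_coe (χ : G →* ℂ) {q : ℕ} (hq : 0 < q) (hχ : ∀ g, χ g ^ q = 1) (g : G) :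
    ((circ χ hq hχ g : Circle) : ℂ) = χ g := rfl

theorem circ_continuous {χ : G →* ℂ} (hc : Continuous χ) {q : ℕ} (hq : 0 < q)
    (hχ : ∀ g, χ g ^ q = 1) : Continuous (circ χ hq hχ) :=
  Continuous.subtype_mk hc _

theorem circ_pow {χ : G →* ℂ} {q : ℕ} (hq : 0 < q) (hχ : ∀ g, χ g ^ q = 1) (g : G) :
    circ χ hq hχ g ^ q = 1 := by
  apply Circle.ext
  rw [Circle.coe_pow, circ_coe, hχ g, Circle.coe_one]

theorem circ_eq_one_iff {χ : G →* ℂ} {q : ℕ} (hq : 0 < q) (hχ : ∀ g, χ g ^ q = 1) (g : G) :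
    circ χ hq hχ g = 1 ↔ χ g = 1 := by
  constructor
  · intro h
    have := congrArg (fun z : Circle => (z : ℂ)) h
    simpa using this
  · intro h
    apply Circle.ext
    simpa using h

end Root

/-! ### Gauges, abstract version -/

section Abstract

variable [IsTopologicalGroup G] [CompactSpace G]
variable {V : Type*} [MetricSpace V] [MulAction G V] [ContinuousSMul G V]
variable {Y : Type*} [PseudoMetricSpace Y]

/-- Freeness persists on a small closed ball around `y1`. -/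
theorem exists_radius_abs {F : V → Y} (hF : Continuous F) {U : Set V} (hU : IsOpen U) {y1 : Y}
    {r1 : ℝ} (hr1 : 0 < r1) (hK : IsCompact {v | dist (F v) y1 ≤ r1})
    (h : ∀ v, dist (F v) y1 = 0 → v ∈ U) :
    ∃ r > 0, r ≤ r1 ∧ ∀ v, dist (F v) y1 ≤ r → v ∈ U := by
  have hK' : IsCompact ({v | dist (F v) y1 ≤ r1} \ U) := hK.diff hU
  rcases ({v | dist (F v) y1 ≤ r1} \ U).eq_empty_or_nonempty with he | hne
  · exact ⟨r1, hr1, le_rfl, fun v hv => Set.sdiff_eq_empty.1 he hv⟩
  · have hc : Continuous fun v : V => dist (F v) y1 := hF.dist continuous_const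
    obtain ⟨v0, hv0, hmin⟩ := hK'.exists_isMinOn hne hc.continuousOn
    have hm : 0 < dist (F v0) y1 := by
      refine lt_of_le_of_ne dist_nonneg fun hcon => ?_
      exact hv0.2 (h v0 hcon.symm)
    refine ⟨min r1 (dist (F v0) y1 / 2), lt_min hr1 (by linarith), min_le_left _ _, ?_⟩
    intro v hv
    by_contra hvU
    have h1 : v ∈ {v | dist (F v) y1 ≤ r1} \ U := ⟨hv.trans (min_le_left _ _), hvU⟩
    have h2 : dist (F v0) y1 ≤ dist (F v) y1 := hmin h1
    have h3 := min_le_right r1 (dist (F v0) y1 / 2)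
    linarith

/-- bump function -/
noncomputable def bump (F : V → Y) (y1 : Y) (r c : ℝ) (v0 v : V) : ℝ :=
  max 0 (min (r - dist (F v) y1) (c / 2 - rhoX G v0 v))

theorem continuous_bump {F : V → Y} (hF : Continuous F) (y1 : Y) (r c : ℝ) (v0 : V) :
    Continuous (bump (G := G) F y1 r c v0) := by
  have h1 : Continuous fun v : V => dist (F v) y1 := hF.dist continuous_const
  have h2 : Continuous fun v : V => rhoX G v0 v := cont_rhoX G continuous_const continuous_id
  exact continuous_const.max ((continuous_const.sub h1).min (continuous_const.sub h2))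

theorem bump_nonneg (F : V → Y) (y1 : Y) (r c : ℝ) (v0 v : V) :
    0 ≤ bump (G := G) F y1 r c v0 v := le_max_left _ _

theorem bump_smul {F : V → Y} (hinv : ∀ (g : G) v, F (g • v) = F v) (y1 : Y) (r c : ℝ) (v0 v : V)
    (g : G) : bump (G := G) F y1 r c v0 (g • v) = bump (G := G) F y1 r c v0 v := by
  unfold bump
  rw [hinv, rhoX_smul_right]

theorem of_bump_pos {F : V → Y} {y1 : Y} {r c : ℝ} {v0 v : V}
    (h : 0 < bump (G := G) F y1 r c v0 v) : dist (F v) y1 < r ∧ rhoX G v0 v < c / 2 := by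
  rcases lt_max_iff.1 h with h2 | h2
  · exact absurd h2 (lt_irrefl _)
  · rw [lt_min_iff] at h2
    constructor <;> linarith [h2.1, h2.2]

theorem le_bump {F : V → Y} {y1 : Y} {r c : ℝ} {v0 v : V} (h1 : dist (F v) y1 ≤ r / 2)
    (h2 : rhoX G v0 v ≤ c / 4) : min (r / 2) (c / 4) ≤ bump (G := G) F y1 r c v0 v := by
  refine le_trans ?_ (le_max_right _ _)
  exact min_le_min (by linarith) (by linarith)

/-- label -/
noncomputable def lab (χ : G →* Circle) (ζ : ℂ) (q : ℕ) (c : ℝ) (v0 v : V) : ZMod q :=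
  dlog ζ q ((deg χ c v v0 : Circle) : ℂ)

/-- The labels are equivariant. -/
theorem lab_eq {x : G} {q : ℕ} (hq : q.Prime) {χ : G →* ℂ} (hχq : ∀ g, χ g ^ q = 1)
    (hx : χ x ≠ 1) {K : Set V} (hKinv : ∀ g : G, ∀ v ∈ K, g • v ∈ K) {δ c η : ℝ}
    (hsep : Sep (circ χ hq.pos hχq) K δ)
    (hcc : c + c ≤ δ) (hη : ∀ u ∈ K, ∀ v, dist u v < η → rho G u v < c / 2) {v0 v v' : V}
    (h0 : v0 ∈ K) (hv : v ∈ K) (hc : rhoX G v0 v < c / 2) {i : ℕ}
    (hd : dist v' (x ^ i • v) < η) :
    lab (circ χ hq.pos hχq) (χ x) q c v0 v' = lab (circ χ hq.pos hχq) (χ x) q c v0 v + (i : ZMod q) := by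
  have hcpos : 0 ≤ c / 2 := (rhoX_nonneg G v0 v).trans hc.le
  have h2 : rho G (x ^ i • v) v' < c / 2 := hη _ (hKinv _ _ hv) _ (by rwa [dist_comm])
  have h3 : deg (circ χ hq.pos hχq) c v' v = (circ χ hq.pos hχq) (x ^ i) :=
    deg_eq _ hsep hcc hv (by linarith)
  have h4 : rhoX G v v' < c / 2 := lt_of_le_of_lt (rhoX_le_smul G _ _ _) h2
  have h5 := deg_gauge (circ χ hq.pos hχq) hsep hcc h0 hv h4 hc
  rw [h3] at h5
  have h6 : deg (circ χ hq.pos hχq) c v' v0 =
      (circ χ hq.pos hχq) (x ^ i) * deg (circ χ hq.pos hχq) c v v0 := by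
    rw [h5, inv_mul_cancel_right]
  obtain ⟨g, hg⟩ := exists_smul_lt G (show rhoX G v0 v < c by linarith)
  have h7 : deg (circ χ hq.pos hχq) c v v0 = (circ χ hq.pos hχq) g := deg_eq _ hsep hcc h0 hg
  obtain ⟨j, hj⟩ := exists_pow_eq hq (hχq x) hx (hχq g)
  unfold lab
  rw [h6, h7, Circle.coe_mul, circ_coe, circ_coe, ← hj, map_pow, ← pow_add,
    dlog_pow hq (hχq x) hx, dlog_pow hq (hχq x) hx]
  push_cast
  ring

/-- abstract gauge package -/
theorem exists_gauges_abs (x : G) {q : ℕ} (hq : q.Prime) (χ : G →* ℂ) (hχc : Continuous χ)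
    (hχq : ∀ g, χ g ^ q = 1) (hx : χ x ≠ 1) {F : V → Y} (hF : Continuous F)
    (hinv : ∀ (g : G) v, F (g • v) = F v) {y1 : Y} {r1 : ℝ} (hr1 : 0 < r1)
    (hK : IsCompact {v | dist (F v) y1 ≤ r1})
    (hfree : ∀ v, dist (F v) y1 = 0 → ∀ g, χ g ≠ 1 → g • v ≠ v) :
    ∃ r > 0, r ≤ r1 ∧ ∃ (m : ℕ) (κ : Fin m → V → ℝ) (θ : Fin m → V → ZMod q) (c0 : ℝ) (η : ℝ),
      0 < c0 ∧ 0 < η ∧ (∀ l, Continuous (κ l)) ∧ (∀ l (g : G) v, κ l (g • v) = κ l v) ∧
      (∀ l v, 0 ≤ κ l v) ∧ (∀ l v, 0 < κ l v → dist (F v) y1 < r) ∧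
      (∀ v, dist (F v) y1 ≤ r / 2 → ∃ l, c0 ≤ κ l v) ∧
      (∀ l v v', 0 < κ l v → 0 < κ l v' → ∀ i : ℕ, dist v' (x ^ i • v) < η →
        θ l v' = θ l v + (i : ZMod q)) := by
  classical
  have hq0 : 0 < q := hq.pos
  have hχ'c : Continuous (circ χ hq0 hχq) := circ_continuous hχc hq0 hχq
  have hχ'q : ∀ g, (circ χ hq0 hχq) g ^ q = 1 := circ_pow hq0 hχq
  have hUopen : IsOpen {v : V | ∀ g : G, (circ χ hq0 hχq) g ≠ 1 → g • v ≠ v} :=
    isOpen_free hχ'c hq0 hχ'q
  obtain ⟨r, hr, hr1', hrU⟩ := exists_radius_abs hF hUopen hr1 hK (fun v hv g hg => by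
    refine hfree v hv g ?_
    intro h
    exact hg ((circ_eq_one_iff hq0 hχq g).2 h))
  have hKc : IsCompact {v : V | dist (F v) y1 ≤ r} := by
    have hcl : IsClosed {v : V | dist (F v) y1 ≤ r} :=
      isClosed_le (hF.dist continuous_const) continuous_const
    exact hK.of_isClosed_subset hcl fun v hv => le_trans hv hr1'
  have hKinv : ∀ g : G, ∀ v ∈ {v : V | dist (F v) y1 ≤ r}, g • v ∈ {v : V | dist (F v) y1 ≤ r} := by
    intro g v hv
    show dist (F (g • v)) y1 ≤ r
    rw [hinv]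
    exact hv
  obtain ⟨δ, hδ, hsep⟩ := exists_sep hχ'c hq0 hχ'q hKc (fun v hv g hg => hrU v hv g hg)
  have hcpos : 0 < δ / 2 := by linarith
  have hcc : δ / 2 + δ / 2 ≤ δ := by linarith
  obtain ⟨t, htK, htcov⟩ := exists_gauge_cover (G := G) hKc (c := (δ / 2) / 4) (by linarith)
  obtain ⟨η, hη, hηrho⟩ := exists_rho_lt G hKc (ε := (δ / 2) / 2) (by linarith)
  refine ⟨r, hr, hr1', t.card,
    fun l => bump (G := G) F y1 r (δ / 2) (t.equivFin.symm l).1,
    fun l => lab (circ χ hq0 hχq) (χ x) q (δ / 2) (t.equivFin.symm l).1,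
    min (r / 2) ((δ / 2) / 4), η, lt_min (by linarith) (by linarith), hη,
    fun l => continuous_bump hF _ _ _ _, fun l g v => bump_smul hinv _ _ _ _ _ _,
    fun l v => bump_nonneg _ _ _ _ _ _, fun l v h => (of_bump_pos h).1, ?_, ?_⟩
  · intro v hv
    obtain ⟨v0, hv0, h2⟩ := htcov v (show dist (F v) y1 ≤ r by linarith)
    refine ⟨t.equivFin ⟨v0, hv0⟩, ?_⟩
    have h4 : (t.equivFin.symm (t.equivFin ⟨v0, hv0⟩)).1 = v0 := by
      rw [Equiv.symm_apply_apply]
    show _ ≤ bump (G := G) F y1 r (δ / 2) (t.equivFin.symm (t.equivFin ⟨v0, hv0⟩)).1 v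
    rw [h4]
    exact le_bump hv h2.le
  · intro l v v' hv hv' i hd
    exact lab_eq hq hχq hx hKinv hsep hcc hηrho (htK _ (t.equivFin.symm l).2)
      (of_bump_pos hv).1.le (of_bump_pos hv).2 hd

end Abstract

/-! ### Gauges near `y1` for a `Setup` -/


open Classical in
/-- extension by zero from the subtype -/
noncomputable def ext0 {D : Setup n G} {Y : Type*} [Zero Y] (φ : Vt D → Y) (u : E n) : Y :=
  if hu : u ∈ D.V then φ (mk D u hu) else 0

theorem ext0_mk {D : Setup n G} {Y : Type*} [Zero Y] (φ : Vt D → Y) {u : E n} (hu : u ∈ D.V) :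
    ext0 φ u = φ (mk D u hu) := by
  unfold ext0
  rw [dif_pos hu]

theorem ext0_not {D : Setup n G} {Y : Type*} [Zero Y] (φ : Vt D → Y) {u : E n} (hu : u ∉ D.V) :
    ext0 φ u = 0 := by
  unfold ext0
  rw [dif_neg hu]

theorem continuous_ext0 {D : Setup n G} {φ : Vt D → ℝ} (hφ : Continuous φ) {K : Set (E n)}
    (hK : IsClosed K) (hKV : K ⊆ D.V) (h : ∀ v : Vt D, v.1 ∉ K → φ v = 0) :
    Continuous (ext0 φ) := by
  have h1 : ext0 φ = D.V.indicator (ext0 φ) := by
    funext v
    by_cases hv : v ∈ D.V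
    · rw [Set.indicator_of_mem hv]
    · rw [Set.indicator_of_notMem hv, ext0_not φ hv]
  rw [h1]
  refine continuous_indicator_of_closed D.isOpen_V hK hKV ?_ ?_
  · rw [continuousOn_iff_continuous_domRestrict]
    have h2 : D.V.domRestrict (ext0 φ) = φ := by
      funext v
      exact ext0_mk φ v.2
    rw [h2]
    exact hφ
  · intro v hv hvn
    rw [ext0_mk φ hv]
    exact h (mk D v hv) hvn

/-- The gauge package near `y1`: finitely many invariant bump functions `κ l`, labels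
`θ l : E n → ZMod q`, such that `θ l` increases by `i` along "near `x ^ i`", and the `κ l ≥ c0`
cover everything over `closedBall y1 (r/2)`. -/
theorem exists_gauges (D : Setup n G) [IsTopologicalGroup G] [CompactSpace G] (x : G) {q : ℕ}
    (hq : q.Prime) (χ : G →* ℂ) (hχc : Continuous χ) (hχq : ∀ g, χ g ^ q = 1) (hx : χ x ≠ 1)
    {y1 : E n} (hy1 : y1 ∈ ball D.w D.R)
    (hfree : ∀ v ∈ D.V, D.f v = y1 → ∀ g, χ g ≠ 1 → D.act g v ≠ v) :
    ∃ r > 0, dist y1 D.w + r < D.R ∧ ∃ (m : ℕ) (κ : Fin m → E n → ℝ) (θ : Fin m → E n → ZMod q)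
      (c0 : ℝ) (η : ℝ), 0 < c0 ∧ 0 < η ∧ (∀ l, Continuous (κ l)) ∧
      (∀ l g, ∀ v ∈ D.V, κ l (D.act g v) = κ l v) ∧ (∀ l v, 0 ≤ κ l v) ∧
      (∀ l v, 0 < κ l v → v ∈ D.V ∧ dist (D.f v) y1 < r) ∧
      (∀ v ∈ D.V, dist (D.f v) y1 ≤ r / 2 → ∃ l, c0 ≤ κ l v) ∧
      (∀ l v v', 0 < κ l v → 0 < κ l v' → ∀ i : ℕ, dist v' (D.act (x ^ i) v) < η →
        θ l v' = θ l v + (i : ZMod q)) := by
  have hy1' : dist y1 D.w < D.R := hy1
  have hr1pos : 0 < (D.R - dist y1 D.w) / 2 := by linarith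
  have hr1lt : dist y1 D.w + (D.R - dist y1 D.w) / 2 < D.R := by linarith
  obtain ⟨r, hr, hr1, m, κ, θ, c0, η, hc0, hη, h1, h2, h3, h4, h5, h6⟩ :=
    exists_gauges_abs (V := Vt D) x hq χ hχc hχq hx (continuous_ft D) (ft_smul D)
      hr1pos (y1 := y1) (isCompact_regt D hr1lt) (fun v hv g hg hgv =>
        hfree v.1 v.2 (dist_eq_zero.1 hv) g hg (congrArg (fun w : Vt D => w.1) hgv))
  have hpos : ∀ l v, 0 < ext0 (κ l) v → ∃ hv : v ∈ D.V, 0 < κ l (mk D v hv) := by
    intro l v h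
    by_cases hv : v ∈ D.V
    · exact ⟨hv, by rwa [ext0_mk _ hv] at h⟩
    · rw [ext0_not _ hv] at h
      exact absurd h (lt_irrefl _)
  refine ⟨r, hr, by linarith, m, fun l => ext0 (κ l), fun l => ext0 (θ l), c0, η, hc0, hη,
    ?_, ?_, ?_, ?_, ?_, ?_⟩
  · intro l
    refine continuous_ext0 (h1 l) (isCompact_reg D (c := y1) (ρ := r) (by linarith)).isClosed
      (reg_subset D _ _) ?_
    intro v hv
    by_contra hne
    have h7 := h4 l v (lt_of_le_of_ne (h3 l v) (Ne.symm hne))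
    exact hv ⟨v.2, mem_closedBall.2 h7.le⟩
  · intro l g v hv
    show ext0 (κ l) (D.act g v) = ext0 (κ l) v
    rw [ext0_mk _ hv, ext0_mk _ (D.act_mem g v hv)]
    exact h2 l g (mk D v hv)
  · intro l v
    show 0 ≤ ext0 (κ l) v
    by_cases hv : v ∈ D.V
    · rw [ext0_mk _ hv]; exact h3 _ _
    · rw [ext0_not _ hv]
  · intro l v h
    obtain ⟨hv, h7⟩ := hpos l v h
    have h8 := h4 l (mk D v hv) h7
    exact ⟨hv, h8⟩
  · intro v hv hvr
    have h8 : dist (ft D (mk D v hv)) y1 ≤ r / 2 := hvr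
    obtain ⟨l, hl⟩ := h5 (mk D v hv) h8
    refine ⟨l, ?_⟩
    show c0 ≤ ext0 (κ l) v
    rw [ext0_mk _ hv]
    exact hl
  · intro l v v' hv hv' i hd
    obtain ⟨hvV, h7⟩ := hpos l v hv
    obtain ⟨hvV', h7'⟩ := hpos l v' hv'
    show ext0 (θ l) v' = ext0 (θ l) v + (i : ZMod q)
    rw [ext0_mk _ hvV, ext0_mk _ hvV']
    exact h6 l (mk D v hvV) (mk D v' hvV') h7 h7' i hd

end Crest.Agent.R217.Ctrl970
end

-- ▼ part R217/CtrlS_970

/-!
Row 217 (S0336), part C, piece M7b-1 (helper970): control functions, gauges and return times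
for a normalised system `CruxN559.Sys`.
-/

set_option autoImplicit false
set_option linter.unusedSectionVars false
set_option linter.unusedVariables false

open Filter Topology Metric Set
open Crest.Agent.R217.CruxN559 Crest.Agent.R217.Act970
open Crest.Agent.R217.Ctrl970 (continuous_indicator_of_closed exists_gauges_abs)

namespace Crest.Agent.R217.CtrlS970

universe u

variable {n : ℕ} {G : Type u} [Group G] [TopologicalSpace G]

/-- The subtype on which `G` acts. -/
def Vt (D : Sys n G) : Type := {v : Fin n → ℝ // v ∈ D.V}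

noncomputable instance (D : Sys n G) : MetricSpace (Vt D) :=
  inferInstanceAs (MetricSpace {v : Fin n → ℝ // v ∈ D.V})

/-- constructor -/
def mk (D : Sys n G) (v : Fin n → ℝ) (hv : v ∈ D.V) : Vt D := ⟨v, hv⟩

instance (D : Sys n G) : LocallyCompactSpace (Vt D) := D.isOpen_V.locallyCompactSpace

instance (D : Sys n G) : MulAction G (Vt D) where
  smul g v := ⟨D.act g v.1, D.act_mem g v.1 v.2⟩
  one_smul v := Subtype.ext (D.act_one v.1 v.2)
  mul_smul g h v := Subtype.ext (D.act_mul g h v.1 v.2)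


theorem continuous_val (D : Sys n G) : Continuous fun v : Vt D => v.1 :=
  continuous_subtype_val

instance (D : Sys n G) : ContinuousSMul G (Vt D) where
  continuous_smul := by
    have h1 : Continuous fun p : G × Vt D => (p.1, p.2.1) :=
      continuous_fst.prodMk ((continuous_val D).comp continuous_snd)
    have h2 : Continuous fun p : G × Vt D => D.act p.1 p.2.1 :=
      D.act_cont.comp_continuous h1 fun p => ⟨mem_univ _, p.2.2⟩
    exact Continuous.subtype_mk h2 _


/-- `f` on the subtype. -/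
def ft (D : Sys n G) (v : Vt D) : Fin n → ℝ := D.f v.1

theorem continuous_ft (D : Sys n G) : Continuous (ft D) :=
  D.f_cont.comp_continuous (continuous_val D) fun v => v.2

theorem ft_smul (D : Sys n G) (g : G) (v : Vt D) : ft D (g • v) = ft D v :=
  D.f_inv g v.1 v.2

/-- The invariant set over `K`. -/
def ovr (D : Sys n G) (K : Set (Fin n → ℝ)) : Set (Fin n → ℝ) := {v | v ∈ D.V ∧ D.f v ∈ K}

theorem ovr_subset (D : Sys n G) (K : Set (Fin n → ℝ)) : ovr D K ⊆ D.V := fun _ h => h.1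

theorem act_mem_ovr (D : Sys n G) {K : Set (Fin n → ℝ)} (g : G) {v : Fin n → ℝ}
    (hv : v ∈ ovr D K) : D.act g v ∈ ovr D K := by
  refine ⟨D.act_mem g v hv.1, ?_⟩
  rw [D.f_inv g v hv.1]
  exact hv.2

theorem isCompact_ovr (D : Sys n G) {K : Set (Fin n → ℝ)} (hK : IsCompact K) (h : K ⊆ D.Om) :
    IsCompact (ovr D K) := D.proper K h hK

/-- The regions in the subtype. -/
def ovrt (D : Sys n G) (K : Set (Fin n → ℝ)) : Set (Vt D) := {v | ft D v ∈ K}

theorem val_image_ovrt (D : Sys n G) (K : Set (Fin n → ℝ)) :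
    (fun v : Vt D => v.1) '' ovrt D K = ovr D K := by
  ext v
  constructor
  · rintro ⟨u, hu, rfl⟩
    exact ⟨u.2, hu⟩
  · rintro ⟨h1, h2⟩
    exact ⟨⟨v, h1⟩, h2, rfl⟩

theorem isCompact_ovrt (D : Sys n G) {K : Set (Fin n → ℝ)} (hK : IsCompact K) (h : K ⊆ D.Om) :
    IsCompact (ovrt D K) := by
  have h1 := isCompact_ovr D hK h
  rw [← val_image_ovrt] at h1
  exact (Subtype.isCompact_iff (p := fun v => v ∈ D.V) (s := ovrt D K)).2 h1

theorem smul_mem_ovrt (D : Sys n G) {K : Set (Fin n → ℝ)} (g : G) {v : Vt D}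
    (hv : v ∈ ovrt D K) : g • v ∈ ovrt D K := by
  show ft D (g • v) ∈ K
  rw [ft_smul]
  exact hv

/-! ### Uniform continuity of invariant control functions -/

/-- An invariant continuous `u` is uniformly invariant under "near an orbit". -/
theorem exists_control (D : Sys n G) {Y : Type*} [PseudoMetricSpace Y] {u : (Fin n → ℝ) → Y}
    (hu : Continuous u) (hinv : ∀ g, ∀ v ∈ D.V, u (D.act g v) = u v) {K : Set (Fin n → ℝ)}
    (hK : IsCompact K) (hKO : K ⊆ D.Om) {ε : ℝ} (hε : 0 < ε) :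
    ∃ δ > 0, ∀ v ∈ ovr D K, ∀ g : G, ∀ v', dist v' (D.act g v) < δ → dist (u v') (u v) < ε := by
  have h := (isCompact_ovr D hK hKO).uniformContinuousAt_of_continuousAt
    (r := {p : Y × Y | dist p.1 p.2 < ε}) u (fun a _ => hu.continuousAt)
    (Metric.dist_mem_uniformity hε)
  obtain ⟨δ, hδ, hd⟩ := Metric.mem_uniformity_dist.1 h
  refine ⟨δ, hδ, fun v hv g v' hv' => ?_⟩
  have h1 := hd (show dist (D.act g v) v' < δ by rwa [dist_comm]) (act_mem_ovr D g hv)
  have h2 : dist (u (D.act g v)) (u v') < ε := h1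
  rwa [hinv g v hv.1, dist_comm] at h2

/-! ### Extension of functions on `V` -/

open Classical in
/-- extension by zero from the subtype -/
noncomputable def ext0 {D : Sys n G} {Y : Type*} [Zero Y] (φ : Vt D → Y) (u : Fin n → ℝ) : Y :=
  if hu : u ∈ D.V then φ (mk D u hu) else 0

theorem ext0_mk {D : Sys n G} {Y : Type*} [Zero Y] (φ : Vt D → Y) {u : Fin n → ℝ}
    (hu : u ∈ D.V) : ext0 φ u = φ (mk D u hu) := by
  unfold ext0
  rw [dif_pos hu]

theorem ext0_not {D : Sys n G} {Y : Type*} [Zero Y] (φ : Vt D → Y) {u : Fin n → ℝ}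
    (hu : u ∉ D.V) : ext0 φ u = 0 := by
  unfold ext0
  rw [dif_neg hu]

theorem continuous_ext0 {D : Sys n G} {Y : Type*} [Zero Y] [TopologicalSpace Y] {φ : Vt D → Y}
    (hφ : Continuous φ) {K : Set (Fin n → ℝ)}
    (hK : IsClosed K) (hKV : K ⊆ D.V) (h : ∀ v : Vt D, v.1 ∉ K → φ v = 0) :
    Continuous (ext0 φ) := by
  have h1 : ext0 φ = D.V.indicator (ext0 φ) := by
    funext v
    by_cases hv : v ∈ D.V
    · rw [Set.indicator_of_mem hv]
    · rw [Set.indicator_of_notMem hv, ext0_not φ hv]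
  rw [h1]
  refine continuous_indicator_of_closed D.isOpen_V hK hKV ?_ ?_
  · rw [continuousOn_iff_continuous_domRestrict]
    have h2 : D.V.domRestrict (ext0 φ) = φ := by
      funext v
      exact ext0_mk φ v.2
    rw [h2]
    exact hφ
  · intro v hv hvn
    rw [ext0_mk φ hv]
    exact h (mk D v hv) hvn

theorem ext0_act {D : Sys n G} {Y : Type*} [Zero Y] {φ : Vt D → Y}
    (h : ∀ (g : G) v, φ (g • v) = φ v) (g : G) {v : Fin n → ℝ} (hv : v ∈ D.V) :
    ext0 φ (D.act g v) = ext0 φ v := by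
  rw [ext0_mk _ hv, ext0_mk _ (D.act_mem g v hv)]
  exact h g (mk D v hv)

/-- `v ↦ lam (f v) • φ v`, extended by zero. -/
noncomputable def lift {D : Sys n G} {Y : Type*} [Zero Y] [SMul ℝ Y] (lam : (Fin n → ℝ) → ℝ)
    (φ : Vt D → Y) : (Fin n → ℝ) → Y := ext0 fun v => lam (ft D v) • φ v

theorem continuous_lift {D : Sys n G} {Y : Type*} [AddCommGroup Y] [Module ℝ Y]
    [TopologicalSpace Y] [ContinuousSMul ℝ Y] {lam : (Fin n → ℝ) → ℝ} (hlam : Continuous lam)
    {K : Set (Fin n → ℝ)} (hK : IsCompact K) (hKO : K ⊆ D.Om) (h0 : ∀ y, y ∉ K → lam y = 0)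
    {φ : Vt D → Y} (hφ : Continuous φ) : Continuous (lift lam φ) := by
  refine continuous_ext0 ((hlam.comp (continuous_ft D)).smul hφ) (isCompact_ovr D hK hKO).isClosed
    (ovr_subset D K) ?_
  intro v hv
  have h1 : ft D v ∉ K := fun h => hv ⟨v.2, h⟩
  simp only [h0 _ h1, zero_smul]

/-- The package of control functions attached to compact sets `L ⊆ Om`:
`F` is a globally continuous invariant extension of `f` (equal to `f` over `L`), with compact
support contained in `V`. -/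
theorem exists_Fext (D : Sys n G) {L : Set (Fin n → ℝ)} (hL : IsCompact L) (hLO : L ⊆ D.Om) :
    ∃ (F : (Fin n → ℝ) → (Fin n → ℝ)) (C : Set (Fin n → ℝ)), Continuous F ∧ IsCompact C ∧
      C ⊆ D.V ∧ (∀ v, v ∉ C → F v = 0) ∧ (∀ v ∈ ovr D L, F v = D.f v) ∧
      (∀ (g : G), ∀ v ∈ D.V, F (D.act g v) = F v) := by
  obtain ⟨lam, h1, h2, h3, h4⟩ := exists_continuousMap_one_of_isCompact_subset_isOpen hL
    D.isOpen_Om hLO
  have h0 : ∀ y, y ∉ tsupport lam → lam y = 0 := fun y hy => image_eq_zero_of_notMem_tsupport hy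
  refine ⟨lift (D := D) lam (ft D), ovr D (tsupport lam),
    continuous_lift lam.continuous h2 h3 h0 (continuous_ft D), isCompact_ovr D h2 h3,
    ovr_subset D _, ?_, ?_, ?_⟩
  · intro v hv
    by_cases hvV : v ∈ D.V
    · have h5 : ft D (mk D v hvV) ∉ tsupport lam := fun h => hv ⟨hvV, h⟩
      show ext0 _ v = 0
      rw [ext0_mk _ hvV, h0 _ h5, zero_smul]
    · exact ext0_not _ hvV
  · intro v hv
    have h5 : lam (ft D (mk D v hv.1)) = 1 := h1 hv.2
    show ext0 _ v = _
    rw [ext0_mk _ hv.1, h5, one_smul]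
    rfl
  · intro g v hv
    refine ext0_act (fun g v => ?_) g hv
    rw [ft_smul]

/-- The noise function attached to a relatively compact open `U ⊆ Om`: it is `< 1` exactly over
`U`, and `≤ r < 1` only over compact subsets of `U`. -/
noncomputable def noise (D : Sys n G) (U : Set (Fin n → ℝ)) (v : Fin n → ℝ) : ℝ :=
  1 - ext0 (D := D) (fun v => min 1 (infDist (ft D v) Uᶜ)) v

theorem continuous_noise (D : Sys n G) {U : Set (Fin n → ℝ)} (hU : IsOpen U)
    (hUc : IsCompact (closure U)) (hUO : closure U ⊆ D.Om) : Continuous (noise D U) := by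
  refine continuous_const.sub (continuous_ext0 ?_ (isCompact_ovr D hUc hUO).isClosed
    (ovr_subset D _) ?_)
  · exact continuous_const.min ((continuous_infDist_pt _).comp (continuous_ft D))
  · intro v hv
    have h1 : ft D v ∉ closure U := fun h => hv ⟨v.2, h⟩
    have h2 : ft D v ∈ Uᶜ := fun h => h1 (subset_closure h)
    rw [infDist_zero_of_mem h2]
    simp

theorem noise_act (D : Sys n G) (U : Set (Fin n → ℝ)) (g : G) {v : Fin n → ℝ} (hv : v ∈ D.V) :
    noise D U (D.act g v) = noise D U v := by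
  unfold noise
  rw [ext0_act (D := D) (φ := fun v => min 1 (infDist (ft D v) Uᶜ)) (fun g v => by
    rw [ft_smul]) g hv]



/-- Points with `noise < 1` lie over `U`. -/
theorem mem_ovr_of_noise_lt (D : Sys n G) {U : Set (Fin n → ℝ)} {v : Fin n → ℝ}
    (h : noise D U v < 1) : v ∈ ovr D U := by
  unfold noise at h
  by_cases hv : v ∈ D.V
  · refine ⟨hv, ?_⟩
    by_contra hU
    rw [ext0_mk _ hv] at h
    have h2 : ft D (mk D v hv) ∈ Uᶜ := hU
    rw [infDist_zero_of_mem h2] at h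
    simp at h
  · rw [ext0_not _ hv] at h
    simp at h

/-- Compact subsets of `U` lie in some `noise ≤ r < 1`. -/
theorem exists_noise_le (D : Sys n G) {U K : Set (Fin n → ℝ)} (hU : IsOpen U) (hne : Uᶜ.Nonempty)
    (hK : IsCompact K) (hKU : K ⊆ U) : ∃ r < 1, ∀ v ∈ ovr D K, noise D U v ≤ r := by
  rcases K.eq_empty_or_nonempty with he | hKne
  · exact ⟨0, by norm_num, fun v hv => by
      rw [he] at hv
      exact absurd hv.2 (Set.notMem_empty _)⟩
  · have hcont : ContinuousOn (fun y => min 1 (infDist y Uᶜ)) K :=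
      (continuous_const.min (continuous_infDist_pt _)).continuousOn
    obtain ⟨y0, hy0, hmin⟩ := hK.exists_isMinOn hKne hcont
    have hpos : 0 < min 1 (infDist y0 Uᶜ) := by
      refine lt_min one_pos ?_
      rw [← (hU.isClosed_compl).notMem_iff_infDist_pos hne]
      exact fun h => h (hKU hy0)
    refine ⟨1 - min 1 (infDist y0 Uᶜ), by linarith, fun v hv => ?_⟩
    unfold noise
    rw [ext0_mk _ hv.1]
    have h1 : min 1 (infDist y0 Uᶜ) ≤ min 1 (infDist (D.f v) Uᶜ) := hmin hv.2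
    have h2 : min 1 (infDist (ft D (mk D v hv.1)) Uᶜ) = min 1 (infDist (D.f v) Uᶜ) := rfl
    rw [h2]
    linarith

/-! ### Return times -/

theorem exists_return_time (D : Sys n G) [IsTopologicalGroup G] [CompactSpace G] (x : G) {q : ℕ}
    (hq : 0 < q) {K : Set (Fin n → ℝ)} (hK : IsCompact K) (hKO : K ⊆ D.Om) {ε : ℝ} (hε : 0 < ε) :
    ∃ N : ℕ, 0 < N ∧ q ∣ N ∧ ∀ v ∈ ovr D K, ∀ g : G,
      dist (D.act (x ^ N * g) v) (D.act g v) < ε := by
  obtain ⟨m, hm, h⟩ := exists_return (V := Vt D) x hq (isCompact_ovrt D hK hKO) hε 0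
  refine ⟨q * m, Nat.mul_pos hq hm, Dvd.intro m rfl, fun v hv g => ?_⟩
  have hmem : g • mk D v hv.1 ∈ ovrt D K := smul_mem_ovrt D g (v := mk D v hv.1) hv.2
  have h1 : rho G (x ^ (q * m) • g • mk D v hv.1) (g • mk D v hv.1) < ε := h _ hmem
  have h2 : dist (x ^ (q * m) • g • mk D v hv.1) (g • mk D v hv.1) < ε :=
    lt_of_le_of_lt (dist_le_rho G _ _) h1
  rw [← mul_smul] at h2
  exact h2

/-! ### Gauges near `y1` -/

/-- The gauge package near `y1`: finitely many invariant bump functions `κ l`, labels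
`θ l`, such that `θ l` increases by `i` along "near `x ^ i`", and the `κ l ≥ c0`
cover everything over `closedBall y1 (r/2)`. -/
theorem exists_gauges (D : Sys n G) [IsTopologicalGroup G] [CompactSpace G] (x : G) {q : ℕ}
    (hq : q.Prime) (χ : G →* ℂ) (hχc : Continuous χ) (hχq : ∀ g, χ g ^ q = 1) (hx : χ x ≠ 1)
    {y1 : Fin n → ℝ} (hy1 : y1 ∈ D.Om)
    (hfree : ∀ v ∈ D.V, D.f v = y1 → ∀ g, χ g ≠ 1 → D.act g v ≠ v) :
    ∃ r > 0, closedBall y1 r ⊆ D.Om ∧ ∃ (m : ℕ) (κ : Fin m → (Fin n → ℝ) → ℝ)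
      (θ : Fin m → (Fin n → ℝ) → ZMod q)
      (c0 : ℝ) (η : ℝ), 0 < c0 ∧ 0 < η ∧ (∀ l, Continuous (κ l)) ∧
      (∀ l g, ∀ v ∈ D.V, κ l (D.act g v) = κ l v) ∧ (∀ l v, 0 ≤ κ l v) ∧
      (∀ l v, 0 < κ l v → v ∈ D.V ∧ dist (D.f v) y1 < r) ∧
      (∀ v ∈ D.V, dist (D.f v) y1 ≤ r / 2 → ∃ l, c0 ≤ κ l v) ∧
      (∀ l v v', 0 < κ l v → 0 < κ l v' → ∀ i : ℕ, dist v' (D.act (x ^ i) v) < η →
        θ l v' = θ l v + (i : ZMod q)) := by
  obtain ⟨r1, hr1, hr1O⟩ : ∃ r > 0, closedBall y1 r ⊆ D.Om :=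
    Metric.nhds_basis_closedBall.mem_iff.1 (D.isOpen_Om.mem_nhds hy1)
  have hcomp : IsCompact {v : Vt D | dist (ft D v) y1 ≤ r1} :=
    isCompact_ovrt D (isCompact_closedBall y1 r1) hr1O
  obtain ⟨r, hr, hr1', m, κ, θ, c0, η, hc0, hη, h1, h2, h3, h4, h5, h6⟩ :=
    exists_gauges_abs (V := Vt D) x hq χ hχc hχq hx (continuous_ft D) (ft_smul D)
      hr1 (y1 := y1) hcomp (fun v hv g hg hgv =>
        hfree v.1 v.2 (dist_eq_zero.1 hv) g hg (congrArg (fun w : Vt D => w.1) hgv))
  have hrO : closedBall y1 r ⊆ D.Om := (closedBall_subset_closedBall hr1').trans hr1O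
  have hpos : ∀ l v, 0 < ext0 (κ l) v → ∃ hv : v ∈ D.V, 0 < κ l (mk D v hv) := by
    intro l v h
    by_cases hv : v ∈ D.V
    · exact ⟨hv, by rwa [ext0_mk _ hv] at h⟩
    · rw [ext0_not _ hv] at h
      exact absurd h (lt_irrefl _)
  refine ⟨r, hr, hrO, m, fun l => ext0 (κ l), fun l => ext0 (θ l), c0, η, hc0, hη,
    ?_, ?_, ?_, ?_, ?_, ?_⟩
  · intro l
    refine continuous_ext0 (h1 l) (isCompact_ovr D (isCompact_closedBall y1 r) hrO).isClosed
      (ovr_subset D _) ?_
    intro v hv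
    by_contra hne
    have h7 := h4 l v (lt_of_le_of_ne (h3 l v) (Ne.symm hne))
    exact hv ⟨v.2, mem_closedBall.2 h7.le⟩
  · intro l g v hv
    exact ext0_act (h2 l) g hv
  · intro l v
    show 0 ≤ ext0 (κ l) v
    by_cases hv : v ∈ D.V
    · rw [ext0_mk _ hv]; exact h3 _ _
    · rw [ext0_not _ hv]
  · intro l v h
    obtain ⟨hv, h7⟩ := hpos l v h
    have h8 := h4 l (mk D v hv) h7
    exact ⟨hv, h8⟩
  · intro v hv hvr
    have h8 : dist (ft D (mk D v hv)) y1 ≤ r / 2 := hvr
    obtain ⟨l, hl⟩ := h5 (mk D v hv) h8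
    refine ⟨l, ?_⟩
    show c0 ≤ ext0 (κ l) v
    rw [ext0_mk _ hv]
    exact hl
  · intro l v v' hv hv' i hd
    obtain ⟨hvV, h7⟩ := hpos l v hv
    obtain ⟨hvV', h7'⟩ := hpos l v' hv'
    show ext0 (θ l) v' = ext0 (θ l) v + (i : ZMod q)
    rw [ext0_mk _ hvV, ext0_mk _ hvV']
    exact h6 l (mk D v hvV) (mk D v' hvV') h7 h7' i hd

/-! ### The flow of the generator -/

/-- 373's `Flow` of the generator `x`. -/
noncomputable def toFlow (D : Sys n G) (x : G) (c : ℝ) (hball : closedBall 0 1 ⊆ D.V)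
    (hdisp : ∀ v ∈ closedBall (0 : Fin n → ℝ) 1, ∀ g, dist (D.act g v) v ≤ c) :
    Flow373.Flow n where
  V := D.V
  Om := D.Om
  T i := D.act (x ^ i)
  f := D.f
  c := c
  isOpen_V := D.isOpen_V
  preconn_V := D.preconn_V
  isOpen_Om := D.isOpen_Om
  T_mem i v hv := D.act_mem _ v hv
  T_zero v hv := by rw [zpow_zero]; exact D.act_one v hv
  T_add i j v hv := by rw [zpow_add]; exact D.act_mul _ _ v hv
  T_cont i := by
    have h1 : ContinuousOn (fun v : Fin n → ℝ => ((x ^ i : G), v)) D.V :=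
      (continuous_const.prodMk continuous_id).continuousOn
    exact D.act_cont.comp h1 fun v hv => ⟨mem_univ _, hv⟩
  f_cont := D.f_cont
  f_T i v hv := D.f_inv _ v hv
  f_mem := D.f_mem
  proper := D.proper
  ball_V := hball
  disp i v hv := hdisp v hv _

end Crest.Agent.R217.CtrlS970
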