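import Mathlib
import Crest.Agent.R217.Asym_476
import Crest.Agent.R217.LocF_555
import Crest.Agent.R217.Obj_52

-- ▼ part R217/Sig_330
section

/-!
Row 217 (S0336), part C1: the signature toolkit.

* `pos M` = maximal dimension of a subspace on which `v ↦ Re (v* M v)` is positive definite;
* `sgn M = pos M - pos (-M)`;
* negation, congruence, reindexing, block sums, paths of hermitian matrices of constant rank.
* for a finite dimensional Poincare complex `(d, S, T, H)` in the normal form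
  `d^2 = 0`, `S = S*`, `dS + Sd* = 0`, `T = T*`, `Td + d*T = 0`, `ST = p + dH + Hd`
  (`p` a selfadjoint idempotent) the hermitian matrix `d + d* + S` has the rank of `p`.
-/

namespace Crest.Agent.R217.Sig330

open Matrix Module Topology

set_option linter.unusedSectionVars false

variable {ι κ : Type*}

/-- the real quadratic function of a matrix -/
noncomputable def qf [Fintype ι] (M : Matrix ι ι ℂ) (v : ι → ℂ) : ℝ := (star v ⬝ᵥ (M *ᵥ v)).re

/-- positive definite on a subspace -/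
def PosOn [Fintype ι] (M : Matrix ι ι ℂ) (W : Submodule ℂ (ι → ℂ)) : Prop :=
  ∀ v ∈ W, v ≠ 0 → 0 < qf M v

/-- the positive index -/
noncomputable def pos [Fintype ι] (M : Matrix ι ι ℂ) : ℕ :=
  sSup {k | ∃ W : Submodule ℂ (ι → ℂ), finrank ℂ W = k ∧ PosOn M W}

/-- the signature -/
noncomputable def sgn [Fintype ι] (M : Matrix ι ι ℂ) : ℤ := (pos M : ℤ) - (pos (-M) : ℤ)

section Basic

variable [Fintype ι] [Fintype κ]





theorem qf_smul (M : Matrix ι ι ℂ) (c : ℝ) (v : ι → ℂ) :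
    qf M ((c : ℂ) • v) = c ^ 2 * qf M v := by
  have h1 : star ((c : ℂ) • v) = (c : ℂ) • star v := by
    rw [star_smul]; simp
  rw [qf, h1, Matrix.mulVec_smul, smul_dotProduct, dotProduct_smul, smul_smul, qf, smul_eq_mul]
  have : ((c : ℂ) * c) = ((c ^ 2 : ℝ) : ℂ) := by push_cast; ring
  rw [this, Complex.re_ofReal_mul]

theorem finrank_le_card (W : Submodule ℂ (ι → ℂ)) : finrank ℂ W ≤ Fintype.card ι := by
  have := Submodule.finrank_le W
  simpa using this

theorem bddAbove_set (M : Matrix ι ι ℂ) :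
    BddAbove {k | ∃ W : Submodule ℂ (ι → ℂ), finrank ℂ W = k ∧ PosOn M W} := by
  refine ⟨Fintype.card ι, ?_⟩
  rintro k ⟨W, rfl, -⟩
  exact finrank_le_card W

theorem posOn_bot (M : Matrix ι ι ℂ) : PosOn M ⊥ := by
  intro v hv hv0
  exact absurd ((Submodule.mem_bot ℂ).1 hv) hv0

theorem nonempty_set (M : Matrix ι ι ℂ) :
    {k | ∃ W : Submodule ℂ (ι → ℂ), finrank ℂ W = k ∧ PosOn M W}.Nonempty :=
  ⟨0, ⊥, by simp, posOn_bot M⟩

theorem exists_pos (M : Matrix ι ι ℂ) :
    ∃ W : Submodule ℂ (ι → ℂ), finrank ℂ W = pos M ∧ PosOn M W :=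
  Nat.sSup_mem (nonempty_set M) (bddAbove_set M)

theorem le_pos {M : Matrix ι ι ℂ} {W : Submodule ℂ (ι → ℂ)} (h : PosOn M W) :
    finrank ℂ W ≤ pos M :=
  le_csSup (bddAbove_set M) ⟨W, rfl, h⟩


theorem sgn_neg (M : Matrix ι ι ℂ) : sgn (-M) = - sgn M := by
  simp [sgn]

/-- pulling back along an injective linear map given by a matrix -/
theorem pos_le_of_pullback {M : Matrix ι ι ℂ} {N : Matrix κ κ ℂ} (A : Matrix κ ι ℂ)
    (hinj : Function.Injective (A.mulVec)) (h : ∀ v, qf N (A *ᵥ v) = qf M v) :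
    pos M ≤ pos N := by
  obtain ⟨W, hW, hp⟩ := exists_pos M
  let f : (ι → ℂ) →ₗ[ℂ] (κ → ℂ) := Matrix.mulVecLin A
  have hf : Function.Injective f := hinj
  have h1 : finrank ℂ (W.map f) = finrank ℂ W :=
    (LinearEquiv.finrank_eq (Submodule.equivMapOfInjective f hf W)).symm
  have h2 : PosOn N (W.map f) := by
    rintro _ ⟨v, hv, rfl⟩ h0
    have hv0 : v ≠ 0 := by
      rintro rfl; exact h0 (map_zero f)
    have := hp v hv hv0
    change 0 < qf N (A *ᵥ v)
    rwa [h v]
  rw [← hW, ← h1]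
  exact le_pos h2

theorem qf_conj (A : Matrix κ ι ℂ) (N : Matrix κ κ ℂ) (v : ι → ℂ) :
    qf N (A *ᵥ v) = qf (Aᴴ * N * A) v := by
  have h : star (A *ᵥ v) ⬝ᵥ (N *ᵥ (A *ᵥ v)) = star v ⬝ᵥ ((Aᴴ * N * A) *ᵥ v) := by
    rw [Matrix.star_mulVec, ← Matrix.dotProduct_mulVec, Matrix.mulVec_mulVec,
      Matrix.mulVec_mulVec, Matrix.mul_assoc]
  rw [qf, h, qf]

theorem pos_conj_le (A : Matrix κ ι ℂ) (N : Matrix κ κ ℂ)
    (hinj : Function.Injective (A.mulVec)) : pos (Aᴴ * N * A) ≤ pos N :=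
  pos_le_of_pullback A hinj (qf_conj A N)

end Basic

section Congr

variable [Fintype ι] [Fintype κ] [DecidableEq ι] [DecidableEq κ]

theorem injective_of_isUnit {U : Matrix ι ι ℂ} (hU : IsUnit U) :
    Function.Injective (U.mulVec) := by
  obtain ⟨u, rfl⟩ := hU
  intro v w h
  have := congrArg (fun x => (↑(u⁻¹) : Matrix ι ι ℂ) *ᵥ x) h
  simpa [Matrix.mulVec_mulVec] using this

theorem isUnit_conjTranspose {U : Matrix ι ι ℂ} (hU : IsUnit U) : IsUnit Uᴴ := by
  have := hU.star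
  rwa [Matrix.star_eq_conjTranspose] at this

theorem pos_congr {U : Matrix ι ι ℂ} (hU : IsUnit U) (M : Matrix ι ι ℂ) :
    pos (U * M * Uᴴ) = pos M := by
  apply le_antisymm
  · have h := pos_conj_le (Uᴴ) M (injective_of_isUnit (isUnit_conjTranspose hU))
    rwa [Matrix.conjTranspose_conjTranspose] at h
  · obtain ⟨V, hV1, hV2⟩ : ∃ V : Matrix ι ι ℂ, U * V = 1 ∧ V * U = 1 := by
      obtain ⟨u, rfl⟩ := hU
      exact ⟨(↑(u⁻¹) : Matrix ι ι ℂ), by simp, by simp⟩
    have hv : IsUnit V := IsUnit.of_mul_eq_one U hV2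
    have h := pos_conj_le (Vᴴ) (U * M * Uᴴ) (injective_of_isUnit (isUnit_conjTranspose hv))
    have e1 : Uᴴ * Vᴴ = 1 := by
      rw [← Matrix.conjTranspose_mul, hV2]; simp
    have e2 : V * (U * M * Uᴴ) * Vᴴ = M := by
      calc V * (U * M * Uᴴ) * Vᴴ = (V * U) * M * (Uᴴ * Vᴴ) := by
              simp only [Matrix.mul_assoc]
        _ = M := by rw [e1, hV2]; simp
    rw [Matrix.conjTranspose_conjTranspose, e2] at h
    exact h

/-- congruence invariance of the signature -/
theorem sgn_congr {U : Matrix ι ι ℂ} (hU : IsUnit U) (M : Matrix ι ι ℂ) :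
    sgn (U * M * Uᴴ) = sgn M := by
  have h : -(U * M * Uᴴ) = U * (-M) * Uᴴ := by simp
  rw [sgn, sgn, h, pos_congr hU, pos_congr hU]


theorem pos_submatrix_le (e : κ ≃ ι) (M : Matrix ι ι ℂ) : pos (M.submatrix e e) ≤ pos M := by
  have hA : ∀ v : κ → ℂ, ((1 : Matrix ι ι ℂ).submatrix id e) *ᵥ v = v ∘ e.symm := by
    intro v
    rw [Matrix.submatrix_mulVec_equiv]
    simp
  apply pos_le_of_pullback ((1 : Matrix ι ι ℂ).submatrix id e)
  · intro v w h
    rw [hA, hA] at h
    ext k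
    simpa using congrFun h (e k)
  · intro v
    rw [hA, qf, qf, Matrix.submatrix_mulVec_equiv]
    congr 1
    simp only [dotProduct]
    rw [← Equiv.sum_comp e]
    simp [Function.comp_def]

theorem pos_submatrix (e : κ ≃ ι) (M : Matrix ι ι ℂ) : pos (M.submatrix e e) = pos M := by
  apply le_antisymm (pos_submatrix_le e M)
  have := pos_submatrix_le e.symm (M.submatrix e e)
  simpa using this

/-- invariance under reindexing -/
theorem sgn_submatrix (e : κ ≃ ι) (M : Matrix ι ι ℂ) : sgn (M.submatrix e e) = sgn M := by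
  have h : -(M.submatrix e e) = (-M).submatrix e e := rfl
  rw [sgn, sgn, h, pos_submatrix, pos_submatrix]


end Congr

section Diag

variable [Fintype ι] [Fintype κ] [DecidableEq ι] [DecidableEq κ]

theorem qf_diagonal (w : ι → ℝ) (v : ι → ℂ) :
    qf (diagonal (fun i => (w i : ℂ))) v = ∑ i, w i * ‖v i‖ ^ 2 := by
  rw [qf, dotProduct, Complex.re_sum]
  apply Finset.sum_congr rfl
  intro i _
  rw [Matrix.mulVec_diagonal, Pi.star_apply]
  have : star (v i) * ((w i : ℂ) * v i) = ((w i * ‖v i‖ ^ 2 : ℝ) : ℂ) := by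
    have h := Complex.conj_mul' (v i)
    calc star (v i) * ((w i : ℂ) * v i) = (w i : ℂ) * (star (v i) * v i) := by ring
      _ = ((w i * ‖v i‖ ^ 2 : ℝ) : ℂ) := by
        rw [show star (v i) * v i = (‖v i‖ : ℂ) ^ 2 from h]; push_cast; ring
  rw [this, Complex.ofReal_re]

theorem pos_diagonal (w : ι → ℝ) :
    pos (diagonal (fun i => (w i : ℂ))) = Fintype.card {i // 0 < w i} := by
  classical
  apply le_antisymm
  · obtain ⟨W, hW, hp⟩ := exists_pos (diagonal (fun i => (w i : ℂ)))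
    let r : (ι → ℂ) →ₗ[ℂ] ({i // 0 < w i} → ℂ) :=
      LinearMap.funLeft ℂ ℂ (Subtype.val : {i // 0 < w i} → ι)
    have hr : Function.Injective (r.comp W.subtype) := by
      rw [← LinearMap.ker_eq_bot, LinearMap.ker_eq_bot']
      rintro ⟨v, hv⟩ h0
      have h0' : ∀ i, 0 < w i → v i = 0 := fun i hi => congrFun h0 ⟨i, hi⟩
      by_contra hne
      have hv0 : v ≠ 0 := fun h => hne (by ext1; exact h)
      have h1 := hp v hv hv0
      rw [qf_diagonal] at h1
      have h2 : ∑ i, w i * ‖v i‖ ^ 2 ≤ 0 := by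
        apply Finset.sum_nonpos
        intro i _
        by_cases hi : 0 < w i
        · simp [h0' i hi]
        · exact mul_nonpos_of_nonpos_of_nonneg (not_lt.1 hi) (by positivity)
      linarith
    have := LinearMap.finrank_le_finrank_of_injective hr
    rw [hW] at this
    simpa using this
  · let A : Matrix ι {i // 0 < w i} ℂ := (1 : Matrix ι ι ℂ).submatrix id Subtype.val
    have hA : ∀ (v : {i // 0 < w i} → ℂ) (i : ι), (A *ᵥ v) i = if h : 0 < w i then v ⟨i, h⟩ else 0 := by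
      intro v i
      simp only [A, Matrix.mulVec, dotProduct, Matrix.submatrix_apply, id_eq, Matrix.one_apply]
      by_cases h : 0 < w i
      · rw [dif_pos h, Finset.sum_eq_single ⟨i, h⟩]
        · simp
        · rintro ⟨j, hj⟩ _ hne
          have : i ≠ j := fun e => hne (by simp [e])
          simp [this]
        · simp
      · rw [dif_neg h]
        apply Finset.sum_eq_zero
        rintro ⟨j, hj⟩ _
        have : i ≠ j := by rintro rfl; exact h hj
        simp [this]
    have hinj : Function.Injective A.mulVec := by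
      intro v v' h
      ext ⟨i, hi⟩
      have := congrFun h i
      rw [hA, hA] at this
      simpa [hi] using this
    have h1 : pos (Aᴴ * diagonal (fun i => (w i : ℂ)) * A) ≤ pos (diagonal (fun i => (w i : ℂ))) :=
      pos_conj_le A _ hinj
    refine le_trans ?_ h1
    have h2 : PosOn (Aᴴ * diagonal (fun i => (w i : ℂ)) * A) ⊤ := by
      intro v _ hv
      rw [← qf_conj, qf_diagonal]
      obtain ⟨⟨i, hi⟩, hvi⟩ : ∃ i, v i ≠ 0 := by
        by_contra hcon
        push Not at hcon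
        exact hv (funext hcon)
      have hpos : 0 < w i * ‖(A *ᵥ v) i‖ ^ 2 := by
        rw [hA, dif_pos hi]
        have : 0 < ‖v ⟨i, hi⟩‖ := norm_pos_iff.2 hvi
        positivity
      apply lt_of_lt_of_le hpos
      apply Finset.single_le_sum (f := fun i => w i * ‖(A *ᵥ v) i‖ ^ 2) _ (Finset.mem_univ i)
      intro j _
      change 0 ≤ w j * ‖(A *ᵥ v) j‖ ^ 2
      rw [hA]
      by_cases hj : 0 < w j
      · positivity
      · simp [hj]
    have h3 := le_pos h2
    simpa using h3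

theorem diag_decomp {M : Matrix ι ι ℂ} (hM : M.IsHermitian) :
    ∃ U : Matrix ι ι ℂ, IsUnit U ∧
      M = U * diagonal (fun i => (hM.eigenvalues i : ℂ)) * Uᴴ := by
  refine ⟨(hM.eigenvectorUnitary : Matrix ι ι ℂ), ?_, ?_⟩
  · exact (Unitary.toUnits hM.eigenvectorUnitary).isUnit
  · have := hM.spectral_theorem
    rw [Unitary.conjStarAlgAut_apply] at this
    exact this

/-- the positive index is the number of positive eigenvalues -/
theorem pos_eq_card {M : Matrix ι ι ℂ} (hM : M.IsHermitian) :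
    pos M = Fintype.card {i // 0 < hM.eigenvalues i} := by
  obtain ⟨U, hU, h⟩ := diag_decomp hM
  calc pos M = pos (U * diagonal (fun i => (hM.eigenvalues i : ℂ)) * Uᴴ) := congrArg pos h
    _ = _ := by rw [pos_congr hU, pos_diagonal]

theorem pos_neg_eq_card {M : Matrix ι ι ℂ} (hM : M.IsHermitian) :
    pos (-M) = Fintype.card {i // hM.eigenvalues i < 0} := by
  obtain ⟨U, hU, h⟩ := diag_decomp hM
  have e : -M = U * diagonal (fun i => ((-hM.eigenvalues i : ℝ) : ℂ)) * Uᴴ := by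
    conv_lhs => rw [h]
    have this : diagonal (fun i => ((-hM.eigenvalues i : ℝ) : ℂ))
        = - diagonal (fun i => (hM.eigenvalues i : ℂ)) := by
      rw [Matrix.diagonal_neg]
      congr 1
      ext i
      push_cast
      rfl
    rw [this, Matrix.mul_neg, Matrix.neg_mul]
  calc pos (-M) = pos (U * diagonal (fun i => ((-hM.eigenvalues i : ℝ) : ℂ)) * Uᴴ) := congrArg pos e
    _ = Fintype.card {i // 0 < - hM.eigenvalues i} := by rw [pos_congr hU, pos_diagonal]
    _ = _ := Fintype.card_congr (Equiv.subtypeEquivRight (fun i => by simp))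

/-- the two indices add up to the rank -/
theorem pos_add_pos_neg {M : Matrix ι ι ℂ} (hM : M.IsHermitian) :
    pos M + pos (-M) = M.rank := by
  classical
  rw [pos_eq_card hM, pos_neg_eq_card hM, hM.rank_eq_card_non_zero_eigs]
  rw [Fintype.card_subtype, Fintype.card_subtype, Fintype.card_subtype,
    ← Finset.card_union_of_disjoint]
  · congr 1
    ext i
    simp only [Finset.mem_union, Finset.mem_filter, Finset.mem_univ, true_and]
    constructor
    · rintro (h | h)
      · exact ne_of_gt h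
      · exact ne_of_lt h
    · intro h
      rcases lt_or_gt_of_ne h with h | h
      · exact Or.inr h
      · exact Or.inl h
  · rw [Finset.disjoint_left]
    intro i hi hi'
    simp only [Finset.mem_filter, Finset.mem_univ, true_and] at hi hi'
    linarith


theorem pos_fromBlocks {A : Matrix ι ι ℂ} {B : Matrix κ κ ℂ} (hA : A.IsHermitian)
    (hB : B.IsHermitian) : pos (fromBlocks A 0 0 B) = pos A + pos B := by
  classical
  obtain ⟨U, hU, h⟩ := diag_decomp hA
  obtain ⟨V, hV, h'⟩ := diag_decomp hB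
  have e : fromBlocks A 0 0 B = fromBlocks U 0 0 V *
      diagonal (fun i => ((Sum.elim hA.eigenvalues hB.eigenvalues i : ℝ) : ℂ)) *
      (fromBlocks U 0 0 V)ᴴ := by
    have e1 : diagonal (fun i => ((Sum.elim hA.eigenvalues hB.eigenvalues i : ℝ) : ℂ))
        = fromBlocks (diagonal (fun i => (hA.eigenvalues i : ℂ))) 0 0
          (diagonal (fun i => (hB.eigenvalues i : ℂ))) := by
      rw [Matrix.fromBlocks_diagonal]
      congr 1
      ext i
      rcases i with i | i <;> rfl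
    rw [e1, Matrix.fromBlocks_conjTranspose, Matrix.fromBlocks_multiply,
      Matrix.fromBlocks_multiply]
    simp [← h, ← h']
  have hu : IsUnit (fromBlocks U 0 0 V) := by
    rw [Matrix.isUnit_iff_isUnit_det] at hU hV ⊢
    rw [Matrix.det_fromBlocks_zero₂₁]
    exact hU.mul hV
  rw [pos_eq_card hA, pos_eq_card hB, e, pos_congr hu, pos_diagonal, ← Fintype.card_sum]
  apply Fintype.card_congr
  exact (Equiv.subtypeSum (p := fun i => 0 < Sum.elim hA.eigenvalues hB.eigenvalues i))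

/-- additivity -/
theorem sgn_fromBlocks {A : Matrix ι ι ℂ} {B : Matrix κ κ ℂ} (hA : A.IsHermitian)
    (hB : B.IsHermitian) : sgn (fromBlocks A 0 0 B) = sgn A + sgn B := by
  have h : -(fromBlocks A 0 0 B) = fromBlocks (-A) 0 0 (-B) := by
    rw [Matrix.fromBlocks_neg]; simp
  rw [sgn, sgn, sgn, h, pos_fromBlocks hA hB, pos_fromBlocks hA.neg hB.neg]
  push_cast
  ring

end Diag

section Path

variable [Fintype ι] [DecidableEq ι]

theorem continuous_qf : Continuous (fun x : Matrix ι ι ℂ × (ι → ℂ) => qf x.1 x.2) := by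
  unfold qf
  apply Complex.continuous_re.comp
  exact Continuous.dotProduct (continuous_snd.star) (Continuous.matrix_mulVec continuous_fst continuous_snd)

/-- openness of positive definiteness on a fixed subspace -/
theorem eventually_posOn {X : Type*} [TopologicalSpace X] {M : X → Matrix ι ι ℂ} {x : X}
    (hc : ContinuousAt M x) {W : Submodule ℂ (ι → ℂ)} (h : PosOn (M x) W) :
    ∀ᶠ y in 𝓝 x, PosOn (M y) W := by
  let K : Set (ι → ℂ) := (W : Set (ι → ℂ)) ∩ Metric.sphere 0 1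
  have hK : IsCompact K := by
    apply (isCompact_sphere (0 : ι → ℂ) 1).inter_left
    exact Submodule.closed_of_finiteDimensional W
  have h1 : ∀ᶠ y in 𝓝 x, ∀ v ∈ K, 0 < qf (M y) v := by
    apply hK.eventually_forall_of_forall_eventually
    rintro v ⟨hvW, hv1⟩
    have hv0 : v ≠ 0 := by
      rintro rfl
      simp at hv1
    have h2 : ContinuousAt (fun z : X × (ι → ℂ) => qf (M z.1) z.2) (x, v) := by
      have h3 : ContinuousAt (fun z : X × (ι → ℂ) => (M z.1, z.2)) (x, v) := by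
        apply ContinuousAt.prodMk
        · exact ContinuousAt.comp (f := Prod.fst) (x := (x, v)) hc continuousAt_fst
        · exact continuousAt_snd
      exact ContinuousAt.comp (f := fun z : X × (ι → ℂ) => (M z.1, z.2)) (x := (x, v))
        continuous_qf.continuousAt h3
    exact h2.eventually (lt_mem_nhds (h v hvW hv0))
  filter_upwards [h1] with y hy v hv hv0
  have hn : 0 < ‖v‖ := norm_pos_iff.2 hv0
  have hmem : ((‖v‖⁻¹ : ℝ) : ℂ) • v ∈ K := by
    refine ⟨W.smul_mem _ hv, ?_⟩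
    simp [norm_smul, hn.ne']
  have h2 := hy _ hmem
  rw [qf_smul] at h2
  exact (pos_iff_pos_of_mul_pos h2).1 (by positivity)

theorem eventually_le_pos {X : Type*} [TopologicalSpace X] {M : X → Matrix ι ι ℂ} {x : X}
    (hc : ContinuousAt M x) : ∀ᶠ y in 𝓝 x, pos (M x) ≤ pos (M y) := by
  obtain ⟨W, hW, hp⟩ := exists_pos (M x)
  filter_upwards [eventually_posOn hc hp] with y hy
  rw [← hW]
  exact le_pos hy

/-- the signature is locally constant along hermitian matrices of constant rank -/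
theorem eventually_sgn_eq {X : Type*} [TopologicalSpace X] {M : X → Matrix ι ι ℂ} {x : X}
    (hc : ContinuousAt M x) (hM : ∀ y, (M y).IsHermitian) (hr : ∀ y, (M y).rank = (M x).rank) :
    ∀ᶠ y in 𝓝 x, sgn (M y) = sgn (M x) := by
  have h1 := eventually_le_pos hc
  have h2 := eventually_le_pos (M := fun y => - M y) hc.neg
  filter_upwards [h1, h2] with y h1 h2
  have e1 := pos_add_pos_neg (hM y)
  have e2 := pos_add_pos_neg (hM x)
  rw [hr y] at e1
  rw [sgn, sgn]
  omega

/-- the signature is constant along a continuous family of hermitian matrices of constant rank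
over a preconnected space -/
theorem sgn_const {X : Type*} [TopologicalSpace X] [PreconnectedSpace X] {M : X → Matrix ι ι ℂ}
    (hc : Continuous M) (hM : ∀ y, (M y).IsHermitian) (hr : ∀ x y, (M x).rank = (M y).rank)
    (x y : X) : sgn (M x) = sgn (M y) := by
  have hl : IsLocallyConstant (fun x => sgn (M x)) := by
    rw [IsLocallyConstant.iff_eventually_eq]
    intro x
    exact eventually_sgn_eq hc.continuousAt hM (fun y => hr y x)
  exact hl.apply_eq_of_preconnectedSpace x y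

theorem sgn_path_rank {M : ℝ → Matrix ι ι ℂ} {a b : ℝ} (hab : a ≤ b)
    (hc : ContinuousOn M (Set.Icc a b))
    (hM : ∀ t ∈ Set.Icc a b, (M t).IsHermitian) (r : ℕ)
    (hr : ∀ t ∈ Set.Icc a b, (M t).rank = r) : sgn (M a) = sgn (M b) := by
  have : PreconnectedSpace (Set.Icc a b) := Subtype.preconnectedSpace isPreconnected_Icc
  exact sgn_const (X := Set.Icc a b) (M := fun t => M t) (continuousOn_iff_continuous_domRestrict.1 hc)
    (fun t => hM t t.2) (fun s t => by rw [hr s s.2, hr t t.2])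
    ⟨a, Set.left_mem_Icc.2 hab⟩ ⟨b, Set.right_mem_Icc.2 hab⟩


end Path

section More

variable [Fintype ι] [DecidableEq ι] [Fintype κ] [DecidableEq κ]





end More

section Complex

variable [Fintype ι] [DecidableEq ι]

/-- a finite dimensional honest Poincare complex in 578's normal form, living on the range of the
selfadjoint idempotent `p` -/
structure PData (p d S T H : Matrix ι ι ℂ) : Prop where
  pp : p * p = p
  ps : pᴴ = p
  dl : p * d = d
  dr : d * p = d
  Sl : p * S = S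
  Hl : p * H = H
  dd : d * d = 0
  Ss : Sᴴ = S
  Ts : Tᴴ = T
  dS : d * S + S * dᴴ = 0
  Td : T * d + dᴴ * T = 0
  ST : S * T = p + d * H + H * d

namespace PData

variable {p d S T H : Matrix ι ι ℂ}

theorem Sr (h : PData p d S T H) : S * p = S := by
  have := congrArg Matrix.conjTranspose h.Sl
  rwa [Matrix.conjTranspose_mul, h.ps, h.Ss] at this

theorem dHl (h : PData p d S T H) : p * dᴴ = dᴴ := by
  have := congrArg Matrix.conjTranspose h.dr
  rwa [Matrix.conjTranspose_mul, h.ps] at this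

theorem dHr (h : PData p d S T H) : dᴴ * p = dᴴ := by
  have := congrArg Matrix.conjTranspose h.dl
  rwa [Matrix.conjTranspose_mul, h.ps] at this

theorem TS (h : PData p d S T H) : T * S = p + dᴴ * Hᴴ + Hᴴ * dᴴ := by
  have := congrArg Matrix.conjTranspose h.ST
  rw [Matrix.conjTranspose_mul, h.Ss, h.Ts] at this
  rw [this]
  simp only [Matrix.conjTranspose_add, Matrix.conjTranspose_mul, h.ps]
  abel

/-- the hermitian matrix of the complex -/
theorem isHermitian (h : PData p d S T H) : (d + dᴴ + S).IsHermitian := by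
  rw [Matrix.IsHermitian]
  simp only [Matrix.conjTranspose_add, Matrix.conjTranspose_conjTranspose, h.Ss]
  abel

theorem dot_star_self_eq_zero {v : ι → ℂ} (h : (star v ⬝ᵥ v).re = 0) : v = 0 := by
  have h1 : star v ⬝ᵥ v = ((∑ i, ‖v i‖ ^ 2 : ℝ) : ℂ) := by
    rw [dotProduct]
    push_cast
    apply Finset.sum_congr rfl
    intro i _
    exact Complex.conj_mul' (v i)
  rw [h1, Complex.ofReal_re] at h
  have h2 := (Finset.sum_eq_zero_iff_of_nonneg (fun i _ => by positivity)).1 h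
  ext i
  have := h2 i (Finset.mem_univ i)
  simpa using this

theorem dot_adj (A : Matrix ι ι ℂ) (v w : ι → ℂ) :
    star (A *ᵥ v) ⬝ᵥ w = star v ⬝ᵥ (Aᴴ *ᵥ w) := by
  rw [Matrix.star_mulVec, ← Matrix.dotProduct_mulVec]

theorem re_dot_comm (v w : ι → ℂ) : (star v ⬝ᵥ w).re = (star w ⬝ᵥ v).re := by
  have : star v ⬝ᵥ w = star (star w ⬝ᵥ v) := Matrix.star_dotProduct v w
  rw [this]
  simp

/-- KEY LEMMA: `d + d* + S` is injective on the range of `p`. -/
theorem eq_zero (h : PData p d S T H) {v : ι → ℂ} (hpv : p *ᵥ v = v)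
    (hv : (d + dᴴ + S) *ᵥ v = 0) : v = 0 := by
  have hv' : d *ᵥ v + dᴴ *ᵥ v + S *ᵥ v = 0 := by
    rw [← Matrix.add_mulVec, ← Matrix.add_mulVec]; exact hv
  set f := dᴴ *ᵥ v with hf
  -- step 1: f = 0
  have e1 : star f ⬝ᵥ (d *ᵥ v) = 0 := by
    rw [hf, dot_adj, Matrix.conjTranspose_conjTranspose, Matrix.mulVec_mulVec, h.dd]
    simp
  have e2 : star f ⬝ᵥ (S *ᵥ v) = - (star (S *ᵥ v) ⬝ᵥ f) := by
    rw [hf, dot_adj, Matrix.conjTranspose_conjTranspose, Matrix.mulVec_mulVec,
      eq_neg_of_add_eq_zero_left h.dS, dot_adj, h.Ss, Matrix.mulVec_mulVec, Matrix.neg_mulVec,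
      dotProduct_neg]
  have e3 : (star f ⬝ᵥ (S *ᵥ v)).re = 0 := by
    have := congrArg Complex.re e2
    rw [Complex.neg_re, re_dot_comm (S *ᵥ v) f] at this
    linarith
  have hf0 : f = 0 := by
    apply dot_star_self_eq_zero
    have e4 : f = -(d *ᵥ v) - S *ᵥ v := by
      have : f = (d *ᵥ v + f + S *ᵥ v) - d *ᵥ v - S *ᵥ v := by abel
      rw [this, hv']; abel
    have e5 : star f ⬝ᵥ f = -(star f ⬝ᵥ (d *ᵥ v)) - star f ⬝ᵥ (S *ᵥ v) := by
      have := congrArg (fun w => star f ⬝ᵥ w) e4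
      simpa only [dotProduct_sub, dotProduct_neg] using this
    rw [e5, e1, Complex.sub_re, e3]
    simp
  have hSv : S *ᵥ v = -(d *ᵥ v) := by
    rw [hf0, add_zero] at hv'
    exact eq_neg_of_add_eq_zero_right hv'
  -- step 2
  set k := Hᴴ *ᵥ v with hk
  have hTSv : T *ᵥ (S *ᵥ v) = v + dᴴ *ᵥ k := by
    rw [Matrix.mulVec_mulVec, h.TS, Matrix.add_mulVec, Matrix.add_mulVec, hpv,
      ← Matrix.mulVec_mulVec v dᴴ Hᴴ, ← Matrix.mulVec_mulVec v Hᴴ dᴴ, ← hf, hf0,
      Matrix.mulVec_zero, add_zero]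
  set n := S *ᵥ k + H *ᵥ (S *ᵥ v) with hn
  have hdSv : d *ᵥ (S *ᵥ v) = 0 := by
    rw [Matrix.mulVec_mulVec, eq_neg_of_add_eq_zero_left h.dS, Matrix.neg_mulVec,
      ← Matrix.mulVec_mulVec, ← hf, hf0]
    simp
  have hdn : d *ᵥ n = 0 := by
    have a1 : d *ᵥ (S *ᵥ k) = -(S *ᵥ (dᴴ *ᵥ k)) := by
      rw [Matrix.mulVec_mulVec, eq_neg_of_add_eq_zero_left h.dS, Matrix.neg_mulVec,
        ← Matrix.mulVec_mulVec]
    have a2 : d *ᵥ (H *ᵥ (S *ᵥ v)) = S *ᵥ (dᴴ *ᵥ k) := by
      have b1 : d * H = S * T - p - H * d := by rw [h.ST]; abel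
      rw [Matrix.mulVec_mulVec _ d H, b1, Matrix.sub_mulVec, Matrix.sub_mulVec,
        ← Matrix.mulVec_mulVec _ S T, hTSv, ← Matrix.mulVec_mulVec _ H d, hdSv,
        Matrix.mulVec_mulVec _ p S, h.Sl, Matrix.mulVec_add]
      simp
    rw [hn, Matrix.mulVec_add, a1, a2]
    abel
  have hpn : p *ᵥ n = n := by
    rw [hn, Matrix.mulVec_add, Matrix.mulVec_mulVec _ p S, h.Sl, Matrix.mulVec_mulVec _ p H, h.Hl]
  set y := T *ᵥ (v + n) - k with hy
  have hdy : dᴴ *ᵥ y = v := by
    have b1 : dᴴ * T = -(T * d) := eq_neg_of_add_eq_zero_right h.Td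
    rw [hy, Matrix.mulVec_sub, Matrix.mulVec_mulVec _ dᴴ T, b1, Matrix.neg_mulVec,
      ← Matrix.mulVec_mulVec, Matrix.mulVec_add, hdn, add_zero]
    have b2 : d *ᵥ v = -(S *ᵥ v) := by rw [hSv]; simp
    rw [b2, Matrix.mulVec_neg, hTSv]
    abel
  have hxy : -(d *ᵥ (H *ᵥ (v + n))) + S *ᵥ y = v := by
    rw [hy, Matrix.mulVec_sub, Matrix.mulVec_mulVec _ S T, h.ST, Matrix.add_mulVec,
      Matrix.add_mulVec, ← Matrix.mulVec_mulVec _ d H, ← Matrix.mulVec_mulVec _ H d,
      Matrix.mulVec_add p, hpv, hpn, Matrix.mulVec_add d v n, hdn, add_zero]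
    have b2 : d *ᵥ v = -(S *ᵥ v) := by rw [hSv]; simp
    rw [b2, Matrix.mulVec_neg]
    have b3 : v + n + -(H *ᵥ (S *ᵥ v)) - S *ᵥ k = v := by
      rw [hn]; abel
    calc _ = v + n + -(H *ᵥ (S *ᵥ v)) - S *ᵥ k := by abel
      _ = v := b3
  -- conclusion
  have c1 : star v ⬝ᵥ v = star (S *ᵥ v) ⬝ᵥ y := by
    have c2 : star v ⬝ᵥ (d *ᵥ (H *ᵥ (v + n))) = 0 := by
      have := dot_adj dᴴ v (H *ᵥ (v + n))
      rw [Matrix.conjTranspose_conjTranspose, ← hf, hf0] at this
      rw [← this]; simp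
    have c3 := dot_adj S v y
    rw [h.Ss] at c3
    have c5 := congrArg (fun w => star v ⬝ᵥ w) hxy
    simp only [dotProduct_add, dotProduct_neg, c2, neg_zero, zero_add] at c5
    rw [← c5, c3]
  have c4 : star v ⬝ᵥ v = star (d *ᵥ v) ⬝ᵥ y := by
    have c5 : star v ⬝ᵥ (dᴴ *ᵥ y) = star v ⬝ᵥ v := by rw [hdy]
    rw [← c5, dot_adj]
  have c6 : star v ⬝ᵥ v + star v ⬝ᵥ v = 0 := by
    nth_rewrite 1 [c1]
    rw [c4, hSv, star_neg, neg_dotProduct]
    ring
  have c7 : star v ⬝ᵥ v = 0 := by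
    have : (2 : ℂ) * (star v ⬝ᵥ v) = 0 := by rw [two_mul]; exact c6
    simpa using this
  apply dot_star_self_eq_zero
  rw [c7]; simp

theorem pM (h : PData p d S T H) : p * (d + dᴴ + S) = d + dᴴ + S := by
  rw [Matrix.mul_add, Matrix.mul_add, h.dl, h.dHl, h.Sl]

theorem Mp (h : PData p d S T H) : (d + dᴴ + S) * p = d + dᴴ + S := by
  rw [Matrix.add_mul, Matrix.add_mul, h.dr, h.dHr, h.Sr]

theorem isUnit_add (h : PData p d S T H) : IsUnit (d + dᴴ + S + (1 - p)) := by
  rw [← Matrix.mulVec_injective_iff_isUnit]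
  intro v w hvw
  have h0 : (d + dᴴ + S + (1 - p)) *ᵥ (v - w) = 0 := by
    rw [Matrix.mulVec_sub, sub_eq_zero]; exact hvw
  set u := v - w with hu
  have h1 : p *ᵥ ((d + dᴴ + S + (1 - p)) *ᵥ u) = (d + dᴴ + S) *ᵥ u := by
    rw [Matrix.mulVec_mulVec, Matrix.mul_add, h.pM, Matrix.mul_sub, h.pp]
    simp
  rw [h0, Matrix.mulVec_zero] at h1
  have h2 : u = p *ᵥ u := by
    rw [Matrix.add_mulVec, ← h1, zero_add, Matrix.sub_mulVec, Matrix.one_mulVec, sub_eq_zero] at h0
    exact h0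
  have h3 := h.eq_zero h2.symm h1.symm
  rw [hu, sub_eq_zero] at h3
  exact h3

/-- the hermitian matrix of an honest complex has the rank of `p` -/
theorem rank_eq (h : PData p d S T H) : (d + dᴴ + S).rank = p.rank := by
  have e : d + dᴴ + S = (d + dᴴ + S + (1 - p)) * p := by
    rw [Matrix.add_mul, h.Mp, Matrix.sub_mul, h.pp, Matrix.one_mul, sub_self, add_zero]
  rw [e, Matrix.rank_mul_eq_right_of_isUnit_det _ _
    ((Matrix.isUnit_iff_isUnit_det _).1 h.isUnit_add)]

end PData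

/-- the signature of a finite complex -/
noncomputable def sg (d S : Matrix ι ι ℂ) : ℤ := sgn (d + dᴴ + S)

/-- PATH INVARIANCE for complexes -/
theorem sg_path {p : Matrix ι ι ℂ} {d S : ℝ → Matrix ι ι ℂ}
    (hd : ContinuousOn d (Set.Icc 0 1)) (hS : ContinuousOn S (Set.Icc 0 1))
    (h : ∀ t ∈ Set.Icc (0 : ℝ) 1, ∃ T H, PData p (d t) (S t) T H) :
    sg (d 0) (S 0) = sg (d 1) (S 1) := by
  apply sgn_path_rank (M := fun t => d t + (d t)ᴴ + S t) zero_le_one _ _ p.rank
  · intro t ht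
    obtain ⟨T, H, h⟩ := h t ht
    exact h.rank_eq
  · exact (hd.add (continuous_id.matrix_conjTranspose.comp_continuousOn hd)).add hS
  · intro t ht
    obtain ⟨T, H, h⟩ := h t ht
    exact h.isHermitian

/-- partial isometries: if `u u* = p`, `u = p u p`, `M = p M p` then `sgn (u M u*) = sgn M` -/
theorem sgn_partial {p u M : Matrix ι ι ℂ} (hp : p * p = p) (hu : u * uᴴ = p)
    (pu : p * u = u) (up : u * p = u) (hM : p * M = M) (hM' : M * p = M) :
    sgn (u * M * uᴴ) = sgn M := by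
  have hps : pᴴ = p := by rw [← hu]; simp
  have hup : uᴴ * p = uᴴ := by
    have := congrArg Matrix.conjTranspose pu
    rwa [Matrix.conjTranspose_mul, hps] at this
  have hpu : p * uᴴ = uᴴ := by
    have := congrArg Matrix.conjTranspose up
    rwa [Matrix.conjTranspose_mul, hps] at this
  have e1 : (u + (1 - p)) * M * (u + (1 - p))ᴴ = u * M * uᴴ := by
    have a1 : (1 - p) * M = 0 := by rw [Matrix.sub_mul, hM, Matrix.one_mul, sub_self]
    have a2 : M * (1 - p) = 0 := by rw [Matrix.mul_sub, hM', Matrix.mul_one, sub_self]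
    rw [Matrix.conjTranspose_add, Matrix.conjTranspose_sub, Matrix.conjTranspose_one, hps,
      Matrix.add_mul, a1, add_zero, Matrix.mul_add, Matrix.mul_assoc u M (1 - p), a2]
    simp
  have e2 : IsUnit (u + (1 - p)) := by
    apply IsUnit.of_mul_eq_one (uᴴ + (1 - p))
    rw [Matrix.add_mul, Matrix.mul_add, Matrix.mul_add, hu, Matrix.mul_sub u, up,
      Matrix.sub_mul 1 p uᴴ, hpu, Matrix.sub_mul, Matrix.mul_sub, Matrix.mul_sub, hp]
    simp
  rw [← e1, sgn_congr e2]

/-- sign change -/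
theorem sg_neg {p g d S : Matrix ι ι ℂ} (hp : p * p = p) (hgs : gᴴ = g) (hg : g * g = p)
    (pg : p * g = g) (gp : g * p = g) (pd : p * d = d) (dp : d * p = d) (pS : p * S = S)
    (Sp : S * p = S) (gd : g * d = -(d * g)) (gS : g * S = S * g) :
    sg d (-S) = - sg d S := by
  have hps : pᴴ = p := by rw [← hg, Matrix.conjTranspose_mul, hgs]
  have pdH : p * dᴴ = dᴴ := by
    have := congrArg Matrix.conjTranspose dp
    rwa [Matrix.conjTranspose_mul, hps] at this
  have dHp : dᴴ * p = dᴴ := by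
    have := congrArg Matrix.conjTranspose pd
    rwa [Matrix.conjTranspose_mul, hps] at this
  have gdH : g * dᴴ = -(dᴴ * g) := by
    have := congrArg Matrix.conjTranspose gd
    rw [Matrix.conjTranspose_neg, Matrix.conjTranspose_mul, Matrix.conjTranspose_mul, hgs] at this
    rw [this, neg_neg]
  have e : g * (d + dᴴ + S) * gᴴ = -(d + dᴴ + -S) := by
    rw [hgs, Matrix.mul_add, Matrix.mul_add, gd, gdH, gS, Matrix.add_mul, Matrix.add_mul,
      Matrix.neg_mul, Matrix.neg_mul, Matrix.mul_assoc, Matrix.mul_assoc, Matrix.mul_assoc, hg,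
      dp, dHp, Sp]
    abel
  have e2 := sgn_partial (u := g) (M := d + dᴴ + S) hp (by rw [hgs, hg]) pg gp
    (by rw [Matrix.mul_add, Matrix.mul_add, pd, pdH, pS])
    (by rw [Matrix.add_mul, Matrix.add_mul, dp, dHp, Sp])
  rw [e, sgn_neg] at e2
  rw [sg, sg, ← e2, neg_neg]

/-- additivity for complexes -/
theorem sg_fromBlocks {κ : Type*} [Fintype κ] [DecidableEq κ] {d S : Matrix ι ι ℂ}
    {d' S' : Matrix κ κ ℂ} (hS : Sᴴ = S) (hS' : S'ᴴ = S') :
    sg (fromBlocks d 0 0 d') (fromBlocks S 0 0 S') = sg d S + sg d' S' := by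
  have e : fromBlocks d 0 0 d' + (fromBlocks d 0 0 d')ᴴ + fromBlocks S 0 0 S'
      = fromBlocks (d + dᴴ + S) 0 0 (d' + d'ᴴ + S') := by
    rw [Matrix.fromBlocks_conjTranspose, Matrix.fromBlocks_add, Matrix.fromBlocks_add]
    simp
  rw [sg, e, sgn_fromBlocks, sg, sg]
  · rw [Matrix.IsHermitian]
    simp only [Matrix.conjTranspose_add, Matrix.conjTranspose_conjTranspose, hS]
    abel
  · rw [Matrix.IsHermitian]
    simp only [Matrix.conjTranspose_add, Matrix.conjTranspose_conjTranspose, hS']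
    abel

end Complex

end Crest.Agent.R217.Sig330
end

-- ▼ part R217/AsySg_476
section

/-!
Row 217 (S0336), part C: signatures of compactly supported hermitian elements of
`Matrix J J (Asy C ℂ)`, with values in germs of integers.
-/

set_option autoImplicit false
set_option linter.unusedSectionVars false
set_option linter.unusedVariables false

open Filter Topology Matrix

namespace Crest.Agent.R217.Asym476

open Sig330

section finite

variable {ι κ : Type*} [Fintype ι] [Fintype κ]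

theorem pos_conj_le' (A : Matrix κ ι ℂ) (N : Matrix κ κ ℂ) : pos (Aᴴ * N * A) ≤ pos N := by
  obtain ⟨W, hW, hp⟩ := exists_pos (Aᴴ * N * A)
  let f : (ι → ℂ) →ₗ[ℂ] (κ → ℂ) := Matrix.mulVecLin A
  have hinj : Function.Injective (f.domRestrict W) := by
    rw [← LinearMap.ker_eq_bot, LinearMap.ker_eq_bot']
    rintro ⟨v, hv⟩ h0
    by_contra hne
    have hv0 : v ≠ 0 := fun h => hne (Subtype.ext h)
    have h1 := hp v hv hv0
    have h2 : A *ᵥ v = 0 := h0
    rw [← qf_conj, h2] at h1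
    simp [qf] at h1
  have h1 : Module.finrank ℂ (W.map f) = Module.finrank ℂ W := by
    rw [← LinearMap.range_domRestrict]
    exact LinearMap.finrank_range_of_inj hinj
  have h2 : PosOn N (W.map f) := by
    rintro _ ⟨v, hv, rfl⟩ h0
    have hv0 : v ≠ 0 := by
      rintro rfl; exact h0 (map_zero f)
    have := hp v hv hv0
    change 0 < qf N (A *ᵥ v)
    rwa [qf_conj]
  rw [← hW, ← h1]
  exact le_pos h2

theorem sgn_eq_of_congr {M : Matrix ι ι ℂ} {N : Matrix κ κ ℂ} (A : Matrix ι κ ℂ)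
    (D : Matrix κ ι ℂ) (h1 : N = Aᴴ * M * A) (h2 : M = Dᴴ * N * D) : sgn N = sgn M := by
  have e1 : pos N = pos M := by
    apply le_antisymm
    · rw [h1]; exact pos_conj_le' A M
    · rw [h2]; exact pos_conj_le' D N
  have h1' : -N = Aᴴ * (-M) * A := by rw [h1]; simp
  have h2' : -M = Dᴴ * (-N) * D := by rw [h2]; simp
  have e2 : pos (-N) = pos (-M) := by
    apply le_antisymm
    · rw [h1']; exact pos_conj_le' A (-M)
    · rw [h2']; exact pos_conj_le' D (-N)
  rw [sgn, sgn, e1, e2]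

end finite

variable {A : Type} {B : A → Type} [∀ a, Fintype (B a)] [∀ a, DecidableEq (B a)]
variable {C : Ctl B}
variable {K : Type} [CommRing K] [StarRing K] [Algebra ℂ K] [StarModule ℂ K]
variable {J J' J'' : Type} [Fintype J] [Fintype J'] [Fintype J''] [DecidableEq J]
  [DecidableEq J'] [DecidableEq J'']

/-- blocks -/
def blk (X : ∀ a, Matrix (J × B a) (J' × B a) K) (j : J) (j' : J') : Seq B K :=
  fun a s t => X a (j, s) (j', t)

/-- `X` represents `x` -/
def RepM (x : Matrix J J' (Asy C K)) (X : ∀ a, Matrix (J × B a) (J' × B a) K) : Prop :=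
  ∀ j j', ∃ h : IsLoc C (blk X j j'), x j j' = cls C K ⟨blk X j j', h⟩

lemma RepM.exists (x : Matrix J J' (Asy C K)) : ∃ X, RepM x X := by
  choose X hX using fun j j' => cls_surj (x j j')
  exact ⟨fun a p q => (X p.1 q.1).1 a p.2 q.2, fun j j' => ⟨(X j j').2, (hX j j').symm⟩⟩

lemma RepM.zero : RepM (0 : Matrix J J' (Asy C K)) 0 := fun j j' => ⟨IsLoc.zero, rfl⟩

lemma RepM.add {x y : Matrix J J' (Asy C K)} {X Y : ∀ a, Matrix (J × B a) (J' × B a) K}
    (hx : RepM x X) (hy : RepM y Y) : RepM (x + y) (X + Y) := by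
  intro j j'
  obtain ⟨h1, e1⟩ := hx j j'
  obtain ⟨h2, e2⟩ := hy j j'
  refine ⟨h1.add h2, ?_⟩
  rw [Matrix.add_apply, e1, e2, ← map_add]
  rfl

lemma RepM.neg {x : Matrix J J' (Asy C K)} {X : ∀ a, Matrix (J × B a) (J' × B a) K}
    (hx : RepM x X) : RepM (-x) (-X) := by
  intro j j'
  obtain ⟨h1, e1⟩ := hx j j'
  refine ⟨h1.neg, ?_⟩
  rw [Matrix.neg_apply, e1, ← map_neg]
  rfl

lemma RepM.sub {x y : Matrix J J' (Asy C K)} {X Y : ∀ a, Matrix (J × B a) (J' × B a) K}
    (hx : RepM x X) (hy : RepM y Y) : RepM (x - y) (X - Y) := by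
  rw [sub_eq_add_neg, sub_eq_add_neg]
  exact hx.add hy.neg

lemma RepM.star {x : Matrix J J' (Asy C K)} {X : ∀ a, Matrix (J × B a) (J' × B a) K}
    (hx : RepM x X) : RepM xᴴ (fun a => (X a)ᴴ) := by
  intro j j'
  obtain ⟨h1, e1⟩ := hx j' j
  refine ⟨h1.star, ?_⟩
  rw [Matrix.conjTranspose_apply, e1, ← map_star]
  rfl

lemma sum_loc {ι : Type} (S : Finset ι) (f : ι → Loc C K) :
    (∑ i ∈ S, f i : Loc C K).1 = ∑ i ∈ S, (f i).1 :=
  map_sum (StarSubalgebra.subtype (Loc C K)) f S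

lemma RepM.mul {x : Matrix J J' (Asy C K)} {y : Matrix J' J'' (Asy C K)}
    {X : ∀ a, Matrix (J × B a) (J' × B a) K} {Y : ∀ a, Matrix (J' × B a) (J'' × B a) K}
    (hx : RepM x X) (hy : RepM y Y) : RepM (x * y) (fun a => X a * Y a) := by
  intro j j''
  choose h1 e1 using hx
  choose h2 e2 using hy
  let f : J' → Loc C K := fun i => ⟨blk X j i, h1 j i⟩
  let g : J' → Loc C K := fun i => ⟨blk Y i j'', h2 i j''⟩
  have key : blk (fun a => X a * Y a) j j'' = (∑ i, f i * g i).1 := by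
    rw [sum_loc]
    funext a
    ext s t
    rw [Finset.sum_apply, Matrix.sum_apply]
    change (X a * Y a) (j, s) (j'', t) = _
    rw [Matrix.mul_apply, Fintype.sum_prod_type]
    refine Finset.sum_congr rfl fun i _ => ?_
    change _ = (blk X j i a * blk Y i j'' a) s t
    rw [Matrix.mul_apply]
    rfl
  have hl : IsLoc C (blk (fun a => X a * Y a) j j'') := by
    rw [key]
    exact (∑ i, f i * g i).2
  refine ⟨hl, ?_⟩
  have h3 : (⟨blk (fun a => X a * Y a) j j'', hl⟩ : Loc C K) = ∑ i, f i * g i :=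
    Subtype.ext key
  rw [h3, map_sum, Matrix.mul_apply]
  refine Finset.sum_congr rfl fun i _ => ?_
  rw [map_mul, e1, e2]

lemma RepM.rel {x : Matrix J J' (Asy C K)} {X Y : ∀ a, Matrix (J × B a) (J' × B a) K}
    (hx : RepM x X) (hy : RepM x Y) : ∀ r < (1 : ℝ), ∀ᶠ a in C.l, ∀ p q,
      (C.u C.o a p.2 ≤ r ∨ C.u C.o a q.2 ≤ r) → X a p q = Y a p q := by
  intro r hr
  have h : ∀ j j', ∀ᶠ a in C.l, ∀ s t, (C.u C.o a s ≤ r ∨ C.u C.o a t ≤ r) →
      X a (j, s) (j', t) = Y a (j, s) (j', t) := by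
    intro j j'
    obtain ⟨h1, e1⟩ := hx j j'
    obtain ⟨h2, e2⟩ := hy j j'
    exact (cls_eq.1 (e1.symm.trans e2)) r hr
  have h' := Filter.eventually_all.2 fun j => Filter.eventually_all.2 fun j' => h j j'
  filter_upwards [h'] with a h1 p q hpq
  exact h1 p.1 q.1 p.2 q.2 hpq

lemma RepM.loc {x : Matrix J J' (Asy C K)} {X : ∀ a, Matrix (J × B a) (J' × B a) K}
    (hx : RepM x X) (φ : C.Φ) : ∀ r < (1 : ℝ), ∀ ε > (0 : ℝ), ∀ᶠ a in C.l, ∀ p q,
      (C.u C.o a p.2 ≤ r ∨ C.u C.o a q.2 ≤ r) → X a p q ≠ 0 →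
        |C.u φ a p.2 - C.u φ a q.2| < ε := by
  intro r hr ε hε
  have h' := Filter.eventually_all.2 fun j => Filter.eventually_all.2 fun j' =>
    (hx j j').choose φ r hr ε hε
  filter_upwards [h'] with a h1 p q hpq h0
  exact h1 p.1 q.1 p.2 q.2 hpq h0

/-- compactly supported sequences -/
def Sup (C : Ctl B) (X : ∀ a, Matrix (J × B a) (J' × B a) K) : Prop :=
  ∃ r < (1 : ℝ), ∀ᶠ a in C.l, ∀ p q, X a p q ≠ 0 → C.u C.o a p.2 ≤ r ∧ C.u C.o a q.2 ≤ r

/-- compactly supported representatives -/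
structure CRep (x : Matrix J J' (Asy C K)) (X : ∀ a, Matrix (J × B a) (J' × B a) K) : Prop where
  rep : RepM x X
  sup : Sup C X

lemma CRep.eq {x : Matrix J J' (Asy C K)} {X Y : ∀ a, Matrix (J × B a) (J' × B a) K}
    (hx : CRep x X) (hy : CRep x Y) : ∀ᶠ a in C.l, X a = Y a := by
  obtain ⟨r, hr, h1⟩ := hx.sup
  obtain ⟨r', hr', h2⟩ := hy.sup
  filter_upwards [h1, h2, hx.rep.rel hy.rep (max r r') (max_lt hr hr')] with a h1 h2 h3
  ext p q
  by_cases h4 : X a p q = 0
  · by_cases h5 : Y a p q = 0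
    · rw [h4, h5]
    · exact h3 p q (Or.inl ((h2 p q h5).1.trans (le_max_right _ _)))
  · exact h3 p q (Or.inl ((h1 p q h4).1.trans (le_max_left _ _)))

lemma CRep.neg {x : Matrix J J' (Asy C K)} {X : ∀ a, Matrix (J × B a) (J' × B a) K}
    (hx : CRep x X) : CRep (-x) (-X) := by
  obtain ⟨r, hr, h1⟩ := hx.sup
  refine ⟨hx.rep.neg, r, hr, ?_⟩
  filter_upwards [h1] with a h1 p q h
  exact h1 p q fun h' => h (by simp [h'])

lemma CRep.zero : CRep (0 : Matrix J J' (Asy C K)) 0 :=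
  ⟨RepM.zero, 0, one_pos, Eventually.of_forall fun a p q h => absurd rfl h⟩

lemma CRep.add {x y : Matrix J J' (Asy C K)} {X Y : ∀ a, Matrix (J × B a) (J' × B a) K}
    (hx : CRep x X) (hy : CRep y Y) : CRep (x + y) (X + Y) := by
  obtain ⟨r, hr, h1⟩ := hx.sup
  obtain ⟨r', hr', h2⟩ := hy.sup
  refine ⟨hx.rep.add hy.rep, max r r', max_lt hr hr', ?_⟩
  filter_upwards [h1, h2] with a h1 h2 p q h
  by_cases h4 : X a p q = 0
  · by_cases h5 : Y a p q = 0
    · exact absurd (by simp [h4, h5]) h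
    · exact ⟨(h2 p q h5).1.trans (le_max_right _ _), (h2 p q h5).2.trans (le_max_right _ _)⟩
  · exact ⟨(h1 p q h4).1.trans (le_max_left _ _), (h1 p q h4).2.trans (le_max_left _ _)⟩

lemma CRep.sub {x y : Matrix J J' (Asy C K)} {X Y : ∀ a, Matrix (J × B a) (J' × B a) K}
    (hx : CRep x X) (hy : CRep y Y) : CRep (x - y) (X - Y) := by
  rw [sub_eq_add_neg, sub_eq_add_neg]
  exact hx.add hy.neg

lemma CRep.star {x : Matrix J J' (Asy C K)} {X : ∀ a, Matrix (J × B a) (J' × B a) K}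
    (hx : CRep x X) : CRep xᴴ (fun a => (X a)ᴴ) := by
  obtain ⟨r, hr, h1⟩ := hx.sup
  refine ⟨hx.rep.star, r, hr, ?_⟩
  filter_upwards [h1] with a h1 p q h
  exact (h1 q p fun h' => h (by simp [Matrix.conjTranspose_apply, h'])).symm

lemma CRep.mul_left {x : Matrix J J' (Asy C K)} {y : Matrix J' J'' (Asy C K)}
    {X : ∀ a, Matrix (J × B a) (J' × B a) K} {Y : ∀ a, Matrix (J' × B a) (J'' × B a) K}
    (hx : RepM x X) (hy : CRep y Y) : CRep (x * y) (fun a => X a * Y a) := by
  obtain ⟨r, hr, h1⟩ := hy.sup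
  refine ⟨hx.mul hy.rep, (r + 1) / 2, by linarith, ?_⟩
  filter_upwards [h1, hx.loc C.o r hr ((1 - r) / 2) (by linarith)] with a h1 h2 p q h
  rw [Matrix.mul_apply] at h
  obtain ⟨i, -, hi⟩ := Finset.exists_ne_zero_of_sum_ne_zero h
  have h3 := h1 i q (right_ne_zero_of_mul hi)
  have h4 := abs_lt.1 (h2 p i (Or.inr h3.1) (left_ne_zero_of_mul hi))
  exact ⟨by linarith, by linarith⟩

lemma CRep.mul_right {x : Matrix J J' (Asy C K)} {y : Matrix J' J'' (Asy C K)}
    {X : ∀ a, Matrix (J × B a) (J' × B a) K} {Y : ∀ a, Matrix (J' × B a) (J'' × B a) K}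
    (hx : CRep x X) (hy : RepM y Y) : CRep (x * y) (fun a => X a * Y a) := by
  obtain ⟨r, hr, h1⟩ := hx.sup
  refine ⟨hx.rep.mul hy, (r + 1) / 2, by linarith, ?_⟩
  filter_upwards [h1, hy.loc C.o r hr ((1 - r) / 2) (by linarith)] with a h1 h2 p q h
  rw [Matrix.mul_apply] at h
  obtain ⟨i, -, hi⟩ := Finset.exists_ne_zero_of_sum_ne_zero h
  have h3 := h1 p i (left_ne_zero_of_mul hi)
  have h4 := abs_lt.1 (h2 i q (Or.inl h3.2) (right_ne_zero_of_mul hi))
  exact ⟨by linarith, by linarith⟩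

/-- compactly supported elements -/
def ok (x : Matrix J J' (Asy C K)) : Prop := ∃ X, CRep x X

lemma RepM.submatrix {x : Matrix J J' (Asy C K)} {X : ∀ a, Matrix (J × B a) (J' × B a) K}
    (hx : RepM x X) {I I' : Type} (f : I → J) (g : I' → J') :
    RepM (x.submatrix f g) (fun a => (X a).submatrix (Prod.map f id) (Prod.map g id)) :=
  fun i i' => hx (f i) (g i')

lemma CRep.submatrix {x : Matrix J J' (Asy C K)} {X : ∀ a, Matrix (J × B a) (J' × B a) K}
    (hx : CRep x X) {I I' : Type} (f : I → J) (g : I' → J') :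
    CRep (x.submatrix f g) (fun a => (X a).submatrix (Prod.map f id) (Prod.map g id)) := by
  obtain ⟨r, hr, h1⟩ := hx.sup
  refine ⟨hx.rep.submatrix f g, r, hr, ?_⟩
  filter_upwards [h1] with a h1 p q h
  exact h1 _ _ h

/-- block matrices of sequences -/
def fb (X : ∀ a, Matrix (J × B a) (J × B a) K) (Y : ∀ a, Matrix (J × B a) (J' × B a) K)
    (Z : ∀ a, Matrix (J' × B a) (J × B a) K) (W : ∀ a, Matrix (J' × B a) (J' × B a) K) :
    ∀ a, Matrix ((J ⊕ J') × B a) ((J ⊕ J') × B a) K :=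
  fun a => (Matrix.fromBlocks (X a) (Y a) (Z a) (W a)).submatrix
    (Equiv.sumProdDistrib J J' (B a)) (Equiv.sumProdDistrib J J' (B a))

lemma RepM.fromBlocks {x : Matrix J J (Asy C K)} {y : Matrix J J' (Asy C K)}
    {z : Matrix J' J (Asy C K)} {w : Matrix J' J' (Asy C K)}
    {X : ∀ a, Matrix (J × B a) (J × B a) K} {Y : ∀ a, Matrix (J × B a) (J' × B a) K}
    {Z : ∀ a, Matrix (J' × B a) (J × B a) K} {W : ∀ a, Matrix (J' × B a) (J' × B a) K}
    (hx : RepM x X) (hy : RepM y Y) (hz : RepM z Z) (hw : RepM w W) :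
    RepM (Matrix.fromBlocks x y z w) (fb X Y Z W) := by
  rintro (j | j) (j' | j')
  · exact hx j j'
  · exact hy j j'
  · exact hz j j'
  · exact hw j j'

lemma Sup.fb {X : ∀ a, Matrix (J × B a) (J × B a) K} {Y : ∀ a, Matrix (J × B a) (J' × B a) K}
    {Z : ∀ a, Matrix (J' × B a) (J × B a) K} {W : ∀ a, Matrix (J' × B a) (J' × B a) K}
    (hx : Sup C X) (hy : Sup C Y) (hz : Sup C Z) (hw : Sup C W) : Sup C (fb X Y Z W) := by
  obtain ⟨r1, hr1, h1⟩ := hx
  obtain ⟨r2, hr2, h2⟩ := hy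
  obtain ⟨r3, hr3, h3⟩ := hz
  obtain ⟨r4, hr4, h4⟩ := hw
  refine ⟨max (max r1 r2) (max r3 r4), max_lt (max_lt hr1 hr2) (max_lt hr3 hr4), ?_⟩
  filter_upwards [h1, h2, h3, h4] with a h1 h2 h3 h4
  rintro ⟨j | j, s⟩ ⟨j' | j', t⟩ h
  · have := h1 _ _ h
    exact ⟨this.1.trans (by simp), this.2.trans (by simp)⟩
  · have := h2 _ _ h
    exact ⟨this.1.trans (by simp), this.2.trans (by simp)⟩
  · have := h3 _ _ h
    exact ⟨this.1.trans (by simp), this.2.trans (by simp)⟩
  · have := h4 _ _ h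
    exact ⟨this.1.trans (by simp), this.2.trans (by simp)⟩

lemma CRep.fromBlocks {x : Matrix J J (Asy C K)} {y : Matrix J J' (Asy C K)}
    {z : Matrix J' J (Asy C K)} {w : Matrix J' J' (Asy C K)}
    {X : ∀ a, Matrix (J × B a) (J × B a) K} {Y : ∀ a, Matrix (J × B a) (J' × B a) K}
    {Z : ∀ a, Matrix (J' × B a) (J × B a) K} {W : ∀ a, Matrix (J' × B a) (J' × B a) K}
    (hx : CRep x X) (hy : CRep y Y) (hz : CRep z Z) (hw : CRep w W) :
    CRep (Matrix.fromBlocks x y z w) (fb X Y Z W) :=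
  ⟨hx.rep.fromBlocks hy.rep hz.rep hw.rep, Sup.fb hx.sup hy.sup hz.sup hw.sup⟩

lemma RepM.diagonal (f : J → ∀ a, B a → K) :
    RepM (Matrix.diagonal fun j => dg C K (f j))
      (fun a => Matrix.diagonal fun p : J × B a => f p.1 a p.2) := by
  intro j j'
  by_cases h : j = j'
  · subst h
    have e : blk (fun a => Matrix.diagonal fun p : J × B a => f p.1 a p.2) j j =
        (dgLoc C K (f j)).1 := by
      funext a
      ext s t
      change Matrix.diagonal (fun p : J × B a => f p.1 a p.2) (j, s) (j, t) =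
        Matrix.diagonal (f j a) s t
      by_cases hst : s = t
      · subst hst; simp
      · rw [Matrix.diagonal_apply_ne _ hst, Matrix.diagonal_apply_ne]
        intro h; exact hst (Prod.ext_iff.1 h).2
    have hl : IsLoc C (blk (fun a => Matrix.diagonal fun p : J × B a => f p.1 a p.2) j j) := by
      rw [e]; exact (dgLoc C K (f j)).2
    refine ⟨hl, ?_⟩
    rw [Matrix.diagonal_apply_eq, dg_apply]
    congr 1
    exact Subtype.ext e.symm
  · have e : blk (fun a => Matrix.diagonal fun p : J × B a => f p.1 a p.2) j j' =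
        (0 : Seq B K) := by
      funext a
      ext s t
      change Matrix.diagonal (fun p : J × B a => f p.1 a p.2) (j, s) (j', t) = 0
      rw [Matrix.diagonal_apply_ne]
      intro h'; exact h (Prod.ext_iff.1 h').1
    have hl : IsLoc C (blk (fun a => Matrix.diagonal fun p : J × B a => f p.1 a p.2) j j') := by
      rw [e]; exact IsLoc.zero
    refine ⟨hl, ?_⟩
    rw [Matrix.diagonal_apply_ne _ h, ← map_zero (cls C K)]
    congr 1
    exact Subtype.ext e.symm

lemma CRep.diagonal_ind (E : J → ∀ a, B a → Prop) {r : ℝ} (hr : r < 1)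
    (h : ∀ j, ∀ᶠ a in C.l, ∀ s, E j a s → C.u C.o a s ≤ r) :
    ok (Matrix.diagonal fun j => (ind (E j) : Asy C K)) := by
  classical
  refine ⟨_, RepM.diagonal (C := C) (K := K) fun j a s => if E j a s then 1 else 0, r, hr, ?_⟩
  have h' := Filter.eventually_all.2 h
  filter_upwards [h'] with a h1 p q h2
  by_cases hpq : p = q
  · subst hpq
    rw [Matrix.diagonal_apply_eq] at h2
    have h3 : E p.1 a p.2 := by
      by_contra h3
      exact h2 (by simp [h3])
    exact ⟨h1 _ _ h3, h1 _ _ h3⟩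
  · exact absurd (Matrix.diagonal_apply_ne _ hpq) h2

lemma ok.mul_left {x : Matrix J' J'' (Asy C K)} (hx : ok x) (c : Matrix J J' (Asy C K)) :
    ok (c * x) := by
  obtain ⟨X, hX⟩ := hx
  obtain ⟨Y, hY⟩ := RepM.exists c
  exact ⟨_, CRep.mul_left hY hX⟩

lemma ok.mul_right {x : Matrix J J' (Asy C K)} (hx : ok x) (c : Matrix J' J'' (Asy C K)) :
    ok (x * c) := by
  obtain ⟨X, hX⟩ := hx
  obtain ⟨Y, hY⟩ := RepM.exists c
  exact ⟨_, CRep.mul_right hX hY⟩

lemma ok.add {x y : Matrix J J' (Asy C K)} (hx : ok x) (hy : ok y) : ok (x + y) := by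
  obtain ⟨X, hX⟩ := hx
  obtain ⟨Y, hY⟩ := hy
  exact ⟨_, hX.add hY⟩

lemma ok.sub {x y : Matrix J J' (Asy C K)} (hx : ok x) (hy : ok y) : ok (x - y) := by
  obtain ⟨X, hX⟩ := hx
  obtain ⟨Y, hY⟩ := hy
  exact ⟨_, hX.sub hY⟩

lemma ok.neg {x : Matrix J J' (Asy C K)} (hx : ok x) : ok (-x) := by
  obtain ⟨X, hX⟩ := hx
  exact ⟨_, hX.neg⟩

lemma ok.star {x : Matrix J J' (Asy C K)} (hx : ok x) : ok xᴴ := by
  obtain ⟨X, hX⟩ := hx
  exact ⟨_, hX.star⟩

lemma ok.zero : ok (0 : Matrix J J' (Asy C K)) := ⟨_, CRep.zero⟩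


lemma ok.fromBlocks {x : Matrix J J (Asy C K)} {y : Matrix J J' (Asy C K)}
    {z : Matrix J' J (Asy C K)} {w : Matrix J' J' (Asy C K)} (hx : ok x) (hy : ok y)
    (hz : ok z) (hw : ok w) : ok (Matrix.fromBlocks x y z w) := by
  obtain ⟨X, hX⟩ := hx
  obtain ⟨Y, hY⟩ := hy
  obtain ⟨Z, hZ⟩ := hz
  obtain ⟨W, hW⟩ := hw
  exact ⟨_, hX.fromBlocks hY hZ hW⟩

/-! ### change of coefficients and restriction -/

variable {K' : Type} [CommRing K'] [StarRing K'] [Algebra ℂ K'] [StarModule ℂ K']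

lemma RepM.coef {x : Matrix J J' (Asy C K)} {X : ∀ a, Matrix (J × B a) (J' × B a) K}
    (hx : RepM x X) (ρ : K →⋆ₐ[ℂ] K') :
    RepM (x.map (coef C ρ)) (fun a => (X a).map ρ) := by
  intro j j'
  obtain ⟨h1, e1⟩ := hx j j'
  refine ⟨isLoc_mapSeq ρ h1, ?_⟩
  rw [Matrix.map_apply, e1, coef_cls]
  rfl

lemma CRep.coef {x : Matrix J J' (Asy C K)} {X : ∀ a, Matrix (J × B a) (J' × B a) K}
    (hx : CRep x X) (ρ : K →⋆ₐ[ℂ] K') :
    CRep (x.map (coef C ρ)) (fun a => (X a).map ρ) := by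
  obtain ⟨r, hr, h1⟩ := hx.sup
  refine ⟨hx.rep.coef ρ, r, hr, ?_⟩
  filter_upwards [h1] with a h1 p q h
  exact h1 p q fun h' => h (by simp [h'])

lemma ok.coef {x : Matrix J J' (Asy C K)} (hx : ok x) (ρ : K →⋆ₐ[ℂ] K') :
    ok (x.map (coef C ρ)) := by
  obtain ⟨X, hX⟩ := hx
  exact ⟨_, hX.coef ρ⟩

lemma RepM.chg {C' : Ctl B} (h : C.Le C') {x : Matrix J J' (Asy C K)}
    {X : ∀ a, Matrix (J × B a) (J' × B a) K} (hx : RepM x X) :
    RepM (x.map (chg K h)) X := by
  intro j j'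
  obtain ⟨h1, e1⟩ := hx j j'
  refine ⟨h.isLoc h1, ?_⟩
  rw [Matrix.map_apply, e1, chg_cls]

/-! ### the signature -/

open Classical in
/-- signature of a compactly supported hermitian element -/
noncomputable def sg (x : Matrix J J (Asy C ℂ)) : Germ C.l ℤ :=
  if h : ok x then ((fun a => sgn (h.choose a) : A → ℤ) : Germ C.l ℤ) else 0

lemma sg_eq {x : Matrix J J (Asy C ℂ)} {X : ∀ a, Matrix (J × B a) (J × B a) ℂ}
    (hx : CRep x X) : sg x = ((fun a => sgn (X a) : A → ℤ) : Germ C.l ℤ) := by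
  have h : ok x := ⟨X, hx⟩
  rw [sg, dif_pos h, Germ.coe_eq]
  filter_upwards [h.choose_spec.eq hx] with a h1
  rw [h1]

lemma sg_zero : sg (0 : Matrix J J (Asy C ℂ)) = 0 := by
  rw [sg_eq CRep.zero]
  change _ = ((fun _ => (0 : ℤ) : A → ℤ) : Germ C.l ℤ)
  congr 1
  funext a
  have h := sgn_neg (0 : Matrix (J × B a) (J × B a) ℂ)
  rw [neg_zero] at h
  change sgn (0 : Matrix (J × B a) (J × B a) ℂ) = 0
  omega

lemma sg_neg {x : Matrix J J (Asy C ℂ)} (hx : ok x) : sg (-x) = - sg x := by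
  obtain ⟨X, hX⟩ := hx
  rw [sg_eq hX, sg_eq hX.neg]
  change _ = ((fun a => - sgn (X a) : A → ℤ) : Germ C.l ℤ)
  congr 1
  funext a
  exact sgn_neg _

lemma sg_fromBlocks {x : Matrix J J (Asy C ℂ)} {y : Matrix J' J' (Asy C ℂ)} (hx : ok x)
    (hy : ok y) (hx' : xᴴ = x) (hy' : yᴴ = y) : sg (Matrix.fromBlocks x 0 0 y) = sg x + sg y := by
  obtain ⟨X, hX⟩ := hx
  obtain ⟨Y, hY⟩ := hy
  have h1 : ∀ᶠ a in C.l, (X a)ᴴ = X a := by
    have := hX.star
    rw [hx'] at this
    exact this.eq hX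
  have h2 : ∀ᶠ a in C.l, (Y a)ᴴ = Y a := by
    have := hY.star
    rw [hy'] at this
    exact this.eq hY
  rw [sg_eq hX, sg_eq hY, sg_eq (hX.fromBlocks CRep.zero CRep.zero hY)]
  change _ = ((fun a => sgn (X a) + sgn (Y a) : A → ℤ) : Germ C.l ℤ)
  rw [Germ.coe_eq]
  filter_upwards [h1, h2] with a h1 h2
  rw [← sgn_fromBlocks h1 h2]
  exact sgn_submatrix _ _

/-- congruence, rectangular -/
lemma sg_congr {x : Matrix J J (Asy C ℂ)} {y : Matrix J' J' (Asy C ℂ)} (hx : ok x)
    (u : Matrix J J' (Asy C ℂ)) (v : Matrix J' J (Asy C ℂ)) (h1 : y = uᴴ * x * u)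
    (h2 : x = vᴴ * y * v) : sg y = sg x := by
  obtain ⟨X, hX⟩ := hx
  obtain ⟨U, hU⟩ := RepM.exists u
  obtain ⟨V, hV⟩ := RepM.exists v
  have hY : CRep y (fun a => (U a)ᴴ * X a * U a) := by
    rw [h1]
    exact (CRep.mul_left hU.star hX).mul_right hU
  have hX' : CRep x (fun a => (V a)ᴴ * ((U a)ᴴ * X a * U a) * V a) := by
    have h3 : CRep (vᴴ * y * v) (fun a => (V a)ᴴ * ((U a)ᴴ * X a * U a) * V a) :=
      (CRep.mul_left hV.star hY).mul_right hV
    rwa [← h2] at h3
  rw [sg_eq hY, sg_eq hX, Germ.coe_eq]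
  filter_upwards [hX.eq hX'] with a h3
  exact sgn_eq_of_congr (U a) (V a) rfl h3

lemma sg_congr_unit {x : Matrix J J (Asy C ℂ)} (hx : ok x) (u : Matrix J J (Asy C ℂ))
    (hu : IsUnit u) : sg (uᴴ * x * u) = sg x := by
  obtain ⟨w, rfl⟩ := hu
  refine sg_congr hx (w : Matrix J J (Asy C ℂ)) (↑(w⁻¹) : Matrix J J (Asy C ℂ)) rfl ?_
  have e1 : (↑(w⁻¹) : Matrix J J (Asy C ℂ))ᴴ * (w : Matrix J J (Asy C ℂ))ᴴ = 1 := by
    rw [← Matrix.conjTranspose_mul, Units.mul_inv, Matrix.conjTranspose_one]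
  have e2 : (w : Matrix J J (Asy C ℂ)) * (↑(w⁻¹) : Matrix J J (Asy C ℂ)) = 1 := Units.mul_inv w
  calc x = ((↑(w⁻¹) : Matrix J J (Asy C ℂ))ᴴ * (w : Matrix J J (Asy C ℂ))ᴴ) * x *
        ((w : Matrix J J (Asy C ℂ)) * (↑(w⁻¹) : Matrix J J (Asy C ℂ))) := by
        rw [e1, e2, one_mul, mul_one]
    _ = _ := by simp only [Matrix.mul_assoc]


lemma germ_torsion_free (l : Filter A) (n : ℕ) (x : Germ l ℤ) (hn : n ≠ 0) (h : n • x = 0) :
    x = 0 := by
  induction x using Germ.inductionOn with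
  | _ f =>
    have h1 : ((n • f : A → ℤ) : Germ l ℤ) = ((0 : A → ℤ) : Germ l ℤ) := h
    rw [Germ.coe_eq] at h1
    change (f : Germ l ℤ) = ((0 : A → ℤ) : Germ l ℤ)
    rw [Germ.coe_eq]
    filter_upwards [h1] with a h2
    have h3 : n • f a = 0 := h2
    rcases smul_eq_zero.1 h3 with h4 | h4
    · exact absurd h4 hn
    · exact h4

/-- the instance of helper555's laws -/
noncomputable def sgLaws (C : Ctl B) : LocF555.SgLaws (Asy C ℂ) (Germ C.l ℤ) where
  ok x := ok x
  sg x := sg x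
  ok_sub _ _ h h' := h.sub h'
  ok_mul_left c _ h := h.mul_left c
  ok_mul_right c _ h := h.mul_right c
  ok_blocks _ _ _ _ h1 h2 h3 h4 := h1.fromBlocks h2 h3 h4
  sg_congr u x hx _ hu := sg_congr_unit hx u hu
  sg_blocks _ _ h1 h2 h3 h4 := sg_fromBlocks h1 h2 h3 h4
  sg_neg _ h _ := sg_neg h
  tf n x hn h := germ_torsion_free C.l n x hn h
  half := algebraMap ℂ _ (1 / 2)
  half_add := by rw [← map_add]; norm_num
  half_star := by
    rw [← algebraMap_star_comm]
    congr 1
    simp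
  half_comm a := Algebra.commutes _ a

/-! ### restriction -/

lemma exists_CRep_of_ind {E : ∀ a, B a → Prop} {r : ℝ} (hr : r < 1)
    (hE : ∀ᶠ a in C.l, ∀ s, E a s → C.u C.o a s ≤ r) {x : Matrix J J' (Asy C K)}
    (h1 : (Matrix.diagonal fun _ => ind E) * x = x)
    (h2 : x * (Matrix.diagonal fun _ => ind E) = x) :
    ∃ X, CRep x X ∧ ∀ a p q, X a p q ≠ 0 → E a p.2 ∧ E a q.2 := by
  classical
  obtain ⟨X, hX⟩ := RepM.exists x
  have hd := RepM.diagonal (C := C) (K := K) (fun (_ : J) a s => if E a s then (1 : K) else 0)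
  have hd' := RepM.diagonal (C := C) (K := K) (fun (_ : J') a s => if E a s then (1 : K) else 0)
  have h3 := (hd.mul hX).mul hd'
  have h4 : (Matrix.diagonal fun _ : J => dg C K (fun a s => if E a s then (1 : K) else 0)) * x *
      (Matrix.diagonal fun _ : J' => dg C K (fun a s => if E a s then (1 : K) else 0)) = x := by
    exact (congrArg (· * (Matrix.diagonal fun _ : J' => (ind E : Asy C K))) h1).trans h2
  rw [h4] at h3
  have h5 : ∀ a p q, ((Matrix.diagonal fun p : J × B a => if E a p.2 then (1 : K) else 0) *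
      X a * (Matrix.diagonal fun p : J' × B a => if E a p.2 then (1 : K) else 0)) p q ≠ 0 →
      E a p.2 ∧ E a q.2 := by
    intro a p q h
    rw [Matrix.mul_diagonal, Matrix.diagonal_mul] at h
    constructor
    · by_contra h'
      exact h (by simp [h'])
    · by_contra h'
      exact h (by simp [h'])
  refine ⟨_, ⟨h3, r, hr, ?_⟩, h5⟩
  filter_upwards [hE] with a h6 p q h7
  have h8 := h5 a p q h7
  exact ⟨h6 _ h8.1, h6 _ h8.2⟩

lemma ok_of_ind {E : ∀ a, B a → Prop} {r : ℝ} (hr : r < 1)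
    (hE : ∀ᶠ a in C.l, ∀ s, E a s → C.u C.o a s ≤ r) {x : Matrix J J' (Asy C K)}
    (h1 : (Matrix.diagonal fun _ => ind E) * x = x) : ok x := by
  rw [← h1]
  exact (CRep.diagonal_ind (fun _ => E) hr fun _ => hE).mul_right x

/-- signature and restriction -/
theorem sg_chg {C' : Ctl B} (h : C.Le C') {E : ∀ a, B a → Prop} {r r' : ℝ} (hr : r < 1)
    (hr' : r' < 1) (hE : ∀ᶠ a in C.l, ∀ s, E a s → C.u C.o a s ≤ r)
    (hE' : ∀ᶠ a in C'.l, ∀ s, E a s → C'.u C'.o a s ≤ r') {x : Matrix J J (Asy C ℂ)}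
    (h1 : (Matrix.diagonal fun _ => ind E) * x = x)
    (h2 : x * (Matrix.diagonal fun _ => ind E) = x) (v : A → ℤ)
    (hv : sg x = (v : Germ C.l ℤ)) : sg (x.map (chg ℂ h)) = (v : Germ C'.l ℤ) := by
  obtain ⟨X, hX, h3⟩ := exists_CRep_of_ind hr hE h1 h2
  have h4 : CRep (x.map (chg ℂ h)) X := by
    refine ⟨hX.rep.chg h, r', hr', ?_⟩
    filter_upwards [hE'] with a h5 p q h6
    have := h3 a p q h6
    exact ⟨h5 _ this.1, h5 _ this.2⟩
  rw [sg_eq h4, Germ.coe_eq]
  rw [sg_eq hX, Germ.coe_eq] at hv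
  exact hv.filter_mono h.le

/-! ### path invariance -/

section path

variable {P : Type} [TopologicalSpace P] [PreconnectedSpace P]

theorem rank_eq_trace {ι : Type} [Fintype ι] [DecidableEq ι] {E : Matrix ι ι ℂ}
    (hE : E * E = E) : (E.rank : ℂ) = E.trace := by
  have h1 : IsIdempotentElem (Matrix.toLin' E) := by
    change Matrix.toLin' E * Matrix.toLin' E = Matrix.toLin' E
    rw [Module.End.mul_eq_comp, ← Matrix.toLin'_mul, hE]
  have h2 := (LinearMap.IsIdempotentElem.isProj_range _ h1).trace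
  rw [Matrix.trace_toLin'_eq] at h2
  rw [h2]
  rfl

theorem sgn_path_const {ι : Type} [Fintype ι] [DecidableEq ι] {M N : Matrix ι ι C(P, ℂ)}
    (hM : Mᴴ = M) (h1 : M * N = N * M) (h2 : M * N * M = M) (p q : P) :
    sgn (M.map fun f => f p) = sgn (M.map fun f => f q) := by
  let ev : P → (C(P, ℂ) →+* ℂ) := fun p => (ContinuousMap.evalStarAlgHom ℂ ℂ p : C(P, ℂ) →+* ℂ)
  have hev : ∀ p (X : Matrix ι ι C(P, ℂ)), X.map (fun f => f p) = X.map (ev p) :=
    fun p X => rfl
  have hmul : ∀ p (X Y : Matrix ι ι C(P, ℂ)), (X * Y).map (fun f => f p) =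
      X.map (fun f => f p) * Y.map (fun f => f p) := by
    intro p X Y
    rw [hev, hev, hev, Matrix.map_mul]
  have hc : Continuous fun p => M.map (fun f => f p) := by
    refine continuous_matrix fun i j => ?_
    exact (M i j).continuous
  have hcE : Continuous fun p => ((M * N).map (fun f => f p)).trace := by
    refine Continuous.matrix_trace ?_
    refine continuous_matrix fun i j => ?_
    exact ((M * N) i j).continuous
  have hherm : ∀ p, (M.map (fun f => f p)).IsHermitian := by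
    intro p
    ext i j
    rw [Matrix.conjTranspose_apply, Matrix.map_apply, Matrix.map_apply]
    have := congrFun (congrFun hM i) j
    rw [Matrix.conjTranspose_apply] at this
    rw [← this]
    rfl
  have hidem : (M * N) * (M * N) = M * N := by
    calc (M * N) * (M * N) = (M * N * M) * N := by simp only [Matrix.mul_assoc]
      _ = M * N := by rw [h2]
  have hrk : ∀ p, (((M.map (fun f => f p)).rank : ℕ) : ℂ) =
      ((M * N).map (fun f => f p)).trace := by
    intro p
    have e1 : ((M * N).map (fun f => f p)) * ((M * N).map (fun f => f p)) =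
        (M * N).map (fun f => f p) := by rw [← hmul, hidem]
    rw [← rank_eq_trace e1]
    congr 1
    apply le_antisymm
    · have : M.map (fun f => f p) = ((M * N).map (fun f => f p)) * M.map (fun f => f p) := by
        rw [← hmul, h2]
      rw [this]
      exact Matrix.rank_mul_le_left _ _
    · rw [hmul]
      exact Matrix.rank_mul_le_left _ _
  have hconst : ∀ x y : P, (M.map (fun f => f x)).rank = (M.map (fun f => f y)).rank := by
    have hl : IsLocallyConstant fun p => (M.map (fun f => f p)).rank := by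
      rw [IsLocallyConstant.iff_continuous, Nat.isClosedEmbedding_coe_real.isEmbedding.continuous_iff]
      have : (fun p => (((M.map (fun f => f p)).rank : ℕ) : ℝ)) =
          fun p => (((M * N).map (fun f => f p)).trace).re := by
        funext p
        rw [← hrk p]
        simp
      change Continuous fun p => (((M.map (fun f => f p)).rank : ℕ) : ℝ)
      rw [this]
      exact Complex.continuous_re.comp hcE
    exact fun x y => hl.apply_eq_of_preconnectedSpace x y
  exact sgn_const hc hherm hconst p q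

/-- evaluation of coefficients -/
noncomputable def ev (C : Ctl B) (p : P) : Asy C C(P, ℂ) →⋆ₐ[ℂ] Asy C ℂ :=
  coef C (ContinuousMap.evalStarAlgHom ℂ ℂ p)

/-- **path invariance** -/
theorem sg_path {x y : Matrix J J (Asy C C(P, ℂ))} (hx : ok x) (hy : ok y) (h0 : xᴴ = x)
    (h1 : x * y = y * x) (h2 : x * y * x = x) (p q : P) :
    sg (x.map (ev C p)) = sg (x.map (ev C q)) := by
  obtain ⟨X, hX⟩ := hx
  obtain ⟨Y, hY⟩ := hy
  have e0 : ∀ᶠ a in C.l, (X a)ᴴ = X a := by
    have := hX.star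
    rw [h0] at this
    exact this.eq hX
  have e1 : ∀ᶠ a in C.l, X a * Y a = Y a * X a := by
    have h3 := CRep.mul_left hX.rep hY
    have h4 := CRep.mul_left hY.rep hX
    rw [h1] at h3
    exact h3.eq h4
  have e2 : ∀ᶠ a in C.l, X a * Y a * X a = X a := by
    have h3 := CRep.mul_left (hX.rep.mul hY.rep) hX
    rw [h2] at h3
    exact h3.eq hX
  rw [ev, ev, sg_eq (hX.coef _), sg_eq (hX.coef _), Germ.coe_eq]
  filter_upwards [e0, e1, e2] with a e0 e1 e2
  exact sgn_path_const e0 e1 e2 p q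

end path

end Crest.Agent.R217.Asym476
end

-- ▼ part R217/FrameAsy_476

/-!
Row 217 (S0336), part C: the asymptotic algebra as a frame (helper52's `Obj52.Frame`).
-/

set_option autoImplicit false
set_option linter.unusedSectionVars false
set_option linter.unusedVariables false

open Filter Topology Matrix

namespace Crest.Agent.R217.Asym476

open Obj52

variable {A : Type} {B : A → Type} [∀ a, Fintype (B a)] [∀ a, DecidableEq (B a)]
variable {K : Type} [CommRing K] [StarRing K] [Algebra ℂ K] [StarModule ℂ K]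
variable {K' : Type} [CommRing K'] [StarRing K'] [Algebra ℂ K'] [StarModule ℂ K']
variable {κ : Type} {J J' : Type} [Fintype J] [DecidableEq J] [Fintype J'] [DecidableEq J']

/-- the asymptotic algebra as a frame: directions `dir : κ → Φ`, open box `lo, hi` -/
noncomputable def frame (C : Ctl B) (K : Type) [CommRing K] [StarRing K] [Algebra ℂ K]
    [StarModule ℂ K] (dir : κ → C.Φ) (lo hi : κ → ℝ) (lt : ∀ k, lo k < hi k) :
    Frame κ (Asy C K) where
  pu k c := pu C K (dir k) c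
  pu_star k c := pu_star _ _
  pu_mul k s t h := pu_mul_pu h
  pu_comm k l s t := ind_comm _ _
  loc k s t h a := pu_mul_mul_one_sub_pu h a
  lo := lo
  hi := hi
  lt := lt

variable {C : Ctl B}

@[simp] lemma frame_pu (dir : κ → C.Φ) (lo hi : κ → ℝ) (lt : ∀ k, lo k < hi k) (k : κ) (c : ℝ) :
    (frame C K dir lo hi lt).pu k c = pu C K (dir k) c := rfl


lemma ev_pu {P : Type} [TopologicalSpace P] (p : P) (φ : C.Φ) (c : ℝ) :
    ev C p (pu C C(P, ℂ) φ c) = pu C ℂ φ c := coef_ind _ _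

lemma chg_pu {C' : Ctl B} (h : C.Le C') (φ : C.Φ) (φ' : C'.Φ)
    (hφ : ∀ a s, C.u φ a s = C'.u φ' a s) (c : ℝ) :
    chg K h (pu C K φ c) = pu C' K φ' c := by
  unfold pu
  rw [chg_ind]
  congr 1
  funext a s
  rw [hφ]

/-- close control functions have sandwiched control projections -/
lemma pu_mul_pu_close {φ φ' : C.Φ} (hc : ∀ r < (1 : ℝ), ∀ ε > (0 : ℝ), ∀ᶠ a in C.l, ∀ s,
    C.u C.o a s ≤ r → |C.u φ a s - C.u φ' a s| < ε) {s t : ℝ} (hst : s < t) :
    pu C K φ s * pu C K φ' t = pu C K φ s := by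
  refine ind_mul_ind_of_le fun r hr => ?_
  filter_upwards [hc r hr (t - s) (sub_pos.2 hst)] with a h1 x hx h2
  have := abs_lt.1 (h1 x hx)
  linarith

/-- the good part of the box is compactly contained in the good region -/
def Cpt (C : Ctl B) (dir : κ → C.Φ) (lo hi : κ → ℝ) : Prop :=
  ∀ s t : κ → ℝ, (∀ k, lo k < s k) → (∀ k, t k < hi k) → ∃ r < (1 : ℝ), ∀ r' < (1 : ℝ),
    ∀ᶠ a in C.l, ∀ x, C.u C.o a x ≤ r' →
      (∀ k, s k < C.u (dir k) a x ∧ C.u (dir k) a x ≤ t k) → C.u C.o a x ≤ r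

lemma ind_all_mul {ι : Type} (S : Finset ι) (E : ι → ∀ a, B a → Prop) (z : Asy C K)
    (h : ∀ i ∈ S, ind (E i) * z = z) : ind (fun a x => ∀ i ∈ S, E i a x) * z = z := by
  classical
  induction S using Finset.induction_on with
  | empty =>
    have e : (ind (fun a x => ∀ i ∈ (∅ : Finset ι), E i a x) : Asy C K) = 1 := by
      unfold ind
      rw [← map_one (dg C K)]
      congr 1
      funext a s
      simp
    rw [e, one_mul]
  | insert i S hi ih =>
    have e : (ind (fun a x => ∀ j ∈ insert i S, E j a x) : Asy C K) =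
        ind (E i) * ind (fun a x => ∀ j ∈ S, E j a x) := by
      rw [ind_mul]
      congr 1
      funext a x
      simp
    rw [e, mul_assoc, ih fun j hj => h j (Finset.mem_insert_of_mem hj),
      h i (Finset.mem_insert_self i S)]

lemma box_eq [Fintype κ] {dir : κ → C.Φ} {s t : κ → ℝ} {r : ℝ}
    (h3 : ∀ r' < (1 : ℝ), ∀ᶠ a in C.l, ∀ x, C.u C.o a x ≤ r' →
      (∀ k, s k < C.u (dir k) a x ∧ C.u (dir k) a x ≤ t k) → C.u C.o a x ≤ r) :
    (ind (fun a x => ∀ k ∈ Finset.univ, s k < C.u (dir k) a x ∧ C.u (dir k) a x ≤ t k) :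
      Asy C K) = ind (fun a x => (∀ k ∈ Finset.univ, s k < C.u (dir k) a x ∧
        C.u (dir k) a x ≤ t k) ∧ C.u C.o a x ≤ r) := by
  refine ind_congr fun r' hr' => ?_
  filter_upwards [h3 r' hr'] with a h x hx
  exact ⟨fun h' => ⟨h', h x hx fun k => h' k (Finset.mem_univ k)⟩, fun h' => h'.1⟩

/-- elements bounded in all directions are compactly supported -/
theorem exists_box [Fintype κ] {dir : κ → C.Φ} {lo hi : κ → ℝ} {lt : ∀ k, lo k < hi k}
    (hC : Cpt C dir lo hi) {x : Matrix J J (Asy C K)}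
    (h1 : ∀ k, BdLo (frame C K dir lo hi lt) k x) (h2 : ∀ k, BdHi (frame C K dir lo hi lt) k x) :
    ∃ (E : ∀ a, B a → Prop) (r : ℝ), r < 1 ∧ (∀ᶠ a in C.l, ∀ s, E a s → C.u C.o a s ≤ r) ∧
      (Matrix.diagonal fun _ => ind E) * x = x := by
  classical
  choose s hs1 hs2 using h1
  choose t ht1 ht2 using h2
  obtain ⟨r, hr, h3⟩ := hC s t hs1 ht1
  refine ⟨fun a x => (∀ k ∈ Finset.univ, s k < C.u (dir k) a x ∧ C.u (dir k) a x ≤ t k) ∧
    C.u C.o a x ≤ r, r, hr, ?_, ?_⟩
  · exact Eventually.of_forall fun a x hx => hx.2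
  · ext i j
    rw [Matrix.diagonal_mul, ← box_eq (K := K) h3]
    refine ind_all_mul Finset.univ
      (fun k a x => s k < C.u (dir k) a x ∧ C.u (dir k) a x ≤ t k) (x i j) fun k _ => ?_
    have e1 : pu C K (dir k) (s k) * x i j = 0 := by
      have := congrFun (congrFun (hs2 k) i) j
      rw [PU, Matrix.diagonal_mul] at this
      exact this
    have e2 : pu C K (dir k) (t k) * x i j = x i j := by
      have := congrFun (congrFun (ht2 k) i) j
      rw [PU, Matrix.diagonal_mul] at this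
      exact this
    have e3 : (ind (fun a x => s k < C.u (dir k) a x ∧ C.u (dir k) a x ≤ t k) : Asy C K) =
        (1 - pu C K (dir k) (s k)) * pu C K (dir k) (t k) := by
      unfold pu
      rw [one_sub_ind, ind_mul]
      congr 1
      funext a x
      simp [not_le]
    rw [e3, mul_assoc, e2, sub_mul, one_mul, e1, sub_zero]

theorem ok_of_bd [Fintype κ] {dir : κ → C.Φ} {lo hi : κ → ℝ} {lt : ∀ k, lo k < hi k}
    (hC : Cpt C dir lo hi) {x : Matrix J J (Asy C K)}
    (h1 : ∀ k, BdLo (frame C K dir lo hi lt) k x) (h2 : ∀ k, BdHi (frame C K dir lo hi lt) k x) :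
    ok x := by
  obtain ⟨E, r, hr, hE, h⟩ := exists_box hC h1 h2
  exact ok_of_ind hr hE h

/-- the good part of the box for `C` is compactly contained in the good region of `C'` -/
def CptTo (C C' : Ctl B) (dir : κ → C.Φ) (lo hi : κ → ℝ) : Prop :=
  ∀ s t : κ → ℝ, (∀ k, lo k < s k) → (∀ k, t k < hi k) → ∀ r < (1 : ℝ), ∃ r' < (1 : ℝ),
    ∀ᶠ a in C'.l, ∀ x, C.u C.o a x ≤ r →
      (∀ k, s k < C.u (dir k) a x ∧ C.u (dir k) a x ≤ t k) → C'.u C'.o a x ≤ r'

lemma CptTo.of_noise {C C' : Ctl B} {dir : κ → C.Φ} {lo hi : κ → ℝ}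
    (h : ∀ a x, C'.u C'.o a x ≤ C.u C.o a x) : CptTo C C' dir lo hi :=
  fun s t _ _ r hr => ⟨r, hr, Eventually.of_forall fun a x hx _ => (h a x).trans hx⟩

/-- signatures are compatible with restriction -/
theorem sg_chg_of_bd [Fintype κ] {C' : Ctl B} (h : C.Le C') {dir : κ → C.Φ} {lo hi : κ → ℝ}
    {lt : ∀ k, lo k < hi k} (hC : Cpt C dir lo hi) (hC' : CptTo C C' dir lo hi)
    {x : Matrix J J (Asy C ℂ)} (hx : xᴴ = x)
    (h1 : ∀ k, BdLo (frame C ℂ dir lo hi lt) k x) (h2 : ∀ k, BdHi (frame C ℂ dir lo hi lt) k x)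
    (v : A → ℤ) (hv : sg x = (v : Germ C.l ℤ)) : sg (x.map (chg ℂ h)) = (v : Germ C'.l ℤ) := by
  classical
  choose s hs1 hs2 using h1
  choose t ht1 ht2 using h2
  obtain ⟨r, hr, h3⟩ := hC s t hs1 ht1
  obtain ⟨r', hr', h3'⟩ := hC' s t hs1 ht1 r hr
  have hE : ∀ᶠ a in C.l, ∀ x, ((∀ k ∈ Finset.univ, s k < C.u (dir k) a x ∧
      C.u (dir k) a x ≤ t k) ∧ C.u C.o a x ≤ r) → C.u C.o a x ≤ r :=
    Eventually.of_forall fun a x hx => hx.2
  have hE' : ∀ᶠ a in C'.l, ∀ x, ((∀ k ∈ Finset.univ, s k < C.u (dir k) a x ∧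
      C.u (dir k) a x ≤ t k) ∧ C.u C.o a x ≤ r) → C'.u C'.o a x ≤ r' := by
    filter_upwards [h3'] with a h4 x hx
    exact h4 x hx.2 fun k => hx.1 k (Finset.mem_univ k)
  have e1 : (Matrix.diagonal fun _ => ind (fun a x => (∀ k ∈ Finset.univ,
      s k < C.u (dir k) a x ∧ C.u (dir k) a x ≤ t k) ∧ C.u C.o a x ≤ r)) * x = x := by
    ext i j
    rw [Matrix.diagonal_mul, ← box_eq (K := ℂ) h3]
    refine ind_all_mul Finset.univ
      (fun k a x => s k < C.u (dir k) a x ∧ C.u (dir k) a x ≤ t k) (x i j) fun k _ => ?_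
    have e1 : pu C ℂ (dir k) (s k) * x i j = 0 := by
      have := congrFun (congrFun (hs2 k) i) j
      rw [PU, Matrix.diagonal_mul] at this
      exact this
    have e2 : pu C ℂ (dir k) (t k) * x i j = x i j := by
      have := congrFun (congrFun (ht2 k) i) j
      rw [PU, Matrix.diagonal_mul] at this
      exact this
    have e3 : (ind (fun a x => s k < C.u (dir k) a x ∧ C.u (dir k) a x ≤ t k) : Asy C ℂ) =
        (1 - pu C ℂ (dir k) (s k)) * pu C ℂ (dir k) (t k) := by
      unfold pu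
      rw [one_sub_ind, ind_mul]
      congr 1
      funext a x
      simp [not_le]
    rw [e3, mul_assoc, e2, sub_mul, one_mul, e1, sub_zero]
  have e2 : x * (Matrix.diagonal fun _ => ind (fun a x => (∀ k ∈ Finset.univ,
      s k < C.u (dir k) a x ∧ C.u (dir k) a x ≤ t k) ∧ C.u C.o a x ≤ r)) = x := by
    have := congrArg Matrix.conjTranspose e1
    rw [Matrix.conjTranspose_mul, hx, Matrix.diagonal_conjTranspose] at this
    have e4 : (star fun _ : J => (ind (fun a x => (∀ k ∈ Finset.univ,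
      s k < C.u (dir k) a x ∧ C.u (dir k) a x ≤ t k) ∧ C.u C.o a x ≤ r) : Asy C ℂ)) =
        fun _ => ind (fun a x => (∀ k ∈ Finset.univ,
      s k < C.u (dir k) a x ∧ C.u (dir k) a x ≤ t k) ∧ C.u C.o a x ≤ r) := by
      funext j
      exact ind_star _
    rwa [e4] at this
  exact sg_chg h hr hr' hE hE' e1 e2 v hv

end Crest.Agent.R217.Asym476
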