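import Mathlib
import Crest.Agent.R217.CruxN_559
import Crest.Agent.R217.CtrlS_970
import Crest.Agent.R217.FineSpec_970
import Crest.Agent.R217.Grid3_897
import Crest.Agent.R217.FrameAsy_476

-- ▼ part R217/Coarse_889
section

/-!
Row 217 (S0336): filters on `ℕ × ℕ` for the two-scale argument and the bundled counterexample
to `CruxN559.CruxN`.
-/

set_option autoImplicit false

open Filter Topology Metric Set

namespace Crest.Agent.R217.Coarse889

open Crest.Agent.R217.CruxN559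

/-! ### (b) filters -/

/-- the filter of the `k`-th column: `j → ∞` -/
def lk (k : ℕ) : Filter (ℕ × ℕ) := map (fun j => (k, j)) atTop

/-- fine filter: for all `k`, `j → ∞` -/
def lf : Filter (ℕ × ℕ) := ⨆ k, lk k

/-- coarse filter: eventually in `k`, eventually in `j` -/
def lc : Filter (ℕ × ℕ) := (atTop : Filter ℕ).curry (atTop : Filter ℕ)

section

variable {p : ℕ × ℕ → Prop} {S : Set (ℕ × ℕ)} {k : ℕ}

theorem mem_lk : S ∈ lk k ↔ ∀ᶠ j in atTop, (k, j) ∈ S := Iff.rfl

theorem mem_lf : S ∈ lf ↔ ∀ k, ∀ᶠ j in atTop, (k, j) ∈ S := by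
  simp only [lf, mem_iSup, mem_lk]

theorem mem_lc : S ∈ lc ↔ ∀ᶠ k in atTop, ∀ᶠ j in atTop, (k, j) ∈ S := mem_curry_iff

theorem eventually_lk : (∀ᶠ x in lk k, p x) ↔ ∀ᶠ j in atTop, p (k, j) := Iff.rfl

theorem eventually_lf : (∀ᶠ x in lf, p x) ↔ ∀ k, ∀ᶠ j in atTop, p (k, j) := mem_lf

theorem eventually_lc : (∀ᶠ x in lc, p x) ↔ ∀ᶠ k in atTop, ∀ᶠ j in atTop, p (k, j) := mem_lc

theorem eventually_lf_iff : (∀ᶠ x in lf, p x) ↔ ∀ k, ∀ᶠ x in lk k, p x := eventually_lf

/-- a property of `k` only holds coarsely as soon as it holds for large `k` -/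
theorem eventually_lc_fst {r : ℕ → Prop} (h : ∀ᶠ k in atTop, r k) : ∀ᶠ x in lc, r x.1 :=
  eventually_lc.2 (h.mono fun _ hk => Eventually.of_forall fun _ => hk)

theorem eventually_lc_of_lf (h : ∀ᶠ x in lf, p x) : ∀ᶠ x in lc, p x :=
  eventually_lc.2 (Eventually.of_forall (eventually_lf.1 h))

theorem lk_le_lf (k : ℕ) : lk k ≤ lf := le_iSup lk k

theorem lc_le_lf : lc ≤ lf := fun _ hS => eventually_lc_of_lf hS

instance lk_neBot (k : ℕ) : (lk k).NeBot := map_neBot

instance lf_neBot : lf.NeBot := (lk_neBot 0).mono (lk_le_lf 0)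

instance lc_neBot : lc.NeBot := by
  rw [neBot_iff, Ne, ← empty_mem_iff_bot]
  intro h
  have h1 := mem_lc.1 h
  obtain ⟨k, hk⟩ := h1.exists
  obtain ⟨j, hj⟩ := hk.exists
  exact hj





end

section germs

variable {α : Type*} {u v : ℕ × ℕ → α}








end germs

/-! ### (c) the bundled counterexample -/

/-- All the data of a counterexample to the body of `CruxN n` with constant `c`. -/
structure CE.{u} (n : ℕ) (c : ℝ) : Type (u + 1) where
  G : Type u
  [grp : Group G]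
  [top : TopologicalSpace G]
  [tgrp : IsTopologicalGroup G]
  [cpt : CompactSpace G]
  [t2 : T2Space G]
  [sc : SecondCountableTopology G]
  x : G
  dense : Dense (range fun k : ℤ => x ^ k)
  q : ℕ
  prime : q.Prime
  χ : G →* ℂ
  χ_cont : Continuous χ
  χ_pow : ∀ g, χ g ^ q = 1
  χ_x : χ x ≠ 1
  D : Sys n G
  ball_Om : closedBall 0 1 ⊆ D.Om
  ball_V : closedBall 0 1 ⊆ D.V
  disp : ∀ v ∈ D.V, (v ∈ closedBall (0 : Fin n → ℝ) 1 ∨ D.f v ∈ closedBall (0 : Fin n → ℝ) 1) →
      (∀ g, dist (D.act g v) v ≤ c) ∧ dist (D.f v) v ≤ c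
  y1 : Fin n → ℝ
  y1_mem : y1 ∈ D.Om
  free : ∀ v ∈ D.V, D.f v = y1 → ∀ g, χ g ≠ 1 → D.act g v ≠ v

attribute [instance] CE.grp CE.top CE.tgrp CE.cpt CE.t2 CE.sc

theorem CE.q_ne_zero.{u} {n : ℕ} {c : ℝ} (X : CE.{u} n c) : X.q ≠ 0 := X.prime.ne_zero

/-- a counterexample for a small constant is one for a larger constant -/
def CE.mono.{u} {n : ℕ} {c c' : ℝ} (h : c ≤ c') (X : CE.{u} n c) : CE.{u} n c' where
  G := X.G
  x := X.x
  dense := X.dense
  q := X.q
  prime := X.prime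
  χ := X.χ
  χ_cont := X.χ_cont
  χ_pow := X.χ_pow
  χ_x := X.χ_x
  D := X.D
  ball_Om := X.ball_Om
  ball_V := X.ball_V
  disp := fun v hv hb => ⟨fun g => ((X.disp v hv hb).1 g).trans h, (X.disp v hv hb).2.trans h⟩
  y1 := X.y1
  y1_mem := X.y1_mem
  free := X.free

theorem nonempty_ce.{u} {n : ℕ} (h : ¬ CruxN.{u} n) {c : ℝ} (hc : 0 < c) :
    Nonempty (CE.{u} n c) := by
  by_contra hne
  apply h
  refine ⟨c, hc, ?_⟩
  intro G _ _ _ _ _ _ x hx q hq χ h1 h2 h3 D h4 h5 h6 y1 hy1 h7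
  exact hne ⟨{
    G := G
    x := x
    dense := hx
    q := q
    prime := hq
    χ := χ
    χ_cont := h1
    χ_pow := h2
    χ_x := h3
    D := D
    ball_Om := h4
    ball_V := h5
    disp := h6
    y1 := y1
    y1_mem := hy1
    free := h7 }⟩

/-- a sequence of counterexamples with constants `1 / (k + 1)` -/
theorem nonempty_seq.{u} {n : ℕ} (h : ¬ CruxN.{u} n) :
    Nonempty (∀ k : ℕ, CE.{u} n (1 / ((k : ℝ) + 1))) :=
  ⟨fun k => (nonempty_ce h (by positivity : (0 : ℝ) < 1 / ((k : ℝ) + 1))).some⟩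

/-- `CruxN n` follows if there is no sequence of counterexamples. -/
theorem cruxN_of_no_seq.{u} {n : ℕ}
    (h : (∀ k : ℕ, CE.{u} n (1 / ((k : ℝ) + 1))) → False) : CruxN.{u} n := by
  by_contra hn
  exact h (nonempty_seq hn).some

end Crest.Agent.R217.Coarse889
end

-- ▼ part R217/Glob_559
section

/-!
Row 217 (S0336), part C: the global data of the two-scale argument.

* `KDat n c` : a counterexample `CE n c` together with a relatively compact convex open
  `U ⊆ Om` (containing the unit ball and `y1`), the extended invariant map `F`, the noise function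
  `w` (`< 1` exactly over `U`, `≤ 0` over the unit ball), the gauges near `y1` and the sequence of
  fine packages.
* `exists_kdat` : existence of `KDat`.
-/

set_option autoImplicit false
set_option linter.unusedSectionVars false
set_option linter.unusedVariables false

open Filter Topology Metric Set

namespace Crest.Agent.R217.Glob559

open Crest.Agent.R217.CruxN559 Crest.Agent.R217.Coarse889 Crest.Agent.R217.CtrlS970
open Crest.Agent.R217.FinePkg970 Crest.Agent.R217.Flow373 Crest.Agent.R217.Chain373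

universe u

instance {n : ℕ} {c : ℝ} (X : CE.{u} n c) : NeZero X.q := ⟨X.q_ne_zero⟩

theorem disp' {n : ℕ} {c : ℝ} (X : CE.{u} n c) :
    ∀ v ∈ closedBall (0 : Fin n → ℝ) 1, ∀ g, dist (X.D.act g v) v ≤ c :=
  fun v hv g => (X.disp v (X.ball_V hv) (Or.inl hv)).1 g

/-- the flow of the generator -/
noncomputable def flow {n : ℕ} {c : ℝ} (X : CE.{u} n c) : Flow n :=
  toFlow X.D X.x c X.ball_V (disp' X)


theorem flow_T {n : ℕ} {c : ℝ} (X : CE.{u} n c) (i : ℤ) : (flow X).T i = X.D.act (X.x ^ i) := rfl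

/-- the local data of one counterexample -/
structure KDat (n : ℕ) (c : ℝ) : Type (u + 1) where
  X : CE.{u} n c
  U : Set (Fin n → ℝ)
  U_open : IsOpen U
  U_conv : Convex ℝ U
  U_cpt : IsCompact (closure U)
  U_sub : closure U ⊆ X.D.Om
  ball_U : closedBall 0 1 ⊆ U
  y1_U : X.y1 ∈ U
  F : (Fin n → ℝ) → (Fin n → ℝ)
  F_cont : Continuous F
  F_eq : ∀ v ∈ ovr X.D (closure U), F v = X.D.f v
  F_act : ∀ g, ∀ v ∈ X.D.V, F (X.D.act g v) = F v
  w : (Fin n → ℝ) → ℝ
  w_cont : Continuous w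
  w_act : ∀ g, ∀ v ∈ X.D.V, w (X.D.act g v) = w v
  w_lt : ∀ v, w v < 1 → v ∈ ovr X.D U
  w_cpt : ∀ r < (1 : ℝ), ∃ K, IsCompact K ∧ K ⊆ U ∧ ∀ v, w v ≤ r → v ∈ ovr X.D K
  w_le : ∀ K, IsCompact K → K ⊆ U → ∃ r < (1 : ℝ), ∀ v ∈ ovr X.D K, w v ≤ r
  w_ball : ∀ v ∈ ovr X.D (closedBall 0 1), w v ≤ 0
  K1 : Set (Fin n → ℝ)
  K1_cpt : IsCompact K1
  K1_sub : K1 ⊆ X.D.Om
  Rw : ℝ
  Rw_one : 1 ≤ Rw
  Rw_U : ∀ v ∈ ovr X.D (closure U), ‖v‖ ≤ Rw
  eps : ℕ → ℝ
  eps_pos : ∀ j, 0 < eps j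
  eps_le : ∀ j, eps j ≤ 1 / ((j : ℝ) + 1)
  P : ∀ j, FinePkg (flow X) X.q (closure U) K1 Rw (eps j)
  /-- radius of the gauges -/
  gr : ℝ
  gr_pos : 0 < gr
  gr_sub : closedBall X.y1 gr ⊆ X.D.Om
  /-- number of gauges -/
  gm : ℕ
  gκ : ℕ → (Fin n → ℝ) → ℝ
  gθ : ℕ → (Fin n → ℝ) → ZMod X.q
  gc : ℝ
  gη : ℝ
  gc_pos : 0 < gc
  gη_pos : 0 < gη
  gκ_cont : ∀ l, Continuous (gκ l)
  gκ_act : ∀ l g, ∀ v ∈ X.D.V, gκ l (X.D.act g v) = gκ l v
  gκ_nonneg : ∀ l v, 0 ≤ gκ l v
  gκ_pos : ∀ l v, 0 < gκ l v → v ∈ X.D.V ∧ dist (X.D.f v) X.y1 < gr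
  gκ_cov : ∀ v ∈ X.D.V, dist (X.D.f v) X.y1 ≤ gr / 2 → ∃ l < gm, gc ≤ gκ l v
  gθ_lab : ∀ l v v', 0 < gκ l v → 0 < gκ l v' → ∀ i : ℕ, dist v' (X.D.act (X.x ^ i) v) < gη →
    gθ l v' = gθ l v + (i : ZMod X.q)

/-- existence of `U` -/
theorem exists_U {n : ℕ} {c : ℝ} (X : CE.{u} n c) : ∃ U : Set (Fin n → ℝ), IsOpen U ∧
    Convex ℝ U ∧ IsCompact (closure U) ∧ closure U ⊆ X.D.Om ∧ closedBall 0 1 ⊆ U ∧ X.y1 ∈ U := by
  set K0 : Set (Fin n → ℝ) := convexJoin ℝ (closedBall 0 1) {X.y1} with hK0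
  have hconv : Convex ℝ K0 := (convex_closedBall _ _).convexJoin (convex_singleton _)
  have hc0 : IsCompact K0 := by
    have h1 : K0 = (fun p : (Fin n → ℝ) × ℝ => (1 - p.2) • p.1 + p.2 • X.y1) ''
        (closedBall (0 : Fin n → ℝ) 1 ×ˢ Icc (0 : ℝ) 1) := by
      ext v
      rw [hK0, mem_convexJoin]
      constructor
      · rintro ⟨a, ha, b, hb, hv⟩
        rw [mem_singleton_iff] at hb
        subst hb
        rw [segment_eq_image] at hv
        obtain ⟨t, ht, rfl⟩ := hv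
        exact ⟨(a, t), ⟨ha, ht⟩, rfl⟩
      · rintro ⟨⟨a, t⟩, ⟨ha, ht⟩, rfl⟩
        refine ⟨a, ha, X.y1, rfl, ?_⟩
        rw [segment_eq_image]
        exact ⟨t, ht, rfl⟩
    rw [h1]
    refine ((isCompact_closedBall (0 : Fin n → ℝ) 1).prod isCompact_Icc).image ?_
    fun_prop
  have hsub : K0 ⊆ X.D.Om := by
    intro v hv
    rw [hK0, mem_convexJoin] at hv
    obtain ⟨a, ha, b, hb, hv⟩ := hv
    rw [mem_singleton_iff] at hb
    subst hb
    exact X.D.convex_Om.segment_subset (X.ball_Om ha) X.y1_mem hv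
  obtain ⟨δ, hδ, hthick⟩ := hc0.exists_cthickening_subset_open X.D.isOpen_Om hsub
  have hcl : closure (thickening δ K0) ⊆ cthickening δ K0 := closure_thickening_subset_cthickening _ _
  refine ⟨thickening δ K0, isOpen_thickening, hconv.thickening δ, ?_,
    hcl.trans hthick, ?_, ?_⟩
  · exact hc0.cthickening.of_isClosed_subset isClosed_closure hcl
  · intro v hv
    refine self_subset_thickening hδ _ ?_
    rw [hK0, mem_convexJoin]
    exact ⟨v, hv, X.y1, rfl, left_mem_segment ℝ _ _⟩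
  · refine self_subset_thickening hδ _ ?_
    rw [hK0, mem_convexJoin]
    exact ⟨0, mem_closedBall_self zero_le_one, X.y1, rfl, right_mem_segment ℝ _ _⟩

theorem compl_nonempty {n : ℕ} (hn : 0 < n) {U : Set (Fin n → ℝ)} (hU : IsCompact (closure U)) :
    Uᶜ.Nonempty := by
  rw [nonempty_compl]
  intro h
  rw [h, closure_univ] at hU
  obtain ⟨R, hR⟩ := hU.isBounded.exists_norm_le
  have h1 := hR (fun _ => R + 1) (mem_univ _)
  have h2 := norm_le_pi_norm (fun _ : Fin n => R + 1) ⟨0, hn⟩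
  have h3 : |R + 1| ≤ R := h2.trans h1
  have h4 := le_abs_self (R + 1)
  linarith

/-- return times of the flow -/
theorem returns_flow {n : ℕ} {c : ℝ} (X : CE.{u} n c) : Returns (flow X) X.q := by
  intro K hK hKc ε hε
  obtain ⟨N, h1, h2, h3⟩ := exists_return_time X.D X.x X.prime.pos hKc hK hε
  refine ⟨N, h1, h2, fun v hv i => ?_⟩
  have h4 := h3 v hv (X.x ^ i)
  rw [flow_T, flow_T, zpow_add, zpow_natCast]
  exact h4

theorem exists_kdat {n : ℕ} (hn : 0 < n) {c : ℝ} (X : CE.{u} n c)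
    (hch : ChainExists (flow X)) (hfine : FineOfChain) : ∃ K : KDat.{u} n c, K.X = X := by
  obtain ⟨U, hUo, hUc, hUk, hUs, hUb, hUy⟩ := exists_U X
  obtain ⟨F, C, hF1, hF2, hF3, hF4, hF5, hF6⟩ := exists_Fext X.D hUk hUs
  have hne := compl_nonempty hn hUk
  obtain ⟨r0, hr0, hr0'⟩ := exists_noise_le X.D hUo hne (isCompact_closedBall 0 1) hUb
  obtain ⟨K1, hK1a, hK1b, hK1c, ε0, hε0, hP⟩ := hfine n (flow X) X.q hch (returns_flow X)
    (closure U) hUk hUs
  obtain ⟨R, hR⟩ := (isCompact_ovr X.D hUk hUs).isBounded.exists_norm_le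
  obtain ⟨gr, hgr, hgr2, m, κ, θ, c0, η, hc0, hη, g1, g2, g3, g4, g5, g6⟩ :=
    exists_gauges X.D X.x X.prime X.χ X.χ_cont X.χ_pow X.χ_x X.y1_mem X.free
  have hpos : 0 < 1 - r0 := by linarith
  have hPk : ∀ j : ℕ, Nonempty (FinePkg (flow X) X.q (closure U) K1 (max R 1)
      (min ε0 (1 / ((j : ℝ) + 1)))) := fun j =>
    hP _ (lt_min hε0 (by positivity)) (min_le_left _ _) _
  refine ⟨{
    X := X
    U := U
    U_open := hUo
    U_conv := hUc
    U_cpt := hUk
    U_sub := hUs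
    ball_U := hUb
    y1_U := hUy
    F := F
    F_cont := hF1
    F_eq := hF5
    F_act := hF6
    w := fun v => (noise X.D U v - r0) / (1 - r0)
    w_cont := ((continuous_noise X.D hUo hUk hUs).sub continuous_const).div_const _
    w_act := fun g v hv => by rw [noise_act X.D U g hv]
    w_lt := fun v hv => by
      rw [div_lt_one hpos] at hv
      exact mem_ovr_of_noise_lt X.D (by linarith)
    w_cpt := ?_
    w_le := ?_
    w_ball := fun v hv => div_nonpos_of_nonpos_of_nonneg (by linarith [hr0' v hv]) hpos.le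
    K1 := K1
    K1_cpt := hK1a
    K1_sub := hK1b
    Rw := max R 1
    Rw_one := le_max_right _ _
    Rw_U := fun v hv => (hR v hv).trans (le_max_left _ _)
    eps := fun j => min ε0 (1 / ((j : ℝ) + 1))
    eps_pos := fun j => lt_min hε0 (by positivity)
    eps_le := fun j => min_le_right _ _
    P := fun j => (hPk j).some
    gr := gr
    gr_pos := hgr
    gr_sub := hgr2
    gm := m
    gκ := fun l => if h : l < m then κ ⟨l, h⟩ else fun _ => 0
    gθ := fun l => if h : l < m then θ ⟨l, h⟩ else fun _ => 0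
    gc := c0
    gη := η
    gc_pos := hc0
    gη_pos := hη
    gκ_cont := ?_
    gκ_act := ?_
    gκ_nonneg := ?_
    gκ_pos := ?_
    gκ_cov := ?_
    gθ_lab := ?_ }, rfl⟩
  · -- w_cpt
    intro r hr
    set r' : ℝ := r0 + (1 - r0) * r with hr'
    have hr'1 : r' < 1 := by
      rw [hr']
      nlinarith
    refine ⟨closure U ∩ {y | 1 - r' ≤ infDist y Uᶜ}, ?_, ?_, ?_⟩
    · exact hUk.inter_right (isClosed_le continuous_const (continuous_infDist_pt _))
    · intro y hy
      have h1 : 0 < infDist y Uᶜ := lt_of_lt_of_le (by linarith) hy.2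
      by_contra h
      have h2 : y ∈ Uᶜ := h
      rw [infDist_zero_of_mem h2] at h1
      exact lt_irrefl _ h1
    · intro v hv
      have h1 : noise X.D U v ≤ r' := by
        rw [div_le_iff₀ hpos] at hv
        rw [hr']
        linarith
      have h2 := mem_ovr_of_noise_lt X.D (lt_of_le_of_lt h1 hr'1)
      refine ⟨h2.1, subset_closure h2.2, ?_⟩
      unfold noise at h1
      rw [ext0_mk _ h2.1] at h1
      have h3 : min 1 (infDist (ft X.D (mk X.D v h2.1)) Uᶜ) ≤ infDist (X.D.f v) Uᶜ := min_le_right _ _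
      show 1 - r' ≤ infDist (X.D.f v) Uᶜ
      linarith
  · -- w_le
    intro K hK hKU
    obtain ⟨r, hr, h⟩ := exists_noise_le X.D hUo hne hK hKU
    refine ⟨(r - r0) / (1 - r0), ?_, fun v hv => ?_⟩
    · rw [div_lt_one hpos]
      linarith
    · have := h v hv
      gcongr
  · intro l
    by_cases h : l < m
    · simp only [h, dif_pos]
      exact g1 _
    · simp only [h, dif_neg, not_false_eq_true]
      exact continuous_const
  · intro l g v hv
    by_cases h : l < m
    · simp only [h, dif_pos]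
      exact g2 _ g v hv
    · simp only [h, dif_neg, not_false_eq_true]
  · intro l v
    by_cases h : l < m
    · simp only [h, dif_pos]
      exact g3 _ v
    · simp only [h, dif_neg, not_false_eq_true]
      exact le_refl _
  · intro l v
    by_cases h : l < m
    · simp only [h, dif_pos]
      exact g4 _ v
    · simp only [h, dif_neg, not_false_eq_true]
      intro h0
      exact absurd h0 (lt_irrefl _)
  · intro v hv hd
    obtain ⟨l, hl⟩ := g5 v hv hd
    refine ⟨l.1, l.2, ?_⟩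
    simp only [l.2, dif_pos]
    exact hl
  · intro l v v'
    by_cases h : l < m
    · simp only [h, dif_pos]
      exact g6 _ v v'
    · simp only [h, dif_neg, not_false_eq_true]
      intro h0
      exact absurd h0 (lt_irrefl _)

end Crest.Agent.R217.Glob559
end

-- ▼ part R217/Ctl_559

/-!
Row 217 (S0336), part C: control data of the two-scale argument on `A = ℕ × ℕ`.

* `CF l` : fine control data (controls `F i`, the noise `w`, the gauge bumps), filter `l`
  (`lf` = all columns, `lk k` = column `k`).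
* `CC` : coarse control data (controls `x i`, `F i`, noise `2 ‖x‖`), filter `lc`.
* `le_CF`, `le_CC` : restrictions.
-/

set_option autoImplicit false
set_option linter.unusedSectionVars false
set_option linter.unusedVariables false

open Filter Topology Metric Set

namespace Crest.Agent.R217.Ctl559

open Crest.Agent.R217.CruxN559 Crest.Agent.R217.Coarse889 Crest.Agent.R217.CtrlS970
open Crest.Agent.R217.FinePkg970 Crest.Agent.R217.Flow373 Crest.Agent.R217.Glob559
open Crest.Agent.R217.Grid897 Crest.Agent.R217.Asym476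

universe u

/-- the constants of the sequence of counterexamples -/
noncomputable def cs (k : ℕ) : ℝ := 1 / (100 * ((k : ℝ) + 1))

theorem cs_pos (k : ℕ) : 0 < cs k := by unfold cs; positivity

theorem cs_le (k : ℕ) : cs k ≤ 1 / 100 := by
  unfold cs
  rw [div_le_div_iff₀ (by positivity) (by norm_num)]
  have : (0 : ℝ) ≤ k := Nat.cast_nonneg k
  linarith

theorem tendsto_cs : Tendsto cs atTop (𝓝 0) := by
  have h1 : Tendsto (fun k : ℕ => (1 / 100 : ℝ) * (1 / ((k : ℝ) + 1))) atTop (𝓝 (1 / 100 * 0)) :=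
    tendsto_one_div_add_atTop_nhds_zero_nat.const_mul _
  rw [mul_zero] at h1
  refine h1.congr fun k => ?_
  unfold cs
  field_simp

variable {n : ℕ} (D : ∀ k, KDat.{u} n (cs k))

/-- the package at level `a = (k, j)` -/
noncomputable abbrev pk (a : ℕ × ℕ) : FinePkg (flow (D a.1).X) (D a.1).X.q (closure (D a.1).U)
    (D a.1).K1 (D a.1).Rw ((D a.1).eps a.2) := (D a.1).P a.2

/-- size of the torus at level `a` -/
noncomputable abbrev NN (a : ℕ × ℕ) : ℕ := (pk D a).N

/-- the mesh at level `a` -/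
noncomputable abbrev mu (a : ℕ × ℕ) : ℝ := (pk D a).s

/-- the vertices at level `a` -/
abbrev BV (a : ℕ × ℕ) : Type := VV n (NN D a)

/-- the position of a vertex -/
noncomputable def xv (a : ℕ × ℕ) (v : BV D a) : Fin n → ℝ :=
  fun i => mu D a * (((v i).valMinAbs : ℤ) : ℝ)

theorem mu_pos (a : ℕ × ℕ) : 0 < mu D a := (pk D a).s_pos

theorem mu_lt (a : ℕ × ℕ) : mu D a < 1 / ((a.2 : ℝ) + 1) :=
  (pk D a).s_lt.trans_le ((D a.1).eps_le a.2)

theorem pos_cellEquiv (a : ℕ × ℕ) (j : JJ n) (v : BV D a) :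
    pos (mu D a) (cellEquiv n (NN D a) (j, v)) = xv D a v := rfl

/-- names of the fine control functions -/
inductive PhiF (n : ℕ) : Type
  | f (i : Fin n) : PhiF n
  | o : PhiF n
  | kap (l : ℕ) : PhiF n

/-- fine control functions on positions -/
noncomputable def uF : PhiF n → ∀ a : ℕ × ℕ, (Fin n → ℝ) → ℝ
  | .f i, a, x => (D a.1).F x i
  | .o, a, x => (D a.1).w x
  | .kap l, a, x => (D a.1).gκ l x

/-- the fine control data with filter `l` -/
noncomputable def CF (l : Filter (ℕ × ℕ)) : Ctl (BV D) where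
  l := l
  Φ := PhiF n
  o := .o
  u φ a v := uF D φ a (xv D a v)

/-- names of the coarse control functions -/
inductive PhiC (n : ℕ) : Type
  | x (i : Fin n) : PhiC n
  | f (i : Fin n) : PhiC n
  | o : PhiC n

/-- coarse control functions on positions -/
noncomputable def uC : PhiC n → ∀ a : ℕ × ℕ, (Fin n → ℝ) → ℝ
  | .x i, a, x => x i
  | .f i, a, x => (D a.1).F x i
  | .o, a, x => 2 * ‖x‖

/-- the coarse control data -/
noncomputable def CC : Ctl (BV D) where
  l := lc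
  Φ := PhiC n
  o := .o
  u φ a v := uC D φ a (xv D a v)



/-! ### continuity of the controls -/

theorem uF_cont (φ : PhiF n) (a : ℕ × ℕ) : Continuous (uF D φ a) := by
  cases φ with
  | f i => exact (continuous_apply i).comp (D a.1).F_cont
  | o => exact (D a.1).w_cont
  | kap l => exact (D a.1).gκ_cont l

theorem uF_act (φ : PhiF n) (a : ℕ × ℕ) (g : (D a.1).X.G) {v : Fin n → ℝ}
    (hv : v ∈ (D a.1).X.D.V) : uF D φ a ((D a.1).X.D.act g v) = uF D φ a v := by
  cases φ with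
  | f i => exact congrFun ((D a.1).F_act g v hv) i
  | o => exact (D a.1).w_act g v hv
  | kap l => exact (D a.1).gκ_act l g v hv

theorem uF_fst (φ : PhiF n) (k j j' : ℕ) : uF D φ (k, j) = uF D φ (k, j') := by
  cases φ <;> rfl

theorem uC_fst (φ : PhiC n) (k j j' : ℕ) : uC D φ (k, j) = uC D φ (k, j') := by
  cases φ <;> rfl

theorem uC_cont (φ : PhiC n) (a : ℕ × ℕ) : Continuous (uC D φ a) := by
  cases φ with
  | x i => exact continuous_apply i
  | f i => exact (continuous_apply i).comp (D a.1).F_cont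
  | o => exact continuous_const.mul continuous_norm

/-! ### geometry near the unit ball -/

/-- points of the closed unit ball of radius `1/2` lie over the closed unit ball -/
theorem mem_ovr_ball (k : ℕ) {x : Fin n → ℝ} (hx : ‖x‖ ≤ 1 / 2) :
    x ∈ ovr (D k).X.D (closedBall 0 1) := by
  have h1 : x ∈ closedBall (0 : Fin n → ℝ) 1 := by
    rw [mem_closedBall_zero_iff]
    linarith
  have h2 := (D k).X.ball_V h1
  refine ⟨h2, ?_⟩
  have h3 := ((D k).X.disp x h2 (Or.inl h1)).2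
  rw [mem_closedBall_zero_iff]
  have h4 := cs_le k
  have h5 : ‖(D k).X.D.f x‖ ≤ dist ((D k).X.D.f x) x + ‖x‖ := by
    rw [dist_eq_norm]
    calc ‖(D k).X.D.f x‖ = ‖((D k).X.D.f x - x) + x‖ := by rw [sub_add_cancel]
      _ ≤ _ := norm_add_le _ _
  linarith

theorem ovr_ball_sub (k : ℕ) : ovr (D k).X.D (closedBall 0 1) ⊆ ovr (D k).X.D (closure (D k).U) :=
  fun _ hv => ⟨hv.1, subset_closure ((D k).ball_U hv.2)⟩

theorem ovr_U_sub (k : ℕ) : ovr (D k).X.D (D k).U ⊆ ovr (D k).X.D (closure (D k).U) :=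
  fun _ hv => ⟨hv.1, subset_closure hv.2⟩

/-- near the unit ball, `F` is close to the identity -/
theorem dist_F_le (k : ℕ) {x : Fin n → ℝ} (hx : x ∈ ovr (D k).X.D (closedBall 0 1)) :
    dist ((D k).F x) x ≤ cs k := by
  rw [(D k).F_eq x (ovr_ball_sub D k hx)]
  exact ((D k).X.disp x hx.1 (Or.inr hx.2)).2

/-- If `x` is in the ball of radius `1/2` and `F`, `w` at `y` are close to the values at `x`
then `y` is close to `x`. -/
theorem close_of_F (k : ℕ) {x y : Fin n → ℝ} (hx : ‖x‖ ≤ 1 / 2) {δ : ℝ} (hδ : δ ≤ 1 / 4)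
    (hδ0 : 0 < δ)
    (hF : ∀ i, |(D k).F x i - (D k).F y i| < δ) (hw : |(D k).w x - (D k).w y| < δ) :
    y ∈ ovr (D k).X.D (closedBall 0 1) ∧ dist x y ≤ 2 * cs k + δ := by
  have h1 := mem_ovr_ball D k hx
  have h2 := (D k).w_ball x h1
  have h3 : (D k).w y < 1 := by
    have := (abs_lt.1 hw).1
    linarith
  have h4 := (D k).w_lt y h3
  have h5 := (D k).F_eq y (ovr_U_sub D k h4)
  have h6 := dist_F_le D k h1
  have h7 : dist ((D k).F x) ((D k).F y) ≤ δ := by
    rw [dist_pi_le_iff hδ0.le]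
    intro i
    rw [Real.dist_eq]
    exact (hF i).le
  have h8 := cs_le k
  have h9 : y ∈ ovr (D k).X.D (closedBall 0 1) := by
    refine ⟨h4.1, ?_⟩
    rw [← h5, mem_closedBall]
    calc dist ((D k).F y) 0 ≤ dist ((D k).F y) ((D k).F x) + dist ((D k).F x) x + dist x 0 :=
          dist_triangle4 _ _ _ _
      _ ≤ δ + cs k + 1 / 2 := by
          rw [dist_comm ((D k).F y), dist_zero_right]
          linarith
      _ ≤ 1 := by linarith
  have h10 := dist_F_le D k h9
  refine ⟨h9, ?_⟩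
  calc dist x y ≤ dist x ((D k).F x) + dist ((D k).F x) ((D k).F y) + dist ((D k).F y) y :=
        dist_triangle4 _ _ _ _
    _ ≤ cs k + δ + cs k := by
        rw [dist_comm x]
        linarith
    _ = 2 * cs k + δ := by ring

/-! ### restrictions -/

theorem le_CF {l l' : Filter (ℕ × ℕ)} (h : l' ≤ l) : (CF D l).Le (CF D l') where
  le := h
  region r hr := ⟨r, hr, Eventually.of_forall fun a s h => h⟩
  ctl φ r hr ε hε := ⟨({(φ : PhiF n)} : Finset (PhiF n)), ε, hε,
    Eventually.of_forall fun a s t _ h => h (φ : PhiF n) (Finset.mem_singleton_self (φ : PhiF n))⟩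

theorem le_CC : (CF D lf).Le (CC D) where
  le := lc_le_lf
  region r' hr' := by
    refine ⟨1 / 2, by norm_num, Eventually.of_forall fun a s hs => ?_⟩
    have h1 : 2 * ‖xv D a s‖ ≤ r' := hs
    have h2 : ‖xv D a s‖ ≤ 1 / 2 := by linarith
    have h3 := (D a.1).w_ball _ (mem_ovr_ball D a.1 h2)
    show (D a.1).w (xv D a s) ≤ 1 / 2
    linarith
  ctl φ' r' hr' ε hε := by
    classical
    have key : ∀ ε > (0 : ℝ), ∃ (S : Finset (PhiF n)), ∃ δ > (0 : ℝ), ∀ᶠ a in lc,
        ∀ s t, 2 * ‖xv D a s‖ ≤ r' → (∀ φ ∈ S, |uF D φ a (xv D a s) - uF D φ a (xv D a t)| < δ) →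
          dist (xv D a s) (xv D a t) < ε := by
      intro ε hε
      refine ⟨insert .o (Finset.univ.image PhiF.f), min (ε / 2) (1 / 4), by positivity, ?_⟩
      have h1 : ∀ᶠ k in atTop, cs k < ε / 4 :=
        tendsto_cs.eventually (gt_mem_nhds (by positivity))
      filter_upwards [eventually_lc_fst h1] with a ha s t hs hφ
      have h2 : ‖xv D a s‖ ≤ 1 / 2 := by linarith
      have h3 := close_of_F D a.1 h2 (min_le_right _ _) (by positivity)
        (fun i => hφ (.f i) (by simp)) (hφ .o (by simp))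
      have h4 := min_le_left (ε / 2) (1 / 4)
      linarith [h3.2]
    cases φ' with
    | x i =>
      obtain ⟨S, δ, hδ, h⟩ := key ε hε
      refine ⟨S, δ, hδ, ?_⟩
      filter_upwards [h] with a ha s t hs hφ
      have h1 := ha s t hs hφ
      have h2 := dist_le_pi_dist (xv D a s) (xv D a t) i
      rw [Real.dist_eq] at h2
      exact lt_of_le_of_lt h2 h1
    | f i =>
      exact ⟨({.f i} : Finset (PhiF n)), ε, hε, Eventually.of_forall fun a s t _ h =>
        h (PhiF.f i) (Finset.mem_singleton_self _)⟩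
    | o =>
      obtain ⟨S, δ, hδ, h⟩ := key (ε / 2) (by positivity)
      refine ⟨S, δ, hδ, ?_⟩
      filter_upwards [h] with a ha s t hs hφ
      have h1 := ha s t hs hφ
      have h2 : |‖xv D a s‖ - ‖xv D a t‖| ≤ dist (xv D a s) (xv D a t) := by
        rw [dist_eq_norm]
        exact abs_norm_sub_norm_le _ _
      show |2 * ‖xv D a s‖ - 2 * ‖xv D a t‖| < ε
      rw [← mul_sub, abs_mul, abs_two]
      linarith

/-! ### closeness of `x` and `F`, grid continuity -/

theorem abs_F_sub_le (k : ℕ) {x : Fin n → ℝ} (hx : ‖x‖ ≤ 1 / 2) (i : Fin n) :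
    |(D k).F x i - x i| ≤ cs k := by
  have h1 := dist_F_le D k (mem_ovr_ball D k hx)
  have h2 := dist_le_pi_dist ((D k).F x) x i
  rw [Real.dist_eq] at h2
  exact h2.trans h1

/-- in the coarse region the controls `x i` and `f i` are close -/
theorem close_xf (i : Fin n) : ∀ r < (1 : ℝ), ∀ ε > (0 : ℝ), ∀ᶠ a in (CC D).l, ∀ s,
    (CC D).u (CC D).o a s ≤ r → |(CC D).u (PhiC.x i) a s - (CC D).u (PhiC.f i) a s| < ε := by
  intro r hr ε hε
  have h1 : ∀ᶠ k in atTop, cs k < ε := tendsto_cs.eventually (gt_mem_nhds hε)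
  filter_upwards [eventually_lc_fst h1] with a ha s hs
  have hs' : 2 * ‖xv D a s‖ ≤ r := hs
  have h2 := abs_F_sub_le D a.1 (x := xv D a s) (by linarith) i
  rw [abs_sub_comm]
  exact lt_of_le_of_lt h2 ha

theorem norm_le_Rw_of_w (k : ℕ) {x : Fin n → ℝ} (h : (D k).w x < 1) : ‖x‖ ≤ (D k).Rw :=
  (D k).Rw_U x (ovr_U_sub D k ((D k).w_lt x h))

/-- neighbouring cells are close, if one of them is in the window -/
theorem nb_dist (a : ℕ × ℕ) {c c' : Cell n (NN D a)} (h : nb (NN D a) c' c)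
    (hc : ‖pos (mu D a) c‖ ≤ (D a.1).Rw ∨ ‖pos (mu D a) c'‖ ≤ (D a.1).Rw) :
    dist (pos (mu D a) c') (pos (mu D a) c) ≤ mu D a :=
  dist_pos_le (pk D a).s_pos (pk D a).window h hc

theorem eventually_mu_lf {δ : ℝ} (hδ : 0 < δ) : ∀ᶠ a in lf, mu D a < δ := by
  rw [eventually_lf]
  intro k
  have h1 : ∀ᶠ j : ℕ in atTop, 1 / ((j : ℝ) + 1) < δ :=
    tendsto_one_div_add_atTop_nhds_zero_nat.eventually (gt_mem_nhds hδ)
  filter_upwards [h1] with j hj
  exact (mu_lt D (k, j)).trans hj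

/-- uniform continuity of the fine controls near the good region of column `k` -/
theorem uF_unif (φ : PhiF n) (k : ℕ) {r ε : ℝ} (hr : r < 1) (hε : 0 < ε) :
    ∃ δ > 0, ∀ j, ∀ x y, (D k).w x ≤ r → dist y x < δ →
      |uF D φ (k, j) x - uF D φ (k, j) y| < ε := by
  obtain ⟨K, hK, hKU, hKw⟩ := (D k).w_cpt r hr
  have hcomp : IsCompact (ovr (D k).X.D K) :=
    isCompact_ovr (D k).X.D hK ((hKU.trans subset_closure).trans (D k).U_sub)
  obtain ⟨δ, hδ, h⟩ := Unif373.unif_one (T := uF D φ (k, 0)) isOpen_univ hcomp (subset_univ _)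
    (uF_cont D φ (k, 0)).continuousOn hε
  refine ⟨δ, hδ, fun j x y hx hxy => ?_⟩
  rw [uF_fst D φ k j 0, abs_sub_comm]
  exact (h x (hKw x hx) y hxy).2

/-- uniform continuity of the coarse controls near the coarse good region in column `k` -/
theorem uC_unif (φ : PhiC n) (k : ℕ) {ε : ℝ} (hε : 0 < ε) :
    ∃ δ > 0, ∀ j, ∀ x y : Fin n → ℝ, ‖x‖ ≤ 1 → dist y x < δ →
      |uC D φ (k, j) x - uC D φ (k, j) y| < ε := by
  obtain ⟨δ, hδ, h⟩ := Unif373.unif_one (T := uC D φ (k, 0)) isOpen_univ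
    (isCompact_closedBall (0 : Fin n → ℝ) 1) (subset_univ _)
    (uC_cont D φ (k, 0)).continuousOn hε
  refine ⟨δ, hδ, fun j x y hx hxy => ?_⟩
  rw [uC_fst D φ k j 0, abs_sub_comm]
  exact (h x (mem_closedBall_zero_iff.2 hx) y hxy).2



theorem nb_dist_blk (a : ℕ × ℕ) (i j : JJ n) (s t : BV D a)
    (h : nb (NN D a) (cellEquiv n (NN D a) (i, s)) (cellEquiv n (NN D a) (j, t)))
    (hc : ‖xv D a s‖ ≤ (D a.1).Rw ∨ ‖xv D a t‖ ≤ (D a.1).Rw) :
    dist (xv D a s) (xv D a t) ≤ mu D a := by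
  have e1 := pos_cellEquiv D a i s
  have e2 := pos_cellEquiv D a j t
  generalize cellEquiv n (NN D a) (i, s) = c' at h e1
  generalize cellEquiv n (NN D a) (j, t) = c at h e2
  rw [← e1, ← e2] at hc ⊢
  exact nb_dist D a h hc.symm



/-! ### compact boxes -/

/-- a box over which the fine frame of column `k` is compact -/
theorem box_w (k : ℕ) {lo hi : Fin n → ℝ} (h : Icc lo hi ⊆ (D k).U) : ∃ r < (1 : ℝ),
    ∀ x, (D k).w x < 1 → (∀ i, lo i ≤ (D k).F x i ∧ (D k).F x i ≤ hi i) → (D k).w x ≤ r := by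
  obtain ⟨r, hr, h1⟩ := (D k).w_le (Icc lo hi) isCompact_Icc h
  refine ⟨r, hr, fun x hx hb => h1 x ?_⟩
  have h2 := (D k).w_lt x hx
  refine ⟨h2.1, ?_⟩
  rw [← (D k).F_eq x (ovr_U_sub D k h2)]
  exact ⟨fun i => (hb i).1, fun i => (hb i).2⟩

/-- points of the coarse good region whose `F`-image is in the box `[-1/4, 1/4]` -/
theorem box_F_C (k : ℕ) {x : Fin n → ℝ} (hx : ‖x‖ ≤ 1 / 2)
    (hb : ∀ i, -(1 / 4) ≤ (D k).F x i ∧ (D k).F x i ≤ 1 / 4) : 2 * ‖x‖ ≤ 3 / 4 := by
  have h1 : ‖x‖ ≤ 1 / 4 + 1 / 100 := by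
    rw [pi_norm_le_iff_of_nonneg (by norm_num)]
    intro i
    have h2 := abs_le.1 (abs_F_sub_le D k hx i)
    have h3 := cs_le k
    have h4 := hb i
    rw [Real.norm_eq_abs, abs_le]
    constructor <;> linarith
  linarith


end Crest.Agent.R217.Ctl559
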