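import Crest.Agent.R217.PCops_473
import Crest.Agent.R217.PCnat_473
import Crest.Agent.R217.Frame_52
import Mathlib
import Crest.Agent.R217.Obj_52
import Crest.Agent.R217.PCsh_473
import Crest.Agent.R217.Cut1_473
import Crest.Agent.R217.LocF_555

-- ▼ part R217/TForm_555
section

/-!
Row 217 (S0336), part C1, helper555: the total hermitian form of a Poincaré tuple.

`D_c = [[d,S],[0,d*]]` (cone of `S`), `Γ = [[u',Y],[T,u'*]]` a contraction with `XΓ*X = Γ`,
`Γ₁ = Γ D_c Γ`, `𝔸 = D_c + Γ₁` (`𝔸² = p`) and `tform x = 𝔸 X` is hermitian with inverse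
`tinv x = X 𝔸` in the corner of `diag(p,p)`.
-/

set_option autoImplicit false
set_option linter.unusedSectionVars false

namespace Crest.Agent.R217.TForm555

open Matrix PC473

section words

variable {A : Type*} [Ring A] [StarRing A] [Algebra ℂ A]

/-- `ξ = H S + S H*` -/
def xi (x : Tup A) : A := x.H * x.S + x.S * star x.H

/-- `u' = -H + ξ T / 2` -/
noncomputable def uu (x : Tup A) : A := -x.H + (1 / 2 : ℂ) • (xi x * x.T)

/-- `Y = -(H ξ + ξ H*) / 2` -/
noncomputable def yy (x : Tup A) : A := -((1 / 2 : ℂ) • (x.H * xi x + xi x * star x.H))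

/-- differential of the cone -/
def dc (x : Tup A) : Matrix (Fin 2) (Fin 2) A := !![x.d, x.S; 0, star x.d]

/-- contraction of the cone -/
noncomputable def gc (x : Tup A) : Matrix (Fin 2) (Fin 2) A := !![uu x, yy x; x.T, star (uu x)]

/-- the swap -/
def sw (x : Tup A) : Matrix (Fin 2) (Fin 2) A := !![0, x.p; x.p, 0]

/-- the unit of the corner -/
def pc (x : Tup A) : Matrix (Fin 2) (Fin 2) A := !![x.p, 0; 0, x.p]

/-- the odd operator -/
noncomputable def ac (x : Tup A) : Matrix (Fin 2) (Fin 2) A := dc x + gc x * dc x * gc x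

/-- the total hermitian form -/
noncomputable def tform (x : Tup A) : Matrix (Fin 2) (Fin 2) A := ac x * sw x

/-- its inverse -/
noncomputable def tinv (x : Tup A) : Matrix (Fin 2) (Fin 2) A := sw x * ac x

end words

section abs

variable {M : Type*} [Ring M] [StarRing M]

/-- abstract part -/
theorem abs_sq {p D G : M} (pD : p * D = D) (Dp : D * p = D) (Gp : G * p = G)
    (DD : D * D = 0) (h : D * G + G * D = p) :
    (D + G * D * G) * (D + G * D * G) = p := by
  have h1 : D * G * D = D := by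
    have : (D * G + G * D) * D = D := by rw [h, pD]
    rw [add_mul, mul_assoc G D D, DD, mul_zero, add_zero] at this
    exact this
  have h2 : D * G * G * D = 0 := by
    have e1 : D * G = p - G * D := eq_sub_of_add_eq h
    have e2 : D * G * G * D = (p - G * D) * G * D := by rw [e1]
    rw [e2, sub_mul, sub_mul]
    have e3 : p * G * D = (D * G + G * D) * G * D := by rw [h]
    have e4 : G * D * G * D = G * (D * G * D) := by noncomm_ring
    have e5 : p * (G * D) = G * D := by
      have : G * D * (G * D) = G * D := by rw [← mul_assoc, e4, h1]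
      have e6 : D * G * (G * D) = p * (G * D) - G * D := by
        rw [e1, sub_mul, this]
      have e7 : p * (D * G * (G * D)) = D * G * (G * D) := by
        simp only [← mul_assoc, pD]
      -- p * G * D = G * D follows from Gp and h
      have e8 : G * D = G * p * D := by rw [Gp]
      have e9 : p * p = p := by
        have a1 : D * G * (D * G) = D * G := by rw [← mul_assoc, h1]
        have a2 : G * D * (D * G) = 0 := by
          have : G * D * (D * G) = G * (D * D) * G := by noncomm_ring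
          rw [this, DD]; simp
        have a3 : p * (D * G) = D * G := by rw [← mul_assoc, pD]
        have a4 : G * D * p = G * D := by rw [mul_assoc, Dp]
        have a5 : D * G * p = D * G := by rw [mul_assoc, Gp]
        calc p * p = (D * G + G * D) * p := by rw [h]
          _ = p := by rw [add_mul, a5, a4, h]
      have a3 : p * (D * G) = D * G := by rw [← mul_assoc, pD]
      have : p * (D * G + G * D) = D * G + G * D := by rw [h, e9]
      rw [mul_add, a3] at this
      exact add_left_cancel this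
    rw [e4, h1, mul_assoc p G D, e5, sub_self]
  have e : (D + G * D * G) * (D + G * D * G)
      = D * D + (D * G * D) * G + G * (D * G * D) + G * (D * G * G * D) * G := by noncomm_ring
  rw [e, DD, h1, h2, mul_zero, zero_mul, zero_add, add_zero, h]

end abs

section main

variable {A : Type*} [Ring A] [StarRing A] [Algebra ℂ A] [StarModule ℂ A]
  {m : ℕ} {x : Tup A}

theorem sxi (hx : x.IsPC m) : star (xi x) = xi x := by
  unfold xi
  rw [star_add, star_mul, star_mul, star_star, hx.sS, add_comm]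

theorem star_half : star (1 / 2 : ℂ) = 1 / 2 := by
  simp

theorem suu (hx : x.IsPC m) : star (uu x) = -star x.H + (1 / 2 : ℂ) • (x.T * xi x) := by
  unfold uu
  rw [star_add, star_neg, star_smul, star_half, star_mul, hx.sT, sxi hx]

theorem syy (hx : x.IsPC m) : star (yy x) = yy x := by
  unfold yy
  rw [star_neg, star_smul, star_half, star_add, star_mul, star_mul, star_star, sxi hx, add_comm]

/-- `d ξ = ξ d*` -/
theorem dxi (hx : x.IsPC m) : x.d * xi x = xi x * star x.d := by
  unfold xi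
  have h1 : x.d * x.H = x.S * x.T - x.p - x.H * x.d := by
    rw [hx.ST]; abel
  have h2 : star x.H * star x.d = x.T * x.S - x.p - star x.d * star x.H := by
    rw [hx.TS]; abel
  have h3 : x.S * star x.d = -(x.d * x.S) := eq_neg_of_add_eq_zero_right hx.dS
  calc x.d * (x.H * x.S + x.S * star x.H)
      = x.d * x.H * x.S + x.d * x.S * star x.H := by noncomm_ring
    _ = (x.S * x.T - x.p - x.H * x.d) * x.S + x.d * x.S * star x.H := by rw [h1]
    _ = x.S * (x.T * x.S) - x.p * x.S - x.H * (x.d * x.S) + x.d * x.S * star x.H := by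
        noncomm_ring
    _ = x.S * (x.T * x.S) - x.S * x.p - x.H * (x.d * x.S) + x.d * x.S * star x.H := by
        rw [hx.pS, hx.Sp]
    _ = x.H * (x.S * star x.d) + x.S * (x.T * x.S - x.p - star x.d * star x.H) := by
        rw [mul_sub, mul_sub, ← mul_assoc x.S (star x.d), h3]; noncomm_ring
    _ = (x.H * x.S + x.S * star x.H) * star x.d := by rw [← h2]; noncomm_ring

theorem dc_sq (hx : x.IsPC m) : dc x * dc x = 0 := by
  unfold dc
  rw [mul_fin_two, zero_fin2]
  refine fin2_eq ?_ ?_ ?_ ?_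
  · rw [hx.dd]; simp
  · rw [hx.dS]
  · simp
  · rw [hx.sdd]; simp

theorem pc_dc (hx : x.IsPC m) : pc x * dc x = dc x := by
  unfold pc dc
  rw [mul_fin_two]
  refine fin2_eq ?_ ?_ ?_ ?_
  · rw [hx.pd]; simp
  · rw [hx.pS]; simp
  · simp
  · rw [hx.psd]; simp

theorem dc_pc (hx : x.IsPC m) : dc x * pc x = dc x := by
  unfold pc dc
  rw [mul_fin_two]
  refine fin2_eq ?_ ?_ ?_ ?_
  · rw [hx.dp]; simp
  · rw [hx.Sp]; simp
  · simp
  · rw [hx.sdp]; simp

theorem pxi (hx : x.IsPC m) : x.p * xi x = xi x := by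
  unfold xi; rw [mul_add, ← mul_assoc, ← mul_assoc, hx.pH, hx.pS]

theorem xip (hx : x.IsPC m) : xi x * x.p = xi x := by
  unfold xi; rw [add_mul, mul_assoc, mul_assoc, hx.Sp, hx.sHp]

theorem gc_pc (hx : x.IsPC m) : gc x * pc x = gc x := by
  unfold pc gc
  rw [mul_fin_two, suu hx]
  refine fin2_eq ?_ ?_ ?_ ?_
  · unfold uu
    rw [mul_zero, add_zero, add_mul, neg_mul, smul_mul_assoc, mul_assoc, hx.Tp, hx.Hp]
  · unfold yy
    rw [mul_zero, zero_add, neg_mul, smul_mul_assoc, add_mul, mul_assoc, mul_assoc, hx.sHp, xip hx]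
  · rw [mul_zero, add_zero, hx.Tp]
  · rw [mul_zero, zero_add, add_mul, neg_mul, smul_mul_assoc, mul_assoc, hx.sHp, xip hx]

theorem pc_gc (hx : x.IsPC m) : pc x * gc x = gc x := by
  unfold pc gc
  rw [mul_fin_two, suu hx]
  refine fin2_eq ?_ ?_ ?_ ?_
  · unfold uu
    rw [zero_mul, add_zero, mul_add, mul_neg, mul_smul_comm, ← mul_assoc, pxi hx, hx.pH]
  · unfold yy
    rw [zero_mul, add_zero, mul_neg, mul_smul_comm, mul_add, ← mul_assoc, ← mul_assoc, hx.pH,
      pxi hx]
  · rw [zero_mul, zero_add, hx.pT]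
  · rw [zero_mul, zero_add, mul_add, mul_neg, mul_smul_comm, ← mul_assoc, hx.psH, hx.pT]

theorem dc_gc (hx : x.IsPC m) : dc x * gc x + gc x * dc x = pc x := by
  have hd := dxi hx
  have h1 : star x.d * x.T = -(x.T * x.d) := eq_neg_of_add_eq_zero_right hx.Td
  have e11 : x.d * uu x + x.S * x.T + (uu x * x.d + yy x * 0) = x.p := by
    unfold uu
    have : x.d * (xi x * x.T) = -(xi x * x.T * x.d) := by
      rw [← mul_assoc, hd, mul_assoc, h1, mul_neg, mul_assoc]
    rw [mul_add, add_mul, mul_smul_comm, smul_mul_assoc, this, mul_neg, neg_mul, mul_zero,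
      add_zero, hx.ST, smul_neg]
    abel
  unfold dc gc pc
  rw [mul_fin_two, mul_fin_two, add_fin2]
  refine fin2_eq e11 ?_ ?_ ?_
  · -- d Y + S u'* + (u' S + Y d*) = 0
    rw [suu hx]
    unfold uu yy
    have hTS : x.T * x.S = x.p + star x.d * star x.H + star x.H * star x.d := hx.TS
    have hST := hx.ST
    have a1 : x.S * (x.T * xi x) = xi x + x.d * x.H * xi x + x.H * (xi x * star x.d) := by
      rw [← mul_assoc, hST, add_mul, add_mul, pxi hx, mul_assoc x.H x.d, hd]
    have a2 : xi x * x.T * x.S = xi x + x.d * xi x * star x.H + xi x * star x.H * star x.d := by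
      rw [mul_assoc, hTS, mul_add, mul_add, xip hx, ← mul_assoc, ← mul_assoc, ← hd]
    have a3 : x.d * (x.H * xi x + xi x * star x.H) = x.d * x.H * xi x + x.d * xi x * star x.H := by
      noncomm_ring
    have a4 : (x.H * xi x + xi x * star x.H) * star x.d
        = x.H * (xi x * star x.d) + xi x * star x.H * star x.d := by noncomm_ring
    have e : x.d * -((1 / 2 : ℂ) • (x.H * xi x + xi x * star x.H))
        + x.S * (-star x.H + (1 / 2 : ℂ) • (x.T * xi x))
        + ((-x.H + (1 / 2 : ℂ) • (xi x * x.T)) * x.S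
          + -((1 / 2 : ℂ) • (x.H * xi x + xi x * star x.H)) * star x.d)
        = (1 / 2 : ℂ) • (x.S * (x.T * xi x) + xi x * x.T * x.S
            - x.d * (x.H * xi x + xi x * star x.H)
            - (x.H * xi x + xi x * star x.H) * star x.d) - (x.H * x.S + x.S * star x.H) := by
      simp only [mul_add, add_mul, mul_neg, neg_mul, mul_smul_comm, smul_mul_assoc, smul_add,
        smul_sub]
      abel
    rw [e, a1, a2, a3, a4]
    have e2 : (xi x + x.d * x.H * xi x + x.H * (xi x * star x.d)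
        + (xi x + x.d * xi x * star x.H + xi x * star x.H * star x.d)
        - (x.d * x.H * xi x + x.d * xi x * star x.H)
        - (x.H * (xi x * star x.d) + xi x * star x.H * star x.d)) = xi x + xi x := by abel
    rw [e2, ← two_smul ℂ (xi x), smul_smul]
    have : (1 / 2 : ℂ) * 2 = 1 := by norm_num
    rw [this, one_smul]
    unfold xi; exact sub_self _
  · rw [zero_mul, zero_add, mul_zero, add_zero, h1]; abel
  · have := congrArg star e11
    simp only [star_add, star_mul, mul_zero, add_zero, hx.sS, hx.sT, hx.sp] at this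
    rw [zero_mul, zero_add, ← this]; abel

theorem sw_sw (hx : x.IsPC m) : sw x * sw x = pc x := by
  unfold sw pc
  rw [mul_fin_two]
  refine fin2_eq ?_ ?_ ?_ ?_ <;> simp [hx.pp]

theorem star_sw (hx : x.IsPC m) : star (sw x) = sw x := by
  unfold sw
  rw [star_fin2, hx.sp, star_zero]

theorem sw_sdc (hx : x.IsPC m) : sw x * star (dc x) = dc x * sw x := by
  unfold sw dc
  rw [star_fin2, mul_fin_two, mul_fin_two, star_zero, star_star, hx.sS]
  refine fin2_eq ?_ ?_ ?_ ?_
  · rw [hx.pS, hx.Sp]; simp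
  · rw [hx.pd, hx.dp]; simp
  · rw [hx.psd, hx.sdp]; simp
  · simp

theorem sw_sgc (hx : x.IsPC m) : sw x * star (gc x) = gc x * sw x := by
  have h1 := pc_gc hx
  have h2 := gc_pc hx
  unfold pc gc at h1 h2
  rw [mul_fin_two] at h1 h2
  have f1 : ∀ {a b c d a' b' c' d' : A}, (!![a, b; c, d] : Matrix (Fin 2) (Fin 2) A)
      = !![a', b'; c', d'] → a = a' ∧ b = b' ∧ c = c' ∧ d = d' := by
    intro a b c d a' b' c' d' h
    exact ⟨congrFun (congrFun h 0) 0, congrFun (congrFun h 0) 1, congrFun (congrFun h 1) 0,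
      congrFun (congrFun h 1) 1⟩
  obtain ⟨l1, l2, l3, l4⟩ := f1 h1
  obtain ⟨r1, r2, r3, r4⟩ := f1 h2
  simp only [mul_zero, zero_mul, add_zero, zero_add] at l1 l2 l3 l4 r1 r2 r3 r4
  unfold sw gc
  rw [star_fin2, mul_fin_two, mul_fin_two, star_star, hx.sT, syy hx]
  refine fin2_eq ?_ ?_ ?_ ?_
  · rw [zero_mul, zero_add, mul_zero, zero_add, l2, r2]
  · rw [zero_mul, zero_add, mul_zero, add_zero, l1, r1]
  · rw [zero_mul, add_zero, mul_zero, zero_add, l4, r4]
  · rw [zero_mul, add_zero, mul_zero, add_zero, l3, r3]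

theorem ac_sq (hx : x.IsPC m) : ac x * ac x = pc x :=
  abs_sq (pc_dc hx) (dc_pc hx) (gc_pc hx) (dc_sq hx) (dc_gc hx)

theorem pc_ac (hx : x.IsPC m) : pc x * ac x = ac x := by
  unfold ac
  rw [mul_add, pc_dc hx, ← mul_assoc, ← mul_assoc, pc_gc hx]

theorem ac_pc (hx : x.IsPC m) : ac x * pc x = ac x := by
  unfold ac
  rw [add_mul, dc_pc hx, mul_assoc, gc_pc hx]

theorem sw_sac (hx : x.IsPC m) : sw x * star (ac x) = ac x * sw x := by
  unfold ac
  rw [star_add, star_mul, star_mul, mul_add, sw_sdc hx]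
  have : sw x * (star (gc x) * (star (dc x) * star (gc x))) = gc x * dc x * gc x * sw x := by
    calc sw x * (star (gc x) * (star (dc x) * star (gc x)))
        = (sw x * star (gc x)) * (star (dc x) * star (gc x)) := by noncomm_ring
      _ = gc x * (sw x * star (dc x)) * star (gc x) := by rw [sw_sgc hx]; noncomm_ring
      _ = gc x * dc x * (sw x * star (gc x)) := by rw [sw_sdc hx]; noncomm_ring
      _ = gc x * dc x * gc x * sw x := by rw [sw_sgc hx]; noncomm_ring
  rw [this, add_mul]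

theorem pc_sw (hx : x.IsPC m) : pc x * sw x = sw x := by
  unfold pc sw
  rw [mul_fin_two]
  refine fin2_eq ?_ ?_ ?_ ?_ <;> simp [hx.pp]

theorem sw_pc (hx : x.IsPC m) : sw x * pc x = sw x := by
  unfold pc sw
  rw [mul_fin_two]
  refine fin2_eq ?_ ?_ ?_ ?_ <;> simp [hx.pp]

/-- the form is invertible in the corner -/
theorem tform_tinv (hx : x.IsPC m) : tform x * tinv x = pc x := by
  unfold tform tinv
  calc ac x * sw x * (sw x * ac x) = ac x * (sw x * sw x) * ac x := by noncomm_ring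
    _ = pc x := by rw [sw_sw hx, ac_pc hx, ac_sq hx]

theorem tinv_tform (hx : x.IsPC m) : tinv x * tform x = pc x := by
  unfold tform tinv
  calc sw x * ac x * (ac x * sw x) = sw x * (ac x * ac x) * sw x := by noncomm_ring
    _ = pc x := by rw [ac_sq hx, sw_pc hx, sw_sw hx]

theorem star_tform (hx : x.IsPC m) : star (tform x) = tform x := by
  unfold tform
  rw [star_mul, star_sw hx, sw_sac hx]

theorem star_pc (hx : x.IsPC m) : star (pc x) = pc x := by
  unfold pc; rw [star_fin2, hx.sp, star_zero]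

theorem star_tinv (hx : x.IsPC m) : star (tinv x) = tinv x := by
  unfold tinv
  have h1 : pc x * star (ac x) = star (ac x) := by
    have := congrArg star (ac_pc hx)
    rwa [star_mul, star_pc hx] at this
  rw [star_mul, star_sw hx, ← h1, ← sw_sw hx, mul_assoc (sw x), sw_sac hx, mul_assoc,
    mul_assoc, sw_sw hx, ac_pc hx]

theorem pc_tform (hx : x.IsPC m) : pc x * tform x = tform x := by
  unfold tform; rw [← mul_assoc, pc_ac hx]

theorem tform_pc (hx : x.IsPC m) : tform x * pc x = tform x := by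
  unfold tform; rw [mul_assoc, sw_pc hx]

theorem pc_tinv (hx : x.IsPC m) : pc x * tinv x = tinv x := by
  unfold tinv; rw [← mul_assoc, pc_sw hx]

theorem tinv_pc (hx : x.IsPC m) : tinv x * pc x = tinv x := by
  unfold tinv; rw [mul_assoc, ac_pc hx]

theorem pc_pc (hx : x.IsPC m) : pc x * pc x = pc x := by
  unfold pc
  rw [mul_fin_two]
  refine fin2_eq ?_ ?_ ?_ ?_ <;> simp [hx.pp]

end main

section nat

variable {A B : Type*} [Ring A] [StarRing A] [Algebra ℂ A] [Ring B] [StarRing B] [Algebra ℂ B]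

theorem map_fin2 {α β : Type*} (f : α → β) (a b c d : α) :
    (!![a, b; c, d] : Matrix (Fin 2) (Fin 2) α).map f = !![f a, f b; f c, f d] := by
  ext i j; fin_cases i <;> fin_cases j <;> rfl





/-- the negative of a Poincaré tuple -/
def ng {A : Type*} [Neg A] (x : Tup A) : Tup A := ⟨x.p, x.g, x.d, -x.S, -x.T, x.H⟩


/-- `diag(1,-1)` -/
def sgm : Matrix (Fin 2) (Fin 2) A := !![1, 0; 0, -1]

theorem tform_ng (x : Tup A) : tform (ng x) = -(sgm * tform x * sgm) := by
  have e1 : dc (ng x) = sgm * dc x * sgm := by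
    simp only [dc, ng, sgm, mul_fin_two, one_mul, zero_mul, mul_zero, mul_one, add_zero,
      zero_add, neg_mul, mul_neg, neg_neg]
  have e2 : gc (ng x) = sgm * gc x * sgm := by
    simp only [gc, uu, yy, xi, ng, sgm, mul_fin_two, one_mul, zero_mul, mul_zero, mul_one,
      add_zero, zero_add, neg_mul, mul_neg, neg_neg, star_add, star_neg,
      smul_neg, neg_zero, ← neg_add]
  have e3 : (sgm : Matrix (Fin 2) (Fin 2) A) * sgm = 1 := by
    simp only [sgm, mul_fin_two, one_fin_two, mul_zero, mul_one, add_zero,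
      zero_add, mul_neg, neg_neg, neg_zero]
  have e4 : sw (ng x) = -(sgm * sw x * sgm) := by
    simp only [sw, ng, sgm, mul_fin_two, one_mul, zero_mul, mul_zero, mul_one, add_zero,
      zero_add, neg_mul, mul_neg, neg_fin2, neg_neg, neg_zero]
  unfold tform ac
  rw [e1, e2, e4]
  have : ∀ a b : Matrix (Fin 2) (Fin 2) A, sgm * a * sgm * (sgm * b * sgm) = sgm * (a * b) * sgm := by
    intro a b
    calc sgm * a * sgm * (sgm * b * sgm) = sgm * a * (sgm * sgm) * b * sgm := by noncomm_ring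
      _ = sgm * (a * b) * sgm := by rw [e3]; noncomm_ring
  rw [this, this, mul_neg, ← add_mul, ← mul_add, this]

end nat

end Crest.Agent.R217.TForm555
end

-- ▼ part R217/TFormS_555
section

/-!
Row 217 (S0336), part C1, helper555: naturality of the total form under `Frame52.SHom`, negation
and conjugation in the conventions of `PCnat_473`.
-/

set_option autoImplicit false
set_option linter.unusedSectionVars false

namespace Crest.Agent.R217.TForm555

open Matrix PC473 Frame52

variable {A B : Type*} [Ring A] [StarRing A] [Algebra ℂ A] [StarModule ℂ A]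
  [Ring B] [StarRing B] [Algebra ℂ B] [StarModule ℂ B]

theorem tform_smap {φ : A → B} (h : SHom φ) (x : Tup A) :
    (tform x).map φ = tform (x.map φ) := by
  simp only [tform, ac, dc, gc, sw, TForm555.uu, yy, xi, Tup.map, mul_fin_two, add_fin2,
    TForm555.map_fin2, h.add, h.mul, h.neg, h.smul, h.star, h.zero]



/-- `tform (-x) = - diag(1,-1) (tform x) diag(1,-1)` -/
theorem tform_neg (x : Tup A) : tform x.neg = -(PC473.uu * tform x * star PC473.uu) := by
  have h : (star PC473.uu : Matrix (Fin 2) (Fin 2) A) = PC473.uu := by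
    rw [PC473.uu, star_fin2]; simp
  rw [h]
  exact tform_ng x



end Crest.Agent.R217.TForm555
end

-- ▼ part R217/Nat_52
section

/-!
Row 217 (S0336), part C, module M4: naturality of the cut operations.
-/

set_option autoImplicit false
set_option linter.unusedSectionVars false

namespace Crest.Agent.R217.Nat52

open Matrix PC473 Obj52

section flatten

variable {R : Type*} [Ring R] [StarRing R] [Algebra ℂ R] [StarModule ℂ R]
variable {J : Type*} [Fintype J] [DecidableEq J]

theorem fl_mul (M N : Matrix (Fin 2) (Fin 2) (Matrix J J R)) : fl (M * N) = fl M * fl N := by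
  ext ⟨a, i⟩ ⟨b, j⟩
  simp only [fl, Matrix.mul_apply, Fintype.sum_prod_type, Matrix.sum_apply]


/-- flattening as a star homomorphism -/
def flH : Matrix (Fin 2) (Fin 2) (Matrix J J R) →⋆ₙₐ[ℂ] Matrix (Fin 2 × J) (Fin 2 × J) R where
  toFun := fl
  map_smul' _ _ := rfl
  map_zero' := rfl
  map_add' _ _ := rfl
  map_mul' := fl_mul
  map_star' _ := rfl

@[simp] theorem flH_apply (M : Matrix (Fin 2) (Fin 2) (Matrix J J R)) : flH M = fl M := rfl

theorem fl_one : fl (1 : Matrix (Fin 2) (Fin 2) (Matrix J J R)) = 1 := by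
  ext ⟨a, i⟩ ⟨b, j⟩
  by_cases h : a = b
  · subst h
    by_cases h2 : i = j
    · subst h2; simp [fl]
    · simp [fl, h2]
  · simp [fl, h]

theorem fl_diag (d e : J → R) : fl !![diagonal d, 0; 0, diagonal e]
    = diagonal (fun a : Fin 2 × J => if a.1 = 0 then d a.2 else e a.2) := by
  ext ⟨a, i⟩ ⟨b, j⟩
  fin_cases a <;> fin_cases b <;> simp [fl, diagonal_apply]

end flatten

section maps

variable {R R' : Type*} [Ring R] [StarRing R] [Algebra ℂ R] [StarModule ℂ R]
  [Ring R'] [StarRing R'] [Algebra ℂ R'] [StarModule ℂ R']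
variable {J J' : Type*} [Fintype J] [DecidableEq J] [Fintype J'] [DecidableEq J']

/-- entrywise image -/
def mapH (J : Type*) [Fintype J] [DecidableEq J] (φ : R →⋆ₙₐ[ℂ] R') :
    Matrix J J R →⋆ₙₐ[ℂ] Matrix J J R' where
  toFun M := M.map φ
  map_smul' c M := by ext i j; simp
  map_zero' := by ext i j; simp
  map_add' M N := by ext i j; simp
  map_mul' M N := by ext i j; simp [Matrix.mul_apply]
  map_star' M := by ext i j; simp [Matrix.star_apply, map_star]

@[simp] theorem mapH_apply (φ : R →⋆ₙₐ[ℂ] R') (M : Matrix J J R) : mapH J φ M = M.map φ := rfl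

theorem coneG_map (F : R →⋆ₙₐ[ℂ] R') (z : Tup R) :
    (coneG z).map F = coneG (z.map F) := by
  simp only [coneG, map_fin2, Tup.map, map_neg, map_mul, map_sub, map_add, map_star]

theorem diag_map (F : R →⋆ₙₐ[ℂ] R') (P Q : R) :
    (!![P, 0; 0, Q] : Matrix (Fin 2) (Fin 2) R).map F = !![F P, 0; 0, F Q] := by
  rw [map_fin2, map_zero]

theorem cutG_map (F : R →⋆ₙₐ[ℂ] R') (z : Tup R) (P : R) :
    (cutG z P).map F = cutG (z.map F) (F P) := by
  unfold cutG
  rw [← coneG_map, ← diag_map]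
  exact ((mapH (Fin 2) F).map_mul' _ _).trans (congrArg (· * _) ((mapH (Fin 2) F).map_mul' _ _))

/-- a pair of compatible homomorphisms at levels `J` and `2 × J` -/
def Compat (φ : Matrix J J R →⋆ₙₐ[ℂ] Matrix J' J' R')
    (φ2 : Matrix (Fin 2 × J) (Fin 2 × J) R →⋆ₙₐ[ℂ] Matrix (Fin 2 × J') (Fin 2 × J') R') : Prop :=
  ∀ M : Matrix (Fin 2) (Fin 2) (Matrix J J R), φ2 (fl M) = fl (M.map φ)

variable {φ : Matrix J J R →⋆ₙₐ[ℂ] Matrix J' J' R'}
  {φ2 : Matrix (Fin 2 × J) (Fin 2 × J) R →⋆ₙₐ[ℂ] Matrix (Fin 2 × J') (Fin 2 × J') R'}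

theorem Compat.dblT (h : Compat φ φ2) (m : ℕ) (x : RPr (Matrix J J R)) :
    dblT m (x.map φ) = (dblT m x).map φ2 := by
  unfold Obj52.dblT
  rw [← dbl_map]
  simp only [Tup.map, Compat] at *
  simp only [h]

theorem Compat.cutR (h : Compat φ φ2) (m : ℕ) (z : Tup (Matrix J J R)) (P : Matrix J J R)
    (G Q : Matrix (Fin 2) (Fin 2) (Matrix J J R)) :
    cutR m (z.map φ) (φ P) (G.map φ) (Q.map φ) = (cutR m z P G Q).map φ2 := by
  unfold Obj52.cutR
  rw [← bdry_map]
  have := compr_map (mapH (Fin 2) φ) (bdry m z P) G Q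
  simp only [mapH_apply] at this
  rw [show (fun M : Matrix (Fin 2) (Fin 2) (Matrix J J R) => M.map φ)
    = ⇑(mapH (Fin 2) φ) from rfl, ← this]
  simp only [RPr.map, Compat] at *
  simp only [h, mapH_apply]

theorem compat_map (φ : R →⋆ₙₐ[ℂ] R') : Compat (mapH J φ) (mapH (Fin 2 × J) φ) := fun _ => rfl

end maps

section mono

variable {R : Type*} [Ring R] [StarRing R] [Algebra ℂ R] [StarModule ℂ R]
variable {J J' : Type*} [Fintype J] [DecidableEq J] [Fintype J'] [DecidableEq J']

/-- monomial isometry data: injection and unimodular phases -/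
structure Mon (J J' : Type*) where
  σ : J → J'
  inj : Function.Injective σ
  ε : J → ℂ
  unit : ∀ j, star (ε j) * ε j = 1

/-- the matrix of a monomial isometry -/
noncomputable def Mon.V (R : Type*) [Ring R] [StarRing R] [Algebra ℂ R] (v : Mon J J') :
    Matrix J' J R :=
  fun i j => if i = v.σ j then algebraMap ℂ R (v.ε j) else 0

theorem Mon.V_iso (v : Mon J J') : (v.V R)ᴴ * v.V R = 1 := by
  ext i j
  simp only [Matrix.mul_apply, Matrix.conjTranspose_apply, Mon.V]
  by_cases h : i = j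
  · subst h
    rw [Finset.sum_eq_single (v.σ i)]
    · simp only [if_true, Matrix.one_apply_eq]
      rw [← algebraMap_star_comm, ← map_mul, v.unit, map_one]
    · intro b _ hb; simp [hb]
    · simp
  · rw [Matrix.one_apply_ne h]
    refine Finset.sum_eq_zero fun k _ => ?_
    by_cases h1 : k = v.σ j
    · have h2 : k ≠ v.σ i := fun h3 => h (v.inj (h3.symm.trans h1))
      simp [h2]
    · simp [h1]

/-- conjugation by a monomial isometry -/
noncomputable def cjH (R : Type*) [Ring R] [StarRing R] [Algebra ℂ R] [StarModule ℂ R]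
    (v : Mon J J') : Matrix J J R →⋆ₙₐ[ℂ] Matrix J' J' R where
  toFun a := v.V R * a * (v.V R)ᴴ
  map_smul' c a := by simp
  map_zero' := by simp
  map_add' a b := by rw [Matrix.mul_add, Matrix.add_mul]
  map_mul' a b := by
    have := v.V_iso (R := R)
    calc v.V R * (a * b) * (v.V R)ᴴ = v.V R * a * (1 : Matrix J J R) * b * (v.V R)ᴴ := by
          simp only [mul_one, Matrix.mul_assoc]
      _ = _ := by rw [← this]; simp only [Matrix.mul_assoc]
  map_star' a := by
    simp only [star_eq_conjTranspose, conjTranspose_mul, conjTranspose_conjTranspose,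
      Matrix.mul_assoc]

theorem cjH_apply (v : Mon J J') (a : Matrix J J R) : cjH R v a = v.V R * a * (v.V R)ᴴ := rfl

/-- two copies of a monomial isometry -/
def Mon.two (v : Mon J J') : Mon (Fin 2 × J) (Fin 2 × J') where
  σ a := (a.1, v.σ a.2)
  inj := by
    rintro ⟨a, i⟩ ⟨b, j⟩ h
    simp only [Prod.mk.injEq] at h
    rw [h.1, v.inj h.2]
  ε a := v.ε a.2
  unit a := v.unit a.2

theorem Mon.two_V (v : Mon J J') (a b : Fin 2) (i : J') (j : J) :
    (v.two.V R) (a, i) (b, j) = if a = b then v.V R i j else 0 := by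
  simp only [Mon.V, Mon.two, Prod.mk.injEq]
  by_cases h : a = b
  · simp [h]
  · simp [h]

theorem compat_cj (v : Mon J J') : Compat (cjH R v) (cjH R v.two) := by
  intro M
  ext ⟨a, i⟩ ⟨b, j⟩
  simp only [cjH_apply, Matrix.mul_apply, Matrix.conjTranspose_apply, Fintype.sum_prod_type,
    Mon.two_V, fl, Matrix.map_apply, apply_ite star, star_zero, mul_ite, mul_zero, ite_mul, zero_mul]
  have : ∀ x : J, ∑ x1 : Fin 2, ∑ x2 : J, (if a = x1 then v.V R i x2 * M x1 b x2 x else 0)
      = ∑ x2 : J, v.V R i x2 * M a b x2 x := by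
    intro x
    rw [Finset.sum_eq_single a]
    · simp
    · intro c _ hc; simp [Ne.symm hc]
    · simp
  rw [Finset.sum_eq_single b]
  · refine Finset.sum_congr rfl fun x _ => ?_
    rw [if_pos rfl, this x]
  · intro c _ hc; simp [Ne.symm hc]
  · simp

theorem V_PU {κ : Type*} (F : Frame κ R) (k : κ) (v : Mon J J') {t : J → ℝ} {t' : J' → ℝ}
    (h : ∀ j, t' (v.σ j) = t j) : v.V R * PU F k t = PU F k t' * v.V R := by
  ext i j
  simp only [PU, Matrix.mul_diagonal, Matrix.diagonal_mul, Mon.V]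
  by_cases hi : i = v.σ j
  · subst hi
    rw [if_pos rfl, h j, ← Algebra.commutes]
  · simp [hi]

theorem PU_star {κ : Type*} (F : Frame κ R) (k : κ) (t : J → ℝ) :
    (PU F k t)ᴴ = PU F k t := by
  simp only [PU, Matrix.diagonal_conjTranspose]
  congr 1
  ext j
  exact F.pu_star k (t j)

theorem cj_PU_left {κ : Type*} (F : Frame κ R) (k : κ) (v : Mon J J') {t : J → ℝ} {t' : J' → ℝ}
    (h : ∀ j, t' (v.σ j) = t j) (a : Matrix J J R) :
    cjH R v (PU F k t * a) = PU F k t' * cjH R v a := by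
  simp only [cjH_apply]
  rw [← Matrix.mul_assoc, V_PU F k v h]
  simp only [Matrix.mul_assoc]

theorem cj_PU_right {κ : Type*} (F : Frame κ R) (k : κ) (v : Mon J J') {t : J → ℝ} {t' : J' → ℝ}
    (h : ∀ j, t' (v.σ j) = t j) (a : Matrix J J R) :
    cjH R v (a * PU F k t) = cjH R v a * PU F k t' := by
  have h1 := cj_PU_left F k v h aᴴ
  have h2 := congrArg conjTranspose h1
  simp only [cjH_apply, conjTranspose_mul, conjTranspose_conjTranspose, PU_star] at h2 ⊢
  simpa only [Matrix.mul_assoc] using h2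

end mono

section punat

variable {κ : Type*} {R R' : Type*} [Ring R] [StarRing R] [Algebra ℂ R] [StarModule ℂ R]
  [Ring R'] [StarRing R'] [Algebra ℂ R'] [StarModule ℂ R']
variable {J J' : Type*} [Fintype J] [DecidableEq J] [Fintype J'] [DecidableEq J']

/-- compatibility with the control projections (thresholds functions of the degree) -/
def PUNat (F : Frame κ R) (F' : Frame κ R') (deg : J → ℤ) (deg' : J' → ℤ)
    (φ : Matrix J J R →⋆ₙₐ[ℂ] Matrix J' J' R') : Prop :=
  ∀ (k : κ) (f : ℤ → ℝ) (a : Matrix J J R),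
    φ (a * PU F k (fun j => f (deg j))) = φ a * PU F' k (fun j => f (deg' j))

theorem PU_fl (F : Frame κ R) (k : κ) (t : Fin 2 × J → ℝ) :
    PU F k t = fl !![PU F k (fun j => t (0, j)), 0; 0, PU F k (fun j => t (1, j))] := by
  unfold PU
  rw [fl_diag]
  congr 1
  ext ⟨a, j⟩
  fin_cases a <;> simp

theorem fin2_mul_diag {A : Type*} [Ring A] (M : Matrix (Fin 2) (Fin 2) A) (d e : A) :
    M * !![d, 0; 0, e] = !![M 0 0 * d, M 0 1 * e; M 1 0 * d, M 1 1 * e] := by
  ext i j; fin_cases i <;> fin_cases j <;> simp [Matrix.mul_apply, Fin.sum_univ_two]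

variable {φ : Matrix J J R →⋆ₙₐ[ℂ] Matrix J' J' R'}
  {φ2 : Matrix (Fin 2 × J) (Fin 2 × J) R →⋆ₙₐ[ℂ] Matrix (Fin 2 × J') (Fin 2 × J') R'}
  {φ3 : Matrix (Fin 2 × (Fin 2 × J)) (Fin 2 × (Fin 2 × J)) R →⋆ₙₐ[ℂ]
    Matrix (Fin 2 × (Fin 2 × J')) (Fin 2 × (Fin 2 × J')) R'}
  {F : Frame κ R} {F' : Frame κ R'} {deg : J → ℤ} {deg' : J' → ℤ}

theorem PUNat.two (α : Fin 2 → ℤ → ℤ) (h : Compat φ φ2) (hp : PUNat F F' deg deg' φ) :
    PUNat F F' (fun a : Fin 2 × J => α a.1 (deg a.2)) (fun a : Fin 2 × J' => α a.1 (deg' a.2))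
      φ2 := by
  intro k f a
  obtain ⟨M, rfl⟩ : ∃ M, a = fl M := ⟨fun i j => fun x y => a (i, x) (j, y), rfl⟩
  have e0 := hp k (fun n => f (α 0 n))
  have e1 := hp k (fun n => f (α 1 n))
  rw [PU_fl, ← fl_mul, h, h, PU_fl, ← fl_mul, fin2_mul_diag, fin2_mul_diag]
  congr 1
  ext i j : 1
  fin_cases i <;> fin_cases j <;> simp [e0, e1]

theorem PUNat.degD (m : ℕ) (h : Compat φ φ2) (hp : PUNat F F' deg deg' φ) :
    PUNat F F' (degD m deg) (degD m deg') φ2 :=
  hp.two (fun a n => if a = 0 then n else m - n) h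

theorem PUNat.degB (m : ℕ) (h : Compat φ φ2) (hp : PUNat F F' deg deg' φ) :
    PUNat F F' (degB m deg) (degB m deg') φ2 :=
  hp.two (fun a n => if a = 0 then n - 1 else (m + 1) - n) h

theorem wallP_nat (hp : PUNat F F' deg deg' φ) (k : κ) (c δ : ℝ) (p : Matrix J J R) :
    φ (wallP F k c δ deg p) = wallP F' k c δ deg' (φ p) := by
  unfold wallP
  rw [mul_sub, mul_one, mul_sub, mul_one, map_sub]
  congr 1
  exact hp k (fun n => c - δ * Real.arctan n) p

theorem stripQ_nat (hp : PUNat F F' deg deg' φ) (k : κ) (b δ : ℝ) (m : ℕ) (P : Matrix J J R) :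
    (stripQ F k b δ m deg P).map φ = stripQ F' k b δ m deg' (φ P) := by
  unfold stripQ
  rw [diag_map]
  have e0 := hp k (fun n => b - δ * Real.arctan (n - 1 : ℤ)) P
  have e1 := hp k (fun n => b - δ * Real.arctan ((m + 1) - n : ℤ)) P
  refine fin2_eq ?_ rfl rfl ?_
  · exact e0
  · exact e1

theorem cutT_nat (h : Compat φ φ2) (hp : PUNat F F' deg deg' φ) (a : Par κ) (m : ℕ)
    (z : Tup (Matrix J J R)) :
    cutT F' a m deg' (z.map φ) = (cutT F a m deg z).map φ2 := by
  unfold cutT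
  have e1 : (z.map φ).p = φ z.p := rfl
  rw [e1, ← wallP_nat hp, ← stripQ_nat hp, ← cutG_map, h.cutR]

theorem cut_nat (h : Compat φ φ2) (h2 : Compat φ2 φ3) (hp : PUNat F F' deg deg' φ) (a : Par κ)
    (m : ℕ) (x : RPr (Matrix J J R)) :
    cut F' a m deg' (x.map φ) = (cut F a m deg x).map φ3 := by
  unfold cut
  rw [h.dblT, cutT_nat h2 (hp.degD (m + 1) h)]

theorem punat_cj (F : Frame κ R) (v : Mon J J') {deg : J → ℤ} {deg' : J' → ℤ}
    (h : ∀ j, deg' (v.σ j) = deg j) : PUNat F F deg deg' (cjH R v) := by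
  intro k f a
  exact cj_PU_right F k v (fun j => by rw [h j]) a

theorem punat_map {ϕ : R →⋆ₙₐ[ℂ] R'} (h : ∀ k c, ϕ (F.pu k c) = F'.pu k c) (deg : J → ℤ) :
    PUNat F F' deg deg (mapH J ϕ) := by
  intro k f a
  rw [map_mul]
  congr 1
  ext i j
  simp only [mapH_apply, PU, Matrix.map_apply, diagonal_apply]
  split_ifs <;> simp [h]

end punat

section redn

variable {κ : Type*} {R R' : Type*} [Ring R] [StarRing R] [Algebra ℂ R] [StarModule ℂ R]
  [Ring R'] [StarRing R'] [Algebra ℂ R'] [StarModule ℂ R']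

/-- entrywise image of a bundled object -/
def mapO (ϕ : R →⋆ₙₐ[ℂ] R') (X : Obj R) : Obj R' := ⟨X.J, X.ft, X.de, X.deg, X.x.map (mapH X.J ϕ)⟩

theorem red_map {F : Frame κ R} {F' : Frame κ R'} {ϕ : R →⋆ₙₐ[ℂ] R'}
    (h : ∀ k c, ϕ (F.pu k c) = F'.pu k c) (l : List (Par κ)) (X : Obj R) :
    red F' l (mapO ϕ X) = mapO ϕ (red F l X) := by
  induction l generalizing X with
  | nil => rfl
  | cons a l ih =>
    show red F' l (cutO F' a l.length (mapO ϕ X)) = mapO ϕ (red F l (cutO F a l.length X))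
    rw [← ih]
    congr 1
    unfold cutO mapO
    congr 1
    exact cut_nat (compat_map ϕ) (compat_map ϕ) (punat_map h X.deg) a l.length X.x

/-- two objects related by a monomial isometry -/
def Iso (X Y : Obj R) : Prop :=
  ∃ v : Mon X.J Y.J, (∀ j, Y.deg (v.σ j) = X.deg j) ∧ Y.x = X.x.map (cjH R v)

theorem red_iso (F : Frame κ R) (l : List (Par κ)) {X Y : Obj R} (h : Iso X Y) :
    Iso (red F l X) (red F l Y) := by
  induction l generalizing X Y with
  | nil => exact h
  | cons a l ih =>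
    apply ih
    obtain ⟨v, h1, h2⟩ := h
    refine ⟨v.two.two, ?_, ?_⟩
    · rintro ⟨i, j, x⟩
      simp [cutO, Mon.two, degB, degD, h1]
    · show cut F a l.length Y.deg Y.x = _
      rw [h2]
      exact cut_nat (compat_cj v) (compat_cj v.two) (punat_cj F v h1) a l.length X.x

end redn

end Crest.Agent.R217.Nat52
end

-- ▼ part R217/Sum_52
section

/-!
Row 217 (S0336), part C, module M4: sums and negatives of objects.
-/

set_option autoImplicit false
set_option linter.unusedSectionVars false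

namespace Crest.Agent.R217.Sum52

open Matrix PC473 Obj52 Nat52

section pair

variable {A B : Type*}

/-- pair of regular pairs over the product ring -/
def pairR (x y : RPr A) : RPr (A × A) :=
  ⟨(x.p, y.p), (x.g, y.g), (x.d, y.d), (x.f, y.f), (x.q, y.q), (x.h, y.h)⟩

/-- pair of tuples over the product ring -/
def pairT (x y : Tup A) : Tup (A × A) :=
  ⟨(x.p, y.p), (x.g, y.g), (x.d, y.d), (x.S, y.S), (x.T, y.T), (x.H, y.H)⟩

/-- pair of matrices -/
def pairM {I : Type*} (G H : Matrix I I A) : Matrix I I (A × A) := fun i j => (G i j, H i j)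

end pair

section sum

variable {R : Type*} [Ring R] [StarRing R] [Algebra ℂ R] [StarModule ℂ R]
variable {J : Type*} [Fintype J] [DecidableEq J]

/-- block sum -/
def sm (a b : Matrix J J R) : Matrix (Fin 2 × J) (Fin 2 × J) R := fl !![a, 0; 0, b]

theorem sm_mul (a b c d : Matrix J J R) : sm a b * sm c d = sm (a * c) (b * d) := by
  unfold sm
  rw [← fl_mul, mul_fin_two]
  simp

theorem sm_add (a b c d : Matrix J J R) : sm a b + sm c d = sm (a + c) (b + d) := by
  ext ⟨i, x⟩ ⟨j, y⟩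
  fin_cases i <;> fin_cases j <;> simp [sm, fl]

theorem sm_sub (a b c d : Matrix J J R) : sm a b - sm c d = sm (a - c) (b - d) := by
  ext ⟨i, x⟩ ⟨j, y⟩
  fin_cases i <;> fin_cases j <;> simp [sm, fl]

theorem sm_star (a b : Matrix J J R) : star (sm a b) = sm (star a) (star b) := by
  ext ⟨i, x⟩ ⟨j, y⟩
  fin_cases i <;> fin_cases j <;> simp [sm, fl, star_apply]

theorem sm_one : sm (1 : Matrix J J R) 1 = 1 := by
  unfold sm
  rw [← fl_one]
  congr 1
  ext i j : 1
  fin_cases i <;> fin_cases j <;> simp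

/-- block sum as a star homomorphism of the product -/
def smH : (Matrix J J R × Matrix J J R) →⋆ₙₐ[ℂ] Matrix (Fin 2 × J) (Fin 2 × J) R where
  toFun ab := sm ab.1 ab.2
  map_smul' c ab := by
    ext ⟨i, x⟩ ⟨j, y⟩
    fin_cases i <;> fin_cases j <;> simp [sm, fl]
  map_zero' := by
    ext ⟨i, x⟩ ⟨j, y⟩
    fin_cases i <;> fin_cases j <;> simp [sm, fl]
  map_add' a b := (sm_add _ _ _ _).symm
  map_mul' a b := (sm_mul _ _ _ _).symm
  map_star' a := (sm_star _ _).symm

@[simp] theorem smH_apply (ab : Matrix J J R × Matrix J J R) : smH ab = sm ab.1 ab.2 := rfl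

/-- sum of regular pairs over the same index type -/
def sumR (x y : RPr (Matrix J J R)) : RPr (Matrix (Fin 2 × J) (Fin 2 × J) R) :=
  (pairR x y).map smH

/-- sum of tuples over the same index type -/
def sumT (x y : Tup (Matrix J J R)) : Tup (Matrix (Fin 2 × J) (Fin 2 × J) R) :=
  (pairT x y).map smH

/-- sum of 2×2 matrices of matrices -/
def sumM (G H : Matrix (Fin 2) (Fin 2) (Matrix J J R)) :
    Matrix (Fin 2) (Fin 2) (Matrix (Fin 2 × J) (Fin 2 × J) R) :=
  (pairM G H).map smH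

/-- swap of the first two factors -/
def sw (J : Type*) : Mon (Fin 2 × (Fin 2 × J)) (Fin 2 × (Fin 2 × J)) where
  σ a := (a.2.1, (a.1, a.2.2))
  inj := by
    rintro ⟨a, b, i⟩ ⟨a', b', i'⟩ h
    simp only [Prod.mk.injEq] at h
    obtain ⟨h1, h2, h3⟩ := h
    rw [h1, h2, h3]
  ε _ := 1
  unit _ := by simp

theorem cj_apply_σ {J J' : Type*} [Fintype J] [DecidableEq J] [Fintype J'] [DecidableEq J']
    (v : Mon J J') (a : Matrix J J R) (i j : J) :
    cjH R v a (v.σ i) (v.σ j) = (v.ε i * star (v.ε j)) • a i j := by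
  simp only [cjH_apply, Matrix.mul_apply, Matrix.conjTranspose_apply, Mon.V]
  rw [Finset.sum_eq_single j]
  · rw [Finset.sum_eq_single i]
    · simp only [if_true]
      rw [← algebraMap_star_comm, ← Algebra.commutes, ← mul_assoc, ← map_mul, Algebra.smul_def,
        mul_comm]
    · intro b _ hb
      rw [if_neg (fun h => hb (v.inj h).symm), zero_mul]
    · simp
  · intro b _ hb
    rw [if_neg (fun h => hb (v.inj h).symm), star_zero, mul_zero]
  · simp

theorem fl_smH (M : Matrix (Fin 2) (Fin 2) (Matrix J J R × Matrix J J R)) :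
    fl (M.map smH) = cjH R (sw J) (sm (fl (M.map Prod.fst)) (fl (M.map Prod.snd))) := by
  funext x y
  obtain ⟨a, b, i⟩ := x
  obtain ⟨c, d, j⟩ := y
  refine Eq.trans ?_ (cj_apply_σ (sw J) (sm (fl (M.map Prod.fst)) (fl (M.map Prod.snd)))
    (b, a, i) (d, c, j)).symm
  simp only [fl, sm, sw, star_one, mul_one, one_smul]
  fin_cases b <;> fin_cases d <;> simp [sm, fl]


theorem dblT_sum (m : ℕ) (x y : RPr (Matrix J J R)) :
    dblT m (sumR x y) = (sumT (dblT m x) (dblT m y)).map (cjH R (sw J)) := by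
  unfold dblT sumR
  rw [← dbl_map]
  have h1 := dbl_map (NonUnitalStarAlgHom.fst ℂ (Matrix J J R) (Matrix J J R)) m (pairR x y)
  have h2 := dbl_map (NonUnitalStarAlgHom.snd ℂ (Matrix J J R) (Matrix J J R)) m (pairR x y)
  have e1 : (pairR x y).map (NonUnitalStarAlgHom.fst ℂ (Matrix J J R) (Matrix J J R)) = x := rfl
  have e2 : (pairR x y).map (NonUnitalStarAlgHom.snd ℂ (Matrix J J R) (Matrix J J R)) = y := rfl
  rw [e1] at h1
  rw [e2] at h2
  rw [← h1, ← h2]
  generalize dbl m (pairR x y) = Z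
  simp only [Tup.map, sumT, pairT, smH_apply, fl_smH]
  rfl


theorem cutR_sum (m : ℕ) (z w : Tup (Matrix J J R)) (P P' : Matrix J J R)
    (G Q G' Q' : Matrix (Fin 2) (Fin 2) (Matrix J J R)) :
    cutR m (sumT z w) (sm P P') (sumM G G') (sumM Q Q') =
      (sumR (cutR m z P G Q) (cutR m w P' G' Q')).map (cjH R (sw J)) := by
  unfold cutR sumT sumM
  have e0 : sm P P' = smH (P, P') := rfl
  rw [e0, ← bdry_map]
  have := compr_map (mapH (Fin 2) (smH (R := R) (J := J)))
    (bdry m (pairT z w) (P, P')) (pairM G G') (pairM Q Q')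
  simp only [mapH_apply] at this
  rw [show (fun M : Matrix (Fin 2) (Fin 2) (Matrix J J R × Matrix J J R) => M.map smH)
    = ⇑(mapH (Fin 2) (smH (R := R) (J := J))) from rfl, ← this]
  have f1 := compr_map (mapH (Fin 2) (NonUnitalStarAlgHom.fst ℂ (Matrix J J R) (Matrix J J R)))
    (bdry m (pairT z w) (P, P')) (pairM G G') (pairM Q Q')
  have f2 := compr_map (mapH (Fin 2) (NonUnitalStarAlgHom.snd ℂ (Matrix J J R) (Matrix J J R)))
    (bdry m (pairT z w) (P, P')) (pairM G G') (pairM Q Q')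
  have g1 := bdry_map (NonUnitalStarAlgHom.fst ℂ (Matrix J J R) (Matrix J J R)) m
    (pairT z w) (P, P')
  have g2 := bdry_map (NonUnitalStarAlgHom.snd ℂ (Matrix J J R) (Matrix J J R)) m
    (pairT z w) (P, P')
  have e1 : (bdry m (pairT z w) (P, P')).map
      (mapH (Fin 2) (NonUnitalStarAlgHom.fst ℂ (Matrix J J R) (Matrix J J R))) = bdry m z P := g1
  have e2 : (bdry m (pairT z w) (P, P')).map
      (mapH (Fin 2) (NonUnitalStarAlgHom.snd ℂ (Matrix J J R) (Matrix J J R))) = bdry m w P' := g2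
  rw [e1] at f1
  rw [e2] at f2
  have k1 : mapH (Fin 2) (NonUnitalStarAlgHom.fst ℂ (Matrix J J R) (Matrix J J R)) (pairM G G')
    = G := rfl
  have k2 : mapH (Fin 2) (NonUnitalStarAlgHom.fst ℂ (Matrix J J R) (Matrix J J R)) (pairM Q Q')
    = Q := rfl
  have k3 : mapH (Fin 2) (NonUnitalStarAlgHom.snd ℂ (Matrix J J R) (Matrix J J R)) (pairM G G')
    = G' := rfl
  have k4 : mapH (Fin 2) (NonUnitalStarAlgHom.snd ℂ (Matrix J J R) (Matrix J J R)) (pairM Q Q')
    = Q' := rfl
  rw [k1, k2] at f1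
  rw [k3, k4] at f2
  rw [← f1, ← f2]
  generalize compr (bdry m (pairT z w) (P, P')) (pairM G G') (pairM Q Q') = Z
  simp only [RPr.map, sumR, pairR, smH_apply, fl_smH, mapH_apply]
  rfl

end sum

section sumcut

variable {κ : Type*} {R : Type*} [Ring R] [StarRing R] [Algebra ℂ R] [StarModule ℂ R]
variable {J : Type*} [Fintype J] [DecidableEq J]

/-- degree of the sum -/
def deg2 (deg : J → ℤ) : Fin 2 × J → ℤ := fun a => deg a.2

theorem sm_PU (F : Frame κ R) (k : κ) (t : J → ℝ) :
    PU F k (fun a : Fin 2 × J => t a.2) = sm (PU F k t) (PU F k t) := by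
  rw [PU_fl]; rfl

theorem wallP_sum (F : Frame κ R) (k : κ) (c δ : ℝ) (deg : J → ℤ) (p p' : Matrix J J R) :
    wallP F k c δ (deg2 deg) (sm p p') = sm (wallP F k c δ deg p) (wallP F k c δ deg p') := by
  unfold wallP
  rw [show PU F k (thr c δ (deg2 deg)) = sm (PU F k (thr c δ deg)) (PU F k (thr c δ deg)) from
    sm_PU F k (thr c δ deg), ← sm_one, sm_sub, sm_mul]

theorem sumM_diag (a b a' b' : Matrix J J R) :
    sumM !![a, 0; 0, b] !![a', 0; 0, b'] = !![sm a a', 0; 0, sm b b'] := by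
  ext i j : 1
  have h0 : sm (0 : Matrix J J R) 0 = 0 := smH.map_zero'
  fin_cases i <;> fin_cases j <;> simp [sumM, pairM, h0]

theorem stripQ_sum (F : Frame κ R) (k : κ) (b δ : ℝ) (m : ℕ) (deg : J → ℤ)
    (P P' : Matrix J J R) :
    stripQ F k b δ m (deg2 deg) (sm P P') = sumM (stripQ F k b δ m deg P)
      (stripQ F k b δ m deg P') := by
  unfold stripQ
  rw [sumM_diag, ← sm_mul, ← sm_mul]
  refine fin2_eq ?_ rfl rfl ?_
  · rw [← sm_PU]; rfl
  · rw [← sm_PU]; rfl

theorem cutG_sum (z w : Tup (Matrix J J R)) (P P' : Matrix J J R) :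
    cutG (sumT z w) (sm P P') = sumM (cutG z P) (cutG w P') := by
  have e0 : sm P P' = smH (P, P') := rfl
  unfold sumT
  rw [e0, ← cutG_map]
  have f1 := cutG_map (NonUnitalStarAlgHom.fst ℂ (Matrix J J R) (Matrix J J R)) (pairT z w) (P, P')
  have f2 := cutG_map (NonUnitalStarAlgHom.snd ℂ (Matrix J J R) (Matrix J J R)) (pairT z w) (P, P')
  have e1 : cutG ((pairT z w).map (NonUnitalStarAlgHom.fst ℂ (Matrix J J R) (Matrix J J R)))
    (NonUnitalStarAlgHom.fst ℂ (Matrix J J R) (Matrix J J R) (P, P')) = cutG z P := rfl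
  have e2 : cutG ((pairT z w).map (NonUnitalStarAlgHom.snd ℂ (Matrix J J R) (Matrix J J R)))
    (NonUnitalStarAlgHom.snd ℂ (Matrix J J R) (Matrix J J R) (P, P')) = cutG w P' := rfl
  rw [e1] at f1
  rw [e2] at f2
  unfold sumM
  congr 1
  rw [← f1, ← f2]
  rfl

theorem cutT_sum (F : Frame κ R) (a : Par κ) (m : ℕ) (deg : J → ℤ) (z w : Tup (Matrix J J R)) :
    cutT F a m (deg2 deg) (sumT z w) =
      (sumR (cutT F a m deg z) (cutT F a m deg w)).map (cjH R (sw J)) := by
  unfold cutT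
  rw [show (sumT z w).p = sm z.p w.p from rfl, wallP_sum, stripQ_sum, cutG_sum, cutR_sum]

theorem cut_sum (F : Frame κ R) (a : Par κ) (m : ℕ) (deg : J → ℤ) (x y : RPr (Matrix J J R)) :
    cut F a m (deg2 deg) (sumR x y) =
      ((sumR (cut F a m deg x) (cut F a m deg y)).map (cjH R (sw (Fin 2 × J)))).map
        (cjH R (sw J).two) := by
  unfold cut
  rw [← cutT_sum, dblT_sum]
  exact cutT_nat (compat_cj (sw J)) (punat_cj F (sw J) (fun _ => rfl)) a m _

end sumcut

section neg

variable {κ : Type*} {R : Type*} [Ring R] [StarRing R] [Algebra ℂ R] [StarModule ℂ R]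
variable {J : Type*} [Fintype J] [DecidableEq J]

/-- the sign `diag(1,-1)` -/
def sgn (J : Type*) : Mon (Fin 2 × J) (Fin 2 × J) where
  σ a := a
  inj := fun _ _ h => h
  ε a := if a.1 = 0 then 1 else -1
  unit a := by split_ifs <;> simp

theorem cj_id_apply (v : Mon J J) (hv : ∀ j, v.σ j = j) (a : Matrix J J R) (i j : J) :
    cjH R v a i j = (v.ε i * star (v.ε j)) • a i j := by
  have := cj_apply_σ v a i j
  rwa [hv, hv] at this

theorem fl_uu (M : Matrix (Fin 2) (Fin 2) (Matrix J J R)) :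
    fl (uu * M * star uu) = cjH R (sgn J) (fl M) := by
  obtain ⟨a, b, c, d, rfl⟩ : ∃ a b c d, M = !![a, b; c, d] := ⟨M 0 0, M 0 1, M 1 0, M 1 1, by
    ext i j; fin_cases i <;> fin_cases j <;> rfl⟩
  rw [uu_conj]
  funext x y
  obtain ⟨i, x⟩ := x
  obtain ⟨j, y⟩ := y
  rw [cj_id_apply (sgn J) (fun _ => rfl)]
  simp only [sgn]
  fin_cases i <;> fin_cases j <;> simp [fl]

theorem dblT_neg (m : ℕ) (x : RPr (Matrix J J R)) :
    dblT m x.neg = ((dblT m x).map (cjH R (sgn J))).neg := by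
  unfold dblT
  rw [dbl_neg]
  simp only [Tup.neg, Tup.conj, Tup.map, ← fl_uu]
  rfl

theorem uu_diag (a b : Matrix J J R) : uu * (!![a, 0; 0, b] : Matrix (Fin 2) (Fin 2) _) * star uu
    = !![a, 0; 0, b] := by
  rw [uu_conj]; simp

theorem cutR_neg (m : ℕ) (z : Tup (Matrix J J R)) (P : Matrix J J R)
    (G Q : Matrix (Fin 2) (Fin 2) (Matrix J J R)) :
    cutR m z.neg P (uu * G * star uu) (uu * Q * star uu) =
      ((cutR m z P G Q).map (cjH R (sgn J))).neg := by
  unfold cutR
  rw [bdry_neg, compr_neg]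
  have h := conj_shom (u := (uu : Matrix (Fin 2) (Fin 2) (Matrix J J R)))
      (by rw [uu_star, uu_mul])
  have e : compr ((bdry m z P).conj uu) (uu * G * star uu) (uu * Q * star uu)
      = (compr (bdry m z P) G Q).conj uu := (compr_sh h (bdry m z P) G Q).symm
  rw [e]
  simp only [RPr.neg, RPr.conj, RPr.map, ← fl_uu]
  rfl

theorem wallP_tneg (F : Frame κ R) (k : κ) (c δ : ℝ) (deg : J → ℤ) (z : Tup (Matrix J J R)) :
    wallP F k c δ deg z.neg.p = wallP F k c δ deg z.p := rfl

theorem cutT_neg (F : Frame κ R) (a : Par κ) (m : ℕ) (deg : J → ℤ) (z : Tup (Matrix J J R)) :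
    cutT F a m deg z.neg = ((cutT F a m deg z).map (cjH R (sgn J))).neg := by
  unfold cutT
  rw [wallP_tneg, cutG_neg, ← cutR_neg]
  congr 1
  unfold stripQ
  rw [uu_diag]

end neg

end Crest.Agent.R217.Sum52
end

-- ▼ part R217/Sig_52

/-!
Row 217 (S0336), part C, module M4: the signature `sig F L l X` of an object.
-/

set_option autoImplicit false
set_option linter.unusedSectionVars false

namespace Crest.Agent.R217.Sig52

open Matrix PC473 Obj52 Nat52 Sum52 TForm555 LocF555

section mon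

variable {R : Type*} [Ring R] [StarRing R] [Algebra ℂ R] [StarModule ℂ R]
variable {J J' J'' : Type*} [Fintype J] [DecidableEq J] [Fintype J'] [DecidableEq J']
  [Fintype J''] [DecidableEq J'']

/-- composition of monomial isometries -/
def _root_.Crest.Agent.R217.Nat52.Mon.trans (v : Mon J J') (w : Mon J' J'') : Mon J J'' where
  σ j := w.σ (v.σ j)
  inj := w.inj.comp v.inj
  ε j := w.ε (v.σ j) * v.ε j
  unit j := by
    have h1 := v.unit j
    have h2 := w.unit (v.σ j)
    rw [star_mul]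
    calc star (v.ε j) * star (w.ε (v.σ j)) * (w.ε (v.σ j) * v.ε j)
        = star (v.ε j) * (star (w.ε (v.σ j)) * w.ε (v.σ j)) * v.ε j := by ring
      _ = 1 := by rw [h2, mul_one, h1]

theorem V_trans (v : Mon J J') (w : Mon J' J'') : (v.trans w).V R = w.V R * v.V R := by
  ext i j
  simp only [Matrix.mul_apply, Mon.V, Mon.trans]
  rw [Finset.sum_eq_single (v.σ j)]
  · by_cases h : i = w.σ (v.σ j)
    · simp [h]
    · simp [h]
  · intro b _ hb; simp [hb]
  · simp

theorem cj_trans (v : Mon J J') (w : Mon J' J'') (a : Matrix J J R) :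
    cjH R (v.trans w) a = cjH R w (cjH R v a) := by
  simp only [cjH_apply, V_trans, conjTranspose_mul, Matrix.mul_assoc]

theorem Iso.trans {X Y Z : Obj R} (h : Iso X Y) (h' : Iso Y Z) : Iso X Z := by
  obtain ⟨v, h1, h2⟩ := h
  obtain ⟨w, h3, h4⟩ := h'
  refine ⟨v.trans w, fun j => (h3 _).trans (h1 j), ?_⟩
  rw [h4, h2]
  simp only [RPr.map, cj_trans]

end mon

/-- signature package: laws over `R0`, path algebra `R1` -/
structure SgP {κ : Type*} {R0 R1 : Type*} [Ring R0] [StarRing R0] [Algebra ℂ R0] [StarModule ℂ R0]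
    [Ring R1] [StarRing R1] [Algebra ℂ R1] [StarModule ℂ R1]
    (F0 : Frame κ R0) (F1 : Frame κ R1) (G : Type*) [AddCommGroup G] where
  L : SgLaws R0 G
  ev0 : R1 →⋆ₙₐ[ℂ] R0
  ev1 : R1 →⋆ₙₐ[ℂ] R0
  cst : R0 →⋆ₙₐ[ℂ] R1
  ev0_cst : ∀ a, ev0 (cst a) = a
  ev1_cst : ∀ a, ev1 (cst a) = a
  ev0_pu : ∀ k c, ev0 (F1.pu k c) = F0.pu k c
  ev1_pu : ∀ k c, ev1 (F1.pu k c) = F0.pu k c
  cst_pu : ∀ k c, cst (F0.pu k c) = F1.pu k c
  cst_one : cst 1 = 1
  lo_eq : F1.lo = F0.lo
  hi_eq : F1.hi = F0.hi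
  tt : R1
  cs : R1
  sn : R1
  tt_star : star tt = tt
  cs_star : star cs = cs
  sn_star : star sn = sn
  tt_comm : ∀ a, tt * a = a * tt
  cs_comm : ∀ a, cs * a = a * cs
  sn_comm : ∀ a, sn * a = a * sn
  cs_sn : cs * cs + sn * sn = 1
  ev0_tt : ev0 tt = 0
  ev0_cs : ev0 cs = 1
  ev0_sn : ev0 sn = 0
  ev1_tt : ev1 tt = 1
  ev1_cs : ev1 cs = 0
  ev1_sn : ev1 sn = 1
  ok_cpt : ∀ {J : Type} [Fintype J] [DecidableEq J] (e M : Matrix J J R0), DgC F0 e → e * e = e →
    star e = e → (∀ k, BdLo F0 k e) → (∀ k, BdHi F0 k e) → e * M = M → L.ok M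
  sg_iso : ∀ {J J' : Type} [Fintype J] [DecidableEq J] [Fintype J'] [DecidableEq J']
    (V : Matrix J' J R0) (M : Matrix J J R0), Vᴴ * V = 1 → Mᴴ = M → L.ok M →
    L.sg (V * M * Vᴴ) = L.sg M
  sg_path : ∀ {J : Type} [Fintype J] [DecidableEq J] (e M M' : Matrix J J R1), DgC F1 e →
    e * e = e → star e = e → (∀ k, BdLo F1 k e) → (∀ k, BdHi F1 k e) → e * M = M →
    M * M' = e → Mᴴ = M → M'ᴴ = M' → L.sg (M.map ev0) = L.sg (M.map ev1)

section sgo

variable {κ : Type*} {R : Type*} [Ring R] [StarRing R] [Algebra ℂ R] [StarModule ℂ R]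
  {G : Type*} [AddCommGroup G] {J : Type} [Fintype J] [DecidableEq J]

/-- level zero form of an object -/
noncomputable def frm (x : RPr (Matrix J J R)) :
    Matrix (Fin 2 × (Fin 2 × J)) (Fin 2 × (Fin 2 × J)) R := fl (tform (dblT 0 x))

/-- its inverse -/
noncomputable def frmI (x : RPr (Matrix J J R)) :
    Matrix (Fin 2 × (Fin 2 × J)) (Fin 2 × (Fin 2 × J)) R := fl (tinv (dblT 0 x))

/-- its support projection -/
noncomputable def frmP (x : RPr (Matrix J J R)) :
    Matrix (Fin 2 × (Fin 2 × J)) (Fin 2 × (Fin 2 × J)) R := fl (pc (dblT 0 x))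

/-- signature of a regular pair of dimension `0` -/
noncomputable def sgU (L : SgLaws R G) (x : RPr (Matrix J J R)) : G := L.sg (frm x)

/-- signature of an object of dimension `0` -/
noncomputable def sgO (L : SgLaws R G) (X : Obj R) : G := sgU L X.x

/-- signature of an object of dimension `l.length` with respect to the cut parameters `l` -/
noncomputable def sig (F : Frame κ R) (L : SgLaws R G) (l : List (Par κ)) (X : Obj R) : G :=
  sgO L (red F l X)

variable {F : Frame κ R} {S : Set κ} {deg : J → ℤ} {x : RPr (Matrix J J R)}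

theorem frm_herm (h : IsOb F 0 S deg x) : (frm x)ᴴ = frm x := by
  have h1 := (Cut1x473.T1 h).pc
  have := star_tform h1
  unfold frm
  exact congrArg fl this

theorem frmI_herm (h : IsOb F 0 S deg x) : (frmI x)ᴴ = frmI x := by
  have h1 := (Cut1x473.T1 h).pc
  have := star_tinv h1
  unfold frmI
  exact congrArg fl this

theorem frm_mul (h : IsOb F 0 S deg x) : frm x * frmI x = frmP x := by
  have h1 := (Cut1x473.T1 h).pc
  unfold frm frmI frmP
  rw [← Nat52.fl_mul, tform_tinv h1]


theorem frmP_mul (h : IsOb F 0 S deg x) : frmP x * frm x = frm x := by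
  have h1 := (Cut1x473.T1 h).pc
  unfold frm frmP
  rw [← Nat52.fl_mul, pc_tform h1]




theorem frmP_sq (h : IsOb F 0 S deg x) : frmP x * frmP x = frmP x := by
  have h1 := (Cut1x473.T1 h).pc
  unfold frmP
  rw [← Nat52.fl_mul, pc_pc h1]

theorem frmP_star (h : IsOb F 0 S deg x) : star (frmP x) = frmP x := by
  have h1 := (Cut1x473.T1 h).pc
  exact congrArg fl (star_pc h1)

theorem frmP_dgc (h : IsOb F 0 S deg x) : DgC F (frmP x) := by
  have h1 := (Cut1x473.T1 h).pd
  exact h1.fl2c h1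

theorem frmP_lo (h : IsOb F 0 S deg x) (k : κ) (hk : k ∈ S) : BdLo F k (frmP x) :=
  ((Cut1x473.T1 h).lo k hk).fl2c

theorem frmP_hi (h : IsOb F 0 S deg x) (k : κ) (hk : k ∈ S) : BdHi F k (frmP x) :=
  ((Cut1x473.T1 h).hi k hk).fl2c

end sgo

section sgo2

variable {κ : Type*} {R0 R1 : Type*} [Ring R0] [StarRing R0] [Algebra ℂ R0] [StarModule ℂ R0]
    [Ring R1] [StarRing R1] [Algebra ℂ R1] [StarModule ℂ R1]
    {F0 : Frame κ R0} {F1 : Frame κ R1} {G : Type*} [AddCommGroup G] (P : SgP F0 F1 G)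
    {J J' : Type} [Fintype J] [DecidableEq J] [Fintype J'] [DecidableEq J']
    {S : Set κ} {deg : J → ℤ} {x y : RPr (Matrix J J R0)}

include P in
theorem frm_ok (h : IsOb F0 0 S deg x) (hS : ∀ k, k ∈ S) : P.L.ok (frm x) :=
  P.ok_cpt (frmP x) _ (frmP_dgc h) (frmP_sq h) (frmP_star h) (fun k => frmP_lo h k (hS k))
    (fun k => frmP_hi h k (hS k)) (frmP_mul h)

theorem shom {A B : Type*} [Ring A] [StarRing A] [Algebra ℂ A] [StarModule ℂ A] [Ring B]
    [StarRing B] [Algebra ℂ B] [StarModule ℂ B] (φ : A →⋆ₙₐ[ℂ] B) : Frame52.SHom φ where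
  add := map_add φ
  mul := map_mul φ
  smul := map_smul φ
  star := map_star φ

theorem frm_iso (v : Mon J J') (x : RPr (Matrix J J R0)) :
    frm (x.map (cjH R0 v)) = cjH R0 v.two.two (frm x) := by
  unfold frm
  rw [(compat_cj v).dblT, ← tform_smap (shom (cjH R0 v.two)), compat_cj v.two]

theorem sgU_iso (h : IsOb F0 0 S deg x) (hS : ∀ k, k ∈ S) (v : Mon J J') :
    sgU P.L (x.map (cjH R0 v)) = sgU P.L x := by
  unfold sgU
  rw [frm_iso, cjH_apply]
  exact P.sg_iso _ _ (Mon.V_iso _) (frm_herm h) (frm_ok P h hS)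

theorem sgU_path {x : RPr (Matrix J J R1)} (h : IsOb F1 0 S deg x) (hS : ∀ k, k ∈ S) :
    sgU P.L (x.map (mapH J P.ev0)) = sgU P.L (x.map (mapH J P.ev1)) := by
  have key : ∀ ev : R1 →⋆ₙₐ[ℂ] R0, frm (x.map (mapH J ev)) = (frm x).map ev := by
    intro ev
    unfold frm
    rw [(compat_map ev).dblT, ← tform_smap (shom (mapH (Fin 2 × J) ev))]
    rfl
  unfold sgU
  rw [key, key]
  exact P.sg_path (frmP x) _ (frmI x) (frmP_dgc h) (frmP_sq h) (frmP_star h)
    (fun k => frmP_lo h k (hS k)) (fun k => frmP_hi h k (hS k)) (frmP_mul h) (frm_mul h)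
    (frm_herm h) (frmI_herm h)

theorem cj_herm {I I' : Type*} [Fintype I] [DecidableEq I] [Fintype I'] [DecidableEq I']
      (v : Mon I I') {M : Matrix I I R0} (hM : Mᴴ = M) : (cjH R0 v M)ᴴ = cjH R0 v M := by
  simp only [cjH_apply, conjTranspose_mul, conjTranspose_conjTranspose, hM, Matrix.mul_assoc]

include P in
theorem cj_ok {I : Type} [Fintype I] [DecidableEq I] (v : Mon I I) {M : Matrix I I R0}
    (hM : P.L.ok M) : P.L.ok (cjH R0 v M) := by
  rw [cjH_apply]
  exact P.L.ok_mul_right _ _ (P.L.ok_mul_left _ _ hM)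

theorem sg_cj {I I' : Type} [Fintype I] [DecidableEq I] [Fintype I'] [DecidableEq I']
      (v : Mon I I') {M : Matrix I I R0} (hM : Mᴴ = M) (ok : P.L.ok M) :
    P.L.sg (cjH R0 v M) = P.L.sg M := by
  rw [cjH_apply]
  exact P.sg_iso _ _ (Mon.V_iso _) hM ok

theorem frm_neg (x : RPr (Matrix J J R0)) :
    frm x.neg = -(cjH R0 (sgn (Fin 2 × J)) (cjH R0 (sgn J).two (frm x))) := by
  unfold frm
  rw [dblT_neg, tform_neg, ← tform_smap (shom (cjH R0 (sgn J))), compat_cj (sgn J), ← fl_uu]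
  rfl

theorem sgU_neg (h : IsOb F0 0 S deg x) (hS : ∀ k, k ∈ S) :
    sgU P.L x.neg = - sgU P.L x := by
  unfold sgU
  rw [frm_neg]
  have hok := frm_ok P h hS
  have hh := frm_herm h
  rw [P.L.sg_neg _ (cj_ok P _ (cj_ok P _ hok)) (cj_herm _ (cj_herm _ hh)),
    sg_cj P _ (cj_herm _ hh) (cj_ok P _ hok), sg_cj P _ hh hok]

/-- `ι ⊕ ι → 2 × ι` -/
def s2 (J : Type*) : Mon (J ⊕ J) (Fin 2 × J) where
  σ := Sum.elim (fun j => (0, j)) (fun j => (1, j))
  inj := by
    rintro (a | a) (b | b) h <;> simp at h <;> simp [h]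
  ε _ := 1
  unit _ := by simp

theorem cj_s2 {J : Type*} [Fintype J] [DecidableEq J] (a b : Matrix J J R0) :
    cjH R0 (s2 J) (fromBlocks a 0 0 b) = sm a b := by
  funext x y
  obtain ⟨i, x⟩ := x
  obtain ⟨j, y⟩ := y
  have key : ∀ u w : J ⊕ J, cjH R0 (s2 J) (fromBlocks a 0 0 b) ((s2 J).σ u) ((s2 J).σ w)
      = (fromBlocks a 0 0 b) u w := by
    intro u w
    rw [cj_apply_σ]
    simp [s2]
  fin_cases i <;> fin_cases j
  · refine (key (Sum.inl x) (Sum.inl y)).trans ?_
    simp [sm, fl]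
  · refine (key (Sum.inl x) (Sum.inr y)).trans ?_
    simp [sm, fl]
  · refine (key (Sum.inr x) (Sum.inl y)).trans ?_
    simp [sm, fl]
  · refine (key (Sum.inr x) (Sum.inr y)).trans ?_
    simp [sm, fl]

theorem tform_sumT {J : Type*} [Fintype J] [DecidableEq J] (z w : Tup (Matrix J J R0)) :
    fl (tform (sumT z w)) = cjH R0 (sw J) (sm (fl (tform z)) (fl (tform w))) := by
  unfold sumT
  rw [← tform_smap (shom (smH (R := R0) (J := J))), fl_smH]
  have h1 := tform_smap (shom (NonUnitalStarAlgHom.fst ℂ (Matrix J J R0) (Matrix J J R0)))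
    (pairT z w)
  have h2 := tform_smap (shom (NonUnitalStarAlgHom.snd ℂ (Matrix J J R0) (Matrix J J R0)))
    (pairT z w)
  have e1 : (pairT z w).map (NonUnitalStarAlgHom.fst ℂ (Matrix J J R0) (Matrix J J R0)) = z := rfl
  have e2 : (pairT z w).map (NonUnitalStarAlgHom.snd ℂ (Matrix J J R0) (Matrix J J R0)) = w := rfl
  rw [e1] at h1
  rw [e2] at h2
  rw [← h1, ← h2]
  rfl

theorem BdLo_sm {κ : Type*} {R : Type*} [Ring R] [StarRing R] [Algebra ℂ R] [StarModule ℂ R]
    {F : Frame κ R} {I : Type*} [Fintype I] [DecidableEq I] {a b : Matrix I I R} {k : κ}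
    (ha : BdLo F k a) (hb : BdLo F k b) : BdLo F k (sm a b) := by
  obtain ⟨s, h1, h2⟩ := ha
  obtain ⟨s', h1', h2'⟩ := hb
  refine ⟨min s s', lt_min h1 h1', ?_⟩
  have a1 : PU F k (fun _ => min s s') * a = 0 := by
    have : PU F k (fun _ => min s s') * PU F k (fun _ => s) = PU F k (fun _ : I => min s s') := by
      unfold PU
      rw [diagonal_mul_diagonal]
      congr 1; ext j
      exact F.pu_mul k _ _ (min_le_left _ _)
    rw [← this, Matrix.mul_assoc, h2, Matrix.mul_zero]
  have a2 : PU F k (fun _ => min s s') * b = 0 := by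
    have : PU F k (fun _ => min s s') * PU F k (fun _ => s') = PU F k (fun _ : I => min s s') := by
      unfold PU
      rw [diagonal_mul_diagonal]
      congr 1; ext j
      exact F.pu_mul k _ _ (min_le_right _ _)
    rw [← this, Matrix.mul_assoc, h2', Matrix.mul_zero]
  rw [show PU F k (fun _ : Fin 2 × I => min s s')
    = sm (PU F k (fun _ => min s s')) (PU F k (fun _ => min s s')) from Nat52.PU_fl F k _,
    sm_mul, a1, a2]
  exact smH.map_zero'

theorem BdHi_sm {κ : Type*} {R : Type*} [Ring R] [StarRing R] [Algebra ℂ R] [StarModule ℂ R]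
    {F : Frame κ R} {I : Type*} [Fintype I] [DecidableEq I] {a b : Matrix I I R} {k : κ}
    (ha : BdHi F k a) (hb : BdHi F k b) : BdHi F k (sm a b) := by
  obtain ⟨s, h1, h2⟩ := ha
  obtain ⟨s', h1', h2'⟩ := hb
  refine ⟨max s s', max_lt h1 h1', ?_⟩
  have pm : ∀ (a b : ℝ), a ≤ b → F.pu k b * F.pu k a = F.pu k a := by
    intro a b hab
    rw [F.pu_comm, F.pu_mul k a b hab]
  have a1 : PU F k (fun _ => max s s') * a = a := by
    have : PU F k (fun _ => max s s') * PU F k (fun _ => s) = PU F k (fun _ : I => s) := by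
      unfold PU
      rw [diagonal_mul_diagonal]
      congr 1; ext j
      exact pm _ _ (le_max_left _ _)
    conv_lhs => rw [← h2, ← Matrix.mul_assoc, this, h2]
  have a2 : PU F k (fun _ => max s s') * b = b := by
    have : PU F k (fun _ => max s s') * PU F k (fun _ => s') = PU F k (fun _ : I => s') := by
      unfold PU
      rw [diagonal_mul_diagonal]
      congr 1; ext j
      exact pm _ _ (le_max_right _ _)
    conv_lhs => rw [← h2', ← Matrix.mul_assoc, this, h2']
  rw [show PU F k (fun _ : Fin 2 × I => max s s')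
    = sm (PU F k (fun _ => max s s')) (PU F k (fun _ => max s s')) from Nat52.PU_fl F k _,
    sm_mul, a1, a2]

theorem frm_sum (x y : RPr (Matrix J J R0)) :
    frm (sumR x y) = cjH R0 (sw J).two (cjH R0 (sw (Fin 2 × J)) (sm (frm x) (frm y))) := by
  unfold frm
  rw [dblT_sum, ← tform_smap (shom (cjH R0 (sw J))), ← tform_sumT, compat_cj]

theorem sgU_sum (hx : IsOb F0 0 S deg x) (hy : IsOb F0 0 S deg y) (hS : ∀ k, k ∈ S) :
    sgU P.L (sumR x y) = sgU P.L x + sgU P.L y := by
  unfold sgU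
  rw [frm_sum]
  have okX := frm_ok P hx hS
  have okY := frm_ok P hy hS
  have hhX := frm_herm hx
  have hhY := frm_herm hy
  have ok0 : P.L.ok (0 : Matrix (Fin 2 × (Fin 2 × J)) (Fin 2 × (Fin 2 × J)) R0) := by
    have := P.L.ok_sub _ _ okX okX
    rwa [sub_self] at this
  have okB : P.L.ok (fromBlocks (frm x) 0 0 (frm y)) := P.L.ok_blocks _ _ _ _ okX ok0 ok0 okY
  have hhB : (fromBlocks (frm x) 0 0 (frm y))ᴴ = fromBlocks (frm x) 0 0 (frm y) := by
    rw [fromBlocks_conjTranspose, hhX, hhY, conjTranspose_zero]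
  have ok1 : P.L.ok (sm (frm x) (frm y)) := by
    refine P.ok_cpt (sm (frmP x) (frmP y)) _ ?_ ?_ ?_ ?_ ?_ ?_
    · exact (frmP_dgc hx).fl2c (frmP_dgc hy)
    · rw [sm_mul, frmP_sq hx, frmP_sq hy]
    · rw [sm_star, frmP_star hx, frmP_star hy]
    · exact fun k => BdLo_sm (frmP_lo hx k (hS k)) (frmP_lo hy k (hS k))
    · exact fun k => BdHi_sm (frmP_hi hx k (hS k)) (frmP_hi hy k (hS k))
    · rw [sm_mul, frmP_mul hx, frmP_mul hy]
  have hh1 : (sm (frm x) (frm y))ᴴ = sm (frm x) (frm y) := by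
    rw [← cj_s2]; exact cj_herm _ hhB
  rw [sg_cj P _ (cj_herm _ hh1) (cj_ok P _ ok1), sg_cj P _ hh1 ok1, ← cj_s2,
    sg_cj P _ hhB okB, P.L.sg_blocks _ _ okX okY hhX hhY]

end sgo2

end Crest.Agent.R217.Sig52
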