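import Crest.Agent.R217.RE2_531
import Crest.Agent.R217.PCops_473
import Crest.Agent.R217.Cut1_473
import Crest.Agent.R217.Sig_52

-- ▼ part R217/RE3_531
section

/-!
Row 217 (S0336), part C1: the double of an honest tuple `(S, T)` is RE-related to `x ⊕ x`.

`HypA` : ring-level form of the hypotheses of lemma RE.
-/

set_option autoImplicit false
set_option linter.unusedSectionVars false
set_option linter.unusedSimpArgs false

namespace Crest.Agent.R217.RE531

open Crest.Agent.R217.PC473 Crest.Agent.R217.Frame52 Crest.Agent.R217.Obj52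
open Matrix

universe u v w

section ring

variable {A : Type*} [Ring A] [StarRing A]

/-- ring-level hypotheses of lemma RE for tuples -/
structure HypA (m : ℕ) (x y : Tup A) (α k l : A) : Prop where
  hx : x.IsPC m
  hy : y.IsPC m
  pα : y.p * α = α
  αp : α * x.p = α
  gα : y.g * α = α * x.g
  dα : y.d * α = α * x.d
  hS : y.S = α * x.S * star α + y.d * k - k * star y.d
  hT : x.T = star α * y.T * α + l * x.d - star x.d * l
  pk : y.p * k = k
  kp : k * y.p = k
  gk : y.g * k = -((-1 : A) ^ m * (k * y.g))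
  pl : x.p * l = l
  lp : l * x.p = l
  gl : x.g * l = -((-1 : A) ^ m * (l * x.g))

/-- ring-level hypotheses of lemma RE for regular pairs -/
structure HypRA (m : ℕ) (x y : RPr A) (α k l : A) : Prop where
  hx : x.IsRP m
  hy : y.IsRP m
  pα : y.p * α = α
  αp : α * x.p = α
  gα : y.g * α = α * x.g
  dα : y.d * α = α * x.d
  hf : y.f = α * x.f * star α + y.d * k - k * star y.d
  hq : x.q = star α * y.q * α + l * x.d - star x.d * l
  pk : y.p * k = k
  kp : k * y.p = k
  gk : y.g * k = -((-1 : A) ^ m * (k * y.g))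
  pl : x.p * l = l
  lp : l * x.p = l
  gl : x.g * l = -((-1 : A) ^ m * (l * x.g))

/-- `x ⊕ y` in `M_2(A)` -/
def sum2 (x y : Tup A) : Tup (Matrix (Fin 2) (Fin 2) A) where
  p := !![x.p, 0; 0, y.p]
  g := !![x.g, 0; 0, y.g]
  d := !![x.d, 0; 0, y.d]
  S := !![x.S, 0; 0, y.S]
  T := !![x.T, 0; 0, y.T]
  H := !![x.H, 0; 0, y.H]

theorem sum2_isPC {m : ℕ} {x y : Tup A} (hx : x.IsPC m) (hy : y.IsPC m) :
    (sum2 x y).IsPC m where
  pp := by simp [sum2, mul_fin_two, hx.pp, hy.pp]
  sp := by simp [sum2, star_fin2, hx.sp, hy.sp]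
  gg := by simp [sum2, mul_fin_two, hx.gg, hy.gg]
  sg := by simp [sum2, star_fin2, hx.sg, hy.sg]
  pg := by simp [sum2, mul_fin_two, hx.pg, hy.pg]
  pd := by simp [sum2, mul_fin_two, hx.pd, hy.pd]
  dp := by simp [sum2, mul_fin_two, hx.dp, hy.dp]
  pS := by simp [sum2, mul_fin_two, hx.pS, hy.pS]
  pT := by simp [sum2, mul_fin_two, hx.pT, hy.pT]
  pH := by simp [sum2, mul_fin_two, hx.pH, hy.pH]
  Hp := by simp [sum2, mul_fin_two, hx.Hp, hy.Hp]
  dd := by simp [sum2, mul_fin_two, hx.dd, hy.dd, zero_fin2]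
  sS := by simp [sum2, star_fin2, hx.sS, hy.sS]
  sT := by simp [sum2, star_fin2, hx.sT, hy.sT]
  dS := by simp [sum2, mul_fin_two, star_fin2, add_fin2, hx.dS, hy.dS, zero_fin2]
  Td := by simp [sum2, mul_fin_two, star_fin2, add_fin2, hx.Td, hy.Td, zero_fin2]
  ST := by simp [sum2, mul_fin_two, add_fin2, hx.ST, hy.ST]
  gd := by simp [sum2, mul_fin_two, neg_fin2, hx.gd, hy.gd]
  gS := by simp [sum2, mul_fin_two, npow_fin2, hx.gS, hy.gS]
  gT := by simp [sum2, mul_fin_two, npow_fin2, hx.gT, hy.gT]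
  gH := by simp [sum2, mul_fin_two, neg_fin2, hx.gH, hy.gH]

end ring

section dbl

variable {A : Type*} [Ring A] [StarRing A] [Algebra ℂ A] [StarModule ℂ A]

/-- chain map `dbl (S, T) → x ⊕ x` -/
noncomputable def dα (m : ℕ) (x : Tup A) : Matrix (Fin 2) (Fin 2) A :=
  !![x.p, 0; -((-1) ^ m * x.p), aa m x.g * x.S]

/-- homotopy on the target side -/
noncomputable def dk (x : Tup A) : Matrix (Fin 2) (Fin 2) A :=
  !![0, 0; 0, -(2 * (x.H * x.S))]

/-- homotopy on the source side -/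
noncomputable def dl (m : ℕ) (x : Tup A) : Matrix (Fin 2) (Fin 2) A :=
  !![4 * (x.T * x.H), -(aa m x.g * star x.H);
     -((-1) ^ m * (aa m x.g * x.H)), -((-1) ^ m * (x.H * x.S))]

set_option maxHeartbeats 4000000 in
theorem dbl_hypA {m : ℕ} {x : Tup A} (hx : x.IsPC m) {h : A}
    (hr : (RPr.mk x.p x.g x.d x.S x.T h).IsRP m) :
    HypA m (dbl m (RPr.mk x.p x.g x.d x.S x.T h)) (sum2 x x) (dα m x) (dk x) (dl m x) := by
  have hgp := hx.gp
  have hSp := hx.Sp
  have hTp := hx.Tp
  have hsdp := hx.sdp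
  have hpsd := hx.psd
  have hsHp := hx.sHp
  have hpsH := hx.psH
  have hsdd := hx.sdd
  have hTS := hx.TS
  have hgsd := hx.gsd
  have hgsH := hx.gsH
  have h1 := dbl_isPC hr
  have h2 := sum2_isPC hx hx
  obtain ⟨p, g, d, S, T, H⟩ := x
  obtain ⟨pp, sp, gg, sg, pg, pd, dp, pS, pT, pH, Hp, dd, sS, sT, dS, Td, ST, gd, gS, gT, gH⟩ := hx
  simp only at *
  have ha2 : aa m g * aa m g = (-1 : A) ^ m * p := aa_mul_self m gg
  have hsa : star (aa m g) = (-1 : A) ^ m * aa m g := star_aa m sg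
  have had : aa m g * d = -(d * aa m g) := by
    rw [aa_mul, gd, mul_aa, smul_neg]
  have haH : aa m g * H = -(H * aa m g) := by
    rw [aa_mul, gH, mul_aa, smul_neg]
  have hasd : aa m g * star d = -(star d * aa m g) := by
    rw [aa_mul, hgsd, mul_aa, smul_neg]
  have hasH : aa m g * star H = -(star H * aa m g) := by
    rw [aa_mul, hgsH, mul_aa, smul_neg]
  have haS : aa m g * S = (-1 : A) ^ m * (S * aa m g) := aa_comm gS
  have haT : aa m g * T = (-1 : A) ^ m * (T * aa m g) := aa_comm gT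
  have hga : g * aa m g = aa m g * g := by rw [mul_aa, aa_mul]
  have hpa : p * aa m g = aa m g := by rw [mul_aa, pg]; rfl
  have hap : aa m g * p = aa m g := by rw [aa_mul, hgp]; rfl
  have hdS : d * S = -(S * star d) := eq_neg_of_add_eq_zero_left dS
  have hTd : star d * T = -(T * d) := eq_neg_of_add_eq_zero_right Td
  have hSS : S * (star d * star H) = d * (H * S) - H * (S * star d) - S * (star H * star d) := by
    have e1 : S * (T * S) = S + S * (star d * star H) + S * (star H * star d) := by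
      rw [hTS]; simp only [mul_add, hSp]
    have e2 : S * (T * S) = S + d * (H * S) - H * (S * star d) := by
      rw [← mul_assoc, ST]; simp only [add_mul, mul_assoc, pS, hdS, mul_neg]; abel
    have e3 : S * (star d * star H) =
        (S + S * (star d * star H) + S * (star H * star d)) - S - S * (star H * star d) := by abel
    rw [e3, ← e1, e2]; abel
  refine ⟨h1, h2, ?_, ?_, ?_, ?_, ?_, ?_, ?_, ?_, ?_, ?_, ?_, ?_⟩ <;>
    simp only [dbl, sum2, dα, dk, dl, mul_fin_two, star_fin2, npow_fin2, zero_fin2, add_fin2,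
      neg_fin2, sub_fin2,
      zero_mul, mul_zero, add_zero, zero_add, star_zero, neg_zero, star_star, sub_zero, zero_sub,
      star_mul, star_add, star_sub, star_neg, star_pow, star_one, hsa, star_two', sS, sT, sp] <;>
    generalize aa m g = a at * <;>
    rcases neg_one_pow_eq_or A m with hε | hε <;>
    simp only [hε, one_mul, neg_mul, mul_neg, neg_neg, mul_one] at * <;>
    refine fin2_eq ?_ ?_ ?_ ?_
  all_goals try first
    | rfl
    | assumption
    | noncomm_ring
  all_goals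
    try simp only [mul_assoc, ha2, ra ha2, had, ra had, haH, ra haH, hasH, ra hasH, hasd, ra hasd,
      haS, ra haS, haT, ra haT, hpa, ra hpa, hap, ra hap, gd, ra gd, gS, ra gS, gT, ra gT, gH,
      ra gH, hgsd, ra hgsd, hgsH,
      ra hgsH, pp, ra pp, pd, ra pd, dp, ra dp, pS, ra pS, pT, ra pT, pH, ra pH, Hp, ra Hp, hgp,
      ra hgp, hSp, ra hSp, hTp, ra hTp, hsdp, ra hsdp, hpsd, ra hpsd, pg, ra pg, gg, ra gg,
      hsHp, ra hsHp, hpsH, ra hpsH, hTS, ra hTS, ST, ra ST, hdS, ra hdS, hTd, ra hTd, dd, ra dd,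
      hsdd, ra hsdd, hga, ra hga, sS, sT, sp, sg, star_mul, mul_add, add_mul, mul_sub, sub_mul,
      mul_neg, neg_mul, neg_neg, smul_neg, neg_smul, mul_zero, zero_mul, add_zero, zero_add,
      sub_zero, zero_sub]
  all_goals try abel
  all_goals try noncomm_ring
  all_goals
    simp only [hSS]
    noncomm_ring

end dbl

end Crest.Agent.R217.RE531
end

-- ▼ part R217/RE4_531

/-!
Row 217 (S0336), part C1: LEMMA RE at the level of objects (`IsOb`, `IsOT`), on `J ⊕ J'`.
-/

set_option autoImplicit false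
set_option linter.unusedSectionVars false
set_option linter.unusedSimpArgs false

namespace Crest.Agent.R217.RE531

open Crest.Agent.R217.PC473 Crest.Agent.R217.Frame52 Crest.Agent.R217.Obj52
open Matrix

universe u v w

section rect

variable {R : Type w} [Ring R] [StarRing R]
variable {J J' J'' : Type u} [Fintype J] [DecidableEq J] [Fintype J'] [DecidableEq J']
  [Fintype J''] [DecidableEq J'']

theorem HmR.congrc {α α' : J → ℤ} {β β' : J' → ℤ} {a : Matrix J J' R} (h : HmR α β a)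
    (hh : ∀ i j, α' i ≠ β' j → α i ≠ β j) : HmR α' β' a := fun i j hij => h i j (hh i j hij)

theorem HmR.mulc {α : J → ℤ} {β : J' → ℤ} {γ : J'' → ℤ} {a : Matrix J J' R}
    {b : Matrix J' J'' R} (ha : HmR α β a) (hb : HmR β γ b) : HmR α γ (a * b) := by
  intro i j hij
  rw [Matrix.mul_apply]
  refine Finset.sum_eq_zero fun x _ => ?_
  by_cases h1 : α i = β x
  · have h2 : β x ≠ γ j := fun h => hij (h1.trans h)
    rw [hb x j h2, mul_zero]
  · rw [ha i x h1, zero_mul]

theorem HmR.ct {α : J → ℤ} {β : J' → ℤ} {a : Matrix J J' R} (ha : HmR α β a) :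
    HmR β α aᴴ := fun i j hij => by
  rw [conjTranspose_apply, ha j i (Ne.symm hij), star_zero]

theorem HmR.fb {α β : J → ℤ} {α' β' : J' → ℤ} {a : Matrix J J R} {b : Matrix J J' R}
    {c : Matrix J' J R} {d : Matrix J' J' R} (ha : HmR α β a) (hb : HmR α β' b)
    (hc : HmR α' β c) (hd : HmR α' β' d) :
    Hm (Sum.elim α α') (Sum.elim β β') (fromBlocks a b c d) := by
  rintro (i | i) (j | j) hij
  · exact ha i j hij
  · exact hb i j hij
  · exact hc i j hij
  · exact hd i j hij

variable {κ : Type*} {F : Frame κ R}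

theorem DgC.fb {a : Matrix J J R} {b : Matrix J' J' R} (ha : DgC F a) (hb : DgC F b) :
    DgC F (fromBlocks a 0 0 b) := by
  obtain ⟨e, rfl, he⟩ := ha
  obtain ⟨e', rfl, he'⟩ := hb
  refine ⟨Sum.elim e e', fromBlocks_diagonal .., ?_⟩
  rintro (j | j) k c
  · exact he j k c
  · exact he' j k c

theorem PU_fb (F : Frame κ R) (k : κ) (s : ℝ) :
    PU F k (fun _ : J ⊕ J' => s) = fromBlocks (PU F k fun _ => s) 0 0 (PU F k fun _ => s) := by
  unfold PU
  rw [fromBlocks_diagonal]
  congr 1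
  ext (j | j) <;> rfl

theorem PU_mul_lo (F : Frame κ R) (k : κ) {s t : ℝ} (h : s ≤ t) :
    PU F k (fun _ : J => s) * PU F k (fun _ => t) = PU F k (fun _ => s) := by
  unfold PU
  rw [diagonal_mul_diagonal]
  congr 1; ext j
  exact F.pu_mul k _ _ h

theorem PU_mul_hi (F : Frame κ R) (k : κ) {s t : ℝ} (h : s ≤ t) :
    PU F k (fun _ : J => t) * PU F k (fun _ => s) = PU F k (fun _ => s) := by
  unfold PU
  rw [diagonal_mul_diagonal]
  congr 1; ext j
  rw [F.pu_comm, F.pu_mul k _ _ h]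

theorem BdLo.fb {k : κ} {a : Matrix J J R} {b : Matrix J' J' R} (ha : BdLo F k a)
    (hb : BdLo F k b) : BdLo F k (fromBlocks a 0 0 b) := by
  obtain ⟨s, h1, h2⟩ := ha
  obtain ⟨s', h1', h2'⟩ := hb
  refine ⟨min s s', lt_min h1 h1', ?_⟩
  have a1 : PU F k (fun _ => min s s') * a = 0 := by
    rw [← PU_mul_lo F k (min_le_left s s'), Matrix.mul_assoc, h2, Matrix.mul_zero]
  have a2 : PU F k (fun _ => min s s') * b = 0 := by
    rw [← PU_mul_lo F k (min_le_right s s'), Matrix.mul_assoc, h2', Matrix.mul_zero]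
  rw [PU_fb, fromBlocks_multiply]
  simp [a1, a2]

theorem BdHi.fb {k : κ} {a : Matrix J J R} {b : Matrix J' J' R} (ha : BdHi F k a)
    (hb : BdHi F k b) : BdHi F k (fromBlocks a 0 0 b) := by
  obtain ⟨s, h1, h2⟩ := ha
  obtain ⟨s', h1', h2'⟩ := hb
  refine ⟨max s s', max_lt h1 h1', ?_⟩
  have a1 : PU F k (fun _ => max s s') * a = a := by
    conv_lhs => rw [← h2, ← Matrix.mul_assoc, PU_mul_hi F k (le_max_left s s'), h2]
  have a2 : PU F k (fun _ => max s s') * b = b := by
    conv_lhs => rw [← h2', ← Matrix.mul_assoc, PU_mul_hi F k (le_max_right s s'), h2']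
  rw [PU_fb, fromBlocks_multiply]
  simp [a1, a2]

end rect

section objs

variable {κ : Type*} {R : Type w} [Ring R] [StarRing R]
variable {J J' : Type u} [Fintype J] [DecidableEq J] [Fintype J'] [DecidableEq J']
  {F : Frame κ R} {m : ℕ} {S : Set κ} {deg : J → ℤ} {deg' : J' → ℤ}

theorem elim_fun (f : ℤ → ℤ) (deg : J → ℤ) (deg' : J' → ℤ) :
    (fun j => f (Sum.elim deg deg' j)) = Sum.elim (fun j => f (deg j)) (fun j => f (deg' j)) := by
  ext (j | j) <;> rfl

theorem rsumB_isOb {x : RPr (Matrix J J R)} {y : RPr (Matrix J' J' R)} (hx : IsOb F m S deg x)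
    (hy : IsOb F m S deg' y) : IsOb F m S (Sum.elim deg deg') (rsumB x y) where
  rp := rsumB_isRP hx.rp hy.rp
  pd := DgC.fb hx.pd hy.pd
  gd := DgC.fb hx.gd hy.gd
  hd := by
    rw [elim_fun (fun n => n + 1)]
    exact HmR.fb hx.hd HmR.zero HmR.zero hy.hd
  hf := by
    rw [elim_fun (fun n => m - n)]
    exact HmR.fb hx.hf HmR.zero HmR.zero hy.hf
  hq := by
    rw [elim_fun (fun n => m - n)]
    exact HmR.fb hx.hq HmR.zero HmR.zero hy.hq
  hh := by
    rw [elim_fun (fun n => m + 1 - n)]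
    exact HmR.fb hx.hh HmR.zero HmR.zero hy.hh
  lo := fun k hk => BdLo.fb (hx.lo k hk) (hy.lo k hk)
  hi := fun k hk => BdHi.fb (hx.hi k hk) (hy.hi k hk)

theorem tsumB_isOT {x : Tup (Matrix J J R)} {y : Tup (Matrix J' J' R)} (hx : IsOT F m S deg x)
    (hy : IsOT F m S deg' y) : IsOT F m S (Sum.elim deg deg') (tsumB x y) where
  pc := tsumB_isPC hx.pc hy.pc
  pd := DgC.fb hx.pd hy.pd
  gd := DgC.fb hx.gd hy.gd
  hd := by
    rw [elim_fun (fun n => n + 1)]
    exact HmR.fb hx.hd HmR.zero HmR.zero hy.hd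
  hS := by
    rw [elim_fun (fun n => m - n)]
    exact HmR.fb hx.hS HmR.zero HmR.zero hy.hS
  hT := by
    rw [elim_fun (fun n => m - n)]
    exact HmR.fb hx.hT HmR.zero HmR.zero hy.hT
  hH := by
    rw [elim_fun (fun n => n + 1)]
    exact HmR.fb hx.hH HmR.zero HmR.zero hy.hH
  lo := fun k hk => BdLo.fb (hx.lo k hk) (hy.lo k hk)
  hi := fun k hk => BdHi.fb (hx.hi k hk) (hy.hi k hk)

variable {K : Type v} [CommRing K] [StarRing K] [Algebra K R] [StarModule K R]

/-- degrees of the data `α, k, l` -/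
structure DegA (m : ℕ) (deg : J → ℤ) (deg' : J' → ℤ) (α : Matrix J' J R)
    (k : Matrix J' J' R) (l : Matrix J J R) : Prop where
  hα : HmR deg' deg α
  hk : HmR deg' (fun j => (m : ℤ) + 1 - deg' j) k
  hl : HmR (fun j => (m : ℤ) - deg j) (fun j => deg j + 1) l

theorem reR_isOb {x : RPr (Matrix J J R)} {y : RPr (Matrix J' J' R)} {α : Matrix J' J R}
    {k : Matrix J' J' R} {l : Matrix J J R} (hx : IsOb F m S deg x) (hy : IsOb F m S deg' y)
    (h : HypR m x y α k l) (hd : DegA m deg deg' α k l) {c s : K} (hc : star c = c)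
    (hs : star s = s) (hcs : c * c + s * s = 1) :
    IsOb F m S (Sum.elim deg deg') (reR c s x y α k l) where
  rp := reR_isRP h hc hs hcs
  pd := DgC.fb hx.pd hy.pd
  gd := DgC.fb hx.gd hy.gd
  hd := by
    rw [elim_fun (fun n => n + 1)]
    exact HmR.fb hx.hd HmR.zero HmR.zero hy.hd
  hf := by
    rw [elim_fun (fun n => m - n)]
    have hf : HmR deg (fun j => (m : ℤ) - deg j) x.f := hx.hf
    have hf' : HmR deg' (fun j => (m : ℤ) - deg' j) y.f := hy.hf
    have hαs : HmR (fun j => (m : ℤ) - deg j) (fun j => (m : ℤ) - deg' j) αᴴ :=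
      hd.hα.ct.congrc (by intro i j h; omega)
    exact HmR.fb (hf.smul c) ((hf.mulc hαs).smul s) ((hd.hα.mulc hf).smul s)
      (hf'.smul c).neg
  hq := by
    rw [elim_fun (fun n => m - n)]
    have hq : HmR (fun j => (m : ℤ) - deg j) deg x.q := hx.hq
    have hq' : HmR (fun j => (m : ℤ) - deg' j) deg' y.q := hy.hq
    have hαs : HmR (fun j => (m : ℤ) - deg j) (fun j => (m : ℤ) - deg' j) αᴴ :=
      hd.hα.ct.congrc (by intro i j h; omega)
    exact HmR.fb (hq.smul c) ((hαs.mulc hq').smul s) ((hq'.mulc hd.hα).smul s)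
      (hq'.smul c).neg
  hh := by
    rw [elim_fun (fun n => m + 1 - n)]
    have hf : HmR deg (fun j => (m : ℤ) - deg j) x.f := hx.hf
    have hf' : HmR deg' (fun j => (m : ℤ) - deg' j) y.f := hy.hf
    have hh : HmR deg (fun j => (m : ℤ) + 1 - deg j) x.h := hx.hh
    have hh' : HmR deg' (fun j => (m : ℤ) + 1 - deg' j) y.h := hy.hh
    have hq' : HmR (fun j => (m : ℤ) - deg' j) deg' y.q := hy.hq
    have hαs : HmR (fun j => (m : ℤ) - deg j) (fun j => (m : ℤ) - deg' j) αᴴ :=
      hd.hα.ct.congrc (by intro i j h; omega)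
    have hαs1 : HmR (fun j => (m : ℤ) + 1 - deg j) (fun j => (m : ℤ) + 1 - deg' j) αᴴ :=
      hd.hα.ct.congrc (by intro i j h; omega)
    have hf1 : HmR (fun j => deg j + 1) (fun j => (m : ℤ) + 1 - deg j) x.f :=
      hf.congrc (by intro i j h; omega)
    have hflf : HmR deg (fun j => (m : ℤ) + 1 - deg j) (x.f * l * x.f) :=
      (hf.mulc hd.hl).mulc hf1
    have hαf : HmR deg' (fun j => (m : ℤ) - deg j) (α * x.f) := hd.hα.mulc hf
    have hαflf : HmR deg' (fun j => (m : ℤ) + 1 - deg j) (α * x.f * l * x.f) :=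
      (hαf.mulc hd.hl).mulc hf1
    have hff : HmR deg' (fun j => (m : ℤ) - deg' j) (y.f - α * x.f * αᴴ) :=
      hf'.sub (hαf.mulc hαs)
    have hkq : HmR deg' (fun j => deg' j + 1) (k * y.q) :=
      hd.hk.mulc (hq'.congrc (by intro i j h; omega))
    have hff1 : HmR (fun j => deg' j + 1) (fun j => (m : ℤ) + 1 - deg' j)
        (y.f - α * x.f * αᴴ) := hff.congrc (by intro i j h; omega)
    refine HmR.fb ((hh.smul c).sub (hflf.smul _)) (((hh.mulc hαs1).smul s).sub
      ((hflf.mulc hαs1).smul _)) (((hd.hα.mulc hh).smul s).sub (hαflf.smul _))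
      ((hh'.smul c).neg.add (HmR.smul _ ((hαflf.mulc hαs1).add (hkq.mulc hff1))))
  lo := fun k hk => BdLo.fb (hx.lo k hk) (hy.lo k hk)
  hi := fun k hk => BdHi.fb (hx.hi k hk) (hy.hi k hk)

theorem reT_isOT {x : Tup (Matrix J J R)} {y : Tup (Matrix J' J' R)} {α : Matrix J' J R}
    {k : Matrix J' J' R} {l : Matrix J J R} (hx : IsOT F m S deg x) (hy : IsOT F m S deg' y)
    (h : HypT m x y α k l) (hd : DegA m deg deg' α k l) {c s : K} (hc : star c = c)
    (hs : star s = s) (hcs : c * c + s * s = 1) :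
    IsOT F m S (Sum.elim deg deg') (reT c s x y α k l) where
  pc := reT_isPC h hc hs hcs
  pd := DgC.fb hx.pd hy.pd
  gd := DgC.fb hx.gd hy.gd
  hd := by
    rw [elim_fun (fun n => n + 1)]
    exact HmR.fb hx.hd HmR.zero HmR.zero hy.hd
  hS := by
    rw [elim_fun (fun n => m - n)]
    have hf : HmR deg (fun j => (m : ℤ) - deg j) x.S := hx.hS
    have hf' : HmR deg' (fun j => (m : ℤ) - deg' j) y.S := hy.hS
    have hαs : HmR (fun j => (m : ℤ) - deg j) (fun j => (m : ℤ) - deg' j) αᴴ :=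
      hd.hα.ct.congrc (by intro i j h; omega)
    exact HmR.fb (hf.smul c) ((hf.mulc hαs).smul s) ((hd.hα.mulc hf).smul s)
      (hf'.smul c).neg
  hT := by
    rw [elim_fun (fun n => m - n)]
    have hq : HmR (fun j => (m : ℤ) - deg j) deg x.T := hx.hT
    have hq' : HmR (fun j => (m : ℤ) - deg' j) deg' y.T := hy.hT
    have hαs : HmR (fun j => (m : ℤ) - deg j) (fun j => (m : ℤ) - deg' j) αᴴ :=
      hd.hα.ct.congrc (by intro i j h; omega)
    exact HmR.fb (hq.smul c) ((hαs.mulc hq').smul s) ((hq'.mulc hd.hα).smul s)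
      (hq'.smul c).neg
  hH := by
    rw [elim_fun (fun n => n + 1)]
    have hf : HmR deg (fun j => (m : ℤ) - deg j) x.S := hx.hS
    have hH : HmR deg (fun j => deg j + 1) x.H := hx.hH
    have hH' : HmR deg' (fun j => deg' j + 1) y.H := hy.hH
    have hq' : HmR (fun j => (m : ℤ) - deg' j) deg' y.T := hy.hT
    have hkq : HmR deg' (fun j => deg' j + 1) (k * y.T) :=
      hd.hk.mulc (hq'.congrc (by intro i j h; omega))
    have hα1 : HmR (fun j => deg' j + 1) (fun j => deg j + 1) α :=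
      hd.hα.congrc (by intro i j h; omega)
    refine HmR.fb (hH.sub ((hf.mulc hd.hl).smul _)) HmR.zero
      (HmR.smul _ (((hd.hα.mulc hf).mulc hd.hl).sub (hkq.mulc hα1)))
      (hH'.sub (hkq.smul _))
  lo := fun k hk => BdLo.fb (hx.lo k hk) (hy.lo k hk)
  hi := fun k hk => BdHi.fb (hx.hi k hk) (hy.hi k hk)

end objs

end Crest.Agent.R217.RE531
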