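import Crest.Agent.R217.Cut1_473
import Mathlib
import Crest.Agent.R217.Sig_52

-- ▼ part R217/Cut2_473
section

/-!
Row 217 (S0336), part C, module M4: (T3)-(T6) of helper52's plan: canonical walls and strips are
admissible, the canonical cut of an object is an object.
-/

set_option autoImplicit false
set_option linter.unusedSectionVars false

namespace Crest.Agent.R217.Cut2x473

open Matrix PC473 Obj52 Cut1x473

section thresholds

theorem thr_lt {J : Type*} (c δ : ℝ) (hδ : 0 < δ) (deg : J → ℤ) (j : J) :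
    thr c δ deg j < c + 2 * δ := by
  unfold thr
  have h1 := Real.neg_pi_div_two_lt_arctan (deg j : ℝ)
  have h2 := Real.pi_lt_four
  nlinarith

theorem lt_thr {J : Type*} (c δ : ℝ) (hδ : 0 < δ) (deg : J → ℤ) (j : J) :
    c - 2 * δ < thr c δ deg j := by
  unfold thr
  have h1 := Real.arctan_lt_pi_div_two (deg j : ℝ)
  have h2 := Real.pi_lt_four
  nlinarith

theorem thr_mono {J : Type*} (c δ : ℝ) (hδ : 0 < δ) (deg : J → ℤ) {i j : J}
    (h : deg i + 1 = deg j) : thr c δ deg j < thr c δ deg i := by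
  unfold thr
  have h1 : Real.arctan (deg i : ℝ) < Real.arctan (deg j : ℝ) := by
    apply Real.arctan_strictMono
    rw [← h]; push_cast; linarith
  nlinarith

end thresholds

section PU

variable {κ : Type*} {R : Type*} [Ring R] [StarRing R]
variable {J : Type*} [Fintype J] [DecidableEq J] {F : Frame κ R}

theorem pu_mul' (F : Frame κ R) (k : κ) {s t : ℝ} (h : s ≤ t) :
    F.pu k t * F.pu k s = F.pu k s := by
  rw [F.pu_comm, F.pu_mul k s t h]

theorem loc' (F : Frame κ R) (k : κ) {s t : ℝ} (h : s < t) (a : R) :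
    (1 - F.pu k t) * a * F.pu k s = 0 := by
  have := congrArg star (F.loc k s t h (star a))
  simpa [star_mul, F.pu_star, mul_assoc] using this

theorem PU_DgC (k : κ) (t : J → ℝ) : DgC F (PU F k t) :=
  ⟨_, rfl, fun _ _ _ => F.pu_comm _ _ _ _⟩

theorem DgC_one : DgC F (1 : Matrix J J R) :=
  ⟨fun _ => 1, by rw [diagonal_one], fun _ _ _ => by rw [one_mul, mul_one]⟩

theorem DgC_sub {a b : Matrix J J R} (ha : DgC F a) (hb : DgC F b) : DgC F (a - b) := by
  obtain ⟨e, rfl, he⟩ := ha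
  obtain ⟨e', rfl, he'⟩ := hb
  refine ⟨fun j => e j - e' j, by rw [← diagonal_sub], fun j k c => ?_⟩
  rw [sub_mul, mul_sub, he, he']

/-- a diagonal element commutes with every `PU` -/
theorem DgC_comm {a : Matrix J J R} (ha : DgC F a) (k : κ) (t : J → ℝ) :
    a * PU F k t = PU F k t * a := by
  obtain ⟨e, rfl, he⟩ := ha
  rw [PU, diagonal_mul_diagonal, diagonal_mul_diagonal]
  congr 1
  funext j
  exact he j k (t j)

theorem PU_star' (k : κ) (t : J → ℝ) : star (PU F k t) = PU F k t := by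
  rw [PU, star_eq_conjTranspose, diagonal_conjTranspose]
  congr 1
  funext j
  exact F.pu_star k (t j)

theorem PU_mul_le (k : κ) {s t : J → ℝ} (h : ∀ j, s j ≤ t j) :
    PU F k s * PU F k t = PU F k s := by
  rw [PU, PU, diagonal_mul_diagonal]
  congr 1
  funext j
  exact F.pu_mul k _ _ (h j)

theorem PU_mul_le' (k : κ) {s t : J → ℝ} (h : ∀ j, s j ≤ t j) :
    PU F k t * PU F k s = PU F k s := by
  rw [PU, PU, diagonal_mul_diagonal]
  congr 1
  funext j
  exact pu_mul' F k (h j)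

theorem PU_mul_self (k : κ) (t : J → ℝ) : PU F k t * PU F k t = PU F k t :=
  PU_mul_le k fun _ => le_rfl

/-- `PU` is preserved by homogeneous elements which decrease the thresholds -/
theorem PU_hm (k : κ) {s t : J → ℝ} {α β : J → ℤ} {a : Matrix J J R} (ha : Hm α β a)
    (h : ∀ i j, α i = β j → s j < t i) : PU F k t * a * PU F k s = a * PU F k s := by
  ext i j
  rw [PU, PU, Matrix.mul_diagonal, Matrix.mul_diagonal, Matrix.diagonal_mul]
  by_cases hij : α i = β j
  · have := loc' F k (h i j hij) (a i j)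
    rw [sub_mul, sub_mul, one_mul, sub_eq_zero] at this
    exact this.symm
  · rw [ha i j hij, mul_zero]

/-- `PU (thr ..)` is a subcomplex -/
theorem PU_sub (k : κ) (c δ : ℝ) (hδ : 0 < δ) {deg : J → ℤ} {a : Matrix J J R}
    (ha : Hm (fun j => deg j + 1) deg a) :
    PU F k (thr c δ deg) * a * PU F k (thr c δ deg) = a * PU F k (thr c δ deg) :=
  PU_hm k ha fun _ _ h => thr_mono c δ hδ deg h

/-- propagation of supports: `a` arbitrary, thresholds separated -/
theorem PU_loc (k : κ) {s t : J → ℝ} (h : ∀ i j, s j < t i) (a : Matrix J J R) :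
    PU F k t * a * PU F k s = a * PU F k s :=
  PU_hm (α := fun _ => 0) (β := fun _ => 0) k (fun _ _ h => absurd rfl h) fun i j _ => h i j

end PU

section T3

variable {κ : Type*} {R : Type*} [Ring R] [StarRing R] [Algebra ℂ R] [StarModule ℂ R]
variable {J : Type*} [Fintype J] [DecidableEq J] {F : Frame κ R}

/-- (T3) the canonical wall. -/
theorem T3 {m : ℕ} {S : Set κ} {deg : J → ℤ} {z : Tup (Matrix J J R)} {k : κ} {c δ : ℝ}
    (hz : IsOT F (m + 1) S deg z) (hδ : 0 < δ) (hlo : F.lo k < c - 2 * δ) :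
    IsQuot z (wallP F k c δ deg z.p) ∧ DgC F (wallP F k c δ deg z.p) ∧
      BdLo F k (wallP F k c δ deg z.p) ∧
      PU F k (fun _ => c + 2 * δ) * (z.p - wallP F k c δ deg z.p)
        = z.p - wallP F k c δ deg z.p := by
  have hpc := hz.pc
  set U := PU F k (thr c δ deg) with hU
  have hpU : z.p * U = U * z.p := DgC_comm hz.pd k _
  have hgU : z.g * U = U * z.g := DgC_comm hz.gd k _
  have hUU : U * U = U := PU_mul_self k _
  have hsU : star U = U := PU_star' k _
  have hUd : U * z.d * U = z.d * U := PU_sub k c δ hδ hz.hd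
  have hgp : z.g * z.p = z.g := by
    have := congrArg star hpc.pg
    rwa [star_mul, hpc.sp, hpc.sg] at this
  have hw : wallP F k c δ deg z.p = z.p * (1 - U) := rfl
  have hpw : z.p * (1 - U) = (1 - U) * z.p := by rw [mul_sub, sub_mul, hpU, mul_one, one_mul]
  have hdg : DgC F (wallP F k c δ deg z.p) :=
    hz.pd.mulc (DgC_sub DgC_one (PU_DgC k _))
  refine ⟨?_, hdg, ?_, ?_⟩
  · rw [hw]
    constructor
    · rw [show z.p * (1 - U) * (z.p * (1 - U)) = z.p * ((1 - U) * z.p) * (1 - U) by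
        simp only [mul_assoc], ← hpw, show z.p * (z.p * (1 - U)) * (1 - U)
        = (z.p * z.p) * ((1 - U) * (1 - U)) by simp only [mul_assoc], hpc.pp]
      congr 1
      rw [mul_sub, sub_mul, sub_mul, one_mul, one_mul, mul_one, hUU]; noncomm_ring
    · rw [star_mul, star_sub, star_one, hsU, hpc.sp, hpw]
    · rw [← mul_assoc, hpc.pp]
    · have h1 : (1 - U) * z.d * (1 - U) = (1 - U) * z.d := by
        have : (1 - U) * z.d * (1 - U) = (1 - U) * z.d - (z.d * U - U * z.d * U) := by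
          noncomm_ring
        rw [this, hUd, sub_self, sub_zero]
      calc z.p * (1 - U) * z.d * (z.p * (1 - U))
          = z.p * (1 - U) * (z.d * z.p) * (1 - U) := by simp only [mul_assoc]
        _ = z.p * ((1 - U) * z.d * (1 - U)) := by rw [hpc.dp]; simp only [mul_assoc]
        _ = z.p * (1 - U) * z.d := by rw [h1, mul_assoc]
    · rw [← mul_assoc, hgp, hpw, mul_assoc, hpc.pg, mul_sub, sub_mul, hgU, mul_one, one_mul]
  · refine ⟨c - 2 * δ, hlo, ?_⟩
    rw [hw, ← mul_assoc, ← DgC_comm hz.pd k, mul_assoc, mul_sub, mul_one, hU,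
      PU_mul_le k fun j => (lt_thr c δ hδ deg j).le, sub_self, mul_zero]
  · have : z.p - wallP F k c δ deg z.p = z.p * U := by rw [hw]; noncomm_ring
    rw [this, ← mul_assoc, ← DgC_comm hz.pd k, mul_assoc, hU,
      PU_mul_le' k fun j => (thr_lt c δ hδ deg j).le]

end T3

section strip

variable {κ : Type*} {R : Type*} [Ring R] [StarRing R] [Algebra ℂ R] [StarModule ℂ R]
variable {J : Type*} [Fintype J] [DecidableEq J] {F : Frame κ R}

theorem PU_fl' (k : κ) (t : Fin 2 × J → ℝ) :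
    PU F k t = fl !![PU F k (fun j => t (0, j)), 0; 0, PU F k (fun j => t (1, j))] := by
  ext ⟨a, i⟩ ⟨b, j⟩
  rw [fl_apply]
  by_cases hij : i = j
  · subst hij
    fin_cases a <;> fin_cases b <;> simp [PU, Prod.ext_iff]
  · fin_cases a <;> fin_cases b <;> simp [PU, Prod.ext_iff, hij]

/-- the canonical strip on the flattened level -/
theorem fl_strip (k : κ) (b δ : ℝ) (m : ℕ) (deg : J → ℤ) (P : Matrix J J R) :
    fl (stripQ F k b δ m deg P) = fl (dg2 P) * PU F k (thr b δ (degB m deg)) := by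
  rw [PU_fl', ← fl_mul, dg2, mul_fin_two]
  simp only [zero_mul, mul_zero, add_zero, zero_add]
  rfl

theorem DgC_dg2 {P : Matrix J J R} (hP : DgC F P) : DgC F (fl (dg2 P)) := hP.fl2c hP

theorem hm_bdry_d {m : ℕ} {S : Set κ} {deg : J → ℤ} {z : Tup (Matrix J J R)}
    {P : Matrix J J R} (hz : IsOT F (m + 1) S deg z) (hP : DgC F P) :
    Hm (fun a => degB m deg a + 1) (degB m deg) (fl (bdry m z P).d) := by
  have hPh : ∀ {α : J → ℤ}, Hm α α P := fun {α} => hP.hmc fun _ => rfl
  refine Hm.fl2c ?_ ?_ Hm.zeroc ?_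
  · exact (Hm.mulc (hPh (α := fun j => deg j + 1)) hz.hd).congrc
      (by intro i j h; simp [degB]; omega)
  · refine Hm.congrc (α := deg) (β := fun j => ((m + 1 : ℕ) : ℤ) - deg j) ?_
      (by intro i j h; simp [degB]; push_cast at h; omega)
    exact (hPh.mulc hz.hS).mulc hPh
  · refine (Hm.mulc (hPh (α := fun j => deg j + 1)) hz.hd).starc.congrc
      (by intro i j h; simp [degB]; omega)

/-- the canonical strip gives an admissible triple as soon as it contains the image of `K` -/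
theorem strip_adm {m : ℕ} {S : Set κ} {deg : J → ℤ} {z : Tup (Matrix J J R)} {k : κ}
    {P : Matrix J J R} {G : Matrix (Fin 2) (Fin 2) (Matrix J J R)} {b δ : ℝ}
    (hz : IsOT F (m + 1) S deg z) (hq : IsQuot z P) (hP : DgC F P) (hlo : BdLo F k P)
    (hhi : BdHi F k (z.p - P)) (hδ : 0 < δ) (hb : b + 2 * δ < F.hi k)
    (pG : dg2 P * G = G) (Gp : G * dg2 P = G)
    (gG : (bdry m z P).g * G = -(G * (bdry m z P).g))
    (hG : Hm (degB m deg) (fun a => degB m deg a + 1) (fl G))
    (BK : stripQ F k b δ m deg P * KK (bdry m z P) G = KK (bdry m z P) G) :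
    Adm F k m deg z P G (stripQ F k b δ m deg P) := by
  have hpc := hz.pc
  set U := PU F k (thr b δ (degB m deg)) with hU
  set W := fl (dg2 P) with hW
  have hQ : fl (stripQ F k b δ m deg P) = W * U := fl_strip k b δ m deg P
  have hWd : DgC F W := DgC_dg2 hP
  have hWU : W * U = U * W := DgC_comm hWd k _
  have hWW : W * W = W := by rw [hW, ← fl_mul, dg2_mul, hq.PP]
  have hsW : star W = W := by rw [hW, ← fl_star, dg2_star, hq.sP]
  have hUU : U * U = U := PU_mul_self k _
  have hsU : star U = U := PU_star' k _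
  have hd := hm_bdry_d (m := m) (P := P) hz hP
  have hUd : U * fl (bdry m z P).d * U = fl (bdry m z P).d * U := PU_sub k b δ hδ hd
  have hdW : fl (bdry m z P).d * W = fl (bdry m z P).d := by
    rw [hW, ← fl_mul, bdry_d hq, mul_assoc, dg2_mul, hq.PP]
  have hWd' : W * fl (bdry m z P).d = fl (bdry m z P).d := by
    rw [hW, ← fl_mul, bdry_d hq, ← mul_assoc, ← mul_assoc, dg2_mul, hq.PP]
  have hgD : DgC F (fl (bdry m z P).g) :=
    (hP.mulc hz.gd).negc.fl2c ((hP.mulc hz.gd).npowc _)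
  have hgU : fl (bdry m z P).g * U = U * fl (bdry m z P).g := DgC_comm hgD k _
  have hPg : P * z.g * P = P * z.g := by rw [mul_assoc, hq.gP, ← mul_assoc, hq.PP]
  have hPg' : P * (P * z.g) = P * z.g := by rw [← mul_assoc, hq.PP]
  have hgW : fl (bdry m z P).g * W = W * fl (bdry m z P).g := by
    rw [hW, ← fl_mul, ← fl_mul]
    congr 1
    show (!![-(P * z.g), 0; 0, (-1) ^ (m + 1) * (P * z.g)] : Matrix (Fin 2) (Fin 2) _) * dg2 P
      = dg2 P * !![-(P * z.g), 0; 0, (-1) ^ (m + 1) * (P * z.g)]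
    simp only [dg2, mul_fin_two, zero_mul, mul_zero, add_zero, zero_add]
    refine fin2_eq ?_ rfl rfl ?_
    · rw [neg_mul, mul_neg, hPg, hPg']
    · rcases neg_one_pow_eq_or (Matrix J J R) (m + 1) with h | h <;> rw [h]
      · simp only [one_mul, hPg, hPg']
      · simp only [neg_mul, one_mul, mul_neg, hPg, hPg']
  refine ⟨hq, hP, hlo, hhi, ⟨?_, ?_, gG, ?_, ?_, ?_, ?_, ?_, BK⟩, hG, ?_, ?_⟩
  · rw [bdry_p]; exact pG
  · rw [bdry_p]; exact Gp
  · apply fl_injective
    rw [fl_mul, hQ, show W * U * (W * U) = W * (U * W) * U by simp only [mul_assoc], ← hWU,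
      show W * (W * U) * U = (W * W) * (U * U) by simp only [mul_assoc], hWW, hUU]
  · apply fl_injective
    rw [fl_star, hQ, star_mul, hsU, hsW, hWU]
  · apply fl_injective
    rw [fl_mul, hQ, bdry_p, ← hW, ← mul_assoc, hWW]
  · apply fl_injective
    rw [fl_mul, fl_mul, fl_mul, hQ]
    calc W * U * fl (bdry m z P).d * (W * U)
        = W * (U * (fl (bdry m z P).d * W) * U) := by simp only [mul_assoc]
      _ = W * fl (bdry m z P).d * U := by rw [hdW, hUd, mul_assoc]
      _ = fl (bdry m z P).d * (W * U) := by rw [hWd', ← mul_assoc, hdW]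
  · apply fl_injective
    rw [fl_mul, fl_mul, hQ, ← mul_assoc, hgW, mul_assoc, hgU, mul_assoc]
  · rw [hQ]; exact hWd.mulc (PU_DgC k _)
  · refine ⟨b + 2 * δ, hb, ?_⟩
    rw [hQ, ← mul_assoc, ← DgC_comm hWd k, mul_assoc, hU,
      PU_mul_le' k fun j => (thr_lt b δ hδ _ j).le]

/-- (T5) widening of the strip, for an arbitrary contraction `G`. -/
theorem T5 {m : ℕ} {S : Set κ} {deg : J → ℤ} {z : Tup (Matrix J J R)} {k : κ}
    {P : Matrix J J R} {G Q : Matrix (Fin 2) (Fin 2) (Matrix J J R)} {t b δ : ℝ}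
    (hz : IsOT F (m + 1) S deg z) (ha : Adm F k m deg z P G Q)
    (ht : PU F k (fun _ => t) * fl Q = fl Q) (hδ : 0 < δ) (htb : t + 2 * δ < b)
    (hb : b + 2 * δ < F.hi k) :
    Adm F k m deg z P G (stripQ F k b δ m deg P) ∧ stripQ F k b δ m deg P * Q = Q := by
  have hQQ : stripQ F k b δ m deg P * Q = Q := by
    apply fl_injective
    rw [fl_mul, fl_strip, DgC_comm (DgC_dg2 ha.Pd) k, mul_assoc,
      show fl (dg2 P) * fl Q = fl Q by rw [← fl_mul]; exact congrArg fl ha.comp.pB]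
    rw [← ht, ← mul_assoc]
    congr 1
    refine PU_mul_le' k fun j => ?_
    have := lt_thr b δ hδ (degB m deg) j
    linarith
  refine ⟨?_, hQQ⟩
  refine strip_adm hz ha.quot ha.Pd ha.wlo ha.whi hδ hb ?_ ?_ ha.comp.gG ha.hG ?_
  · rw [← bdry_p m z P]; exact ha.comp.pG
  · rw [← bdry_p m z P]; exact ha.comp.Gp
  · rw [← ha.comp.BK, ← mul_assoc, hQQ]

theorem hm_coneG {m : ℕ} {S : Set κ} {deg : J → ℤ} {z : Tup (Matrix J J R)}
    (hz : IsOT F (m + 1) S deg z) :
    Hm (degB m deg) (fun a => degB m deg a + 1) (fl (coneG z)) := by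
  have hN : Hm deg (fun j => ((m + 1 : ℕ) : ℤ) + 1 - deg j) (z.S * star z.H + z.H * z.S) := by
    refine Hm.addc ?_ ?_
    · exact hz.hS.mulc (hz.hH.starc.congrc (by intro i j h; push_cast at h ⊢; omega))
    · exact hz.hH.mulc (hz.hS.congrc (α' := fun j => deg j + 1)
        (β' := fun j => ((m + 1 : ℕ) : ℤ) + 1 - deg j) (by intro i j h; omega))
  refine Hm.fl2c ?_ ?_ ?_ ?_
  · exact hz.hH.negc.congrc (by intro i j h; simp [degB]; omega)
  · refine Hm.negc ?_
    refine Hm.congrc (α := deg) (β := fun j => ((m + 1 : ℕ) : ℤ) + 2 - deg j) ?_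
      (by intro i j h; simp [degB]; push_cast at h; omega)
    exact hz.hH.mulc (hN.congrc (α' := fun j => deg j + 1) (by intro i j h; omega))
  · exact hz.hT.congrc (by intro i j h; simp [degB]; push_cast at h; omega)
  · refine Hm.subc ?_ ?_
    · refine Hm.congrc (α := fun j => ((m + 1 : ℕ) : ℤ) - deg j)
        (β := fun j => ((m + 1 : ℕ) : ℤ) + 1 - deg j) (hz.hT.mulc hN)
        (by intro i j h; simp [degB]; push_cast at h; omega)
    · exact hz.hH.starc.congrc (by intro i j h; simp [degB]; omega)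

theorem hm_cutG {m : ℕ} {S : Set κ} {deg : J → ℤ} {z : Tup (Matrix J J R)}
    {P : Matrix J J R} (hz : IsOT F (m + 1) S deg z) (hP : DgC F P) :
    Hm (degB m deg) (fun a => degB m deg a + 1) (fl (cutG z P)) := by
  rw [cutG_eq, fl_mul, fl_mul]
  exact (((DgC_dg2 hP).hmc fun _ => rfl).mulc (hm_coneG hz)).mulc
    ((DgC_dg2 hP).hmc fun _ => rfl)

/-- (T4) the canonical strip for the canonical contraction. -/
theorem T4 {m : ℕ} {S : Set κ} {deg : J → ℤ} {z : Tup (Matrix J J R)} {k : κ}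
    {P : Matrix J J R} {t b δ : ℝ}
    (hz : IsOT F (m + 1) S deg z) (hq : IsQuot z P) (hP : DgC F P) (hlo : BdLo F k P)
    (ht : PU F k (fun _ => t) * (z.p - P) = z.p - P) (hδ : 0 < δ) (htb : t + 2 * δ < b)
    (hb : b + 2 * δ < F.hi k) :
    Adm F k m deg z P (cutG z P) (stripQ F k b δ m deg P) := by
  have hpc := hz.pc
  refine strip_adm hz hq hP hlo ⟨t, by linarith, ht⟩ hδ hb ?_ ?_ (cutG_odd hpc hq)
    (hm_cutG hz hP) ?_
  · rw [cutG_eq, ← mul_assoc, ← mul_assoc, dg2_mul, hq.PP]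
  · rw [cutG_eq, mul_assoc, dg2_mul, hq.PP]
  · rw [KK_bdry hpc hq]
    apply fl_injective
    set W := fl (dg2 P) with hW
    have hWd : DgC F W := DgC_dg2 hP
    have hWW : W * W = W := by rw [hW, ← fl_mul, dg2_mul, hq.PP]
    have hE : PU F k (fun _ => t) * fl (dg2 z.p - dg2 P) = fl (dg2 z.p - dg2 P) := by
      rw [← dg2_sub]
      show PU F k (fun _ => t) * fl !![z.p - P, 0; 0, z.p - P] = fl !![z.p - P, 0; 0, z.p - P]
      rw [PU_mul_fl, ht, mul_zero]
    -- the strip acts trivially on `W X (p - P)`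
    have key : ∀ X : Matrix (Fin 2 × J) (Fin 2 × J) R,
        W * PU F k (thr b δ (degB m deg)) * (W * X * fl (dg2 z.p - dg2 P))
          = W * X * fl (dg2 z.p - dg2 P) := by
      intro X
      have h1 : PU F k (thr b δ (degB m deg)) * X * PU F k (fun _ => t)
          = X * PU F k (fun _ => t) := by
        refine PU_loc k (fun i j => ?_) X
        have := lt_thr b δ hδ (degB m deg) i
        linarith
      calc W * PU F k (thr b δ (degB m deg)) * (W * X * fl (dg2 z.p - dg2 P))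
          = W * (PU F k (thr b δ (degB m deg)) * W) * X * fl (dg2 z.p - dg2 P) := by
            simp only [mul_assoc]
        _ = (W * W) * PU F k (thr b δ (degB m deg)) * X
              * (PU F k (fun _ => t) * fl (dg2 z.p - dg2 P)) := by
            rw [← DgC_comm hWd k, hE]; simp only [mul_assoc]
        _ = W * (PU F k (thr b δ (degB m deg)) * X * PU F k (fun _ => t))
              * fl (dg2 z.p - dg2 P) := by rw [hWW]; simp only [mul_assoc]
        _ = W * X * (PU F k (fun _ => t) * fl (dg2 z.p - dg2 P)) := by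
            rw [h1]; simp only [mul_assoc]
        _ = W * X * fl (dg2 z.p - dg2 P) := by rw [hE]
    rw [fl_mul, fl_strip, fl_add]
    simp only [fl_mul]
    rw [mul_add]
    congr 1
    · have := key (fl (coneD z))
      calc W * PU F k (thr b δ (degB m deg)) * (W * fl (coneD z) * fl (dg2 z.p - dg2 P)
              * fl (coneG z) * W)
          = (W * PU F k (thr b δ (degB m deg)) * (W * fl (coneD z) * fl (dg2 z.p - dg2 P)))
              * fl (coneG z) * W := by simp only [mul_assoc]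
        _ = _ := by rw [this]
    · have := key (fl (coneG z))
      calc W * PU F k (thr b δ (degB m deg)) * (W * fl (coneG z) * fl (dg2 z.p - dg2 P)
              * fl (coneD z) * W)
          = (W * PU F k (thr b δ (degB m deg)) * (W * fl (coneG z) * fl (dg2 z.p - dg2 P)))
              * fl (coneD z) * W := by simp only [mul_assoc]
        _ = _ := by rw [this]

/-- canonical cuts of honest objects are admissible -/
theorem canon_adm {m : ℕ} {S : Set κ} {deg : J → ℤ} {z : Tup (Matrix J J R)} {a : Par κ}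
    (ha : a.Ok F) (hz : IsOT F (m + 1) S deg z) :
    Adm F a.k m deg z (wallP F a.k a.c a.δ deg z.p)
      (cutG z (wallP F a.k a.c a.δ deg z.p))
      (stripQ F a.k a.b a.δ m deg (wallP F a.k a.c a.δ deg z.p)) := by
  obtain ⟨h1, h2, h3, h4⟩ := T3 hz ha.pos ha.h1
  exact T4 hz h1 h2 h3 h4 ha.pos (by have := ha.h2; linarith) ha.h3

/-- canonical cut of an honest object -/
theorem cutT_isOb {m : ℕ} {S : Set κ} {deg : J → ℤ} {z : Tup (Matrix J J R)} {a : Par κ}
    (ha : a.Ok F) (hz : IsOT F (m + 1) S deg z) :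
    IsOb F m (insert a.k S) (degB m deg) (cutT F a m deg z) :=
  T2 hz (canon_adm ha hz)

/-- (T6) the canonical cut of an object is an object. -/
theorem T6 {m : ℕ} {S : Set κ} {deg : J → ℤ} {x : RPr (Matrix J J R)} {a : Par κ}
    (ha : a.Ok F) (hx : IsOb F (m + 1) S deg x) :
    IsOb F m (insert a.k S) (degB m (degD (m + 1) deg)) (cut F a m deg x) :=
  cutT_isOb ha (T1 hx)

end strip

section iterate

variable {κ : Type*} {R : Type*} [Ring R] [StarRing R] [Algebra ℂ R] [StarModule ℂ R]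
  {F : Frame κ R}

theorem IsOb_mono {J : Type*} [Fintype J] [DecidableEq J] {m : ℕ} {S S' : Set κ} {deg : J → ℤ}
    {x : RPr (Matrix J J R)} (hx : IsOb F m S deg x) (h : S' ⊆ S) : IsOb F m S' deg x :=
  { hx with
    lo := fun k hk => hx.lo k (h hk)
    hi := fun k hk => hx.hi k (h hk) }


/-- one canonical cut, bundled -/
theorem cutO_isOb {m : ℕ} {S : Set κ} {a : Par κ} (ha : a.Ok F) {X : Obj R}
    (hX : IsOb F (m + 1) S X.deg X.x) :
    IsOb F m (insert a.k S) (cutO F a m X).deg (cutO F a m X).x := T6 ha hX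

/-- successive canonical cuts of an object are objects -/
theorem red_isOb (l : List (Par κ)) (hl : ∀ a ∈ l, a.Ok F) (S : Set κ) (X : Obj R)
    (hX : IsOb F l.length S X.deg X.x) :
    IsOb F 0 (S ∪ {k | ∃ a ∈ l, a.k = k}) (red F l X).deg (red F l X).x := by
  induction l generalizing S X with
  | nil =>
    refine IsOb_mono hX ?_
    rintro k (hk | ⟨a, ha, -⟩)
    · exact hk
    · simp at ha
  | cons a l ih =>
    have h1 := ih (fun b hb => hl b (List.mem_cons_of_mem _ hb)) (insert a.k S)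
      (cutO F a l.length X) (cutO_isOb (hl a List.mem_cons_self) hX)
    refine IsOb_mono h1 ?_
    rintro k (hk | ⟨b, hb, rfl⟩)
    · exact Or.inl (Or.inr hk)
    · rcases List.mem_cons.1 hb with rfl | hb
      · exact Or.inl (Or.inl rfl)
      · exact Or.inr ⟨b, hb, rfl⟩

/-- all directions cut: the result is bounded in all directions -/
theorem red_isOb_univ (l : List (Par κ)) (hl : ∀ a ∈ l, a.Ok F) (hk : ∀ k, ∃ a ∈ l, a.k = k)
    (S : Set κ) (X : Obj R) (hX : IsOb F l.length S X.deg X.x) :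
    IsOb F 0 Set.univ (red F l X).deg (red F l X).x :=
  IsOb_mono (red_isOb l hl S X hX) fun k _ => Or.inr (hk k)

end iterate

end Crest.Agent.R217.Cut2x473
end

-- ▼ part R217/Ind_52

/-!
Row 217 (S0336), part C, module M4: inductions over the list of cuts.
-/

set_option autoImplicit false
set_option linter.unusedSectionVars false

namespace Crest.Agent.R217.Ind52

open Matrix PC473 Obj52 Nat52 Sum52 TForm555 LocF555 Sig52

section closure

variable {κ : Type*} {R : Type*} [Ring R] [StarRing R] [Algebra ℂ R] [StarModule ℂ R]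
  {J J' : Type*} [Fintype J] [DecidableEq J] [Fintype J'] [DecidableEq J']
  {F : Frame κ R} {m : ℕ} {S : Set κ} {deg : J → ℤ} {x y : RPr (Matrix J J R)}

theorem _root_.Crest.Agent.R217.Obj52.IsOb.neg (h : IsOb F m S deg x) : IsOb F m S deg x.neg where
  rp := h.rp.neg
  pd := h.pd
  gd := h.gd
  hd := h.hd
  hf := h.hf.negc
  hq := h.hq.negc
  hh := h.hh.negc
  lo := h.lo
  hi := h.hi

theorem isRP_pair {A : Type*} [Ring A] [StarRing A] {x y : RPr A} (hx : x.IsRP m)
    (hy : y.IsRP m) : (pairR x y).IsRP m := by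
  have h1 : ((-1 : A × A) ^ m).1 = (-1) ^ m := by simp
  have h2 : ((-1 : A × A) ^ m).2 = (-1) ^ m := by simp
  constructor <;> apply Prod.ext <;> simp only [pairR, Prod.fst_mul, Prod.snd_mul, Prod.fst_star,
    Prod.snd_star, Prod.fst_zero, Prod.snd_zero, Prod.fst_add, Prod.snd_add, Prod.fst_sub,
    Prod.snd_sub, Prod.fst_neg, Prod.snd_neg, h1, h2]
  exacts [hx.pp, hy.pp, hx.sp, hy.sp, hx.gg, hy.gg, hx.sg, hy.sg, hx.pg, hy.pg, hx.pd, hy.pd,
    hx.dp, hy.dp, hx.pf, hy.pf, hx.pq, hy.pq, hx.ph, hy.ph, hx.hp, hy.hp, hx.dd, hy.dd, hx.sf,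
    hy.sf, hx.sq, hy.sq, hx.df, hy.df, hx.qd, hy.qd, hx.fqf, hy.fqf, hx.gd, hy.gd, hx.gf, hy.gf,
    hx.gq, hy.gq, hx.gh, hy.gh]

theorem hm_sm {α β : J → ℤ} {a b : Matrix J J R} (ha : Hm α β a) (hb : Hm α β b) :
    Hm (fun j : Fin 2 × J => α j.2) (fun j => β j.2) (sm a b) := by
  rintro ⟨i, u⟩ ⟨j, v⟩ h
  fin_cases i <;> fin_cases j <;> simp [sm, fl, ha u v h, hb u v h]

theorem _root_.Crest.Agent.R217.Obj52.IsOb.sum (hx : IsOb F m S deg x) (hy : IsOb F m S deg y) :
    IsOb F m S (deg2 deg) (sumR x y) where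
  rp := (isRP_pair hx.rp hy.rp).mapN smH
  pd := hx.pd.fl2c hy.pd
  gd := hx.gd.fl2c hy.gd
  hd := hm_sm hx.hd hy.hd
  hf := hm_sm hx.hf hy.hf
  hq := hm_sm hx.hq hy.hq
  hh := hm_sm hx.hh hy.hh
  lo k hk := BdLo_sm (hx.lo k hk) (hy.lo k hk)
  hi k hk := BdHi_sm (hx.hi k hk) (hy.hi k hk)

theorem hm_map {R' : Type*} [Ring R'] [StarRing R'] [Algebra ℂ R'] [StarModule ℂ R']
    (ϕ : R →⋆ₙₐ[ℂ] R') {α β : J → ℤ} {a : Matrix J J R} (ha : Hm α β a) :
    Hm α β (mapH J ϕ a) := by
  intro i j h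
  simp [ha i j h]

theorem dgc_map {R' : Type*} [Ring R'] [StarRing R'] [Algebra ℂ R'] [StarModule ℂ R']
    {F' : Frame κ R'} {ϕ : R →⋆ₙₐ[ℂ] R'} (h : ∀ k c, ϕ (F.pu k c) = F'.pu k c)
    {a : Matrix J J R} (ha : DgC F a) : DgC F' (mapH J ϕ a) := by
  obtain ⟨e, rfl, he⟩ := ha
  refine ⟨fun j => ϕ (e j), ?_, ?_⟩
  · ext i j
    simp only [mapH_apply, Matrix.map_apply, diagonal_apply]
    split_ifs <;> simp
  · intro j k c
    rw [← h, ← map_mul, ← map_mul, he]

theorem PU_map {R' : Type*} [Ring R'] [StarRing R'] [Algebra ℂ R'] [StarModule ℂ R']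
    {F' : Frame κ R'} {ϕ : R →⋆ₙₐ[ℂ] R'} (h : ∀ k c, ϕ (F.pu k c) = F'.pu k c) (k : κ)
    (t : J → ℝ) : mapH J ϕ (PU F k t) = PU F' k t := by
  ext i j
  simp only [mapH_apply, PU, Matrix.map_apply, diagonal_apply]
  split_ifs <;> simp [h]

theorem bdlo_map {R' : Type*} [Ring R'] [StarRing R'] [Algebra ℂ R'] [StarModule ℂ R']
    {F' : Frame κ R'} {ϕ : R →⋆ₙₐ[ℂ] R'} (h : ∀ k c, ϕ (F.pu k c) = F'.pu k c)
    (hlo : F'.lo = F.lo) {a : Matrix J J R} {k : κ} (ha : BdLo F k a) :
    BdLo F' k (mapH J ϕ a) := by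
  obtain ⟨s, h1, h2⟩ := ha
  refine ⟨s, by rwa [hlo], ?_⟩
  rw [← PU_map h, ← map_mul, h2, map_zero]

theorem bdhi_map {R' : Type*} [Ring R'] [StarRing R'] [Algebra ℂ R'] [StarModule ℂ R']
    {F' : Frame κ R'} {ϕ : R →⋆ₙₐ[ℂ] R'} (h : ∀ k c, ϕ (F.pu k c) = F'.pu k c)
    (hhi : F'.hi = F.hi) {a : Matrix J J R} {k : κ} (ha : BdHi F k a) :
    BdHi F' k (mapH J ϕ a) := by
  obtain ⟨s, h1, h2⟩ := ha
  refine ⟨s, by rwa [hhi], ?_⟩
  rw [← PU_map h, ← map_mul, h2]

theorem _root_.Crest.Agent.R217.Obj52.IsOb.map {R' : Type*} [Ring R'] [StarRing R'] [Algebra ℂ R']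
    [StarModule ℂ R'] {F' : Frame κ R'} {ϕ : R →⋆ₙₐ[ℂ] R'} (hx : IsOb F m S deg x)
    (h : ∀ k c, ϕ (F.pu k c) = F'.pu k c) (hlo : F'.lo = F.lo) (hhi : F'.hi = F.hi) :
    IsOb F' m S deg (x.map (mapH J ϕ)) where
  rp := hx.rp.mapN _
  pd := dgc_map h hx.pd
  gd := dgc_map h hx.gd
  hd := hm_map ϕ hx.hd
  hf := hm_map ϕ hx.hf
  hq := hm_map ϕ hx.hq
  hh := hm_map ϕ hx.hh
  lo k hk := bdlo_map h hlo (hx.lo k hk)
  hi k hk := bdhi_map h hhi (hx.hi k hk)

end closure

section T6

variable {κ : Type*} {R : Type*} [Ring R] [StarRing R] [Algebra ℂ R] [StarModule ℂ R]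

variable {F : Frame κ R}

/-- all directions are bounded or will be cut -/
def Cov (S : Set κ) (l : List (Par κ)) : Prop := ∀ k, k ∈ S ∨ ∃ a ∈ l, a.k = k

theorem Cov.tail {S : Set κ} {a : Par κ} {l : List (Par κ)} (h : Cov S (a :: l)) :
    Cov (insert a.k S) l := by
  intro k
  rcases h k with h | ⟨b, hb, rfl⟩
  · exact Or.inl (Or.inr h)
  · rcases List.mem_cons.1 hb with rfl | hb
    · exact Or.inl (Or.inl rfl)
    · exact Or.inr ⟨b, hb, rfl⟩

theorem red_isOb {l : List (Par κ)} (hl : ∀ a ∈ l, a.Ok F) {S : Set κ} (X : Obj R)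
    (h : IsOb F l.length S X.deg X.x) (hc : Cov S l) :
    IsOb F 0 Set.univ (red F l X).deg (red F l X).x := by
  induction l generalizing X S with
  | nil =>
    have hS : S = Set.univ := by
      ext k
      rcases hc k with h | ⟨a, ha, _⟩
      · simp [h]
      · simp at ha
    subst hS
    exact h
  | cons a l ih =>
    refine ih (fun b hb => hl b (List.mem_cons_of_mem _ hb)) (cutO F a l.length X) ?_ hc.tail
    exact Cut2x473.T6 (hl a List.mem_cons_self) h

end T6

section laws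

variable {κ : Type*} {R0 R1 : Type*} [Ring R0] [StarRing R0] [Algebra ℂ R0] [StarModule ℂ R0]
    [Ring R1] [StarRing R1] [Algebra ℂ R1] [StarModule ℂ R1]
    {F0 : Frame κ R0} {F1 : Frame κ R1} {G : Type*} [AddCommGroup G] (P : SgP F0 F1 G)

/-- bundling -/
def ob {R : Type*} {J : Type} [Fintype J] [DecidableEq J] (deg : J → ℤ)
    (x : RPr (Matrix J J R)) : Obj R := ⟨J, inferInstance, inferInstance, deg, x⟩

theorem sig_iso {l : List (Par κ)} (hl : ∀ a ∈ l, a.Ok F0) {S : Set κ}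
    {X Y : Obj R0} (h : IsOb F0 l.length S X.deg X.x) (hc : Cov S l) (hXY : Iso X Y) :
    sig F0 P.L l Y = sig F0 P.L l X := by
  have h1 := red_isOb hl X h hc
  obtain ⟨v, h2, h3⟩ := red_iso F0 l hXY
  unfold sig sgO
  rw [h3]
  exact sgU_iso P h1 (fun k => Set.mem_univ k) v

include P in
theorem ok1 {a : Par κ} (h : a.Ok F0) : a.Ok F1 := by
  obtain ⟨h0, h1, h2, h3⟩ := h
  exact ⟨h0, by rwa [P.lo_eq], h2, by rwa [P.hi_eq]⟩

theorem sig_path {l : List (Par κ)} (hl : ∀ a ∈ l, a.Ok F0) {S : Set κ}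
    {X : Obj R1} (h : IsOb F1 l.length S X.deg X.x) (hc : Cov S l) :
    sig F0 P.L l (mapO P.ev0 X) = sig F0 P.L l (mapO P.ev1 X) := by
  have h1 := red_isOb (fun a ha => ok1 P (hl a ha)) X h hc
  unfold sig
  rw [red_map (F := F1) (F' := F0) P.ev0_pu, red_map (F := F1) (F' := F0) P.ev1_pu]
  exact sgU_path P h1 (fun k => Set.mem_univ k)

theorem rmap_trans {J J' J'' : Type*} [Fintype J] [DecidableEq J] [Fintype J'] [DecidableEq J']
    [Fintype J''] [DecidableEq J''] (v : Mon J J') (w : Mon J' J'') (x : RPr (Matrix J J R0)) :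
    (x.map (cjH R0 v)).map (cjH R0 w) = x.map (cjH R0 (v.trans w)) := by
  simp only [RPr.map, cj_trans]

theorem cut_neg (F : Frame κ R0) (a : Par κ) (m : ℕ) {J : Type*} [Fintype J] [DecidableEq J]
    (deg : J → ℤ) (x : RPr (Matrix J J R0)) :
    cut F a m deg x.neg = ((cut F a m deg x).neg.map (cjH R0 (sgn J).two)).map
      (cjH R0 (sgn (Fin 2 × J))) := by
  unfold cut
  have h := cutT_nat (compat_cj (sgn J)) (punat_cj F (sgn J)
    (deg := degD (m + 1) deg) (deg' := degD (m + 1) deg) (fun _ => rfl)) a m (dblT (m + 1) x)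
  rw [dblT_neg, cutT_neg, h, ← RPr.neg_map (shom _), ← RPr.neg_map (shom _)]

theorem sig_neg {l : List (Par κ)} (hl : ∀ a ∈ l, a.Ok F0) {S : Set κ}
    {X : Obj R0} (h : IsOb F0 l.length S X.deg X.x) (hc : Cov S l) :
    sig F0 P.L l ⟨X.J, X.ft, X.de, X.deg, X.x.neg⟩ = - sig F0 P.L l X := by
  induction l generalizing X S with
  | nil =>
    have hS : S = Set.univ := by
      ext k
      rcases hc k with h | ⟨a, ha, _⟩
      · simp [h]
      · simp at ha
    subst hS
    exact sgU_neg P h (fun k => Set.mem_univ k)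
  | cons a l ih =>
    have hl' : ∀ b ∈ l, b.Ok F0 := fun b hb => hl b (List.mem_cons_of_mem _ hb)
    have h1 := Cut2x473.T6 (hl a List.mem_cons_self) h
    have h2 := ih hl' (X := cutO F0 a l.length X) h1 hc.tail
    have e1 : ∀ Y : Obj R0, sig F0 P.L (a :: l) Y = sig F0 P.L l (cutO F0 a l.length Y) :=
      fun Y => rfl
    rw [e1, e1, ← h2]
    apply sig_iso P hl' (X := ⟨(cutO F0 a l.length X).J, _, _, _, _⟩) h1.neg hc.tail
    refine ⟨(sgn X.J).two.trans (sgn (Fin 2 × X.J)), fun _ => rfl, ?_⟩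
    show cut F0 a l.length X.deg X.x.neg = _
    rw [cut_neg, rmap_trans]
    rfl

theorem sig_sum {l : List (Par κ)} (hl : ∀ a ∈ l, a.Ok F0) {S : Set κ}
    {J : Type} [Fintype J] [DecidableEq J] {deg : J → ℤ} {x y : RPr (Matrix J J R0)}
    (hx : IsOb F0 l.length S deg x) (hy : IsOb F0 l.length S deg y) (hc : Cov S l) :
    sig F0 P.L l (ob (deg2 deg) (sumR x y)) = sig F0 P.L l (ob deg x)
      + sig F0 P.L l (ob deg y) := by
  induction l generalizing J S with
  | nil =>
    have hS : S = Set.univ := by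
      ext k
      rcases hc k with h | ⟨a, ha, _⟩
      · simp [h]
      · simp at ha
    subst hS
    exact sgU_sum P hx hy (fun k => Set.mem_univ k)
  | cons a l ih =>
    have hl' : ∀ b ∈ l, b.Ok F0 := fun b hb => hl b (List.mem_cons_of_mem _ hb)
    have hx1 := Cut2x473.T6 (hl a List.mem_cons_self) hx
    have hy1 := Cut2x473.T6 (hl a List.mem_cons_self) hy
    have h2 := ih hl' hx1 hy1 hc.tail
    have e1 : ∀ Y : Obj R0, sig F0 P.L (a :: l) Y = sig F0 P.L l (cutO F0 a l.length Y) :=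
      fun Y => rfl
    rw [e1, e1, e1]
    refine Eq.trans ?_ h2
    apply sig_iso P hl' (X := ob _ _) (hx1.sum hy1) hc.tail
    refine ⟨(sw (Fin 2 × J)).trans (sw J).two, fun _ => rfl, ?_⟩
    show cut F0 a l.length (deg2 deg) (sumR x y) = _
    rw [cut_sum, rmap_trans]
    rfl

end laws

end Crest.Agent.R217.Ind52
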