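import Crest.Agent.R217.Ind_52
import Mathlib
import Crest.Agent.R217.RE2_531
import Crest.Agent.R217.RE4_531
import Crest.Agent.R217.RE5_531

-- ▼ part R217/Wall_473
section

/-!
Row 217 (S0336), part C, module M4: independence of the wall (rotation trick).
-/

set_option autoImplicit false
set_option linter.unusedSectionVars false

namespace Crest.Agent.R217.Wall473

open Matrix PC473 Obj52 Nat52 Sum52 TForm555 LocF555 Sig52 Ind52

section algebra

variable {A : Type*} [Ring A] [StarRing A] [Algebra ℂ A] [StarModule ℂ A]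

/-- the rotated sum `z ⊕ -z` : `[[c, s], [s, -c]] ⊗ S` -/
def ctT (z : Tup A) (c s : A) : Tup (Matrix (Fin 2) (Fin 2) A) where
  p := !![z.p, 0; 0, z.p]
  g := !![z.g, 0; 0, z.g]
  d := !![z.d, 0; 0, z.d]
  S := !![c * z.S, s * z.S; s * z.S, -(c * z.S)]
  T := !![c * z.T, s * z.T; s * z.T, -(c * z.T)]
  H := !![z.H, 0; 0, z.H]

theorem npow_fin2 (m : ℕ) (a b c d : A) :
    (-1 : Matrix (Fin 2) (Fin 2) A) ^ m * !![a, b; c, d]
      = !![(-1) ^ m * a, (-1) ^ m * b; (-1) ^ m * c, (-1) ^ m * d] := by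
  rcases Nat.even_or_odd m with h | h
  · simp [h.neg_one_pow]
  · simp [h.neg_one_pow]

theorem ctT_isPC {m : ℕ} {z : Tup A} (hz : z.IsPC m) {c s : A} (hc : ∀ a, c * a = a * c)
    (hs : ∀ a, s * a = a * s) (sc : star c = c) (ss : star s = s) (hcs : c * c + s * s = 1) :
    (ctT z c s).IsPC m := by
  have hSp := hz.Sp
  have hpsd := hz.psd
  obtain ⟨p, g, d, S, T, H⟩ := z
  obtain ⟨pp, sp, gg, sg, pg, pd, dp, pS, pT, pH, Hp, dd, sS, sT, dS, Td, ST, gd, gS, gT, gH⟩ := hz
  simp only at *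
  have mc : ∀ a b : A, a * (c * b) = c * (a * b) := fun a b => by
    rw [← mul_assoc, ← hc, mul_assoc]
  have ms : ∀ a b : A, a * (s * b) = s * (a * b) := fun a b => by
    rw [← mul_assoc, ← hs, mul_assoc]
  constructor <;> simp only [ctT, mul_fin_two, star_fin2, neg_fin2, add_fin2, zero_mul, mul_zero,
    add_zero, zero_add, star_zero, neg_zero, npow_fin2]
  · rw [pp]
  · rw [sp]
  · rw [gg]
  · rw [sg]
  · rw [pg]
  · rw [pd]
  · rw [dp]
  · refine fin2_eq ?_ ?_ ?_ ?_ <;> simp only [mul_neg, mc, ms, pS]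
  · refine fin2_eq ?_ ?_ ?_ ?_ <;> simp only [mul_neg, mc, ms, pT]
  · rw [pH]
  · rw [Hp]
  · rw [dd]; ext i j; fin_cases i <;> fin_cases j <;> rfl
  · refine fin2_eq ?_ ?_ ?_ ?_ <;> simp only [star_neg, star_mul, sS, sc, ss, hc, hs]
  · refine fin2_eq ?_ ?_ ?_ ?_ <;> simp only [star_neg, star_mul, sT, sc, ss, hc, hs]
  · have h1 : d * (c * S) + c * S * star d = 0 := by
      rw [mc, mul_assoc, ← mul_add, dS, mul_zero]
    have h2 : d * (s * S) + s * S * star d = 0 := by
      rw [ms, mul_assoc, ← mul_add, dS, mul_zero]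
    rw [h1, h2]
    rw [show d * -(c * S) + -(c * S) * star d = -(d * (c * S) + c * S * star d) by noncomm_ring, h1,
      neg_zero]
    ext i j; fin_cases i <;> fin_cases j <;> rfl
  · have h1 : c * T * d + star d * (c * T) = 0 := by
      rw [mc, mul_assoc, ← mul_add, Td, mul_zero]
    have h2 : s * T * d + star d * (s * T) = 0 := by
      rw [ms, mul_assoc, ← mul_add, Td, mul_zero]
    rw [h1, h2]
    rw [show -(c * T) * d + star d * -(c * T) = -(c * T * d + star d * (c * T)) by noncomm_ring, h1,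
      neg_zero]
    ext i j; fin_cases i <;> fin_cases j <;> rfl
  · have h1 : c * S * (c * T) + s * S * (s * T) = S * T := by
      rw [mul_assoc c, mul_assoc s, mc, ms, ← mul_assoc c c, ← mul_assoc s s, ← add_mul, hcs,
        one_mul]
    have h2 : c * S * (s * T) + s * S * -(c * T) = 0 := by
      rw [mul_neg, mul_assoc c, mul_assoc s, mc, ms, ← mul_assoc c s, ← mul_assoc s c, hc s]
      exact add_neg_cancel _
    have h3 : s * S * (c * T) + -(c * S) * (s * T) = 0 := by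
      rw [neg_mul, mul_assoc c, mul_assoc s, mc, ms, ← mul_assoc c s, ← mul_assoc s c, hc s]
      exact add_neg_cancel _
    have h4 : s * S * (s * T) + -(c * S) * -(c * T) = S * T := by
      rw [neg_mul_neg, add_comm, h1]
    rw [h1, h2, h3, h4, ST]
  · refine fin2_eq gd rfl rfl gd
  · refine fin2_eq ?_ ?_ ?_ ?_
    · rw [mc, gS, mul_assoc c, mc]
    · rw [ms, gS, mul_assoc s, ms]
    · rw [ms, gS, mul_assoc s, ms]
    · rw [mul_neg, mc, gS, neg_mul, mul_assoc c, mul_neg, mc]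
  · refine fin2_eq ?_ ?_ ?_ ?_
    · rw [mc, gT, mul_assoc c, mc]
    · rw [ms, gT, mul_assoc s, ms]
    · rw [ms, gT, mul_assoc s, ms]
    · rw [mul_neg, mc, gT, neg_mul, mul_assoc c, mul_neg, mc]
  · refine fin2_eq gH rfl rfl gH

end algebra

section flat

variable {κ : Type*} {R : Type*} [Ring R] [StarRing R] [Algebra ℂ R] [StarModule ℂ R]
variable {J : Type*} [Fintype J] [DecidableEq J] {F : Frame κ R}

/-- scalar matrix -/
def scl (J : Type*) [Fintype J] [DecidableEq J] (c : R) : Matrix J J R := diagonal fun _ => c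

theorem scl_comm {c : R} (hc : ∀ a, c * a = a * c) (a : Matrix J J R) :
    scl J c * a = a * scl J c := by
  ext i j
  rw [scl, Matrix.diagonal_mul, Matrix.mul_diagonal, hc]

theorem scl_star (c : R) : star (scl J c) = scl J (star c) := by
  rw [scl, scl, star_eq_conjTranspose, diagonal_conjTranspose]
  rfl

theorem scl_mul (c s : R) : scl J c * scl J s = scl J (c * s) := by
  rw [scl, scl, scl, diagonal_mul_diagonal]

theorem scl_add (c s : R) : scl J c + scl J s = scl J (c + s) := by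
  rw [scl, scl, scl, diagonal_add]

theorem scl_one : scl J (1 : R) = 1 := by rw [scl, diagonal_one]

theorem scl_zero : scl J (0 : R) = 0 := by rw [scl, diagonal_zero]

theorem scl_map {R' : Type*} [Ring R'] [StarRing R'] [Algebra ℂ R'] [StarModule ℂ R']
    (φ : R →⋆ₙₐ[ℂ] R') (c : R) : mapH J φ (scl J c) = scl J (φ c) := by
  ext i j
  simp only [mapH_apply, scl, Matrix.map_apply, diagonal_apply]
  split_ifs <;> simp

/-- the rotated sum, flattened -/
def wt (z : Tup (Matrix J J R)) (c s : R) : Tup (Matrix (Fin 2 × J) (Fin 2 × J) R) :=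
  (ctT z (scl J c) (scl J s)).map fl

theorem wt_p (z : Tup (Matrix J J R)) (c s : R) : (wt z c s).p = sm z.p z.p := rfl
theorem wt_g (z : Tup (Matrix J J R)) (c s : R) : (wt z c s).g = sm z.g z.g := rfl
theorem wt_d (z : Tup (Matrix J J R)) (c s : R) : (wt z c s).d = sm z.d z.d := rfl

theorem hm_scl {α β : J → ℤ} {a : Matrix J J R} (ha : Hm α β a) (c : R) :
    Hm α β (scl J c * a) := by
  intro i j h
  rw [scl, Matrix.diagonal_mul, ha i j h, mul_zero]

theorem wt_isOT {m : ℕ} {S : Set κ} {deg : J → ℤ} {z : Tup (Matrix J J R)}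
    (hz : IsOT F m S deg z) {c s : R} (hc : ∀ a, c * a = a * c) (hs : ∀ a, s * a = a * s)
    (sc : star c = c) (ss : star s = s) (hcs : c * c + s * s = 1) :
    IsOT F m S (deg2 deg) (wt z c s) where
  pc := by
    refine Cut1x473.isPC_fl (ctT_isPC hz.pc (scl_comm hc) (scl_comm hs) ?_ ?_ ?_)
    · rw [scl_star, sc]
    · rw [scl_star, ss]
    · rw [scl_mul, scl_mul, scl_add, hcs, scl_one]
  pd := hz.pd.fl2c hz.pd
  gd := hz.gd.fl2c hz.gd
  hd := hm_sm hz.hd hz.hd
  hS := Hm.fl2c (hm_scl hz.hS c) (hm_scl hz.hS s) (hm_scl hz.hS s) (hm_scl hz.hS c).negc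
  hT := Hm.fl2c (hm_scl hz.hT c) (hm_scl hz.hT s) (hm_scl hz.hT s) (hm_scl hz.hT c).negc
  hH := hm_sm hz.hH hz.hH
  lo k hk := (hz.lo k hk).fl2c
  hi k hk := (hz.hi k hk).fl2c

theorem wt_map {R' : Type*} [Ring R'] [StarRing R'] [Algebra ℂ R'] [StarModule ℂ R']
    (φ : R →⋆ₙₐ[ℂ] R') (z : Tup (Matrix J J R)) (c s : R) :
    (wt z c s).map (mapH (Fin 2 × J) φ) = wt (z.map (mapH J φ)) (φ c) (φ s) := by
  have key : ∀ M : Matrix (Fin 2) (Fin 2) (Matrix J J R),
      mapH (Fin 2 × J) φ (fl M) = fl (M.map (mapH J φ)) := compat_map φ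
  simp only [wt, ctT, Tup.map, key, PC473.map_fin2, map_mul, map_neg, map_zero, scl_map]

theorem wt_one_zero (z : Tup (Matrix J J R)) : wt z 1 0 = sumT z z.neg := by
  simp only [wt, ctT, Tup.map, scl_one, scl_zero, one_mul, zero_mul, sumT, pairT, Tup.neg,
    smH_apply, sm]

theorem wt_zero_one_neg (z : Tup (Matrix J J R)) :
    (wt z 0 1).neg = (wt z 0 1).map (cjH R (sgn J)) := by
  simp only [wt, ctT, Tup.map, Tup.neg, ← fl_uu, uu_conj, scl_one, scl_zero, one_mul, zero_mul,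
    neg_zero]
  congr 1
  · rw [← Cut1x473.fl_neg, neg_fin2]; simp
  · rw [← Cut1x473.fl_neg, neg_fin2]; simp

/-- the two walls in the two blocks -/
theorem quot_sm {z : Tup (Matrix J J R)} {P P' : Matrix J J R} (hq : IsQuot z P)
    (hq' : IsQuot z P') (c s : R) : IsQuot (wt z c s) (sm P P') where
  PP := by rw [sm_mul, hq.PP, hq'.PP]
  sP := by rw [sm_star, hq.sP, hq'.sP]
  pP := by rw [wt_p, sm_mul, hq.pP, hq'.pP]
  Pd := by rw [wt_d, sm_mul, sm_mul, hq.Pd, hq'.Pd]
  gP := by rw [wt_g, sm_mul, sm_mul, hq.gP, hq'.gP]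

theorem PU_sm {k : κ} {t : ℝ} {a b : Matrix J J R} (ha : PU F k (fun _ => t) * a = a)
    (hb : PU F k (fun _ => t) * b = b) : PU F k (fun _ => t) * sm a b = sm a b := by
  rw [show PU F k (fun _ : Fin 2 × J => t) = sm (PU F k (fun _ => t)) (PU F k (fun _ => t)) from
    sm_PU F k (fun _ : J => t), sm_mul, ha, hb]


end flat

section change

variable {κ : Type*} {R0 R1 : Type*} [Ring R0] [StarRing R0] [Algebra ℂ R0] [StarModule ℂ R0]
    [Ring R1] [StarRing R1] [Algebra ℂ R1] [StarModule ℂ R1]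
    {F0 : Frame κ R0} {F1 : Frame κ R1} {G : Type*} [AddCommGroup G] (Pk : SgP F0 F1 G)

theorem Tup.map_map {A B C : Type*} (z : Tup A) (f : A → B) (g : B → C) :
    (z.map f).map g = z.map (g ∘ f) := rfl

theorem _root_.Crest.Agent.R217.Obj52.IsOT.map {J : Type*} [Fintype J] [DecidableEq J]
    {m : ℕ} {S : Set κ} {deg : J → ℤ} {z : Tup (Matrix J J R0)} {ϕ : R0 →⋆ₙₐ[ℂ] R1}
    (hz : IsOT F0 m S deg z) (h : ∀ k c, ϕ (F0.pu k c) = F1.pu k c) (hlo : F1.lo = F0.lo)
    (hhi : F1.hi = F0.hi) : IsOT F1 m S deg (z.map (mapH J ϕ)) where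
  pc := hz.pc.mapN _
  pd := dgc_map h hz.pd
  gd := dgc_map h hz.gd
  hd := hm_map ϕ hz.hd
  hS := hm_map ϕ hz.hS
  hT := hm_map ϕ hz.hT
  hH := hm_map ϕ hz.hH
  lo k hk := bdlo_map h hlo (hz.lo k hk)
  hi k hk := bdhi_map h hhi (hz.hi k hk)

theorem quot_map {A B : Type*} [Ring A] [StarRing A] [Algebra ℂ A] [StarModule ℂ A]
    [Ring B] [StarRing B] [Algebra ℂ B] [StarModule ℂ B] (φ : A →⋆ₙₐ[ℂ] B) {z : Tup A} {P : A}
    (hq : IsQuot z P) : IsQuot (z.map φ) (φ P) where
  PP := by rw [← map_mul, hq.PP]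
  sP := by rw [← map_star, hq.sP]
  pP := by simp only [Tup.map]; rw [← map_mul, hq.pP]
  Pd := by simp only [Tup.map]; rw [← map_mul, ← map_mul, hq.Pd]
  gP := by simp only [Tup.map]; rw [← map_mul, ← map_mul, hq.gP]

end change

section cj

variable {κ : Type*} {R : Type*} [Ring R] [StarRing R] [Algebra ℂ R] [StarModule ℂ R]
variable {J J' : Type*} [Fintype J] [DecidableEq J] [Fintype J'] [DecidableEq J']
  {F : Frame κ R}

/-- entries of a conjugate by a monomial isometry -/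
theorem cj_cases (v : Mon J J') (a : Matrix J J R) (i j : J') :
    (∃ i' j', i = v.σ i' ∧ j = v.σ j' ∧ cjH R v a i j = (v.ε i' * star (v.ε j')) • a i' j') ∨
      cjH R v a i j = 0 := by
  by_cases hi : ∃ i', i = v.σ i'
  · by_cases hj : ∃ j', j = v.σ j'
    · obtain ⟨i', rfl⟩ := hi
      obtain ⟨j', rfl⟩ := hj
      exact Or.inl ⟨i', j', rfl, rfl, cj_apply_σ v a i' j'⟩
    · right
      simp only [cjH_apply, Matrix.mul_apply, Matrix.conjTranspose_apply, Mon.V]
      refine Finset.sum_eq_zero fun x _ => ?_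
      rw [if_neg (fun h => hj ⟨x, h⟩), star_zero, mul_zero]
  · right
    simp only [cjH_apply, Matrix.mul_apply, Matrix.conjTranspose_apply, Mon.V]
    refine Finset.sum_eq_zero fun x _ => ?_
    rw [Finset.sum_eq_zero fun y _ => ?_, zero_mul]
    rw [if_neg (fun h => hi ⟨y, h⟩), zero_mul]

theorem dgc_cj (v : Mon J J') {a : Matrix J J R} (ha : DgC F a) : DgC F (cjH R v a) := by
  obtain ⟨e, rfl, he⟩ := ha
  refine ⟨fun i => cjH R v (diagonal e) i i, ?_, ?_⟩
  · ext i j
    by_cases h : i = j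
    · subst h; rw [diagonal_apply_eq]
    · rw [diagonal_apply_ne _ h]
      rcases cj_cases v (diagonal e) i j with ⟨i', j', rfl, rfl, h1⟩ | h1
      · rw [h1, diagonal_apply_ne _ (fun h2 => h (by rw [h2])), smul_zero]
      · exact h1
  · intro i k c
    rcases cj_cases v (diagonal e) i i with ⟨i', j', h0, h0', h1⟩ | h1
    · have : i' = j' := v.inj (h0.symm.trans h0')
      subst this
      show cjH R v (diagonal e) i i * _ = _ * cjH R v (diagonal e) i i
      rw [h1, diagonal_apply_eq, smul_mul_assoc, he, mul_smul_comm]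
    · show cjH R v (diagonal e) i i * _ = _ * cjH R v (diagonal e) i i
      rw [h1, zero_mul, mul_zero]

theorem hm_cj (v : Mon J J') {α β : J → ℤ} {α' β' : J' → ℤ} (hα : ∀ j, α' (v.σ j) = α j)
    (hβ : ∀ j, β' (v.σ j) = β j) {a : Matrix J J R} (ha : Hm α β a) : Hm α' β' (cjH R v a) := by
  intro i j h
  rcases cj_cases v a i j with ⟨i', j', rfl, rfl, h1⟩ | h1
  · rw [hα, hβ] at h
    rw [h1, ha _ _ h, smul_zero]
  · exact h1

theorem bdlo_cj (v : Mon J J') {a : Matrix J J R} {k : κ} (ha : BdLo F k a) :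
    BdLo F k (cjH R v a) := by
  obtain ⟨s, h1, h2⟩ := ha
  refine ⟨s, h1, ?_⟩
  rw [← cj_PU_left F k v (t := fun _ => s) (fun _ => rfl), h2, map_zero]

theorem bdhi_cj (v : Mon J J') {a : Matrix J J R} {k : κ} (ha : BdHi F k a) :
    BdHi F k (cjH R v a) := by
  obtain ⟨s, h1, h2⟩ := ha
  refine ⟨s, h1, ?_⟩
  rw [← cj_PU_left F k v (t := fun _ => s) (fun _ => rfl), h2]

theorem _root_.Crest.Agent.R217.Obj52.IsOb.cj {m : ℕ} {S : Set κ} {deg : J → ℤ} {deg' : J' → ℤ}
    {x : RPr (Matrix J J R)} (hx : IsOb F m S deg x) (v : Mon J J')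
    (h : ∀ j, deg' (v.σ j) = deg j) : IsOb F m S deg' (x.map (cjH R v)) where
  rp := hx.rp.mapN _
  pd := dgc_cj v hx.pd
  gd := dgc_cj v hx.gd
  hd := hm_cj v (fun j => by rw [h]) (fun j => by rw [h]) hx.hd
  hf := hm_cj v (fun j => by rw [h]) (fun j => by rw [h]) hx.hf
  hq := hm_cj v (fun j => by rw [h]) (fun j => by rw [h]) hx.hq
  hh := hm_cj v (fun j => by rw [h]) (fun j => by rw [h]) hx.hh
  lo k hk := bdlo_cj v (hx.lo k hk)
  hi k hk := bdhi_cj v (hx.hi k hk)

theorem _root_.Crest.Agent.R217.Obj52.IsOT.cj {m : ℕ} {S : Set κ} {deg : J → ℤ} {deg' : J' → ℤ}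
    {x : Tup (Matrix J J R)} (hx : IsOT F m S deg x) (v : Mon J J')
    (h : ∀ j, deg' (v.σ j) = deg j) : IsOT F m S deg' (x.map (cjH R v)) where
  pc := hx.pc.mapN _
  pd := dgc_cj v hx.pd
  gd := dgc_cj v hx.gd
  hd := hm_cj v (fun j => by rw [h]) (fun j => by rw [h]) hx.hd
  hS := hm_cj v (fun j => by rw [h]) (fun j => by rw [h]) hx.hS
  hT := hm_cj v (fun j => by rw [h]) (fun j => by rw [h]) hx.hT
  hH := hm_cj v (fun j => by rw [h]) (fun j => by rw [h]) hx.hH
  lo k hk := bdlo_cj v (hx.lo k hk)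
  hi k hk := bdhi_cj v (hx.hi k hk)

theorem _root_.Crest.Agent.R217.Obj52.IsOT.neg {m : ℕ} {S : Set κ} {deg : J → ℤ}
    {x : Tup (Matrix J J R)} (h : IsOT F m S deg x) : IsOT F m S deg x.neg where
  pc := h.pc.neg
  pd := h.pd
  gd := h.gd
  hd := h.hd
  hS := h.hS.negc
  hT := h.hT.negc
  hH := h.hH
  lo := h.lo
  hi := h.hi

end cj

section cutW

variable {κ : Type*} {R R' : Type*} [Ring R] [StarRing R] [Algebra ℂ R] [StarModule ℂ R]
  [Ring R'] [StarRing R'] [Algebra ℂ R'] [StarModule ℂ R']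
variable {J J' : Type*} [Fintype J] [DecidableEq J] [Fintype J'] [DecidableEq J']
  {φ : Matrix J J R →⋆ₙₐ[ℂ] Matrix J' J' R'}
  {φ2 : Matrix (Fin 2 × J) (Fin 2 × J) R →⋆ₙₐ[ℂ] Matrix (Fin 2 × J') (Fin 2 × J') R'}
  {F : Frame κ R} {F' : Frame κ R'} {deg : J → ℤ} {deg' : J' → ℤ}

/-- the cut along the wall `W` with canonical contraction and canonical strip -/
noncomputable def cutW (F : Frame κ R) (k : κ) (b δ : ℝ) (m : ℕ) (deg : J → ℤ)
    (z : Tup (Matrix J J R)) (W : Matrix J J R) : RPr (Matrix (Fin 2 × J) (Fin 2 × J) R) :=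
  cutR m z W (cutG z W) (stripQ F k b δ m deg W)

theorem cutW_nat (h : Compat φ φ2) (hp : PUNat F F' deg deg' φ) (k : κ) (b δ : ℝ) (m : ℕ)
    (z : Tup (Matrix J J R)) (W : Matrix J J R) :
    cutW F' k b δ m deg' (z.map φ) (φ W) = (cutW F k b δ m deg z W).map φ2 := by
  unfold cutW
  rw [← stripQ_nat hp, ← cutG_map, h.cutR]

theorem cutW_sum (k : κ) (b δ : ℝ) (m : ℕ) (z w : Tup (Matrix J J R)) (W W' : Matrix J J R) :
    cutW F k b δ m (deg2 deg) (sumT z w) (sm W W') =
      (sumR (cutW F k b δ m deg z W) (cutW F k b δ m deg w W')).map (cjH R (sw J)) := by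
  unfold cutW
  rw [stripQ_sum, cutG_sum, cutR_sum]

theorem cutW_neg (k : κ) (b δ : ℝ) (m : ℕ) (z : Tup (Matrix J J R)) (W : Matrix J J R) :
    cutW F k b δ m deg z.neg W = ((cutW F k b δ m deg z W).map (cjH R (sgn J))).neg := by
  unfold cutW
  rw [cutG_neg, ← cutR_neg]
  congr 1
  unfold stripQ
  rw [uu_diag]

theorem cj_sgn_sm (W W' : Matrix J J R) : cjH R (sgn J) (sm W W') = sm W W' := by
  unfold sm
  rw [← fl_uu, uu_conj, neg_zero]

/-- hypotheses on a wall -/
structure IsWall (F : Frame κ R) (k : κ) (t : ℝ) (z : Tup (Matrix J J R)) (W : Matrix J J R) :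
    Prop where
  quot : IsQuot z W
  dg : DgC F W
  lo : BdLo F k W
  up : PU F k (fun _ => t) * (z.p - W) = z.p - W

theorem cutW_isOb {m : ℕ} {S : Set κ} {z : Tup (Matrix J J R)} {k : κ}
    {W : Matrix J J R} {t b δ : ℝ} (hz : IsOT F (m + 1) S deg z) (hW : IsWall F k t z W)
    (hδ : 0 < δ) (htb : t + 2 * δ < b) (hb : b + 2 * δ < F.hi k) :
    IsOb F m (insert k S) (degB m deg) (cutW F k b δ m deg z W) :=
  Cut1x473.T2 hz (Cut2x473.T4 hz hW.quot hW.dg hW.lo hW.up hδ htb hb)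

theorem IsWall.neg {z : Tup (Matrix J J R)} {k : κ} {W : Matrix J J R} {t : ℝ}
    (hW : IsWall F k t z W) : IsWall F k t z.neg W where
  quot := ⟨hW.quot.PP, hW.quot.sP, hW.quot.pP, hW.quot.Pd, hW.quot.gP⟩
  dg := hW.dg
  lo := hW.lo
  up := hW.up


theorem IsWall.sm {z : Tup (Matrix J J R)} {k : κ} {W W' : Matrix J J R} {t : ℝ}
    (hW : IsWall F k t z W) (hW' : IsWall F k t z W') (c s : R) :
    IsWall F k t (wt z c s) (sm W W') where
  quot := quot_sm hW.quot hW'.quot c s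
  dg := hW.dg.fl2c hW'.dg
  lo := BdLo_sm hW.lo hW'.lo
  up := by rw [wt_p, sm_sub]; exact PU_sm hW.up hW'.up

theorem IsWall.map {z : Tup (Matrix J J R)} {k : κ} {W : Matrix J J R} {t : ℝ}
    (hW : IsWall F k t z W) {ϕ : R →⋆ₙₐ[ℂ] R'} (h : ∀ k c, ϕ (F.pu k c) = F'.pu k c)
    (hlo : F'.lo = F.lo) : IsWall F' k t (z.map (mapH J ϕ)) (mapH J ϕ W) where
  quot := quot_map _ hW.quot
  dg := dgc_map h hW.dg
  lo := bdlo_map h hlo hW.lo
  up := by
    show PU F' k (fun _ => t) * (mapH J ϕ z.p - mapH J ϕ W) = mapH J ϕ z.p - mapH J ϕ W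
    rw [← PU_map h, ← map_sub, ← map_mul, hW.up]

end cutW

section main

variable {κ : Type*} {R0 R1 : Type*} [Ring R0] [StarRing R0] [Algebra ℂ R0] [StarModule ℂ R0]
    [Ring R1] [StarRing R1] [Algebra ℂ R1] [StarModule ℂ R1]
    {F0 : Frame κ R0} {F1 : Frame κ R1} {G : Type*} [AddCommGroup G] (Pk : SgP F0 F1 G)

theorem map_cst_ev {J : Type*} [Fintype J] [DecidableEq J] (ev : R1 →⋆ₙₐ[ℂ] R0)
    (cst : R0 →⋆ₙₐ[ℂ] R1) (h : ∀ a, ev (cst a) = a) (a : Matrix J J R0) :
    mapH J ev (mapH J cst a) = a := by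
  ext i j; simp [h]

/-- WALL CHANGE: the signature does not depend on the wall. -/
theorem wall_change {l : List (Par κ)} (hl : ∀ a ∈ l, a.Ok F0) {S : Set κ}
    {J : Type} [Fintype J] [DecidableEq J] {deg : J → ℤ} {z : Tup (Matrix J J R0)} {k : κ}
    {W W' : Matrix J J R0} {t b δ : ℝ} (hz : IsOT F0 (l.length + 1) S deg z)
    (hW : IsWall F0 k t z W) (hW' : IsWall F0 k t z W')
    (hδ : 0 < δ) (htb : t + 2 * δ < b) (hb : b + 2 * δ < F0.hi k)
    (hc : Cov (insert k S) l) :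
    sig F0 Pk.L l (ob (degB l.length deg) (cutW F0 k b δ l.length deg z W))
      = sig F0 Pk.L l (ob (degB l.length deg) (cutW F0 k b δ l.length deg z W')) := by
  set m := l.length with hm
  set zc := z.map (mapH J Pk.cst) with hzc
  have h1 : IsOT F1 (m + 1) S deg zc := hz.map Pk.cst_pu Pk.lo_eq Pk.hi_eq
  have h2 : IsOT F1 (m + 1) S (deg2 deg) (wt zc Pk.cs Pk.sn) :=
    wt_isOT h1 Pk.cs_comm Pk.sn_comm Pk.cs_star Pk.sn_star Pk.cs_sn
  have h3 : IsWall F1 k t (wt zc Pk.cs Pk.sn) (sm (mapH J Pk.cst W) (mapH J Pk.cst W')) :=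
    (hW.map Pk.cst_pu Pk.lo_eq).sm (hW'.map Pk.cst_pu Pk.lo_eq) _ _
  have h4 := cutW_isOb h2 h3 hδ htb (by rw [Pk.hi_eq]; exact hb)
  have h5 := sig_path Pk hl (X := ob (degB m (deg2 deg))
    (cutW F1 k b δ m (deg2 deg) (wt zc Pk.cs Pk.sn)
      (sm (mapH J Pk.cst W) (mapH J Pk.cst W')))) h4 hc
  -- endpoints
  have key : ∀ (ev : R1 →⋆ₙₐ[ℂ] R0), (∀ a, ev (Pk.cst a) = a) →
      (∀ k c, ev (F1.pu k c) = F0.pu k c) →
      mapO ev (ob (degB m (deg2 deg)) (cutW F1 k b δ m (deg2 deg) (wt zc Pk.cs Pk.sn)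
        (sm (mapH J Pk.cst W) (mapH J Pk.cst W'))))
      = ob (degB m (deg2 deg)) (cutW F0 k b δ m (deg2 deg) (wt z (ev Pk.cs) (ev Pk.sn))
        (sm W W')) := by
    intro ev hev hpu
    have e1 : (wt zc Pk.cs Pk.sn).map (mapH (Fin 2 × J) ev) = wt z (ev Pk.cs) (ev Pk.sn) := by
      rw [wt_map]
      congr 1
      rw [hzc]
      simp only [Tup.map, map_cst_ev ev Pk.cst hev]
    have e2 : mapH (Fin 2 × J) ev (sm (mapH J Pk.cst W) (mapH J Pk.cst W')) = sm W W' := by
      have := compat_map (J := J) ev !![mapH J Pk.cst W, 0; 0, mapH J Pk.cst W']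
      rw [Nat52.diag_map, map_cst_ev ev Pk.cst hev, map_cst_ev ev Pk.cst hev] at this
      exact this
    have e3 := cutW_nat (F := F1) (F' := F0) (deg := deg2 deg) (deg' := deg2 deg)
      (compat_map (J := Fin 2 × J) ev) (punat_map hpu _) k b δ m (wt zc Pk.cs Pk.sn)
      (sm (mapH J Pk.cst W) (mapH J Pk.cst W'))
    rw [e1, e2] at e3
    rw [e3]
    rfl
  rw [key Pk.ev0 Pk.ev0_cst Pk.ev0_pu, key Pk.ev1 Pk.ev1_cst Pk.ev1_pu, Pk.ev0_cs, Pk.ev0_sn,
    Pk.ev1_cs, Pk.ev1_sn, wt_one_zero, cutW_sum, cutW_neg] at h5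
  -- the pieces
  have hX := cutW_isOb hz hW hδ htb hb
  have hY := cutW_isOb hz hW' hδ htb hb
  have hY2 : IsOb F0 m (insert k S) (degB m deg)
      ((cutW F0 k b δ m deg z W').map (cjH R0 (sgn J))) := hY.cj (sgn J) (fun _ => rfl)
  have hXY := hX.sum hY2.neg
  have s1 := sig_iso Pk hl (X := ob (deg2 (degB m deg)) (sumR (cutW F0 k b δ m deg z W)
    ((cutW F0 k b δ m deg z W').map (cjH R0 (sgn J))).neg))
    (Y := ob (degB m (deg2 deg)) ((sumR (cutW F0 k b δ m deg z W)
    ((cutW F0 k b δ m deg z W').map (cjH R0 (sgn J))).neg).map (cjH R0 (sw J)))) hXY hc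
    ⟨sw J, fun _ => rfl, rfl⟩
  rw [s1, sig_sum Pk hl hX hY2.neg hc] at h5
  have s2 := sig_neg Pk hl (X := ob (degB m deg)
    ((cutW F0 k b δ m deg z W').map (cjH R0 (sgn J)))) hY2 hc
  have s3 := sig_iso Pk hl (X := ob (degB m deg) (cutW F0 k b δ m deg z W'))
    (Y := ob (degB m deg) ((cutW F0 k b δ m deg z W').map (cjH R0 (sgn J)))) hY hc
    ⟨sgn J, fun _ => rfl, rfl⟩
  -- the self negative end point
  have h01 : IsOT F0 (m + 1) S (deg2 deg) (wt z 0 1) :=
    wt_isOT hz (by simp) (by simp) (by simp) (by simp) (by simp)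
  have h01w : IsWall F0 k t (wt z 0 1) (sm W W') := hW.sm hW' 0 1
  have h01o := cutW_isOb h01 h01w hδ htb hb
  have h01n : ((cutW F0 k b δ m (deg2 deg) (wt z 0 1) (sm W W')).map
      (cjH R0 (sgn (Fin 2 × J)))).neg
      = (cutW F0 k b δ m (deg2 deg) (wt z 0 1) (sm W W')).map (cjH R0 (sgn J).two) := by
    rw [← cutW_neg, wt_zero_one_neg]
    have := cutW_nat (F := F0) (F' := F0) (deg := deg2 deg) (deg' := deg2 deg)
      (compat_cj (R := R0) (sgn J)) (punat_cj F0 (sgn J) (fun _ => rfl)) k b δ m (wt z 0 1)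
      (sm W W')
    rw [cj_sgn_sm] at this
    exact this
  have s4 := sig_iso Pk hl (X := ob (degB m (deg2 deg))
      (cutW F0 k b δ m (deg2 deg) (wt z 0 1) (sm W W')))
    (Y := ob (degB m (deg2 deg)) ((cutW F0 k b δ m (deg2 deg) (wt z 0 1) (sm W W')).map
      (cjH R0 (sgn J).two))) h01o hc ⟨(sgn J).two, fun _ => rfl, rfl⟩
  have s5 := sig_iso Pk hl (X := ob (degB m (deg2 deg))
      (cutW F0 k b δ m (deg2 deg) (wt z 0 1) (sm W W')))
    (Y := ob (degB m (deg2 deg)) ((cutW F0 k b δ m (deg2 deg) (wt z 0 1) (sm W W')).map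
      (cjH R0 (sgn (Fin 2 × J))))) h01o hc ⟨sgn (Fin 2 × J), fun _ => rfl, rfl⟩
  have s6 := sig_neg Pk hl (X := ob (degB m (deg2 deg))
      ((cutW F0 k b δ m (deg2 deg) (wt z 0 1) (sm W W')).map
      (cjH R0 (sgn (Fin 2 × J))))) (h01o.cj (sgn (Fin 2 × J)) fun _ => rfl) hc
  have s7 : sig F0 Pk.L l (ob (degB m (deg2 deg))
      (cutW F0 k b δ m (deg2 deg) (wt z 0 1) (sm W W'))) = 0 := by
    have e : (ob (degB m (deg2 deg)) ((cutW F0 k b δ m (deg2 deg) (wt z 0 1) (sm W W')).map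
      (cjH R0 (sgn J).two))) = ob (degB m (deg2 deg))
        (((cutW F0 k b δ m (deg2 deg) (wt z 0 1) (sm W W')).map
      (cjH R0 (sgn (Fin 2 × J)))).neg) := by rw [h01n]
    rw [e] at s4
    refine Pk.L.tf 2 _ two_ne_zero ?_
    rw [two_nsmul]
    nth_rewrite 1 [← s4]
    refine (congrArg (· + _) s6).trans ?_
    rw [s5, neg_add_cancel]
  rw [s7] at h5
  have s8 : sig F0 Pk.L l (ob (degB m deg) ((cutW F0 k b δ m deg z W').map
      (cjH R0 (sgn J))).neg) = - sig F0 Pk.L l (ob (degB m deg)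
        (cutW F0 k b δ m deg z W')) := by
    rw [← s3]; exact s2
  rw [s8] at h5
  exact add_neg_eq_zero.1 h5

end main

end Crest.Agent.R217.Wall473
end

-- ▼ part R217/Rot_52
section

/-!
Row 217 (S0336), part C, module M4: the rotation principle for signatures.
-/

set_option autoImplicit false
set_option linter.unusedSectionVars false

namespace Crest.Agent.R217.Rot52

open Matrix PC473 Obj52 Nat52 Sum52 TForm555 LocF555 Sig52 Ind52 RE531

section isot

variable {κ : Type*} {R : Type*} [Ring R] [StarRing R] [Algebra ℂ R] [StarModule ℂ R]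
  {J J' : Type*} [Fintype J] [DecidableEq J] [Fintype J'] [DecidableEq J']
  {F : Frame κ R} {m : ℕ} {S : Set κ} {deg : J → ℤ} {x y : Tup (Matrix J J R)}

theorem isPC_pair {A : Type*} [Ring A] [StarRing A] {x y : Tup A} (hx : x.IsPC m)
    (hy : y.IsPC m) : (pairT x y).IsPC m := by
  have h1 : ((-1 : A × A) ^ m).1 = (-1) ^ m := by simp
  have h2 : ((-1 : A × A) ^ m).2 = (-1) ^ m := by simp
  constructor <;> apply Prod.ext <;> simp only [pairT, Prod.fst_mul, Prod.snd_mul, Prod.fst_star,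
    Prod.snd_star, Prod.fst_zero, Prod.snd_zero, Prod.fst_add, Prod.snd_add,
    Prod.fst_neg, Prod.snd_neg, h1, h2]
  exacts [hx.pp, hy.pp, hx.sp, hy.sp, hx.gg, hy.gg, hx.sg, hy.sg, hx.pg, hy.pg, hx.pd, hy.pd,
    hx.dp, hy.dp, hx.pS, hy.pS, hx.pT, hy.pT, hx.pH, hy.pH, hx.Hp, hy.Hp, hx.dd, hy.dd, hx.sS,
    hy.sS, hx.sT, hy.sT, hx.dS, hy.dS, hx.Td, hy.Td, hx.ST, hy.ST, hx.gd, hy.gd, hx.gS, hy.gS,
    hx.gT, hy.gT, hx.gH, hy.gH]

theorem _root_.Crest.Agent.R217.Obj52.IsOT.sum (hx : IsOT F m S deg x) (hy : IsOT F m S deg y) :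
    IsOT F m S (deg2 deg) (sumT x y) where
  pc := (isPC_pair hx.pc hy.pc).mapN smH
  pd := hx.pd.fl2c hy.pd
  gd := hx.gd.fl2c hy.gd
  hd := hm_sm hx.hd hy.hd
  hS := hm_sm hx.hS hy.hS
  hT := hm_sm hx.hT hy.hT
  hH := hm_sm hx.hH hy.hH
  lo k hk := BdLo_sm (hx.lo k hk) (hy.lo k hk)
  hi k hk := BdHi_sm (hx.hi k hk) (hy.hi k hk)

end isot

section rot

variable {κ : Type*} {R0 R1 : Type*} [Ring R0] [StarRing R0] [Algebra ℂ R0] [StarModule ℂ R0]
    [Ring R1] [StarRing R1] [Algebra ℂ R1] [StarModule ℂ R1]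
    {F0 : Frame κ R0} {F1 : Frame κ R1} {G : Type*} [AddCommGroup G] (P : SgP F0 F1 G)




end rot

end Crest.Agent.R217.Rot52
end

-- ▼ part R217/GPath_52
section

/-!
Row 217 (S0336), part C, module M4: the signature of a cut does not depend on the contraction.
-/

set_option autoImplicit false
set_option linter.unusedSectionVars false

namespace Crest.Agent.R217.GPath52

open Matrix PC473 Obj52 Nat52 Sum52 TForm555 LocF555 Sig52 Ind52 RE531 Rot52

section comp

variable {K A : Type*} [CommRing K] [Ring A] [StarRing A] [Algebra K A]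

theorem KK_lin (x : Tup A) (G G' : A) (t : K) :
    KK x (G + t • (G' - G)) = KK x G + t • (KK x G' - KK x G) := by
  unfold KK
  simp only [mul_add, add_mul, mul_smul_comm, smul_mul_assoc, mul_sub, sub_mul, smul_sub]
  abel

theorem isComp_path {x : Tup A} {G G' Q : A} (h : IsComp x G Q) (h' : IsComp x G' Q) (t : K) :
    IsComp x (G + t • (G' - G)) Q where
  pG := by rw [mul_add, mul_smul_comm, mul_sub, h.pG, h'.pG]
  Gp := by rw [add_mul, smul_mul_assoc, sub_mul, h.Gp, h'.Gp]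
  gG := by
    rw [mul_add, mul_smul_comm, mul_sub, h.gG, h'.gG, add_mul, smul_mul_assoc, sub_mul, neg_add,
      ← smul_neg]
    congr 2
    abel
  BB := h.BB
  sB := h.sB
  pB := h.pB
  dB := h.dB
  gB := h.gB
  BK := by rw [KK_lin, mul_add, mul_smul_comm, mul_sub, h.BK, h'.BK]

end comp

section mapadm

variable {κ : Type*} {R : Type*} [Ring R] [StarRing R] [Algebra ℂ R] [StarModule ℂ R]
  {R' : Type*} [Ring R'] [StarRing R'] [Algebra ℂ R'] [StarModule ℂ R']
  {J : Type*} [Fintype J] [DecidableEq J]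
  {F : Frame κ R} {F' : Frame κ R'} {m : ℕ} {S : Set κ} {deg : J → ℤ}

theorem isQuot_map (ϕ : R →⋆ₙₐ[ℂ] R') {z : Tup (Matrix J J R)} {P : Matrix J J R}
    (h : IsQuot z P) : IsQuot (z.map (mapH J ϕ)) (mapH J ϕ P) where
  PP := by rw [← map_mul, h.PP]
  sP := by rw [← map_star, h.sP]
  pP := by simp only [Tup.map]; rw [← map_mul, h.pP]
  Pd := by simp only [Tup.map]; rw [← map_mul, ← map_mul, h.Pd]
  gP := by simp only [Tup.map]; rw [← map_mul, ← map_mul, h.gP]

theorem isComp_map {A B : Type*} [Ring A] [StarRing A] [Algebra ℂ A] [StarModule ℂ A] [Ring B]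
    [StarRing B] [Algebra ℂ B] [StarModule ℂ B] (ϕ : A →⋆ₙₐ[ℂ] B) {x : Tup A} {G Q : A}
    (h : IsComp x G Q) : IsComp (x.map ϕ) (ϕ G) (ϕ Q) where
  pG := by simp only [Tup.map]; rw [← map_mul, h.pG]
  Gp := by simp only [Tup.map]; rw [← map_mul, h.Gp]
  gG := by simp only [Tup.map]; rw [← map_mul, ← map_mul, ← map_neg, h.gG]
  BB := by rw [← map_mul, h.BB]
  sB := by rw [← map_star, h.sB]
  pB := by simp only [Tup.map]; rw [← map_mul, h.pB]
  dB := by simp only [Tup.map]; rw [← map_mul, ← map_mul, ← map_mul, h.dB]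
  gB := by simp only [Tup.map]; rw [← map_mul, ← map_mul, h.gB]
  BK := by
    simp only [KK, Tup.map]
    rw [← map_mul, ← map_mul, ← map_sub, ← map_sub, ← map_mul]
    exact congrArg ϕ h.BK

theorem adm_map {ϕ : R →⋆ₙₐ[ℂ] R'} (h : ∀ k c, ϕ (F.pu k c) = F'.pu k c) (hlo : F'.lo = F.lo)
    (hhi : F'.hi = F.hi) {k : κ} {z : Tup (Matrix J J R)} {P : Matrix J J R}
    {G Q : Matrix (Fin 2) (Fin 2) (Matrix J J R)} (ha : Adm F k m deg z P G Q) :
    Adm F' k m deg (z.map (mapH J ϕ)) (mapH J ϕ P) (G.map (mapH J ϕ)) (Q.map (mapH J ϕ)) where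
  quot := isQuot_map ϕ ha.quot
  Pd := dgc_map h ha.Pd
  wlo := bdlo_map h hlo ha.wlo
  whi := by
    have := bdhi_map h hhi ha.whi
    rwa [map_sub] at this
  comp := by
    have := isComp_map (mapH (Fin 2) (mapH J ϕ)) ha.comp
    rw [← bdry_map]
    exact this
  hG := hm_map ϕ ha.hG
  Qd := dgc_map h ha.Qd
  qhi := bdhi_map h hhi ha.qhi

end mapadm

section gpath

variable {κ : Type*} {R0 R1 : Type*} [Ring R0] [StarRing R0] [Algebra ℂ R0] [StarModule ℂ R0]
    [Ring R1] [StarRing R1] [Algebra ℂ R1] [StarModule ℂ R1]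
    {F0 : Frame κ R0} {F1 : Frame κ R1} {G : Type*} [AddCommGroup G] (P : SgP F0 F1 G)
  {J : Type} [Fintype J] [DecidableEq J] {S : Set κ} {deg : J → ℤ}

/-- the central parameter `t` -/
def tK : Subring.center R1 := ⟨P.tt, Subring.mem_center_iff.2 fun a => (P.tt_comm a).symm⟩


/-- the path of contractions -/
noncomputable def gp (A B : Matrix (Fin 2) (Fin 2) (Matrix J J R0)) :
    Matrix (Fin 2) (Fin 2) (Matrix J J R1) :=
  A.map (mapH J P.cst) + tK P • (B.map (mapH J P.cst) - A.map (mapH J P.cst))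

theorem gp_ev0 (A B : Matrix (Fin 2) (Fin 2) (Matrix J J R0)) :
    (gp P A B).map (mapH J P.ev0) = A := by
  ext i j x y
  have : ((gp P A B).map (mapH J P.ev0)) i j x y = P.ev0 (P.cst (A i j x y) +
      P.tt * (P.cst (B i j x y) - P.cst (A i j x y))) := rfl
  rw [this, map_add, map_mul, P.ev0_tt, zero_mul, add_zero, P.ev0_cst]

theorem gp_ev1 (A B : Matrix (Fin 2) (Fin 2) (Matrix J J R0)) :
    (gp P A B).map (mapH J P.ev1) = B := by
  ext i j x y
  have : ((gp P A B).map (mapH J P.ev1)) i j x y = P.ev1 (P.cst (A i j x y) +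
      P.tt * (P.cst (B i j x y) - P.cst (A i j x y))) := rfl
  rw [this, map_add, map_mul, P.ev1_tt, one_mul, map_sub, P.ev1_cst, P.ev1_cst]
  abel

theorem map_ev_cst {I : Type*} [Fintype I] [DecidableEq I] (ev : R1 →⋆ₙₐ[ℂ] R0)
    (h : ∀ a, ev (P.cst a) = a) (M : Matrix I I R0) : mapH I ev (mapH I P.cst M) = M := by
  ext i j
  exact h _

theorem tmap_ev_cst {I : Type*} [Fintype I] [DecidableEq I] (ev : R1 →⋆ₙₐ[ℂ] R0)
    (h : ∀ a, ev (P.cst a) = a) (z : Tup (Matrix I I R0)) :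
    (z.map (mapH I P.cst)).map (mapH I ev) = z := by
  simp only [Tup.map, map_ev_cst P ev h]

theorem adm_gp {m : ℕ} {z : Tup (Matrix J J R0)} {k : κ} {W : Matrix J J R0}
    {A B Q : Matrix (Fin 2) (Fin 2) (Matrix J J R0)}
    (h : Adm F0 k m deg z W A Q) (h' : Adm F0 k m deg z W B Q) :
    Adm F1 k m deg (z.map (mapH J P.cst)) (mapH J P.cst W) (gp P A B) (Q.map (mapH J P.cst)) := by
  have a1 := adm_map P.cst_pu P.lo_eq P.hi_eq h
  have a2 := adm_map P.cst_pu P.lo_eq P.hi_eq h'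
  refine { a1 with comp := isComp_path a1.comp a2.comp (tK P), hG := ?_ }
  intro i j hij
  have e1 := a1.hG i j hij
  have e2 := a2.hG i j hij
  have : fl (gp P A B) i j = fl (A.map (mapH J P.cst)) i j +
    P.tt * (fl (B.map (mapH J P.cst)) i j - fl (A.map (mapH J P.cst)) i j) := rfl
  rw [this, e1, e2]
  simp

/-- the signature of the cut does not depend on the contraction (same strip) -/
theorem sig_gpath {l : List (Par κ)} (hl : ∀ a ∈ l, a.Ok F0) {k : κ} (hc : Cov (insert k S) l)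
    {z : Tup (Matrix J J R0)} (hz : IsOT F0 (l.length + 1) S deg z) {W : Matrix J J R0}
    {A B Q : Matrix (Fin 2) (Fin 2) (Matrix J J R0)}
    (h : Adm F0 k l.length deg z W A Q) (h' : Adm F0 k l.length deg z W B Q) :
    sig F0 P.L l (ob (degB l.length deg) (cutR l.length z W A Q)) =
      sig F0 P.L l (ob (degB l.length deg) (cutR l.length z W B Q)) := by
  have hz1 : IsOT F1 (l.length + 1) S deg (z.map (mapH J P.cst)) :=
    hz.map P.cst_pu P.lo_eq P.hi_eq
  have hX := Cut1x473.T2 hz1 (adm_gp P h h')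
  have e := sig_path P hl (X := ob _ _) hX hc
  have k0 := (compat_map (J := J) P.ev0).cutR l.length (z.map (mapH J P.cst)) (mapH J P.cst W)
    (gp P A B) (Q.map (mapH J P.cst))
  have k1 := (compat_map (J := J) P.ev1).cutR l.length (z.map (mapH J P.cst)) (mapH J P.cst W)
    (gp P A B) (Q.map (mapH J P.cst))
  have q0 : (Q.map (mapH J P.cst)).map (mapH J P.ev0) = Q := by
    ext i j : 1
    exact map_ev_cst P P.ev0 P.ev0_cst _
  have q1 : (Q.map (mapH J P.cst)).map (mapH J P.ev1) = Q := by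
    ext i j : 1
    exact map_ev_cst P P.ev1 P.ev1_cst _
  rw [tmap_ev_cst P P.ev0 P.ev0_cst, map_ev_cst P P.ev0 P.ev0_cst, gp_ev0, q0] at k0
  rw [tmap_ev_cst P P.ev1 P.ev1_cst, map_ev_cst P P.ev1 P.ev1_cst, gp_ev1, q1] at k1
  rw [k0, k1]
  exact e

end gpath

end Crest.Agent.R217.GPath52
end

-- ▼ part R217/Strip_52
section

/-!
Row 217 (S0336), part C, module M4: widening of the strip, hypotheses of lemma RE.
-/

set_option autoImplicit false
set_option linter.unusedSectionVars false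

namespace Crest.Agent.R217.Strip52

open Matrix PC473 Obj52 Nat52 Sum52 TForm555 LocF555 Sig52 Ind52 RE531 Rot52 GPath52

section ring

variable {A : Type*} [Ring A] [StarRing A]

theorem strip_hypRA {m : ℕ} {D : Tup A} (hD : D.IsPC m) {G Q Q' : A} (h : IsComp D G Q)
    (h' : IsComp D G Q') (hQ : Q' * Q = Q) :
    HypRA m (compr D G Q) (compr D G Q') Q 0 0 where
  hx := compr_isRP hD h
  hy := compr_isRP hD h'
  pα := hQ
  αp := h.BB
  gα := by
    show Q' * D.g * Q = Q * (Q * D.g)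
    rw [mul_assoc, h.gB, ← mul_assoc, ← mul_assoc, hQ, h.BB]
  dα := by
    show D.d * Q' * Q = Q * (D.d * Q)
    rw [mul_assoc, hQ, ← mul_assoc, h.dB]
  hf := by
    have hs : star (KK D G) * Q = star (KK D G) := by
      have := congrArg star h.BK
      rwa [star_mul, h.sB] at this
    show KK D G * D.S * star (KK D G) = Q * (KK D G * D.S * star (KK D G)) * star Q
      + D.d * Q' * 0 - 0 * star (D.d * Q')
    rw [h.sB, mul_zero, zero_mul, add_zero, sub_zero]
    calc KK D G * D.S * star (KK D G) = (Q * KK D G) * D.S * (star (KK D G) * Q) := by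
          rw [h.BK, hs]
      _ = _ := by simp only [mul_assoc]
  hq := by
    have hQ' : Q * Q' = Q := by
      have := congrArg star hQ
      rwa [star_mul, h.sB, h'.sB] at this
    show Q * D.T * Q = star Q * (Q' * D.T * Q') * Q + 0 * (D.d * Q) - star (D.d * Q) * 0
    rw [h.sB, mul_zero, zero_mul, add_zero, sub_zero]
    calc Q * D.T * Q = (Q * Q') * D.T * (Q' * Q) := by rw [hQ, hQ']
      _ = _ := by simp only [mul_assoc]
  pk := mul_zero _
  kp := zero_mul _
  gk := by rw [mul_zero, zero_mul, mul_zero, neg_zero]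
  pl := mul_zero _
  lp := zero_mul _
  gl := by rw [mul_zero, zero_mul, mul_zero, neg_zero]

end ring

section flat

variable {R : Type*} [Ring R] [StarRing R] [Algebra ℂ R] [StarModule ℂ R]
  {J J' : Type*} [Fintype J] [DecidableEq J]

/-- ring level hypotheses give the hypotheses of lemma RE after flattening -/
theorem hypR_fl {m : ℕ} {x y : RPr (Matrix (Fin 2) (Fin 2) (Matrix J J R))}
    {α k l : Matrix (Fin 2) (Fin 2) (Matrix J J R)} (h : HypRA m x y α k l) :
    HypR m (x.map fl) (y.map fl) (fl α) (fl k) (fl l) where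
  hx := h.hx.mapN (flH (R := R) (J := J))
  hy := h.hy.mapN (flH (R := R) (J := J))
  pα := by simp only [RPr.map]; rw [← Nat52.fl_mul, h.pα]
  αp := by simp only [RPr.map]; rw [← Nat52.fl_mul, h.αp]
  gα := by simp only [RPr.map]; rw [← Nat52.fl_mul, ← Nat52.fl_mul, h.gα]
  dα := by simp only [RPr.map]; rw [← Nat52.fl_mul, ← Nat52.fl_mul, h.dα]
  hf := by
    have := congrArg (flH (R := R) (J := J)) h.hf
    simp only [map_add, map_sub, map_mul, map_star] at this
    exact this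
  hq := by
    have := congrArg (flH (R := R) (J := J)) h.hq
    simp only [map_add, map_sub, map_mul, map_star] at this
    exact this
  pk := by simp only [RPr.map]; rw [← Nat52.fl_mul, h.pk]
  kp := by simp only [RPr.map]; rw [← Nat52.fl_mul, h.kp]
  gk := by
    have := congrArg (flH (R := R) (J := J)) h.gk
    rw [map_neg, map_neg_one_pow_mul, map_mul, map_mul] at this
    exact this
  pl := by simp only [RPr.map]; rw [← Nat52.fl_mul, h.pl]
  lp := by simp only [RPr.map]; rw [← Nat52.fl_mul, h.lp]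
  gl := by
    have := congrArg (flH (R := R) (J := J)) h.gl
    rw [map_neg, map_neg_one_pow_mul, map_mul, map_mul] at this
    exact this

end flat

section strip

variable {κ : Type*} {R : Type*} [Ring R] [StarRing R] [Algebra ℂ R] [StarModule ℂ R]
  {J : Type*} [Fintype J] [DecidableEq J] {F : Frame κ R} {m : ℕ} {S : Set κ} {deg : J → ℤ}

theorem strip_hypR {k : κ} {z : Tup (Matrix J J R)} (hz : IsOT F (m + 1) S deg z)
    {W : Matrix J J R} {G Q Q' : Matrix (Fin 2) (Fin 2) (Matrix J J R)}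
    (h : Adm F k m deg z W G Q) (h' : Adm F k m deg z W G Q') (hQ : Q' * Q = Q) :
    HypR m (cutR m z W G Q) (cutR m z W G Q') (fl Q) 0 0 := by
  have hD : (bdry m z W).IsPC m := bdry0_isPC (trunc_isSym hz.pc.isSym h.quot)
  exact hypR_fl (strip_hypRA hD h.comp h'.comp hQ)

theorem strip_degA {k : κ} {z : Tup (Matrix J J R)}
    {W : Matrix J J R} {G Q : Matrix (Fin 2) (Fin 2) (Matrix J J R)}
    (h : Adm F k m deg z W G Q) :
    DegA m (degB m deg) (degB m deg) (fl Q) 0 0 where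
  hα := h.Qd.hmc fun _ => rfl
  hk := HmR.zero
  hl := HmR.zero

end strip

end Crest.Agent.R217.Strip52
end

-- ▼ part R217/Indep_52
section

/-!
Row 217 (S0336), part C, module M4: independence of the cut.
-/

set_option autoImplicit false
set_option linter.unusedSectionVars false

namespace Crest.Agent.R217.Indep52

open Matrix PC473 Obj52 Nat52 Sum52 TForm555 LocF555 Sig52 Ind52 RE531 Rot52 GPath52 Strip52

section indep

variable {κ : Type*} {R0 R1 : Type*} [Ring R0] [StarRing R0] [Algebra ℂ R0] [StarModule ℂ R0]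
    [Ring R1] [StarRing R1] [Algebra ℂ R1] [StarModule ℂ R1]
    {F0 : Frame κ R0} {F1 : Frame κ R1} {G : Type*} [AddCommGroup G] (P : SgP F0 F1 G)
  {J : Type} [Fintype J] [DecidableEq J] {S : Set κ} {deg : J → ℤ}

/-- widening of the strip -/
theorem sig_strip {l : List (Par κ)} (hl : ∀ a ∈ l, a.Ok F0) {k : κ} (hc : Cov (insert k S) l)
    {z : Tup (Matrix J J R0)} (hz : IsOT F0 (l.length + 1) S deg z) {W : Matrix J J R0}
    {A Q Q' : Matrix (Fin 2) (Fin 2) (Matrix J J R0)}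
    (h : Adm F0 k l.length deg z W A Q) (h' : Adm F0 k l.length deg z W A Q')
    (hQ : Q' * Q = Q) :
    sig F0 P.L l (ob (degB l.length deg) (cutR l.length z W A Q)) =
      sig F0 P.L l (ob (degB l.length deg) (cutR l.length z W A Q')) :=
  sig_re P hl (Cut1x473.T2 hz h) (Cut1x473.T2 hz h') hc (strip_hypR hz h h' hQ) (strip_degA h)

/-- same wall, arbitrary contractions and strips -/
theorem sig_same_wall {l : List (Par κ)} (hl : ∀ a ∈ l, a.Ok F0) {k : κ}
    (hc : Cov (insert k S) l) {z : Tup (Matrix J J R0)}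
    (hz : IsOT F0 (l.length + 1) S deg z) {W : Matrix J J R0}
    {A A' Q Q' : Matrix (Fin 2) (Fin 2) (Matrix J J R0)}
    (h : Adm F0 k l.length deg z W A Q) (h' : Adm F0 k l.length deg z W A' Q') :
    sig F0 P.L l (ob (degB l.length deg) (cutR l.length z W A Q)) =
      sig F0 P.L l (ob (degB l.length deg) (cutR l.length z W A' Q')) := by
  obtain ⟨t, ht, ht'⟩ := h.qhi
  obtain ⟨s, hs, hs'⟩ := h'.qhi
  set u := max t s with hu
  have hu1 : u < F0.hi k := max_lt ht hs
  set δ := (F0.hi k - u) / 8 with hδ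
  have hδ0 : 0 < δ := by rw [hδ]; linarith
  set b := F0.hi k - 3 * δ with hb
  have h1 := Cut2x473.T5 hz h ht' hδ0 (b := b) (by have := le_max_left t s; rw [hb]; linarith)
    (by rw [hb]; linarith)
  have h2 := Cut2x473.T5 hz h' hs' hδ0 (b := b) (by have := le_max_right t s; rw [hb]; linarith)
    (by rw [hb]; linarith)
  rw [sig_strip P hl hc hz h h1.1 h1.2, sig_strip P hl hc hz h' h2.1 h2.2]
  exact sig_gpath P hl hc hz h1.1 h2.1

end indep

end Crest.Agent.R217.Indep52
end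

-- ▼ part R217/Param_52

/-!
Row 217 (S0336), part C, module M4: independence of the cut and of the cut parameters.
-/

set_option autoImplicit false
set_option linter.unusedSectionVars false

namespace Crest.Agent.R217.Param52

open Matrix PC473 Obj52 Nat52 Sum52 TForm555 LocF555 Sig52 Ind52 RE531 Rot52 GPath52 Strip52
  Indep52 Wall473

section indep

variable {κ : Type*} {R0 R1 : Type*} [Ring R0] [StarRing R0] [Algebra ℂ R0] [StarModule ℂ R0]
    [Ring R1] [StarRing R1] [Algebra ℂ R1] [StarModule ℂ R1]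
    {F0 : Frame κ R0} {F1 : Frame κ R1} {G : Type*} [AddCommGroup G] (P : SgP F0 F1 G)
  {J : Type} [Fintype J] [DecidableEq J] {S : Set κ} {deg : J → ℤ}

theorem PU_absorb {F : Frame κ R0} {k : κ} {s t : ℝ} (h : s ≤ t) {a : Matrix J J R0}
    (ha : PU F k (fun _ => s) * a = a) : PU F k (fun _ => t) * a = a := by
  rw [← ha, ← mul_assoc, PU_mul_hi F k h]

/-- independence of the cut -/
theorem cut_indep {l : List (Par κ)} (hl : ∀ a ∈ l, a.Ok F0) {k : κ}
    (hc : Cov (insert k S) l) {z : Tup (Matrix J J R0)}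
    (hz : IsOT F0 (l.length + 1) S deg z) {W W' : Matrix J J R0}
    {A A' Q Q' : Matrix (Fin 2) (Fin 2) (Matrix J J R0)}
    (h : Adm F0 k l.length deg z W A Q) (h' : Adm F0 k l.length deg z W' A' Q') :
    sig F0 P.L l (ob (degB l.length deg) (cutR l.length z W A Q)) =
      sig F0 P.L l (ob (degB l.length deg) (cutR l.length z W' A' Q')) := by
  obtain ⟨t, ht, ht'⟩ := h.whi
  obtain ⟨s, hs, hs'⟩ := h'.whi
  set u := max t s with hu
  have hu1 : u < F0.hi k := max_lt ht hs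
  set δ := (F0.hi k - u) / 8 with hδ
  have hδ0 : 0 < δ := by rw [hδ]; linarith
  set b := F0.hi k - 3 * δ with hb
  have c1 := PU_absorb (le_max_left t s) ht'
  have c2 := PU_absorb (le_max_right t s) hs'
  have h1 : u + 2 * δ < b := by rw [hb]; linarith
  have h2 : b + 2 * δ < F0.hi k := by rw [hb]; linarith
  have a1 := Cut2x473.T4 hz h.quot h.Pd h.wlo c1 hδ0 h1 h2
  have a2 := Cut2x473.T4 hz h'.quot h'.Pd h'.wlo c2 hδ0 h1 h2
  rw [sig_same_wall P hl hc hz h a1, sig_same_wall P hl hc hz h' a2]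
  exact Wall473.wall_change P hl hz (IsWall.mk h.quot h.Pd h.wlo c1)
    (IsWall.mk h'.quot h'.Pd h'.wlo c2) hδ0 h1 h2 hc

/-- the signature does not depend on the parameters of the cuts -/
theorem sig_param {l l' : List (Par κ)} (hl : ∀ a ∈ l, a.Ok F0)
    (hl' : ∀ a ∈ l', a.Ok F0) (hk : l.map Par.k = l'.map Par.k) {S : Set κ} (hc : Cov S l)
    {X : Obj R0} (hX : IsOb F0 l.length S X.deg X.x) :
    sig F0 P.L l X = sig F0 P.L l' X := by
  induction l generalizing l' S X with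
  | nil =>
    cases l' with
    | nil => rfl
    | cons a l' => simp at hk
  | cons a l ih =>
    cases l' with
    | nil => simp at hk
    | cons a' l' =>
      simp only [List.map_cons, List.cons.injEq] at hk
      obtain ⟨hk1, hk2⟩ := hk
      have hlen : l.length = l'.length := by
        have := congrArg List.length hk2
        simpa using this
      have hla := hl a List.mem_cons_self
      have hla' := hl' a' List.mem_cons_self
      have hl1 : ∀ b ∈ l, b.Ok F0 := fun b hb => hl b (List.mem_cons_of_mem _ hb)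
      have hl1' : ∀ b ∈ l', b.Ok F0 := fun b hb => hl' b (List.mem_cons_of_mem _ hb)
      have e1 : sig F0 P.L (a :: l) X = sig F0 P.L l (cutO F0 a l.length X) := rfl
      have e2 : sig F0 P.L (a' :: l') X = sig F0 P.L l' (cutO F0 a' l'.length X) := rfl
      have hz := Cut1x473.T1 hX
      have b1 := Cut2x473.canon_adm hla hz
      have b2 := Cut2x473.canon_adm hla' hz
      rw [← hk1] at b2
      have key := cut_indep P hl1 hc.tail hz b1 b2
      have hX' : IsOb F0 l.length (insert a.k S) (cutO F0 a' l.length X).deg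
          (cutO F0 a' l.length X).x := by
        have := Cut2x473.T6 hla' hX
        rw [← hk1] at this
        exact this
      rw [e1, e2, ← hlen, ← ih hl1 hl1' hk2 hc.tail hX']
      have hdef : ∀ c : Par κ, cutO F0 c l.length X = ob (degB l.length (degD (l.length + 1)
        X.deg)) (cutR l.length (dblT (l.length + 1) X.x) (wallP F0 c.k c.c c.δ
          (degD (l.length + 1) X.deg) (dblT (l.length + 1) X.x).p)
          (cutG (dblT (l.length + 1) X.x) (wallP F0 c.k c.c c.δ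
          (degD (l.length + 1) X.deg) (dblT (l.length + 1) X.x).p))
          (stripQ F0 c.k c.b c.δ l.length (degD (l.length + 1) X.deg) (wallP F0 c.k c.c c.δ
          (degD (l.length + 1) X.deg) (dblT (l.length + 1) X.x).p))) := fun c => rfl
      rw [hdef, hdef, ← hk1]
      exact key

end indep

end Crest.Agent.R217.Param52
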