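import Mathlib
import Crest.Agent.R217.FrameAsy_476
import Crest.Agent.R217.Sig_52

-- ▼ part R217/PathAsy_476
section

/-!
Row 217 (S0336), part C: the path algebra `Asy C C([0,1], ℂ)` and its laws (for helper52's `SgP`).
-/

set_option autoImplicit false
set_option linter.unusedSectionVars false
set_option linter.unusedVariables false

open Filter Topology Matrix

namespace Crest.Agent.R217.Asym476

open Obj52

variable {A : Type} {B : A → Type} [∀ a, Fintype (B a)] [∀ a, DecidableEq (B a)]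
variable {K : Type} [CommRing K] [StarRing K] [Algebra ℂ K] [StarModule ℂ K]
variable {K' : Type} [CommRing K'] [StarRing K'] [Algebra ℂ K'] [StarModule ℂ K']
variable {K'' : Type} [CommRing K''] [StarRing K''] [Algebra ℂ K''] [StarModule ℂ K'']
variable {κ : Type} {J J' : Type} [Fintype J] [DecidableEq J] [Fintype J'] [DecidableEq J']
variable {C : Ctl B}

lemma coef_comp (ρ : K →⋆ₐ[ℂ] K') (σ : K' →⋆ₐ[ℂ] K'') (z : Asy C K) :
    coef C σ (coef C ρ z) = coef C (σ.comp ρ) z := by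
  obtain ⟨x, rfl⟩ := cls_surj z
  rfl

lemma coef_id (z : Asy C K) : coef C (StarAlgHom.id ℂ K) z = z := by
  obtain ⟨x, rfl⟩ := cls_surj z
  rfl

/-- central scalars -/
noncomputable def sc (C : Ctl B) (f : K) : Asy C K := dg C K fun _ _ => f

lemma sc_comm (f : K) (z : Asy C K) : sc C f * z = z * sc C f := by
  obtain ⟨x, rfl⟩ := cls_surj z
  rw [sc, dg_apply, ← map_mul, ← map_mul]
  congr 1
  apply Subtype.ext
  funext a
  change Matrix.diagonal (fun _ => f) * x.1 a = x.1 a * Matrix.diagonal (fun _ => f)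
  ext s t
  rw [Matrix.diagonal_mul, Matrix.mul_diagonal, mul_comm]

lemma sc_star (f : K) : star (sc C f) = sc C (star f) := by
  rw [sc, ← map_star]
  rfl

lemma sc_mul (f g : K) : sc C (f * g) = sc C f * sc C g := by
  rw [sc, sc, sc, ← map_mul]
  rfl

lemma sc_add (f g : K) : sc C (f + g) = sc C f + sc C g := by
  rw [sc, sc, sc, ← map_add]
  rfl

lemma sc_one : sc C (1 : K) = 1 := by
  rw [sc]
  exact map_one _

lemma sc_zero : sc C (0 : K) = 0 := by
  rw [sc]
  exact map_zero _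

lemma coef_sc (ρ : K →⋆ₐ[ℂ] K') (f : K) : coef C ρ (sc C f) = sc C (ρ f) := coef_dg ρ _

/-- constant paths -/
noncomputable def constH (P : Type) [TopologicalSpace P] : ℂ →⋆ₐ[ℂ] C(P, ℂ) where
  toFun c := algebraMap ℂ _ c
  map_one' := map_one _
  map_mul' := map_mul _
  map_zero' := map_zero _
  map_add' := map_add _
  commutes' _ := rfl
  map_star' c := algebraMap_star_comm c

/-- constant paths in the asymptotic algebra -/
noncomputable def cst (C : Ctl B) (P : Type) [TopologicalSpace P] :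
    Asy C ℂ →⋆ₐ[ℂ] Asy C C(P, ℂ) := coef C (constH P)

lemma ev_cst {P : Type} [TopologicalSpace P] (p : P) (z : Asy C ℂ) :
    ev C p (cst C P z) = z := by
  rw [ev, cst, coef_comp]
  have : (ContinuousMap.evalStarAlgHom ℂ ℂ p).comp (constH P) = StarAlgHom.id ℂ ℂ := by
    ext c
    rfl
  rw [this, coef_id]

lemma cst_pu {P : Type} [TopologicalSpace P] (φ : C.Φ) (c : ℝ) :
    cst C P (pu C ℂ φ c) = pu C C(P, ℂ) φ c := coef_ind _ _

lemma ev_sc {P : Type} [TopologicalSpace P] (p : P) (f : C(P, ℂ)) :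
    ev C p (sc C f) = sc C (f p) := coef_sc _ _

/-- `cos (π t / 2)` -/
noncomputable def csF : C(unitInterval, ℂ) where
  toFun t := ((Real.cos (Real.pi / 2 * t) : ℝ) : ℂ)
  continuous_toFun := by fun_prop

/-- `sin (π t / 2)` -/
noncomputable def snF : C(unitInterval, ℂ) where
  toFun t := ((Real.sin (Real.pi / 2 * t) : ℝ) : ℂ)
  continuous_toFun := by fun_prop

/-- `t` -/
noncomputable def ttF : C(unitInterval, ℂ) where
  toFun t := ((t : ℝ) : ℂ)
  continuous_toFun := by fun_prop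

lemma star_csF : star csF = csF := by
  ext t
  change (starRingEnd ℂ) ((Real.cos (Real.pi / 2 * t) : ℝ) : ℂ) = _
  rw [Complex.conj_ofReal]
  rfl

lemma star_snF : star snF = snF := by
  ext t
  change (starRingEnd ℂ) ((Real.sin (Real.pi / 2 * t) : ℝ) : ℂ) = _
  rw [Complex.conj_ofReal]
  rfl

lemma star_ttF : star ttF = ttF := by
  ext t
  change (starRingEnd ℂ) (((t : ℝ)) : ℂ) = _
  rw [Complex.conj_ofReal]
  rfl

lemma cs_sn : csF * csF + snF * snF = 1 := by
  ext t
  change ((Real.cos (Real.pi / 2 * t) : ℝ) : ℂ) * ((Real.cos (Real.pi / 2 * t) : ℝ) : ℂ) +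
    ((Real.sin (Real.pi / 2 * t) : ℝ) : ℂ) * ((Real.sin (Real.pi / 2 * t) : ℝ) : ℂ) = 1
  rw [← Complex.ofReal_mul, ← Complex.ofReal_mul, ← Complex.ofReal_add]
  have := Real.cos_sq_add_sin_sq (Real.pi / 2 * t)
  rw [← sq, ← sq, this]
  simp

lemma csF_zero : csF 0 = 1 := by
  change ((Real.cos (Real.pi / 2 * ((0 : unitInterval) : ℝ)) : ℝ) : ℂ) = 1
  simp

lemma csF_one : csF 1 = 0 := by
  change ((Real.cos (Real.pi / 2 * ((1 : unitInterval) : ℝ)) : ℝ) : ℂ) = 0
  simp

lemma snF_zero : snF 0 = 0 := by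
  change ((Real.sin (Real.pi / 2 * ((0 : unitInterval) : ℝ)) : ℝ) : ℂ) = 0
  simp

lemma snF_one : snF 1 = 1 := by
  change ((Real.sin (Real.pi / 2 * ((1 : unitInterval) : ℝ)) : ℝ) : ℂ) = 1
  simp

lemma ttF_zero : ttF 0 = 0 := by
  change (((0 : unitInterval) : ℝ) : ℂ) = 0
  simp

lemma ttF_one : ttF 1 = 1 := by
  change (((1 : unitInterval) : ℝ) : ℂ) = 1
  simp

/-! ### laws for frames -/

theorem ok_cpt [Fintype κ] {dir : κ → C.Φ} {lo hi : κ → ℝ} {lt : ∀ k, lo k < hi k}
    (hC : Cpt C dir lo hi) {e M : Matrix J J (Asy C K)}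
    (h1 : ∀ k, BdLo (frame C K dir lo hi lt) k e) (h2 : ∀ k, BdHi (frame C K dir lo hi lt) k e)
    (hM : e * M = M) : ok M := by
  rw [← hM]
  exact (ok_of_bd hC h1 h2).mul_right M

theorem sg_iso {M : Matrix J J (Asy C ℂ)} (hM : ok M) (V : Matrix J' J (Asy C ℂ))
    (hV : Vᴴ * V = 1) : sg (V * M * Vᴴ) = sg M := by
  refine sg_congr hM Vᴴ V ?_ ?_
  · rw [Matrix.conjTranspose_conjTranspose]
  · calc M = (Vᴴ * V) * M * (Vᴴ * V) := by rw [hV, Matrix.one_mul, Matrix.mul_one]
      _ = _ := by simp only [Matrix.mul_assoc]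

theorem sg_path_cpt [Fintype κ] {P : Type} [TopologicalSpace P] [PreconnectedSpace P]
    {dir : κ → C.Φ} {lo hi : κ → ℝ} {lt : ∀ k, lo k < hi k}
    (hC : Cpt C dir lo hi) {e M M' : Matrix J J (Asy C C(P, ℂ))}
    (h1 : ∀ k, BdLo (frame C C(P, ℂ) dir lo hi lt) k e)
    (h2 : ∀ k, BdHi (frame C C(P, ℂ) dir lo hi lt) k e) (hee : e * e = e) (he : eᴴ = e)
    (hM : e * M = M) (hMM : M * M' = e) (sM : Mᴴ = M) (sM' : M'ᴴ = M') (p q : P) :
    sg (M.map (ev C p)) = sg (M.map (ev C q)) := by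
  have hMe : M * e = M := by
    have := congrArg Matrix.conjTranspose hM
    rwa [Matrix.conjTranspose_mul, sM, he] at this
  have hM'M : M' * M = e := by
    have := congrArg Matrix.conjTranspose hMM
    rwa [Matrix.conjTranspose_mul, sM, sM', he] at this
  have e1 : M * (e * M' * e) = e := by
    calc M * (e * M' * e) = (M * e) * M' * e := by simp only [Matrix.mul_assoc]
      _ = e := by rw [hMe, hMM, hee]
  have e2 : (e * M' * e) * M = e := by
    calc (e * M' * e) * M = e * (M' * (e * M)) := by simp only [Matrix.mul_assoc]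
      _ = e := by rw [hM, hM'M, hee]
  refine sg_path (x := M) (y := e * M' * e) (ok_cpt hC h1 h2 hM)
    (ok_cpt hC h1 h2 (by rw [← Matrix.mul_assoc, ← Matrix.mul_assoc, hee])) sM ?_ ?_ p q
  · rw [e1, e2]
  · rw [e1, hM]

end Crest.Agent.R217.Asym476
end

-- ▼ part R217/SgPAsy_476

/-!
Row 217 (S0336), part C: helper52's signature package `SgP` for the asymptotic algebra.
-/

set_option autoImplicit false
set_option linter.unusedSectionVars false
set_option linter.unusedVariables false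

open Filter Topology Matrix

namespace Crest.Agent.R217.Asym476

open Obj52 Sig52

variable {A : Type} {B : A → Type} [∀ a, Fintype (B a)] [∀ a, DecidableEq (B a)]
variable {κ : Type} [Fintype κ] {C : Ctl B}

/-- the signature package of the asymptotic algebra -/
noncomputable def sgP {dir : κ → C.Φ} {lo hi : κ → ℝ} (lt : ∀ k, lo k < hi k)
    (hC : Cpt C dir lo hi) :
    SgP (frame C ℂ dir lo hi lt) (frame C C(unitInterval, ℂ) dir lo hi lt) (Germ C.l ℤ) where
  L := sgLaws C
  ev0 := (ev C (0 : unitInterval)).toNonUnitalStarAlgHom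
  ev1 := (ev C (1 : unitInterval)).toNonUnitalStarAlgHom
  cst := (cst C unitInterval).toNonUnitalStarAlgHom
  ev0_cst a := ev_cst _ a
  ev1_cst a := ev_cst _ a
  ev0_pu k c := ev_pu _ _ c
  ev1_pu k c := ev_pu _ _ c
  cst_pu k c := cst_pu _ c
  cst_one := map_one (cst C unitInterval)
  lo_eq := rfl
  hi_eq := rfl
  tt := sc C ttF
  cs := sc C csF
  sn := sc C snF
  tt_star := by rw [sc_star, star_ttF]
  cs_star := by rw [sc_star, star_csF]
  sn_star := by rw [sc_star, star_snF]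
  tt_comm := sc_comm _
  cs_comm := sc_comm _
  sn_comm := sc_comm _
  cs_sn := by rw [← sc_mul, ← sc_mul, ← sc_add, cs_sn, sc_one]
  ev0_tt := (ev_sc _ _).trans (by rw [ttF_zero, sc_zero])
  ev0_cs := (ev_sc _ _).trans (by rw [csF_zero, sc_one])
  ev0_sn := (ev_sc _ _).trans (by rw [snF_zero, sc_zero])
  ev1_tt := (ev_sc _ _).trans (by rw [ttF_one, sc_one])
  ev1_cs := (ev_sc _ _).trans (by rw [csF_one, sc_zero])
  ev1_sn := (ev_sc _ _).trans (by rw [snF_one, sc_one])
  ok_cpt e M _ _ _ h1 h2 hM := ok_cpt hC h1 h2 hM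
  sg_iso V M hV _ hM := sg_iso hM V hV
  sg_path e M M' _ hee he h1 h2 hM hMM sM sM' :=
    sg_path_cpt hC h1 h2 hee he hM hMM sM sM' 0 1

end Crest.Agent.R217.Asym476
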