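import Mathlib
import Crest.Agent.R217.Cpt_559
import Crest.Agent.R217.SgPAsy_476
import Crest.Agent.R217.Param_52

-- ▼ part R217/Boxes_559
section

/-!
Row 217 (S0336): a box-indexed relation with existence, uniqueness and monotonicity has a
constant value on a preconnected open set.
-/

set_option autoImplicit false

open Filter Topology Metric Set

namespace Crest.Agent.R217.Boxes559

variable {n : ℕ}

/-- a compact box in an open set can be enlarged -/
theorem exists_larger_box {Om : Set (Fin n → ℝ)} (hOm : IsOpen Om) {s t : Fin n → ℝ}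
    (hst : ∀ i, s i ≤ t i) (h : Icc s t ⊆ Om) :
    ∃ δ > 0, Icc (fun i => s i - δ) (fun i => t i + δ) ⊆ Om := by
  obtain ⟨δ, hδ, hsub⟩ := (isCompact_Icc : IsCompact (Icc s t)).exists_cthickening_subset_open hOm h
  refine ⟨δ, hδ, fun z hz => hsub ?_⟩
  have hz1 : ∀ i, s i - δ ≤ z i := fun i => hz.1 i
  have hz2 : ∀ i, z i ≤ t i + δ := fun i => hz.2 i
  refine mem_cthickening_of_dist_le z (fun i => max (s i) (min (t i) (z i))) δ _ ?_ ?_
  · exact ⟨fun i => le_max_left _ _, fun i => max_le (hst i) (min_le_left _ _)⟩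
  · rw [dist_pi_le_iff hδ.le]
    intro i
    rw [Real.dist_eq, abs_le]
    have h1 := hz1 i
    have h2 := hz2 i
    have h3 := hst i
    rcases le_total (t i) (z i) with h4 | h4
    · rw [min_eq_left h4, max_eq_right h3]
      constructor <;> linarith
    · rw [min_eq_right h4]
      rcases le_total (s i) (z i) with h5 | h5
      · rw [max_eq_right h5]
        constructor <;> linarith
      · rw [max_eq_left h5]
        constructor <;> linarith

/-- Constancy of a box-indexed relation on a preconnected open set. -/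
theorem const_of_boxes {α : Type*} {Om : Set (Fin n → ℝ)} (hOm : IsOpen Om)
    (hpre : IsPreconnected Om) (P : (Fin n → ℝ) → (Fin n → ℝ) → α → Prop)
    (hE : ∀ s t, (∀ i, s i < t i) → Icc s t ⊆ Om → ∃ v, P s t v)
    (hU : ∀ s t s' t', (∀ i, s i < t i) → (∀ i, s' i < s i) → (∀ i, t i < t' i) →
      Icc s' t' ⊆ Om → ∀ v v', P s t v → P s t v' → v = v')
    (hM : ∀ s t s' t', (∀ i, s i < t i) → (∀ i, s' i ≤ s i) → (∀ i, t i ≤ t' i) →
      Icc s' t' ⊆ Om → ∀ v, P s t v → P s' t' v)
    {s t s' t' : Fin n → ℝ} (hst : ∀ i, s i < t i) (hst' : ∀ i, s' i < t' i)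
    (hB : Icc s t ⊆ Om) (hB' : Icc s' t' ⊆ Om) {v v' : α} (hv : P s t v) (hv' : P s' t' v') :
    v = v' := by
  classical
  -- pointwise relation
  set Q : (Fin n → ℝ) → α → Prop := fun y w => ∃ a b : Fin n → ℝ, (∀ i, a i < y i) ∧
    (∀ i, y i < b i) ∧ (∃ δ > 0, Icc (fun i => a i - δ) (fun i => b i + δ) ⊆ Om) ∧ P a b w with hQ
  have hQopen : ∀ w, IsOpen {y | Q y w} := by
    intro w
    rw [isOpen_iff_mem_nhds]
    rintro y ⟨a, b, ha, hb, hδ, hP⟩
    have h1 : IsOpen {z : Fin n → ℝ | ∀ i, a i < z i ∧ z i < b i} := by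
      have : {z : Fin n → ℝ | ∀ i, a i < z i ∧ z i < b i} = Set.pi univ fun i => Ioo (a i) (b i) := by
        ext z
        simp [Set.mem_pi]
      rw [this]
      exact isOpen_set_pi finite_univ fun i _ => isOpen_Ioo
    refine mem_of_superset (h1.mem_nhds fun i => ⟨ha i, hb i⟩) ?_
    intro z hz
    exact ⟨a, b, fun i => (hz i).1, fun i => (hz i).2, hδ, hP⟩
  have hQex : ∀ y ∈ Om, ∃ w, Q y w := by
    intro y hy
    have hyy : Icc y y ⊆ Om := by
      rw [Icc_self]
      exact singleton_subset_iff.2 hy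
    obtain ⟨δ, hδ, hsub⟩ := exists_larger_box hOm (fun i => le_refl (y i)) hyy
    have hsub2 : Icc (fun i => y i - δ / 2) (fun i => y i + δ / 2) ⊆ Om := by
      refine (Icc_subset_Icc ?_ ?_).trans hsub
      · intro i
        change y i - δ ≤ y i - δ / 2
        linarith
      · intro i
        change y i + δ / 2 ≤ y i + δ
        linarith
    obtain ⟨w, hw⟩ := hE (fun i => y i - δ / 2) (fun i => y i + δ / 2)
      (fun i => by linarith) hsub2
    refine ⟨w, _, _, fun i => ?_, fun i => ?_, ⟨δ / 2, by positivity, ?_⟩, hw⟩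
    · linarith
    · linarith
    · refine (Icc_subset_Icc ?_ ?_).trans hsub
      · intro i
        change y i - δ ≤ y i - δ / 2 - δ / 2
        linarith
      · intro i
        change y i + δ / 2 + δ / 2 ≤ y i + δ
        linarith
  have hQuniq : ∀ y w w', Q y w → Q y w' → w = w' := by
    rintro y w w' ⟨a, b, ha, hb, ⟨δ, hδ, hsub⟩, hP⟩ ⟨a', b', ha', hb', ⟨δ', hδ', hsub'⟩, hP'⟩
    have hab : ∀ i, a i < b i := fun i => (ha i).trans (hb i)
    have hab' : ∀ i, a' i < b' i := fun i => (ha' i).trans (hb' i)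
    have hlt : ∀ i, max (a i) (a' i) < min (b i) (b' i) := by
      intro i
      exact (max_lt (ha i) (ha' i)).trans (lt_min (hb i) (hb' i))
    have hsubab : Icc a b ⊆ Om := by
      refine (Icc_subset_Icc ?_ ?_).trans hsub
      · intro i
        change a i - δ ≤ a i
        linarith
      · intro i
        change b i ≤ b i + δ
        linarith
    have hsubab' : Icc a' b' ⊆ Om := by
      refine (Icc_subset_Icc ?_ ?_).trans hsub'
      · intro i
        change a' i - δ' ≤ a' i
        linarith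
      · intro i
        change b' i ≤ b' i + δ'
        linarith
    obtain ⟨w3, hw3⟩ := hE (fun i => max (a i) (a' i)) (fun i => min (b i) (b' i)) hlt
      ((Icc_subset_Icc (fun i => le_max_left _ _) (fun i => min_le_left _ _)).trans hsubab)
    have h1 : P a b w3 := hM _ _ _ _ hlt (fun i => le_max_left _ _) (fun i => min_le_left _ _)
      hsubab _ hw3
    have h2 : P a' b' w3 := hM _ _ _ _ hlt (fun i => le_max_right _ _) (fun i => min_le_right _ _)
      hsubab' _ hw3
    have h3 : w = w3 := hU a b (fun i => a i - δ) (fun i => b i + δ) hab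
      (fun i => by linarith) (fun i => by linarith) hsub _ _ hP h1
    have h4 : w' = w3 := hU a' b' (fun i => a' i - δ') (fun i => b' i + δ') hab'
      (fun i => by linarith) (fun i => by linarith) hsub' _ _ hP' h2
    rw [h3, h4]
  have hQbox : ∀ (a b : Fin n → ℝ) (w : α), (∀ i, a i < b i) → Icc a b ⊆ Om → P a b w →
      ∃ y ∈ Om, Q y w := by
    intro a b w hab hsub hP
    obtain ⟨δ, hδ, hδsub⟩ := exists_larger_box hOm (fun i => (hab i).le) hsub
    refine ⟨fun i => (a i + b i) / 2, hsub ⟨fun i => ?_, fun i => ?_⟩, a, b, fun i => ?_,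
      fun i => ?_, ⟨δ, hδ, hδsub⟩, hP⟩
    · change a i ≤ (a i + b i) / 2
      linarith [hab i]
    · change (a i + b i) / 2 ≤ b i
      linarith [hab i]
    · change a i < (a i + b i) / 2
      linarith [hab i]
    · change (a i + b i) / 2 < b i
      linarith [hab i]
  by_contra hne
  obtain ⟨y, hy, hQy⟩ := hQbox s t v hst hB hv
  obtain ⟨y', hy', hQy'⟩ := hQbox s' t' v' hst' hB' hv'
  have hV : IsOpen {z | ∃ w, w ≠ v ∧ Q z w} := by
    have : {z | ∃ w, w ≠ v ∧ Q z w} = ⋃ (w : α) (_ : w ≠ v), {z | Q z w} := by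
      ext z
      simp
    rw [this]
    exact isOpen_iUnion fun w => isOpen_iUnion fun _ => hQopen w
  obtain ⟨z, hz, hz1, w, hw, hz2⟩ := hpre {z | Q z v} {z | ∃ w, w ≠ v ∧ Q z w} (hQopen v) hV
    (by
      intro z hz
      obtain ⟨w, hw⟩ := hQex z hz
      by_cases h : w = v
      · left
        rw [← h]
        exact hw
      · right
        exact ⟨w, h, hw⟩)
    ⟨y, hy, hQy⟩ ⟨y', hy', v', fun h => hne h.symm, hQy'⟩
  exact hw (hQuniq z w v hz2 hz1)

end Crest.Agent.R217.Boxes559
end

-- ▼ part R217/Box_970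

/-!
Row 217 (S0336), part C (helper970), step (a) of the fine frame: the signature of an object over
column `k` does not depend on the box in `U_k`.
-/

set_option autoImplicit false
set_option linter.unusedSectionVars false
set_option linter.unusedVariables false

open Filter Topology Metric Set

namespace Crest.Agent.R217.Box970

open Crest.Agent.R217.Asym476 Crest.Agent.R217.Obj52 Crest.Agent.R217.Sig52
open Crest.Agent.R217.Ind52 Crest.Agent.R217.PC473 Crest.Agent.R217.Nat52
open Crest.Agent.R217.LocF555 Crest.Agent.R217.Glob559 Crest.Agent.R217.Ctl559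
open Crest.Agent.R217.Coarse889

universe u

section column

variable {n : ℕ} (D : ∀ k, KDat.{u} n (cs k)) (k : ℕ)

/-- the frame of column `k` with box `lo, hi` -/
noncomputable abbrev frK (lo hi : Fin n → ℝ) (lt : ∀ i, lo i < hi i) :
    Frame (Fin n) (Asy (CF D (lk k)) ℂ) :=
  frame (CF D (lk k)) ℂ (dirF D (lk k)) lo hi lt

/-- the signature in column `k` -/
noncomputable def vK (X : Obj (Asy (CF D (lk k)) ℂ)) (l : List (Par (Fin n))) : Germ (lk k) ℤ :=
  sig (frK D k (fun _ => 0) (fun _ => 1) (fun _ => zero_lt_one)) (sgLaws (CF D (lk k))) l X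

theorem sig_frK (lo hi : Fin n → ℝ) (lt : ∀ i, lo i < hi i) (X : Obj (Asy (CF D (lk k)) ℂ))
    (l : List (Par (Fin n))) :
    sig (frK D k lo hi lt) (sgLaws (CF D (lk k))) l X = vK D k X l := by
  induction l generalizing X with
  | nil => rfl
  | cons a l ih => exact ih (cutO (frK D k lo hi lt) a l.length X)

/-- admissible parameters inside the box `s, t` -/
def OkIn (s t : Fin n → ℝ) (a : Par (Fin n)) : Prop :=
  0 < a.δ ∧ s a.k < a.c - 2 * a.δ ∧ a.c + 2 * a.δ < a.b - 2 * a.δ ∧ a.b + 2 * a.δ < t a.k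

theorem OkIn.ok {s t : Fin n → ℝ} {a : Par (Fin n)} (h : OkIn s t a) (lt : ∀ i, s i < t i) :
    a.Ok (frK D k s t lt) := ⟨h.1, h.2.1, h.2.2.1, h.2.2.2⟩

theorem OkIn.mono {s t s' t' : Fin n → ℝ} {a : Par (Fin n)} (h : OkIn s t a)
    (hs : ∀ i, s' i ≤ s i) (ht : ∀ i, t i ≤ t' i) : OkIn s' t' a :=
  ⟨h.1, lt_of_le_of_lt (hs _) h.2.1, h.2.2.1, lt_of_lt_of_le h.2.2.2 (ht _)⟩

/-- a standard list of parameters in a box -/
noncomputable def stdPar (s t : Fin n → ℝ) : List (Par (Fin n)) :=
  (List.finRange n).map fun i =>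
    { k := i, c := s i + 3 * ((t i - s i) / 12), b := s i + 9 * ((t i - s i) / 12),
      δ := (t i - s i) / 12 }

theorem stdPar_k (s t : Fin n → ℝ) : (stdPar s t).map Par.k = List.finRange n := by
  unfold stdPar
  rw [List.map_map]
  exact List.map_id _

theorem stdPar_ok {s t : Fin n → ℝ} (h : ∀ i, s i < t i) : ∀ a ∈ stdPar s t, OkIn s t a := by
  intro a ha
  unfold stdPar at ha
  rw [List.mem_map] at ha
  obtain ⟨i, -, rfl⟩ := ha
  have h1 : 0 < (t i - s i) / 12 := by linarith [h i]
  have h2 : t i = s i + 12 * ((t i - s i) / 12) := by ring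
  refine ⟨h1, ?_, ?_, ?_⟩
  · show s i < s i + 3 * ((t i - s i) / 12) - 2 * ((t i - s i) / 12)
    linarith
  · show s i + 3 * ((t i - s i) / 12) + 2 * ((t i - s i) / 12) <
      s i + 9 * ((t i - s i) / 12) - 2 * ((t i - s i) / 12)
    linarith
  · show s i + 9 * ((t i - s i) / 12) + 2 * ((t i - s i) / 12) < t i
    linarith

theorem cov_of_k {l : List (Par (Fin n))} (h : l.map Par.k = List.finRange n) :
    Cov (∅ : Set (Fin n)) l := by
  intro i
  right
  have h1 : i ∈ l.map Par.k := by rw [h]; exact List.mem_finRange i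
  rw [List.mem_map] at h1
  exact h1

/-- **Step (a)**: independence of the box. -/
theorem box_indep {X : Obj (Asy (CF D (lk k)) ℂ)}
    (hX : ∀ (lo hi : Fin n → ℝ) (lt : ∀ i, lo i < hi i), IsOb (frK D k lo hi lt) n ∅ X.deg X.x)
    {s t s' t' : Fin n → ℝ} (hst : ∀ i, s i < t i) (hst' : ∀ i, s' i < t' i)
    (hB : Icc s t ⊆ (D k).U) (hB' : Icc s' t' ⊆ (D k).U) {l l' : List (Par (Fin n))}
    (hd : l.map Par.k = List.finRange n) (hd' : l'.map Par.k = List.finRange n)
    (hl : ∀ a ∈ l, OkIn s t a) (hl' : ∀ a ∈ l', OkIn s' t' a) : vK D k X l = vK D k X l' := by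
  have hlen : ∀ {l : List (Par (Fin n))}, l.map Par.k = List.finRange n → l.length = n := by
    intro l hd
    have := congrArg List.length hd
    rwa [List.length_map, List.length_finRange] at this
  refine Boxes559.const_of_boxes (D k).U_open (D k).U_conv.isPreconnected
    (fun s t v => ∃ l : List (Par (Fin n)), l.map Par.k = List.finRange n ∧
      (∀ a ∈ l, OkIn s t a) ∧ v = vK D k X l) ?_ ?_ ?_ hst hst' hB hB'
      ⟨l, hd, hl, rfl⟩ ⟨l', hd', hl', rfl⟩
  · intro s t hst hB
    exact ⟨_, stdPar s t, stdPar_k s t, stdPar_ok hst, rfl⟩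
  · rintro s t s' t' hst hs ht hB v v' ⟨l, h1, h2, rfl⟩ ⟨l', h1', h2', rfl⟩
    have hsub : Icc s t ⊆ (D k).U := (Icc_subset_Icc (fun i => (hs i).le)
      (fun i => (ht i).le)).trans hB
    rw [← sig_frK D k s t hst, ← sig_frK D k s t hst]
    refine Param52.sig_param (sgP hst (cpt_k D k hsub)) (fun a ha => (h2 a ha).ok D k hst)
      (fun a ha => (h2' a ha).ok D k hst) (h1.trans h1'.symm) (S := ∅) (cov_of_k h1) ?_
    rw [hlen h1]
    exact hX s t hst
  · rintro s t s' t' hst hs ht hB v ⟨l, h1, h2, rfl⟩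
    exact ⟨l, h1, fun a ha => (h2 a ha).mono hs ht, rfl⟩

end column

end Crest.Agent.R217.Box970
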