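import Mathlib

/-! Row 217: the cubical grid complex on a finite torus index type, with an exact strictly
self-dual structure.  Everything is an explicit tensor product of 1-dimensional matrices. -/

set_option autoImplicit false
set_option linter.unusedSectionVars false

open Matrix Finset
open scoped BigOperators

namespace Crest.Agent.R217.Grid897

noncomputable section

/-! ### tensor products of matrices -/

section Tens

variable {n : ℕ} {I : Type*} [Fintype I] [DecidableEq I]

/-- tensor product of `n` matrices -/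
def tens (a : Fin n → Matrix I I ℂ) : Matrix (Fin n → I) (Fin n → I) ℂ :=
  Matrix.of fun x y => ∏ k, a k (x k) (y k)

theorem tens_apply (a : Fin n → Matrix I I ℂ) (x y : Fin n → I) :
    tens a x y = ∏ k, a k (x k) (y k) := rfl

theorem tens_mul (a b : Fin n → Matrix I I ℂ) :
    tens a * tens b = tens (fun k => a k * b k) := by
  ext x y
  simp only [Matrix.mul_apply, tens_apply]
  rw [Finset.prod_univ_sum]
  simp [Finset.prod_mul_distrib, Fintype.piFinset_univ]

theorem tens_one : tens (fun _ : Fin n => (1 : Matrix I I ℂ)) = 1 := by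
  ext x y
  rw [tens_apply]
  by_cases h : x = y
  · subst h; simp
  · rw [Matrix.one_apply_ne h]
    obtain ⟨k, hk⟩ := Function.ne_iff.mp h
    exact Finset.prod_eq_zero (Finset.mem_univ k) (Matrix.one_apply_ne hk)



theorem tens_congr {a b : Fin n → Matrix I I ℂ} (h : ∀ k, a k = b k) : tens a = tens b := by
  rw [funext h]




end Tens

/-! ### the one-dimensional grid -/

section One

variable (N : ℕ) [NeZero N]

/-- cells of the circle grid: `(k,false)` = vertex `k`, `(k,true)` = edge `[k,k+1]` -/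
abbrev C1 := ZMod N × Bool

/-- grading sign -/
def g1 : Matrix (C1 N) (C1 N) ℂ := Matrix.diagonal fun x => if x.2 then -1 else 1

/-- edge `k` to its lower vertex `k` -/
def jj : Matrix (C1 N) (C1 N) ℂ := Matrix.of fun x y =>
  if x.2 = false ∧ y.2 = true ∧ x.1 = y.1 then 1 else 0

/-- edge `k` to its upper vertex `k+1` -/
def rr : Matrix (C1 N) (C1 N) ℂ := Matrix.of fun x y =>
  if x.2 = false ∧ y.2 = true ∧ x.1 = y.1 + 1 then 1 else 0

/-- boundary -/
def d1 : Matrix (C1 N) (C1 N) ℂ := rr N - jj N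

/-- duality -/
def s1 : Matrix (C1 N) (C1 N) ℂ := (1 / 2 : ℂ) • ((rr N + jj N) + (star (rr N) + star (jj N)))

theorem g1_sq : g1 N * g1 N = 1 := by
  rw [g1, Matrix.diagonal_mul_diagonal, ← Matrix.diagonal_one]
  congr 1
  funext x
  by_cases h : x.2 <;> simp [h]

theorem star_g1 : star (g1 N) = g1 N := by
  rw [g1, Matrix.star_eq_conjTranspose, Matrix.diagonal_conjTranspose]
  congr 1
  funext x
  by_cases h : x.2 <;> simp [h]

theorem g1_jj : g1 N * jj N = -(jj N * g1 N) := by
  ext ⟨i, a⟩ ⟨j, b⟩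
  rw [g1, Matrix.diagonal_mul, Matrix.neg_apply, Matrix.mul_diagonal]
  cases a <;> cases b <;> simp [jj]

theorem g1_rr : g1 N * rr N = -(rr N * g1 N) := by
  ext ⟨i, a⟩ ⟨j, b⟩
  rw [g1, Matrix.diagonal_mul, Matrix.neg_apply, Matrix.mul_diagonal]
  cases a <;> cases b <;> simp [rr]

theorem jj_jj : jj N * jj N = 0 := by
  ext x y
  rw [Matrix.mul_apply]
  refine Finset.sum_eq_zero fun z _ => ?_
  rcases z with ⟨z, _ | _⟩ <;> simp [jj]

theorem rr_rr : rr N * rr N = 0 := by
  ext x y
  rw [Matrix.mul_apply]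
  refine Finset.sum_eq_zero fun z _ => ?_
  rcases z with ⟨z, _ | _⟩ <;> simp [rr]

theorem jj_rr : jj N * rr N = 0 := by
  ext x y
  rw [Matrix.mul_apply]
  refine Finset.sum_eq_zero fun z _ => ?_
  rcases z with ⟨z, _ | _⟩ <;> simp [rr, jj]

theorem rr_jj : rr N * jj N = 0 := by
  ext x y
  rw [Matrix.mul_apply]
  refine Finset.sum_eq_zero fun z _ => ?_
  rcases z with ⟨z, _ | _⟩ <;> simp [rr, jj]

/-- projection to the vertices -/
def pv : Matrix (C1 N) (C1 N) ℂ := Matrix.diagonal fun x => if x.2 then 0 else 1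

/-- projection to the edges -/
def pe : Matrix (C1 N) (C1 N) ℂ := Matrix.diagonal fun x => if x.2 then 1 else 0

theorem pv_add_pe : pv N + pe N = 1 := by
  rw [pv, pe, Matrix.diagonal_add, ← Matrix.diagonal_one]
  congr 1
  funext x
  by_cases h : x.2 <;> simp [h]

theorem jj_star : jj N * star (jj N) = pv N := by
  ext ⟨i, a⟩ ⟨j, b⟩
  rw [Matrix.mul_apply, pv, Matrix.diagonal_apply]
  simp only [Matrix.star_apply, Fintype.sum_prod_type, Fintype.sum_bool]
  cases a <;> cases b <;> simp [jj]

theorem rr_star : rr N * star (rr N) = pv N := by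
  ext ⟨i, a⟩ ⟨j, b⟩
  rw [Matrix.mul_apply, pv, Matrix.diagonal_apply]
  simp only [Matrix.star_apply, Fintype.sum_prod_type, Fintype.sum_bool]
  cases a <;> cases b <;> simp [rr]
  have h : ∀ x : ZMod N, (j = x + 1) ↔ (x = j - 1) := fun x =>
    ⟨fun h => by rw [h]; ring, fun h => by rw [h]; ring⟩
  simp only [h]
  rw [Finset.sum_ite_eq']
  simp

theorem star_jj_jj : star (jj N) * jj N = pe N := by
  ext ⟨i, a⟩ ⟨j, b⟩
  rw [Matrix.mul_apply, pe, Matrix.diagonal_apply]
  simp only [Matrix.star_apply, Fintype.sum_prod_type, Fintype.sum_bool]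
  cases a <;> cases b <;> simp [jj]
  simp only [eq_comm]

theorem star_rr_rr : star (rr N) * rr N = pe N := by
  ext ⟨i, a⟩ ⟨j, b⟩
  rw [Matrix.mul_apply, pe, Matrix.diagonal_apply]
  simp only [Matrix.star_apply, Fintype.sum_prod_type, Fintype.sum_bool]
  cases a <;> cases b <;> simp [rr]
  simp only [eq_comm]

/-- the Laplacian of the circle grid -/
def lap1 : Matrix (C1 N) (C1 N) ℂ := d1 N * star (d1 N) + star (d1 N) * d1 N

theorem star_jj_sj : star (jj N) * star (jj N) = 0 := by
  rw [← star_mul, jj_jj, star_zero]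

theorem star_rr_sr : star (rr N) * star (rr N) = 0 := by
  rw [← star_mul, rr_rr, star_zero]

theorem star_jj_sr : star (jj N) * star (rr N) = 0 := by
  rw [← star_mul, rr_jj, star_zero]

theorem star_rr_sj : star (rr N) * star (jj N) = 0 := by
  rw [← star_mul, jj_rr, star_zero]

theorem d1_sq : d1 N * d1 N = 0 := by
  simp only [d1, mul_sub, sub_mul, jj_jj, rr_rr, jj_rr, rr_jj, sub_zero]

theorem star_s1 : star (s1 N) = s1 N := by
  simp only [s1, star_smul, star_add, star_star]
  congr 1
  · simp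
  · abel

theorem g1_d1 : g1 N * d1 N = -(d1 N * g1 N) := by
  simp only [d1, mul_sub, sub_mul, g1_jj, g1_rr]
  abel

theorem star_jj_g1 : g1 N * star (jj N) = -(star (jj N) * g1 N) := by
  have := congrArg star (g1_jj N)
  rw [star_mul, star_neg, star_mul, star_g1] at this
  rw [this, neg_neg]

theorem star_rr_g1 : g1 N * star (rr N) = -(star (rr N) * g1 N) := by
  have := congrArg star (g1_rr N)
  rw [star_mul, star_neg, star_mul, star_g1] at this
  rw [this, neg_neg]

theorem g1_s1 : g1 N * s1 N = -(s1 N * g1 N) := by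
  simp only [s1, Matrix.mul_smul, Matrix.smul_mul, mul_add, add_mul, g1_jj, g1_rr, star_jj_g1,
    star_rr_g1]
  rw [← smul_neg]
  congr 1
  abel

theorem d1_s1 : d1 N * s1 N + s1 N * star (d1 N) = 0 := by
  simp only [d1, s1, star_sub, Matrix.mul_smul, Matrix.smul_mul, mul_add, add_mul, mul_sub,
    sub_mul, jj_jj, rr_rr, jj_rr, rr_jj, star_jj_sj, star_rr_sr, star_jj_sr, star_rr_sj,
    jj_star, rr_star]
  module

theorem s1_d1 : s1 N * d1 N + star (d1 N) * s1 N = 0 := by
  simp only [d1, s1, star_sub, Matrix.mul_smul, Matrix.smul_mul, mul_add, add_mul, mul_sub,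
    sub_mul, jj_jj, rr_rr, jj_rr, rr_jj, star_jj_sj, star_rr_sr, star_jj_sr, star_rr_sj,
    star_jj_jj, star_rr_rr]
  module

theorem s1_sq : s1 N * s1 N = 1 - (1 / 4 : ℂ) • lap1 N := by
  have h : (1 : Matrix (C1 N) (C1 N) ℂ) = pv N + pe N := (pv_add_pe N).symm
  rw [h]
  simp only [lap1, d1, s1, star_sub, Matrix.mul_smul, Matrix.smul_mul, mul_add, add_mul, mul_sub,
    sub_mul, jj_jj, rr_rr, jj_rr, rr_jj, star_jj_sj, star_rr_sr, star_jj_sr, star_rr_sj,
    jj_star, rr_star, star_jj_jj, star_rr_rr, smul_smul, smul_add, smul_sub]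
  module




end One

/-! ### the n-dimensional grid -/

section Grid

open Complex (I)

variable (n N : ℕ) [NeZero N]

/-- cells of the torus grid -/
abbrev Cell := Fin n → C1 N

theorem star_d1_g1 : g1 N * star (d1 N) = -(star (d1 N) * g1 N) := by
  have := congrArg star (g1_d1 N)
  rw [star_mul, star_neg, star_mul, star_g1] at this
  rw [this, neg_neg]




/-- factors of the k-th partial boundary -/
def uu (k : Fin n) : Fin n → Matrix (C1 N) (C1 N) ℂ :=
  fun l => if l < k then g1 N else if l = k then d1 N else 1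

/-- k-th partial boundary -/
def dk (k : Fin n) : Matrix (Cell n N) (Cell n N) ℂ := tens (uu n N k)

/-- boundary of the torus grid -/
def dd : Matrix (Cell n N) (Cell n N) ℂ := ∑ k, dk n N k

/-- factors of the duality -/
def ff (l : Fin n) : Matrix (C1 N) (C1 N) ℂ := (I ^ (l : ℕ)) • (s1 N * g1 N ^ (l : ℕ))

/-- duality -/
def SS : Matrix (Cell n N) (Cell n N) ℂ := tens (ff n N)

/-- partial products of the squares -/
def qq (k : ℕ) : Matrix (Cell n N) (Cell n N) ℂ :=
  tens fun l => if (l : ℕ) < k then s1 N * s1 N else 1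

/-- homotopy `S² ~ 1` -/
def HH : Matrix (Cell n N) (Cell n N) ℂ :=
  (-(1 / 4) : ℂ) • ∑ k : Fin n, star (dk n N k) * qq n N k


































end Grid

end

end Crest.Agent.R217.Grid897
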