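import Mathlib
import Crest.Agent.R217.Carrier_834
import Crest.Agent.R217.Grid_897
import Crest.Agent.R217.Flow_373
import Crest.Agent.R217.PC_473

-- ▼ part R217/CarrierBall_834
section

/-!
# Row 217 (S0336), piece C2: acyclic carriers, sup-norm balls

Centers `c : Cell n → (Fin n → ℝ)` (grid units), radii growing with the dimension of the cell.
-/

set_option autoImplicit false
set_option linter.dupNamespace false

namespace Crest.Agent.R217.Carrier834

open Finsupp

variable {R : Type*} [CommRing R] {n : ℕ}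

/-- the closed cell `s` lies in the sup-norm ball -/
def InBall (c : Fin n → ℝ) (r : ℝ) (s : Cell n) : Prop :=
  ∀ i, c i - r ≤ ((s i).1 : ℝ) ∧ ((s i).1 : ℝ) + (if (s i).2 then 1 else 0) ≤ c i + r

/-- chains in the sup-norm ball -/
def Bl (R : Type*) [CommRing R] (c : Fin n → ℝ) (r : ℝ) : Submodule R (Ch R n) :=
  Finsupp.supported R R {s | InBall c r s}

theorem mem_Bl {c : Fin n → ℝ} {r : ℝ} {x : Ch R n} :
    x ∈ Bl R c r ↔ ∀ s ∈ x.support, InBall c r s :=
  Finsupp.mem_supported R x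

theorem inBall_iff {c : Fin n → ℝ} {r : ℝ} {s : Cell n} :
    InBall c r s ↔ InBox (fun i => ⌈c i - r⌉) (fun i => ⌊c i + r⌋) s := by
  unfold InBall InBox
  refine forall_congr' fun i => and_congr Int.ceil_le.symm ?_
  rw [Int.le_floor]
  by_cases hb : (s i).2 = true <;> simp [hb]

theorem Bl_eq (c : Fin n → ℝ) (r : ℝ) :
    Bl R c r = Bx R (fun i => ⌈c i - r⌉) (fun i => ⌊c i + r⌋) := by
  unfold Bl Bx
  congr 1
  ext s
  exact inBall_iff

theorem InBall.mono {c c' : Fin n → ℝ} {r r' : ℝ} (h : ∀ i, |c i - c' i| + r ≤ r') {s : Cell n}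
    (hs : InBall c r s) : InBall c' r' s := by
  intro i
  have h1 := h i
  have h2 := hs i
  have h3 := abs_le.1 (le_refl |c i - c' i|)
  constructor <;> linarith

theorem Bl_mono {c c' : Fin n → ℝ} {r r' : ℝ} (h : ∀ i, |c i - c' i| + r ≤ r') :
    Bl R c r ≤ Bl R c' r' := by
  apply Finsupp.supported_mono
  intro s hs
  exact hs.mono h

theorem Bl_mono' {c : Fin n → ℝ} {r r' : ℝ} (h : r ≤ r') : Bl R c r ≤ Bl R c r' :=
  Bl_mono fun i => by simpa using h



theorem ceil_le_floor {x r : ℝ} (hr : 1 / 2 ≤ r) : ⌈x - r⌉ ≤ ⌊x + r⌋ := by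
  have h1 : ⌈x - r⌉ ≤ round x := by
    rw [Int.ceil_le]
    have := abs_le.1 (abs_sub_round x)
    linarith
  have h2 : round x ≤ ⌊x + r⌋ := by
    rw [Int.le_floor]
    have := abs_le.1 (abs_sub_round x)
    linarith
  exact h1.trans h2

theorem ball_carrier {KK : Set (Cell n)} {c : Cell n → Fin n → ℝ} {ρ R0 : ℝ}
    (hc : ∀ s ∈ KK, ∀ t, IsFace t s → ∀ i, |c t i - c s i| ≤ ρ) :
    ∀ s ∈ KK, ∀ t, IsFace t s →
      (∀ i, ⌈c s i - (R0 + dim s * ρ)⌉ ≤ ⌈c t i - (R0 + dim t * ρ)⌉) ∧
      (∀ i, ⌊c t i + (R0 + dim t * ρ)⌋ ≤ ⌊c s i + (R0 + dim s * ρ)⌋) := by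
  intro s hs t ht
  have h1 := hc s hs t ht
  have h2 : (dim s : ℝ) = dim t + 1 := by exact_mod_cast (dim_face ht).symm
  rw [h2]
  refine ⟨fun i => Int.ceil_le_ceil ?_, fun i => Int.floor_le_floor ?_⟩
  · have := abs_le.1 (h1 i); linarith
  · have := abs_le.1 (h1 i); linarith

/-- **existence of a carried chain map**, balls -/
theorem exists_map_ball (KK : Set (Cell n)) (hface : ∀ s ∈ KK, ∀ t, IsFace t s → t ∈ KK)
    (c : Cell n → Fin n → ℝ) {ρ : ℝ} (hρ : 0 ≤ ρ)
    (hc : ∀ s ∈ KK, ∀ t, IsFace t s → ∀ i, |c t i - c s i| ≤ ρ) :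
    ∃ φ : Ch R n →ₗ[R] Ch R n, (∀ s ∈ KK, dim s = 0 → aug R n (φ (single s 1)) = 1) ∧
      ∀ s ∈ KK, φ (single s 1) ∈ Dg R n (dim s) ∧ φ (single s 1) ∈ Bl R (c s) (1 + dim s * ρ) ∧
        d R n (φ (single s 1)) = φ (bd R n s) := by
  have hr : ∀ s : Cell n, (1 : ℝ) ≤ 1 + dim s * ρ := fun s => by
    have : (0 : ℝ) ≤ dim s * ρ := by positivity
    linarith
  obtain ⟨φ, h1, h2⟩ := exists_map (R := R) KK (fun s i => ⌈c s i - (1 + dim s * ρ)⌉)
    (fun s i => ⌊c s i + (1 + dim s * ρ)⌋) hface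
    (fun s _ i => ceil_le_floor (by have := hr s; linarith))
    (ball_carrier hc) (fun s => single (vx (fun i => round (c s i))) 1)
    (fun s hs h0 => by
      refine ⟨?_, ?_, ?_⟩
      · have := single_mem_Dg (vx (fun i => round (c s i))) (1 : R)
        rwa [dim_vx] at this
      · rw [← Bl_eq (c s) (1 + dim s * ρ)]
        refine Finsupp.single_mem_supported R _ ?_
        intro i
        have h3 := abs_le.1 (abs_sub_round (c s i))
        have h4 := hr s
        simp only [vx]
        constructor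
        · linarith
        · simp; linarith
      · rw [aug_single, dim_vx, if_pos rfl])
  refine ⟨φ, fun s hs h0 => ?_, fun s hs => ?_⟩
  · rw [h1 s h0, aug_single, dim_vx, if_pos rfl]
  · rw [Bl_eq]
    exact h2 s hs

/-- **homotopy lemma**, balls -/
theorem exists_homotopy_ball (KK : Set (Cell n)) (hface : ∀ s ∈ KK, ∀ t, IsFace t s → t ∈ KK)
    (c : Cell n → Fin n → ℝ) {ρ R0 : ℝ} (hρ : 0 ≤ ρ) (hR0 : 1 / 2 ≤ R0)
    (hc : ∀ s ∈ KK, ∀ t, IsFace t s → ∀ i, |c t i - c s i| ≤ ρ)
    (F : Ch R n →ₗ[R] Ch R n)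
    (hF : ∀ s ∈ KK, F (single s 1) ∈ Dg R n (dim s) ∧ F (single s 1) ∈ Bl R (c s) R0 ∧
        d R n (F (single s 1)) = F (bd R n s))
    (hF0 : ∀ s ∈ KK, dim s = 0 → aug R n (F (single s 1)) = 0) :
    ∃ h : Ch R n →ₗ[R] Ch R n, ∀ s ∈ KK, h (single s 1) ∈ Dg R n (dim s + 1) ∧
      h (single s 1) ∈ Bl R (c s) (R0 + dim s * ρ) ∧
        d R n (h (single s 1)) + h (bd R n s) = F (single s 1) := by
  have hr : ∀ s : Cell n, R0 ≤ R0 + dim s * ρ := fun s => by
    have : (0 : ℝ) ≤ dim s * ρ := by positivity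
    linarith
  obtain ⟨h, hh⟩ := exists_homotopy (R := R) KK (fun s i => ⌈c s i - (R0 + dim s * ρ)⌉)
    (fun s i => ⌊c s i + (R0 + dim s * ρ)⌋) hface
    (fun s _ i => ceil_le_floor (by have := hr s; linarith))
    (ball_carrier hc) F
    (fun s hs => by
      obtain ⟨h1, h2, h3⟩ := hF s hs
      refine ⟨h1, ?_, h3⟩
      rw [← Bl_eq (c s) (R0 + dim s * ρ)]
      exact Bl_mono' (hr s) h2) hF0
  refine ⟨h, fun s hs => ?_⟩
  rw [Bl_eq]
  exact hh s hs


/-- the centre of a cell -/
noncomputable def pos (s : Cell n) : Fin n → ℝ :=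
  fun i => ((s i).1 : ℝ) + (if (s i).2 then 1 / 2 else 0)




end Crest.Agent.R217.Carrier834
end

-- ▼ part R217/CarrierZ_834
section

/-!
# Row 217 (S0336), piece C2: acyclic carriers, matrix version on the torus index type

`CellZ n N = Fin n → ZMod N × Bool`; everything happens in the non-wrapping window.  The boundary
matrix `dd` is abstract, its only property used is that its columns in the window are the boundaries of
the integral cells.
-/

set_option autoImplicit false
set_option linter.dupNamespace false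

namespace Crest.Agent.R217.Carrier834

open Finsupp

/-- cells of the torus grid -/
abbrev CellZ (n N : ℕ) := Fin n → ZMod N × Bool

variable {n N : ℕ}

/-- the integral representative of a cell -/
def lift (s : CellZ n N) : Cell n := fun i => ((s i).1.valMinAbs, (s i).2)

/-- reduction of an integral cell -/
def proj (N : ℕ) (s : Cell n) : CellZ n N := fun i => (((s i).1 : ZMod N), (s i).2)

/-- the non-wrapping window (integral cells) -/
def Win (N : ℕ) (s : Cell n) : Prop := ∀ i, 2 * |(s i).1| + 4 ≤ (N : ℤ)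

section
variable [NeZero N]

omit [NeZero N] in
theorem proj_lift (s : CellZ n N) : proj N (lift s) = s := by
  funext i
  simp [proj, lift, ZMod.coe_valMinAbs]

omit [NeZero N] in
theorem lift_injective : Function.Injective (lift (n := n) (N := N)) := fun s t h => by
  rw [← proj_lift s, ← proj_lift t, h]

theorem lift_proj {s : Cell n} (h : ∀ i, 2 * |(s i).1| < (N : ℤ)) : lift (proj N s) = s := by
  funext i
  have h1 := h i
  have h2 := abs_lt.1 (show |(s i).1| < |(s i).1| + 1 by omega)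
  have h3 := le_abs_self (s i).1
  have h4 := neg_abs_le (s i).1
  have : ((s i).1 : ZMod N).valMinAbs = (s i).1 := by
    rw [ZMod.valMinAbs_spec]
    exact ⟨rfl, by constructor <;> omega⟩
  simp only [lift, proj, this]

theorem lift_proj_win {s : Cell n} (h : Win N s) : lift (proj N s) = s :=
  lift_proj fun i => by have := h i; omega

/-- sums over chains supported in the range of `lift` -/
theorem lc_lift {M : Type*} [AddCommGroup M] [Module ℂ M] (f : Cell n → M) (x : Ch ℂ n)
    (hx : ∀ v ∈ x.support, ∃ t : CellZ n N, lift t = v) :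
    Finsupp.linearCombination ℂ f x = ∑ t : CellZ n N, x (lift t) • f (lift t) := by
  classical
  rw [Finsupp.linearCombination_apply, Finsupp.sum]
  have e : ∑ t : CellZ n N, x (lift t) • f (lift t) =
      ∑ v ∈ (Finset.univ : Finset (CellZ n N)).image lift, x v • f v := by
    rw [Finset.sum_image]
    intro a _ b _ h
    exact lift_injective h
  rw [e]
  refine Finset.sum_subset ?_ ?_
  · intro v hv
    obtain ⟨t, ht⟩ := hx v hv
    exact Finset.mem_image.2 ⟨t, Finset.mem_univ t, ht⟩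
  · intro v _ hv
    rw [Finsupp.notMem_support_iff.1 hv, zero_smul]

theorem map_apply_lift (φ : Ch ℂ n →ₗ[ℂ] Ch ℂ n) (x : Ch ℂ n)
    (hx : ∀ v ∈ x.support, ∃ t : CellZ n N, lift t = v) (w : Cell n) :
    (φ x) w = ∑ t : CellZ n N, x (lift t) * (φ (single (lift t) 1)) w := by
  rw [map_eq_sum φ, lc_lift _ x hx]
  simp only [Finsupp.finsetSum_apply, Finsupp.smul_apply, smul_eq_mul]

/-- facets stay in the range of `lift` -/
theorem face_range {s : CellZ n N} (hs : Win N (lift s)) {v : Cell n} (hv : IsFace v (lift s)) :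
    lift (proj N v) = v := by
  apply lift_proj
  intro i
  obtain ⟨j, hj, hv⟩ := hv
  have h1 := hs i
  have h2 := hs j
  by_cases hij : i = j
  · subst hij
    rcases hv with rfl | rfl
    · simp only [Function.update_self]; omega
    · simp only [Function.update_self]
      have := abs_add_le (lift s i).1 1
      rw [abs_one] at this
      omega
  · rcases hv with rfl | rfl
    · rw [Function.update_of_ne hij]; omega
    · rw [Function.update_of_ne hij]; omega

omit [NeZero N] in
theorem ball_win {c : Fin n → ℝ} {r : ℝ} (h : ∀ i, |c i| + r + 2 ≤ (N : ℝ) / 2) {v : Cell n}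
    (hv : InBall c r v) : Win N v := by
  intro i
  have h1 := h i
  have h2 := hv i
  have h3 : |((v i).1 : ℝ)| ≤ |c i| + r := by
    have h4 := le_abs_self (c i)
    have h5 := neg_abs_le (c i)
    rw [abs_le]
    have h6 : (0 : ℝ) ≤ (if (v i).2 = true then 1 else 0) := by split_ifs <;> norm_num
    constructor <;> linarith
  have h4 : (2 : ℝ) * |((v i).1 : ℝ)| + 4 ≤ N := by linarith
  exact_mod_cast h4

variable (dd : Matrix (CellZ n N) (CellZ n N) ℂ)

/-- the property of the boundary matrix -/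
def IsBd (dd : Matrix (CellZ n N) (CellZ n N) ℂ) : Prop :=
  ∀ s t : CellZ n N, Win N (lift s) → dd t s = (bd ℂ n (lift s)) (lift t)

variable {dd}

theorem dd_mul_eq (hdd : IsBd dd) (E : Matrix (CellZ n N) (CellZ n N) ℂ) (s : CellZ n N)
    (x : Ch ℂ n) (hx : ∀ v ∈ x.support, Win N v) (hE : ∀ t, E t s = x (lift t)) (t : CellZ n N) :
    (dd * E) t s = (d ℂ n x) (lift t) := by
  rw [map_apply_lift (N := N) (d ℂ n) x (fun v hv => ⟨proj N v, lift_proj_win (hx v hv)⟩),
    Matrix.mul_apply]
  refine Finset.sum_congr rfl fun u _ => ?_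
  rw [hE, d_single, one_smul]
  by_cases hu : x (lift u) = 0
  · rw [hu, mul_zero, zero_mul]
  · rw [hdd u t (hx _ (Finsupp.mem_support_iff.2 hu)), mul_comm]

theorem mul_dd_eq (hdd : IsBd dd) (E : Matrix (CellZ n N) (CellZ n N) ℂ) {s : CellZ n N}
    (hs : Win N (lift s)) (φ : Ch ℂ n →ₗ[ℂ] Ch ℂ n)
    (hE : ∀ u : CellZ n N, IsFace (lift u) (lift s) → ∀ t, E t u = (φ (single (lift u) 1)) (lift t))
    (t : CellZ n N) : (E * dd) t s = (φ (bd ℂ n (lift s))) (lift t) := by
  rw [map_apply_lift (N := N) φ _ (fun v hv => ⟨proj N v, face_range hs (isFace_of_mem_bd hv)⟩),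
    Matrix.mul_apply]
  refine Finset.sum_congr rfl fun u _ => ?_
  rw [hdd s u hs]
  by_cases hu : (bd ℂ n (lift s)) (lift u) = 0
  · rw [hu, mul_zero, zero_mul]
  · rw [hE u (isFace_of_mem_bd (Finsupp.mem_support_iff.2 hu)), mul_comm]

/-- **(MB2)** existence of a carried chain map, matrix form -/
theorem matrix_map (hdd : IsBd dd) (KK : Set (CellZ n N))
    (hface : ∀ s ∈ KK, ∀ t : CellZ n N, IsFace (lift t) (lift s) → t ∈ KK)
    (ctr : CellZ n N → Fin n → ℝ) {ρ : ℝ} (hρ : 0 ≤ ρ)
    (hc : ∀ s ∈ KK, ∀ t : CellZ n N, IsFace (lift t) (lift s) → ∀ i, |ctr t i - ctr s i| ≤ ρ)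
    (hw : ∀ s ∈ KK, Win N (lift s))
    (hw' : ∀ s ∈ KK, ∀ i, |ctr s i| + (1 + n * ρ) + 2 ≤ (N : ℝ) / 2) :
    ∃ η : Matrix (CellZ n N) (CellZ n N) ℂ, (∀ s ∉ KK, ∀ t, η t s = 0) ∧
      ∀ s ∈ KK, (∀ t, η t s ≠ 0 → dim (lift t) = dim (lift s) ∧
          InBall (ctr s) (1 + n * ρ) (lift t)) ∧
        (∀ t, (dd * η) t s = (η * dd) t s) ∧
        (dim (lift s) = 0 → ∑ t, (if dim (lift t) = 0 then η t s else 0) = 1) := by
  classical
  obtain ⟨φ, h1, h2⟩ := exists_map_ball (R := ℂ) (lift '' KK)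
    (by
      rintro _ ⟨s, hs, rfl⟩ v hv
      have e := face_range (hw s hs) hv
      exact ⟨proj N v, hface s hs _ (by rw [e]; exact hv), e⟩)
    (fun v => ctr (proj N v)) hρ
    (by
      rintro _ ⟨s, hs, rfl⟩ v hv i
      have e := face_range (hw s hs) hv
      have := hc s hs (proj N v) (by rw [e]; exact hv) i
      rwa [proj_lift])
  have hsupp : ∀ s ∈ KK, ∀ v ∈ (φ (single (lift s) 1)).support,
      dim v = dim (lift s) ∧ InBall (ctr s) (1 + n * ρ) v := by
    intro s hs v hv
    obtain ⟨h3, h4, -⟩ := h2 _ ⟨s, hs, rfl⟩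
    refine ⟨(Finsupp.mem_supported ℂ _).1 h3 hv, ?_⟩
    have h5 := mem_Bl.1 h4 v hv
    rw [proj_lift] at h5
    refine h5.mono fun i => ?_
    rw [sub_self, abs_zero, zero_add]
    have h6 : (dim (lift s) : ℝ) ≤ n := by exact_mod_cast dim_le (lift s)
    have := mul_le_mul_of_nonneg_right h6 hρ
    linarith
  refine ⟨Matrix.of fun t s => if s ∈ KK then (φ (single (lift s) 1)) (lift t) else 0,
    fun s hs t => by simp [hs], fun s hs => ⟨fun t ht => ?_, fun t => ?_, fun h0 => ?_⟩⟩
  · simp only [Matrix.of_apply, if_pos hs] at ht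
    exact hsupp s hs _ (Finsupp.mem_support_iff.2 ht)
  · have e1 := dd_mul_eq hdd (Matrix.of fun t s => if s ∈ KK then
      (φ (single (lift s) 1)) (lift t) else 0) s (φ (single (lift s) 1))
      (fun v hv => ball_win (hw' s hs) (hsupp s hs v hv).2) (fun t => by simp [hs]) t
    have e2 := mul_dd_eq hdd (Matrix.of fun t s => if s ∈ KK then
      (φ (single (lift s) 1)) (lift t) else 0) (hw s hs) φ
      (fun u hu t => by simp [hface s hs u hu]) t
    rw [e1, e2, (h2 _ ⟨s, hs, rfl⟩).2.2]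
  · have e1 := h1 _ ⟨s, hs, rfl⟩ h0
    unfold aug at e1
    rw [lc_lift (N := N) _ _ (fun v hv => ⟨proj N v, lift_proj_win
      (ball_win (hw' s hs) (hsupp s hs v hv).2)⟩)] at e1
    refine Eq.trans (Finset.sum_congr rfl fun t _ => ?_) e1
    simp only [Matrix.of_apply, if_pos hs, smul_eq_mul]
    split_ifs <;> simp

/-- **(MB3)** homotopy lemma, matrix form -/
theorem matrix_homotopy (hdd : IsBd dd) (KK : Set (CellZ n N))
    (hface : ∀ s ∈ KK, ∀ t : CellZ n N, IsFace (lift t) (lift s) → t ∈ KK)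
    (ctr : CellZ n N → Fin n → ℝ) {ρ R0 : ℝ} (hρ : 0 ≤ ρ) (hR0 : 1 / 2 ≤ R0)
    (hc : ∀ s ∈ KK, ∀ t : CellZ n N, IsFace (lift t) (lift s) → ∀ i, |ctr t i - ctr s i| ≤ ρ)
    (hw : ∀ s ∈ KK, Win N (lift s))
    (hw' : ∀ s ∈ KK, ∀ i, |ctr s i| + (R0 + n * ρ) + 2 ≤ (N : ℝ) / 2)
    (F : Matrix (CellZ n N) (CellZ n N) ℂ)
    (hF : ∀ s ∈ KK, (∀ t, F t s ≠ 0 → dim (lift t) = dim (lift s) ∧
        InBall (ctr s) R0 (lift t)) ∧ (∀ t, (dd * F) t s = (F * dd) t s) ∧
        (dim (lift s) = 0 → ∑ t, (if dim (lift t) = 0 then F t s else 0) = 0)) :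
    ∃ h : Matrix (CellZ n N) (CellZ n N) ℂ, (∀ s ∉ KK, ∀ t, h t s = 0) ∧
      ∀ s ∈ KK, (∀ t, h t s ≠ 0 → dim (lift t) = dim (lift s) + 1 ∧
          InBall (ctr s) (R0 + n * ρ) (lift t)) ∧
        (∀ t, (dd * h + h * dd) t s = F t s) := by
  classical
  have hnρ : (0 : ℝ) ≤ n * ρ := by positivity
  -- the columns of `F` as chains
  let x : CellZ n N → Ch ℂ n := fun s => ∑ t, single (lift t) (F t s)
  have hx : ∀ s t, x s (lift t) = F t s := by
    intro s t
    simp only [x, Finsupp.finsetSum_apply, Finsupp.single_apply]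
    rw [Finset.sum_eq_single t]
    · simp
    · intro u _ hu
      rw [if_neg]
      intro h
      exact hu (lift_injective h)
    · intro hh; exact absurd (Finset.mem_univ t) hh
  have hxs : ∀ s v, v ∈ (x s).support → ∃ t : CellZ n N, lift t = v ∧ F t s ≠ 0 := by
    intro s v hv
    by_contra hcon
    push Not at hcon
    apply Finsupp.mem_support_iff.1 hv
    simp only [x, Finsupp.finsetSum_apply, Finsupp.single_apply]
    refine Finset.sum_eq_zero fun t _ => ?_
    by_cases ht : lift t = v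
    · rw [if_pos ht, hcon t ht]
    · rw [if_neg ht]
  let F' : Ch ℂ n →ₗ[ℂ] Ch ℂ n := Finsupp.linearCombination ℂ (fun v => x (proj N v))
  have hF'1 : ∀ s : CellZ n N, F' (single (lift s) 1) = x s := by
    intro s
    simp only [F', Finsupp.linearCombination_single, one_smul, proj_lift]
  have hxw : ∀ s ∈ KK, ∀ v ∈ (x s).support, dim v = dim (lift s) ∧ InBall (ctr s) R0 v := by
    intro s hs v hv
    obtain ⟨t, rfl, ht⟩ := hxs s v hv
    exact (hF s hs).1 t ht
  have hxW : ∀ s ∈ KK, ∀ v ∈ (x s).support, Win N v := by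
    intro s hs v hv
    refine ball_win (c := ctr s) (r := R0) (fun i => ?_) (hxw s hs v hv).2
    have := hw' s hs i
    linarith
  obtain ⟨h', hh⟩ := exists_homotopy_ball (R := ℂ) (lift '' KK)
    (by
      rintro _ ⟨s, hs, rfl⟩ v hv
      have e := face_range (hw s hs) hv
      exact ⟨proj N v, hface s hs _ (by rw [e]; exact hv), e⟩)
    (fun v => ctr (proj N v)) hρ hR0
    (by
      rintro _ ⟨s, hs, rfl⟩ v hv i
      have e := face_range (hw s hs) hv
      have := hc s hs (proj N v) (by rw [e]; exact hv) i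
      rwa [proj_lift]) F'
    (by
      rintro _ ⟨s, hs, rfl⟩
      rw [hF'1, proj_lift]
      refine ⟨?_, ?_, ?_⟩
      · exact (Finsupp.mem_supported ℂ _).2 fun v hv => (hxw s hs v hv).1
      · exact mem_Bl.2 fun v hv => (hxw s hs v hv).2
      · -- compare at the points of the range of lift, the rest vanishes
        have hdsup : ∀ v ∈ (d ℂ n (x s)).support, Win N v := by
          intro v hv
          have h1 : x s ∈ Bl ℂ (ctr s) R0 := mem_Bl.2 fun v hv => (hxw s hs v hv).2
          rw [Bl_eq] at h1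
          have h2 := d_mem_Bx h1
          rw [← Bl_eq] at h2
          refine ball_win (c := ctr s) (r := R0) (fun i => ?_) (mem_Bl.1 h2 v hv)
          have := hw' s hs i
          linarith
        have hbsup : ∀ v ∈ (F' (bd ℂ n (lift s))).support, Win N v := by
          intro v hv
          have h1 : F' (bd ℂ n (lift s)) ∈ Finsupp.supported ℂ ℂ {v : Cell n | Win N v} := by
            rw [map_eq_sum F']
            refine lc_mem _ _ _ fun w hw1 => ?_
            have e := face_range (hw s hs) (isFace_of_mem_bd hw1)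
            have hw2 : proj N w ∈ KK := hface s hs _ (by rw [e]; exact isFace_of_mem_bd hw1)
            rw [← e, hF'1]
            exact (Finsupp.mem_supported ℂ _).2 fun v hv => hxW _ hw2 v hv
          exact (Finsupp.mem_supported ℂ _).1 h1 hv
        ext v
        by_cases hv : Win N v
        · have e := lift_proj_win hv
          rw [← e]
          have e1 := dd_mul_eq hdd F s (x s) (hxW s hs) (fun t => (hx s t).symm) (proj N v)
          have e2 := mul_dd_eq hdd F (hw s hs) F'
            (fun u hu t => by rw [hF'1, hx]) (proj N v)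
          rw [← e1, ← e2]
          exact (hF s hs).2.1 _
        · rw [Finsupp.notMem_support_iff.1 fun h => hv (hdsup v h),
            Finsupp.notMem_support_iff.1 fun h => hv (hbsup v h)])
    (by
      rintro _ ⟨s, hs, rfl⟩ h0
      rw [hF'1]
      unfold aug
      rw [lc_lift (N := N) _ _ (fun v hv => ⟨proj N v, lift_proj_win (hxW s hs v hv)⟩)]
      refine Eq.trans (Finset.sum_congr rfl fun t _ => ?_) ((hF s hs).2.2 h0)
      rw [hx]
      simp only [smul_eq_mul]
      split_ifs <;> simp)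
  have hsupp : ∀ s ∈ KK, ∀ v ∈ (h' (single (lift s) 1)).support,
      dim v = dim (lift s) + 1 ∧ InBall (ctr s) (R0 + n * ρ) v := by
    intro s hs v hv
    obtain ⟨h3, h4, -⟩ := hh _ ⟨s, hs, rfl⟩
    refine ⟨(Finsupp.mem_supported ℂ _).1 h3 hv, ?_⟩
    have h5 := mem_Bl.1 h4 v hv
    rw [proj_lift] at h5
    refine h5.mono fun i => ?_
    rw [sub_self, abs_zero, zero_add]
    have h6 : (dim (lift s) : ℝ) ≤ n := by exact_mod_cast dim_le (lift s)
    have := mul_le_mul_of_nonneg_right h6 hρ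
    linarith
  refine ⟨Matrix.of fun t s => if s ∈ KK then (h' (single (lift s) 1)) (lift t) else 0,
    fun s hs t => by simp [hs], fun s hs => ⟨fun t ht => ?_, fun t => ?_⟩⟩
  · simp only [Matrix.of_apply, if_pos hs] at ht
    exact hsupp s hs _ (Finsupp.mem_support_iff.2 ht)
  · have e1 := dd_mul_eq hdd (Matrix.of fun t s => if s ∈ KK then
      (h' (single (lift s) 1)) (lift t) else 0) s (h' (single (lift s) 1))
      (fun v hv => ball_win (hw' s hs) (hsupp s hs v hv).2) (fun t => by simp [hs]) t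
    have e2 := mul_dd_eq hdd (Matrix.of fun t s => if s ∈ KK then
      (h' (single (lift s) 1)) (lift t) else 0) (hw s hs) h'
      (fun u hu t => by simp [hface s hs u hu]) t
    rw [Matrix.add_apply, e1, e2, ← Finsupp.add_apply, (hh _ ⟨s, hs, rfl⟩).2.2, hF'1, hx]

end

/-- **(MB4)** the augmentation of a chain map is constant on the vertices of an integral box -/
theorem matrix_aug [NeZero N] {dd : Matrix (CellZ n N) (CellZ n N) ℂ} (hdd : IsBd dd)
    (haug : ∀ u : CellZ n N, ∑ t, (if dim (lift t) = 0 then dd t u else 0) = 0)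
    (lo hi : Fin n → ℤ) (hwin : ∀ i, 2 * |lo i| + 4 ≤ (N : ℤ) ∧ 2 * |hi i| + 4 ≤ (N : ℤ))
    (F : Matrix (CellZ n N) (CellZ n N) ℂ)
    (hF : ∀ e : CellZ n N, InBox lo hi (lift e) → dim (lift e) = 1 →
      ∀ t, (dd * F) t e = (F * dd) t e)
    {u v : CellZ n N} (hu : InBox lo hi (lift u)) (hu0 : dim (lift u) = 0)
    (hv : InBox lo hi (lift v)) (hv0 : dim (lift v) = 0) :
    ∑ t, (if dim (lift t) = 0 then F t u else 0) = ∑ t, (if dim (lift t) = 0 then F t v else 0) := by
  classical
  let α : Ch ℂ n →ₗ[ℂ] ℂ := Finsupp.linearCombination ℂ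
    (fun w => ∑ t, (if dim (lift t) = 0 then F t (proj N w) else 0))
  have hα : ∀ s : CellZ n N, α (single (lift s) 1) =
      ∑ t, (if dim (lift t) = 0 then F t s else 0) := by
    intro s
    simp only [α, Finsupp.linearCombination_single, one_smul, proj_lift]
  have hW : ∀ e : Cell n, InBox lo hi e → Win N e := by
    intro e he i
    have h1 := he i
    have h2 := hwin i
    have h3 : (0 : ℤ) ≤ (if (e i).2 = true then 1 else 0) := by split_ifs <;> omega
    rcases abs_cases (e i).1 with h4 | h4 <;> rcases abs_cases (lo i) with h5 | h5 <;>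
      rcases abs_cases (hi i) with h6 | h6 <;> omega
  have hvx : ∀ s : CellZ n N, dim (lift s) = 0 → lift s = vx (fun i => (lift s i).1) := by
    intro s h0
    funext i
    have : (lift s i).2 = false := by
      by_contra hcon
      have h1 : (1 : ℕ) ≤ dim (lift s) := by
        unfold dim
        calc (1 : ℕ) = if (lift s i).2 = true then 1 else 0 := by simp [hcon]
          _ ≤ _ := Finset.single_le_sum (f := fun i => if (lift s i).2 = true then 1 else 0)
            (fun _ _ => Nat.zero_le _) (Finset.mem_univ i)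
      omega
    exact Prod.ext rfl this
  have key : ∀ e, InBox lo hi e → dim e = 1 → α (bd ℂ n e) = 0 := by
    intro e he hd
    obtain ⟨E, rfl⟩ : ∃ E : CellZ n N, lift E = e := ⟨_, lift_proj_win (hW e he)⟩
    have hwe : Win N (lift E) := hW _ he
    have h1 : α (bd ℂ n (lift E)) = ∑ u : CellZ n N, dd u E *
        ∑ t, (if dim (lift t) = 0 then F t u else 0) := by
      change Finsupp.linearCombination ℂ _ (bd ℂ n (lift E)) = _
      rw [lc_lift (N := N) _ _ (fun v hv => ⟨proj N v, face_range hwe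
        (isFace_of_mem_bd hv)⟩)]
      refine Finset.sum_congr rfl fun u _ => ?_
      rw [smul_eq_mul, proj_lift, hdd E u hwe]
    rw [h1]
    have h2 : ∀ t, (F * dd) t E = ∑ u, F t u * dd u E := fun t => Matrix.mul_apply
    have h3 : ∑ u : CellZ n N, dd u E * ∑ t, (if dim (lift t) = 0 then F t u else 0) =
        ∑ t, (if dim (lift t) = 0 then (F * dd) t E else 0) := by
      simp only [h2, Finset.mul_sum]
      rw [Finset.sum_comm]
      refine Finset.sum_congr rfl fun t _ => ?_
      split_ifs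
      · exact Finset.sum_congr rfl fun u _ => mul_comm _ _
      · simp
    rw [h3]
    have h4 : ∀ t, (F * dd) t E = (dd * F) t E := fun t => (hF E he hd t).symm
    simp only [h4, Matrix.mul_apply]
    have h5 : ∑ t : CellZ n N, (if dim (lift t) = 0 then ∑ u, dd t u * F u E else 0) =
        ∑ u, (∑ t, (if dim (lift t) = 0 then dd t u else 0)) * F u E := by
      simp only [Finset.sum_mul]
      rw [Finset.sum_comm]
      refine Finset.sum_congr rfl fun t _ => ?_
      split_ifs
      · rfl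
      · simp
    rw [h5]
    exact Finset.sum_eq_zero fun u _ => by rw [haug, zero_mul]
  have e1 := hvx u hu0
  have e2 := hvx v hv0
  have := const_box (α := α) key (a := fun i => (lift u i).1) (b := fun i => (lift v i).1)
    (by rw [← e1]; exact hu) (by rw [← e2]; exact hv)
  rw [← e1, ← e2, hα, hα] at this
  exact this

end Crest.Agent.R217.Carrier834
end

-- ▼ part R217/CarrierGrid_834
section

/-!
# Row 217 (S0336), piece C2: the torus boundary matrices are boundaries in the window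

`Grid897.dd`, and every family of matrices with the cons recursion, satisfies `IsBd` and the
augmentation identity.
-/

set_option autoImplicit false
set_option linter.dupNamespace false
set_option linter.unusedSectionVars false

namespace Crest.Agent.R217.Carrier834

open Finsupp Grid897

theorem ins_apply {n : ℕ} (c : ℤ × Bool) (x : Ch ℂ n) (t : Cell (n + 1)) :
    (ins c x) t = if t 0 = c then x (Fin.tail t) else 0 := by
  classical
  induction x using Finsupp.induction_linear with
  | zero => simp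
  | add x y hx hy => simp only [map_add, Finsupp.add_apply, hx, hy]; split_ifs <;> simp
  | single s r =>
    rw [ins_single, Finsupp.single_apply, Finsupp.single_apply]
    by_cases h : t 0 = c
    · rw [if_pos h]
      have : (Fin.cons c s : Cell (n + 1)) = t ↔ s = Fin.tail t := by
        constructor
        · rintro rfl; rw [Fin.tail_cons]
        · rintro rfl; rw [← h]; exact Fin.cons_self_tail t
      simp only [this]
    · rw [if_neg h, if_neg]
      rintro rfl
      exact h rfl

theorem sum_cons {A M : Type*} [Fintype A] [AddCommMonoid M] {n : ℕ} (f : (Fin (n + 1) → A) → M) :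
    ∑ t, f t = ∑ a : A, ∑ t : Fin n → A, f (Fin.cons a t) := by
  rw [← Fintype.sum_prod_type' (f := fun a t => f (Fin.cons a t))]
  exact (Equiv.sum_comp (Fin.consEquiv (fun _ : Fin (n + 1) => A)) f).symm

variable {N : ℕ} [NeZero N]

theorem succ_iff {a b : ZMod N} (hb : 2 * |b.valMinAbs| + 4 ≤ (N : ℤ)) :
    a = b + 1 ↔ a.valMinAbs = b.valMinAbs + 1 := by
  constructor
  · rintro rfl
    rw [ZMod.valMinAbs_spec]
    have h3 := le_abs_self b.valMinAbs
    have h4 := neg_abs_le b.valMinAbs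
    refine ⟨?_, ?_⟩
    · push_cast
      rfl
    · constructor <;> omega
  · intro h
    have := congrArg (fun z : ℤ => (z : ZMod N)) h
    simpa [ZMod.coe_valMinAbs] using this

/-- the recursion of the boundary matrices -/
def BdRec (D : (n : ℕ) → Matrix (CellZ n N) (CellZ n N) ℂ) : Prop :=
  (∀ t s, D 0 t s = 0) ∧
  ∀ (n : ℕ) (t s : CellZ (n + 1) N), D (n + 1) t s =
    d1 N (t 0) (s 0) * (if Fin.tail t = Fin.tail s then 1 else 0) +
      g1 N (t 0) (s 0) * D n (Fin.tail t) (Fin.tail s)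

theorem tail_lift {n : ℕ} (s : CellZ (n + 1) N) : Fin.tail (lift s) = lift (Fin.tail s) := rfl

theorem lift_zero {n : ℕ} (s : CellZ (n + 1) N) : lift s 0 = ((s 0).1.valMinAbs, (s 0).2) := rfl

theorem lift_zero_eq {n : ℕ} (s t : CellZ (n + 1) N) : lift t 0 = lift s 0 ↔ t 0 = s 0 := by
  rw [lift_zero, lift_zero]
  constructor
  · intro h
    have h1 := congrArg (fun p : ℤ × Bool => (p.1 : ZMod N)) h
    have h2 := congrArg Prod.snd h
    simp only [ZMod.coe_valMinAbs] at h1
    exact Prod.ext h1 h2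
  · intro h; rw [h]

theorem isBd_of_rec {D : (n : ℕ) → Matrix (CellZ n N) (CellZ n N) ℂ} (hD : BdRec D) (n : ℕ) :
    IsBd (D n) := by
  classical
  induction n with
  | zero =>
    intro s t _
    rw [hD.1]
    rfl
  | succ n ih =>
    intro s t hs
    have hs0 := hs 0
    have hst : Win N (lift (Fin.tail s)) := fun i => hs i.succ
    have ih' := ih (Fin.tail s) (Fin.tail t) hst
    rw [hD.2]
    have hcons : ∀ (z : ℤ), (Fin.cons (z, false) (Fin.tail (lift s)) : Cell (n + 1)) = lift t ↔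
        ((t 0).1.valMinAbs = z ∧ (t 0).2 = false) ∧ Fin.tail t = Fin.tail s := by
      intro z
      constructor
      · intro h
        have h1 := congrFun h 0
        have h2 := congrArg Fin.tail h
        rw [Fin.tail_cons, tail_lift, tail_lift] at h2
        rw [Fin.cons_zero, lift_zero] at h1
        exact ⟨⟨(congrArg Prod.fst h1).symm, (congrArg Prod.snd h1).symm⟩, (lift_injective h2).symm⟩
      · rintro ⟨⟨h1, h2⟩, h3⟩
        rw [tail_lift, ← h3, ← tail_lift, ← Fin.cons_self_tail (lift t)]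
        congr 1
        rw [lift_zero, h1, h2]
    have hg : (ins (lift s 0) (bd ℂ n (Fin.tail (lift s)))) (lift t) =
        if t 0 = s 0 then D n (Fin.tail t) (Fin.tail s) else 0 := by
      rw [ins_apply, tail_lift, tail_lift, ← ih']
      simp only [lift_zero_eq]
    have hd1 : d1 N (t 0) (s 0) = (if (t 0).2 = false ∧ (s 0).2 = true ∧ (t 0).1 = (s 0).1 + 1
        then 1 else 0) - (if (t 0).2 = false ∧ (s 0).2 = true ∧ (t 0).1 = (s 0).1 then 1 else 0) := rfl
    have hg1 : g1 N (t 0) (s 0) = if t 0 = s 0 then (if (s 0).2 = true then -1 else 1) else 0 := by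
      unfold g1
      rw [Matrix.diagonal_apply]
      by_cases h : t 0 = s 0
      · rw [if_pos h, if_pos h, h]
      · rw [if_neg h, if_neg h]
    have hv : (t 0).1 = (s 0).1 ↔ (t 0).1.valMinAbs = (s 0).1.valMinAbs :=
      ⟨fun h => by rw [h], fun h => by
        have := congrArg (fun z : ℤ => (z : ZMod N)) h
        simpa [ZMod.coe_valMinAbs] using this⟩
    have hv1 := succ_iff (a := (t 0).1) (b := (s 0).1) hs0
    rw [hd1, hg1]
    by_cases hb : (s 0).2 = true
    · have e : bd ℂ (n + 1) (lift s) =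
          single (Fin.cons ((lift s 0).1 + 1, false) (Fin.tail (lift s)) : Cell (n + 1)) 1 -
          single (Fin.cons ((lift s 0).1, false) (Fin.tail (lift s)) : Cell (n + 1)) 1 -
          ins (lift s 0) (bd ℂ n (Fin.tail (lift s))) := if_pos hb
      rw [e, Finsupp.sub_apply, Finsupp.sub_apply, Finsupp.single_apply, Finsupp.single_apply, hg]
      simp only [hcons, hv, hv1, hb, lift_zero]
      by_cases hT : Fin.tail t = Fin.tail s
      · simp only [hT, and_true, if_true, true_and, mul_one]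
        by_cases h0 : t 0 = s 0
        · simp only [h0, if_true, hb]
          simp
        · simp only [h0, if_false, zero_mul, sub_zero, add_zero]
          congr 1
          · by_cases ha : (t 0).2 = false <;>
              by_cases hb : (t 0).1.valMinAbs = (s 0).1.valMinAbs + 1 <;> simp [ha, hb]
          · by_cases ha : (t 0).2 = false <;>
              by_cases hb : (t 0).1.valMinAbs = (s 0).1.valMinAbs <;> simp [ha, hb]
      · simp only [hT, and_false, if_false, mul_zero, sub_zero, zero_add, zero_sub]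
        by_cases h0 : t 0 = s 0
        · simp [h0]
        · simp [h0]
    · have e : bd ℂ (n + 1) (lift s) = ins (lift s 0) (bd ℂ n (Fin.tail (lift s))) := if_neg hb
      rw [e, hg]
      simp only [hb]
      by_cases h0 : t 0 = s 0
      · simp [h0]
      · simp [h0]

theorem dim_cons_lift {n : ℕ} (a : ZMod N × Bool) (t : CellZ n N) :
    dim (lift (Fin.cons a t : CellZ (n + 1) N)) = (if a.2 then 1 else 0) + dim (lift t) := by
  unfold dim
  rw [Fin.sum_univ_succ]
  rfl

theorem haug_of_rec {D : (n : ℕ) → Matrix (CellZ n N) (CellZ n N) ℂ} (hD : BdRec D) (n : ℕ)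
    (u : CellZ n N) : ∑ t, (if dim (lift t) = 0 then D n t u else 0) = 0 := by
  classical
  induction n with
  | zero => exact Finset.sum_eq_zero fun t _ => by rw [hD.1]; simp
  | succ n ih =>
    rw [sum_cons]
    have hterm : ∀ (a : ZMod N × Bool) (t : CellZ n N),
        (if dim (lift (Fin.cons a t : CellZ (n + 1) N)) = 0 then
          D (n + 1) (Fin.cons a t : CellZ (n + 1) N) u else 0) =
        (if a.2 = false then d1 N a (u 0) else 0) *
          (if t = Fin.tail u then (if dim (lift t) = 0 then 1 else 0) else 0) +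
        (if a.2 = false then g1 N a (u 0) else 0) *
          (if dim (lift t) = 0 then D n t (Fin.tail u) else 0) := by
      intro a t
      rw [dim_cons_lift, hD.2, Fin.cons_zero, Fin.tail_cons]
      obtain ⟨a1, a2⟩ := a
      cases a2 with
      | true => simp
      | false =>
        by_cases h : dim (lift t) = 0
        · simp [h]
        · simp [h]
    simp only [hterm, Finset.sum_add_distrib, ← Finset.mul_sum, ih, mul_zero, add_zero,
      Finset.sum_ite_eq', Finset.mem_univ, if_true, ← Finset.sum_mul]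
    have hd : ∑ a : ZMod N × Bool, (if a.2 = false then d1 N a (u 0) else 0) = 0 := by
      have hd1 : ∀ a : ZMod N × Bool, (if a.2 = false then d1 N a (u 0) else 0) =
          (if a = ((u 0).1 + 1, false) then (if (u 0).2 = true then 1 else 0) else 0) -
          (if a = ((u 0).1, false) then (if (u 0).2 = true then 1 else 0) else (0 : ℂ)) := by
        rintro ⟨a1, a2⟩
        have : d1 N (a1, a2) (u 0) = (if a2 = false ∧ (u 0).2 = true ∧ a1 = (u 0).1 + 1
          then 1 else 0) - (if a2 = false ∧ (u 0).2 = true ∧ a1 = (u 0).1 then 1 else 0) := rfl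
        rw [this]
        cases a2 with
        | true => simp
        | false =>
          by_cases h1 : (u 0).2 = true <;> by_cases h2 : a1 = (u 0).1 + 1 <;>
            by_cases h3 : a1 = (u 0).1 <;> simp [h1, h2, h3]
      simp only [hd1, Finset.sum_sub_distrib, Finset.sum_ite_eq', Finset.mem_univ, if_true,
        sub_self]
    rw [hd, zero_mul]




end Crest.Agent.R217.Carrier834
end

-- ▼ part R217/ChainSpec_373

/-!
# Row 217, M7a: SPECIFICATION of the finite chain package

* `pos μ s` : position (lower corner) of a torus cell at mesh `μ`.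
* `IsGrid x` : the properties of the standard self-dual torus grid which are used.
* `Near D C μ i ε A` : all entries `(t, s)` of `A` satisfy `pos s, pos t ∈ C`,
  `dist (pos t) (T i (pos s)) < ε`.
* `Van μ C A` : all entries of `A` with row or column over `C` vanish.
* `ChainPkg` : the homotopy action `η i` of the powers `T i`, `|i| ≤ M`.
* `ChainExists` : the existence statement proved in `Chain_373`.
* `avg`, `AvgPkg` : averages `e = (1/L) ∑_{i<L} τ^(-i) η i`, and what holds for them.
-/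

set_option autoImplicit false

open Metric Set
open Crest.Agent.R217.PC473 Crest.Agent.R217.Flow373 Crest.Agent.R217.Carrier834

namespace Crest.Agent.R217.Chain373

variable {n N : ℕ}

/-- position (lower corner) of a torus cell at mesh `μ` -/
noncomputable def pos (μ : ℝ) (s : CellZ n N) : Fin n → ℝ :=
  fun i => μ * ((s i).1.valMinAbs : ℝ)

/-- every coordinate differs by at most one (mod `N`) -/
def Adj (t s : CellZ n N) : Prop :=
  ∀ i, (t i).1 = (s i).1 ∨ (t i).1 = (s i).1 + 1 ∨ (s i).1 = (t i).1 + 1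

/-- dimension of a torus cell -/
noncomputable def dimZ (s : CellZ n N) : ℕ := dim (lift s)

/-- what is used about the standard self-dual torus grid `(1, g, d, S, T, H)` -/
structure IsGrid [NeZero N] (x : Tup (Matrix (CellZ n N) (CellZ n N) ℂ)) : Prop where
  pc : x.IsPC n
  p_one : x.p = 1
  isBd : IsBd x.d
  haug : ∀ u : CellZ n N, ∑ t, (if dim (lift t) = 0 then x.d t u else 0) = 0
  adj_d : ∀ t s, x.d t s ≠ 0 → Adj t s
  adj_S : ∀ t s, x.S t s ≠ 0 → Adj t s
  adj_T : ∀ t s, x.T t s ≠ 0 → Adj t s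
  adj_H : ∀ t s, x.H t s ≠ 0 → Adj t s
  deg_d : ∀ t s, x.d t s ≠ 0 → dimZ t + 1 = dimZ s
  deg_S : ∀ t s, x.S t s ≠ 0 → dimZ t + dimZ s = n
  deg_T : ∀ t s, x.T t s ≠ 0 → dimZ t + dimZ s = n
  deg_H : ∀ t s, x.H t s ≠ 0 → dimZ t = dimZ s + 1

/-- entries near the graph of `T i`, inside `C` -/
def Near (D : Flow n) (C : Set (Fin n → ℝ)) (μ : ℝ) (i : ℤ) (ε : ℝ)
    (A : Matrix (CellZ n N) (CellZ n N) ℂ) : Prop :=
  ∀ t s, A t s ≠ 0 → pos μ s ∈ C ∧ pos μ t ∈ C ∧ dist (pos μ t) (D.T i (pos μ s)) < ε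

/-- entries near the graph of some `T i`, `|i| ≤ M`, inside `C` -/
def NearX (D : Flow n) (C : Set (Fin n → ℝ)) (μ : ℝ) (M : ℕ) (ε : ℝ)
    (A : Matrix (CellZ n N) (CellZ n N) ℂ) : Prop :=
  ∀ t s, A t s ≠ 0 → pos μ s ∈ C ∧ pos μ t ∈ C ∧
    ∃ i : ℤ, |i| ≤ M ∧ dist (pos μ t) (D.T i (pos μ s)) < ε

/-- all entries with row or column over `C` vanish -/
def Van (μ : ℝ) (C : Set (Fin n → ℝ)) (A : Matrix (CellZ n N) (CellZ n N) ℂ) : Prop :=
  ∀ t s, (pos μ t ∈ C ∨ pos μ s ∈ C) → A t s = 0

/-- the chain package: homotopy action of the powers `T i`, `|i| ≤ M`, of the flow -/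
structure ChainPkg [NeZero N] (D : Flow n) (C C' : Set (Fin n → ℝ)) (M : ℕ) (ε δ μ : ℝ)
    (x : Tup (Matrix (CellZ n N) (CellZ n N) ℂ))
    (η : ℤ → Matrix (CellZ n N) (CellZ n N) ℂ) : Prop where
  near : ∀ i : ℤ, |i| ≤ M → Near D C' μ i ε (η i)
  deg : ∀ i : ℤ, |i| ≤ M → ∀ t s, η i t s ≠ 0 → dimZ t = dimZ s
  zero : Van μ C (η 0 - 1)
  comm : ∀ i : ℤ, |i| ≤ M → Van μ C (x.d * η i - η i * x.d)
  mul : ∀ i j l : ℤ, |i| ≤ M → |j| ≤ M → |l| ≤ M →
    (∀ v ∈ C', dist (D.T (i + j) v) (D.T l v) < δ) →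
    ∃ k, Near D C' μ l ε k ∧ (∀ t s, k t s ≠ 0 → dimZ t = dimZ s + 1) ∧
      Van μ C (η i * η j - η l - (x.d * k + k * x.d))
  dual : ∀ i : ℤ, |i| ≤ M →
    ∃ U, Near D C' μ 0 ε U ∧ (∀ t s, U t s ≠ 0 → dimZ t + dimZ s = n + 1) ∧
      Van μ C (η i * x.S * star (η i) - x.S - (x.d * U - U * star x.d))
  commS : ∀ i j : ℤ, |i| ≤ M → |j| ≤ M → (∀ v ∈ C', dist (D.T (i + j) v) v < δ) →
    ∃ Y, Near D C' μ i ε Y ∧ (∀ t s, Y t s ≠ 0 → dimZ t + dimZ s = n + 1) ∧
      Van μ C (η i * x.S - x.S * star (η j) - (x.d * Y - Y * star x.d))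
  coarse : ∀ i : ℤ, |i| ≤ M →
    ∃ k, (∀ t s, k t s ≠ 0 → pos μ s ∈ closedBall (0 : Fin n → ℝ) 1 ∧
        dist (pos μ t) (pos μ s) < D.c + ε) ∧
      (∀ t s, k t s ≠ 0 → dimZ t = dimZ s + 1) ∧
      Van μ (closedBall 0 (1 / 2)) (η i - 1 - (x.d * k + k * x.d))

/-- equicontinuity of the powers near compact sets (true for the generator of a compact group) -/
def Equi {n : ℕ} (D : Flow n) : Prop :=
  ∀ K ⊆ D.Om, IsCompact K → ∀ ε > 0, ∃ δ > 0, ∀ v ∈ D.ovr K, ∀ v', dist v' v < δ →
    v' ∈ D.V ∧ ∀ i : ℤ, dist (D.T i v') (D.T i v) < ε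

/-- THE EXISTENCE STATEMENT of M7a (for one flow with `Equi D`, `D.c ≤ 1/100`): `C = D.ovr K`
given, a bigger `C' = D.ovr K'` and `ε0`, `R0` (independent of `M`, `ε`), then for all `ε ≤ ε0` an
accuracy `δ` for the return times, then for all `M`, all small meshes and all large enough tori. -/
def ChainExists {n : ℕ} (D : Flow n) : Prop :=
  ∀ K : Set (Fin n → ℝ), IsCompact K → K ⊆ D.Om → ∃ K' : Set (Fin n → ℝ), IsCompact K' ∧
    K' ⊆ D.Om ∧ K ⊆ K' ∧ ∃ ε0 > 0, ∃ R0 : ℝ, ∀ ε : ℝ, 0 < ε → ε ≤ ε0 → ∃ δ > 0, ∀ M : ℕ,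
      ∃ μ0 > 0, ∀ μ : ℝ, 0 < μ → μ < μ0 → ∀ (N : ℕ) [NeZero N], R0 ≤ μ * N →
        ∀ x : Tup (Matrix (CellZ n N) (CellZ n N) ℂ), IsGrid x →
          ∃ η, ChainPkg D (D.ovr K) (D.ovr K') M ε δ μ x η


/-- what holds for the averages -/
structure AvgPkg [NeZero N] (D : Flow n) (C C' : Set (Fin n → ℝ)) (M : ℕ) (ε μ : ℝ)
    (x : Tup (Matrix (CellZ n N) (CellZ n N) ℂ)) (τ : ℂ)
    (e : Matrix (CellZ n N) (CellZ n N) ℂ) : Prop where
  near : NearX D C' μ M ε e
  deg : ∀ t s, e t s ≠ 0 → dimZ t = dimZ s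
  comm : Van μ C (x.d * e - e * x.d)
  idem : ∃ h, NearX D C' μ M ε h ∧ (∀ t s, h t s ≠ 0 → dimZ t = dimZ s + 1) ∧
    Van μ C (e * e - e - (x.d * h + h * x.d))
  commS : ∃ Y, NearX D C' μ M ε Y ∧ (∀ t s, Y t s ≠ 0 → dimZ t + dimZ s = n + 1) ∧
    Van μ C (e * x.S - x.S * star e - (x.d * Y - Y * star x.d))
  coarse : ∃ k, (∀ t s, k t s ≠ 0 → pos μ s ∈ closedBall (0 : Fin n → ℝ) 1 ∧
        dist (pos μ t) (pos μ s) < D.c + ε) ∧
      (∀ t s, k t s ≠ 0 → dimZ t = dimZ s + 1) ∧
      Van μ (closedBall 0 (1 / 2)) (e - (if τ = 1 then 1 else 0) - (x.d * k + k * x.d))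


end Crest.Agent.R217.Chain373
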