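import Crest.Agent.R217.LocF_555
import Crest.Agent.R217.Frame_52
import Crest.Agent.R217.Obj_52
import Crest.Agent.R217.Sig_52
import Crest.Agent.R217.Asym_476

-- ▼ part R217/TwistAlg_555
section

/-!
Row 217 (S0336), part C1, helper555: the gauge algebra.

`twAlg 𝒢 hg q` is the star subalgebra of `ℤ → R` of `q`-periodic families `a` such that over each
chart `g ∈ 𝒢` one has `a (i+1) = u a(i) u*`.  Evaluation `ev i` is a star homomorphism; a family of
objects over `R` is one object over `twAlg`, hence all words in it are again in `twAlg`.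
`twAlg_const`: twist locality in this language.
-/

set_option autoImplicit false
set_option linter.unusedSectionVars false
set_option linter.unusedVariables false

namespace Crest.Agent.R217.LocF555

open Matrix Frame52

section twalg

variable {R : Type*} [Ring R] [StarRing R] [Algebra ℂ R] [StarModule ℂ R]

theorem HomF.star {g : Gauge R} (hg : IsGauge g) {a : ℤ → R} (ha : HomF g a) :
    HomF g (fun i => star (a i)) := by
  intro i k
  have := congrArg Star.star (HomF.right hg ha i k)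
  rw [star_mul, star_mul, star_mul, star_mul, star_star, hg.sP] at this
  rw [this]
  simp only [mul_assoc]


/-- the gauge algebra -/
def twAlg (𝒢 : Set (Gauge R)) (hg : ∀ g ∈ 𝒢, IsGauge g) (q : ℕ) : StarSubalgebra ℂ (ℤ → R) where
  carrier := {a | (∀ g ∈ 𝒢, HomF g a) ∧ ∀ i, a (i + q) = a i}
  mul_mem' := by
    rintro a b ⟨ha, ha'⟩ ⟨hb, hb'⟩
    refine ⟨fun g h => HomF.mul (hg g h) (ha g h) (hb g h), fun i => ?_⟩
    simp only [Pi.mul_apply, ha', hb']
  add_mem' := by
    rintro a b ⟨ha, ha'⟩ ⟨hb, hb'⟩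
    refine ⟨fun g h => (ha g h).add (hb g h), fun i => ?_⟩
    simp only [Pi.add_apply, ha', hb']
  algebraMap_mem' := by
    intro r
    refine ⟨fun g h => HomF.const (hg g h) ?_, fun i => rfl⟩
    exact (Algebra.commutes r g.u).symm
  star_mem' := by
    rintro a ⟨ha, ha'⟩
    refine ⟨fun g h => HomF.star (hg g h) (ha g h), fun i => ?_⟩
    simp only [Pi.star_apply, ha']

variable {𝒢 : Set (Gauge R)} {hg : ∀ g ∈ 𝒢, IsGauge g} {q : ℕ}

/-- evaluation -/
def ev (i : ℤ) (a : twAlg 𝒢 hg q) : R := (a : ℤ → R) i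

theorem ev_shom (i : ℤ) : SHom (ev (𝒢 := 𝒢) (hg := hg) (q := q) i) where
  add _ _ := rfl
  mul _ _ := rfl
  smul _ _ := rfl
  star _ := rfl

theorem ev_one (i : ℤ) : ev i (1 : twAlg 𝒢 hg q) = 1 := rfl

theorem ev_zero (i : ℤ) : ev i (0 : twAlg 𝒢 hg q) = 0 := rfl

theorem tw_ext {a b : twAlg 𝒢 hg q} (h : ∀ i, ev i a = ev i b) : a = b :=
  Subtype.ext (funext h)

/-- constant families -/
def kst (c : R) (hc : ∀ g ∈ 𝒢, g.u * c = c * g.u) : twAlg 𝒢 hg q :=
  ⟨fun _ => c, fun g h => HomF.const (hg g h) (hc g h), fun _ => rfl⟩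


theorem ev_per (i : ℤ) (a : twAlg 𝒢 hg q) : ev (i + q) a = ev i a := a.2.2 i

theorem ev_homF (a : twAlg 𝒢 hg q) {g : Gauge R} (h : g ∈ 𝒢) : HomF g (fun i => ev i a) :=
  a.2.1 g h

/-- family to element -/
def mkTw (a : ℤ → R) (h1 : ∀ g ∈ 𝒢, HomF g a) (h2 : ∀ i, a (i + q) = a i) : twAlg 𝒢 hg q :=
  ⟨a, h1, h2⟩



/-- the frame of the gauge algebra, in the sense of `Obj52` -/
def twF {κ : Type*} (F : Obj52.Frame κ R) (𝒢 : Set (Gauge R)) (hg : ∀ g ∈ 𝒢, IsGauge g) (q : ℕ)
    (hu : ∀ g ∈ 𝒢, ∀ k c, g.u * F.pu k c = F.pu k c * g.u) : Obj52.Frame κ (twAlg 𝒢 hg q) where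
  pu := fun k c => kst (F.pu k c) (fun g h => hu g h k c)
  pu_star := fun k c => tw_ext (fun i => F.pu_star k c)
  pu_mul := fun k s t h => tw_ext (fun i => F.pu_mul k s t h)
  pu_comm := fun k l s t => tw_ext (fun i => F.pu_comm k l s t)
  loc := fun k s t h a => tw_ext (fun i => F.loc k s t h (ev i a))
  lo := F.lo
  hi := F.hi
  lt := F.lt



end twalg

section twconst

variable {R : Type*} [Ring R] [StarRing R] [Algebra ℂ R] [StarModule ℂ R]
  {G : Type*} [AddCommGroup G] {𝒢 : Set (Gauge R)}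
  {ι : Type} [Fintype ι] [DecidableEq ι]

/-- **Twist locality** in terms of the gauge algebra. -/
theorem twAlg_const (L : SgLaws R G) (hA : Amb 𝒢) (gs : List (Gauge R)) (hgs : ∀ g ∈ gs, g ∈ 𝒢)
    {q : ℕ} (hq : q ≠ 0) (e0 : Matrix ι ι R) {e Q S : Matrix ι ι (twAlg 𝒢 hA.gg q)}
    (he : ∀ i, e.map (ev i) = e0) (ok : L.ok e0)
    (eu : ∀ g ∈ 𝒢, ∀ a b, g.u * e0 a b = e0 a b * g.u)
    (eP : ∀ g ∈ 𝒢, ∀ a b, g.P 0 * e0 a b = e0 a b * g.P 0)
    (ee : e * e = e) (es : star e = e) (eQ : e * Q = Q) (Qe : Q * e = Q) (eS : e * S = S)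
    (Se : S * e = S) (QS : Q * S = e) (SQ : S * Q = e) (Qs : star Q = Q) (Ss : star S = S)
    (hc : ∀ a b, e0 a b * (gs.map (fun g => 1 - g.P 0)).prod = 0) (i : ℤ) :
    L.sg (Q.map (ev (i + 1))) = L.sg (Q.map (ev i)) := by
  have hm : ∀ (i : ℤ) (A B : Matrix ι ι (twAlg 𝒢 hA.gg q)),
      (A * B).map (ev i) = A.map (ev i) * B.map (ev i) :=
    fun i => (ev_shom i).mapM.mul
  have hs : ∀ (i : ℤ) (A : Matrix ι ι (twAlg 𝒢 hA.gg q)),
      (star A).map (ev i) = star (A.map (ev i)) :=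
    fun i => (ev_shom i).mapM.star
  have hG : Good L 𝒢 e0 (fun i => Q.map (ev i)) (fun i => S.map (ev i)) :=
    { ok := ok
      ee := by rw [← he 0, ← hm, ee]
      es := by rw [← Matrix.star_eq_conjTranspose, ← he 0, ← hs, es]
      eu := eu
      eP := eP
      eQ := fun i => by rw [← he i, ← hm, eQ]
      Qe := fun i => by rw [← he i, ← hm, Qe]
      eS := fun i => by rw [← he i, ← hm, eS]
      Se := fun i => by rw [← he i, ← hm, Se]
      QS := fun i => by rw [← he i, ← hm, QS]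
      SQ := fun i => by rw [← he i, ← hm, SQ]
      Qs := fun i => by rw [← Matrix.star_eq_conjTranspose, ← hs, Qs]
      Ss := fun i => by rw [← Matrix.star_eq_conjTranspose, ← hs, Ss]
      homQ := fun g hg a b => ev_homF (Q a b) hg
      homS := fun g hg a b => ev_homF (S a b) hg }
  refine twist_const hA gs hgs hG hc q hq ?_ i
  intro i
  ext a b
  exact ev_per i (Q a b)

end twconst

end Crest.Agent.R217.LocF555
end

-- ▼ part R217/FineTwist_555
section

/-!
Row 217 (S0336), part C1, helper555: abstract part of the twist at `y₁`.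
-/

set_option autoImplicit false
set_option linter.unusedSectionVars false
set_option linter.unusedVariables false

namespace Crest.Agent.R217.FineTwist555

open Matrix PC473 Obj52 LocF555 TForm555
open Frame52 (SHom)

section cm

variable {κ : Type*} {R : Type*} [Ring R] [StarRing R] [Algebra ℂ R] [StarModule ℂ R]
variable {J : Type*} [Fintype J] [DecidableEq J]

/-- all entries commute with `c` -/
def Cm {I : Type*} (c : R) (M : Matrix I I R) : Prop := ∀ a b, c * M a b = M a b * c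

theorem Cm.mul {c : R} {M N : Matrix J J R} (hM : Cm c M) (hN : Cm c N) : Cm c (M * N) := by
  intro a b
  rw [Matrix.mul_apply, Finset.mul_sum, Finset.sum_mul]
  refine Finset.sum_congr rfl fun x _ => ?_
  rw [← mul_assoc, hM, mul_assoc, hN, mul_assoc]

theorem Cm.one (c : R) : Cm c (1 : Matrix J J R) := by
  intro a b
  rw [Matrix.one_apply]
  split_ifs <;> simp

theorem Cm.sub {c : R} {M N : Matrix J J R} (hM : Cm c M) (hN : Cm c N) : Cm c (M - N) := by
  intro a b
  rw [Matrix.sub_apply, mul_sub, sub_mul, hM, hN]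

theorem Cm.PU {c : R} (F : Frame κ R) (k : κ) (hc : ∀ s, c * F.pu k s = F.pu k s * c)
    (t : J → ℝ) : Cm c (PU F k t) := by
  intro a b
  unfold Obj52.PU
  rw [Matrix.diagonal_apply]
  split_ifs
  · rw [hc]
  · simp

theorem Cm.fl2 {c : R} {M N : Matrix J J R} (hM : Cm c M) (hN : Cm c N) :
    Cm c (fl !![M, 0; 0, N]) := by
  rintro ⟨i, a⟩ ⟨j, b⟩
  fin_cases i <;> fin_cases j <;> simp [fl, hM a b, hN a b]

theorem cm_cut {c : R} (F : Frame κ R) (hc : ∀ k s, c * F.pu k s = F.pu k s * c) (a : Par κ)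
    (m : ℕ) (deg : J → ℤ) (x : RPr (Matrix J J R)) (hx : Cm c x.p) : Cm c (cut F a m deg x).p := by
  have h1 : Cm c (dblT (m + 1) x).p := Cm.fl2 hx hx
  have h2 : Cm c (wallP F a.k a.c a.δ (degD (m + 1) deg) (dblT (m + 1) x).p) :=
    h1.mul ((Cm.one c).sub (Cm.PU F a.k (hc a.k) _))
  exact Cm.fl2 (h2.mul (Cm.PU F a.k (hc a.k) _)) (h2.mul (Cm.PU F a.k (hc a.k) _))

theorem cm_red {c : R} (F : Frame κ R) (hc : ∀ k s, c * F.pu k s = F.pu k s * c)
    (l : List (Par κ)) : ∀ X : Obj R, Cm c X.x.p → Cm c (red F l X).x.p := by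
  induction l with
  | nil => intro X hX; exact hX
  | cons a l ih =>
    intro X hX
    exact ih _ (cm_cut F hc a l.length X.deg X.x hX)

end cm

section fl

variable {R R' : Type*} [Ring R] [StarRing R] [Ring R'] [StarRing R']
variable {J : Type*} [Fintype J] [DecidableEq J]

theorem fl_mul' (M N : Matrix (Fin 2) (Fin 2) (Matrix J J R)) : fl (M * N) = fl M * fl N := by
  ext ⟨i, a⟩ ⟨j, b⟩
  simp only [fl, Matrix.mul_apply, Matrix.sum_apply, Fintype.sum_prod_type]

theorem fl_star' (M : Matrix (Fin 2) (Fin 2) (Matrix J J R)) : fl (star M) = star (fl M) := by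
  ext ⟨i, a⟩ ⟨j, b⟩
  rfl

theorem fl_map' (φ : R → R') (M : Matrix (Fin 2) (Fin 2) (Matrix J J R)) :
    (fl M).map φ = fl (M.map fun N => N.map φ) := rfl

end fl

section main

variable {R : Type*} [Ring R] [StarRing R] [Algebra ℂ R] [StarModule ℂ R]
  {G : Type*} [AddCommGroup G] {𝒢 : Set (Gauge R)}
  {J : Type} [Fintype J] [DecidableEq J]

/-- the total form, flattened -/
noncomputable def tf {R : Type*} [Ring R] [StarRing R] [Algebra ℂ R] (z : Tup (Matrix J J R)) :
    Matrix (Fin 2 × J) (Fin 2 × J) R := fl (tform z)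

/-- twist invariance for a Poincaré tuple over the gauge algebra with compact, covered `p` -/
theorem sg_tf_twist (L : SgLaws R G) (hA : Amb 𝒢) (gs : List (Gauge R)) (hgs : ∀ g ∈ gs, g ∈ 𝒢)
    {q : ℕ} (hq : q ≠ 0) {m : ℕ} (z : Tup (Matrix J J (twAlg 𝒢 hA.gg q))) (hz : z.IsPC m)
    (p0 : Matrix J J R) (hp : ∀ i, z.p.map (ev i) = p0)
    (hok : L.ok (fl (!![p0, 0; 0, p0])))
    (hu : ∀ g ∈ 𝒢, Cm g.u p0) (hP : ∀ g ∈ 𝒢, Cm (g.P 0) p0)
    (hc : ∀ a b, p0 a b * (gs.map (fun g => 1 - g.P 0)).prod = 0) (i : ℤ) :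
    L.sg (tf (z.map fun M => M.map (ev (i + 1)))) = L.sg (tf (z.map fun M => M.map (ev i))) := by
  have key : ∀ j : ℤ, tf (z.map fun M => M.map (ev j)) = (tf z).map (ev j) := by
    intro j
    unfold tf
    rw [fl_map', tform_smap ((ev_shom j).mapM)]
  rw [key, key]
  have hpc : ∀ i : ℤ, (fl (pc z)).map (ev i) = fl (!![p0, 0; 0, p0]) := by
    intro i
    rw [fl_map', pc, TForm555.map_fin2, hp]
    congr 1
  have hcm : ∀ c : R, Cm c p0 → Cm c (fl !![p0, 0; 0, p0]) := fun c hc => Cm.fl2 hc hc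
  refine twAlg_const (e := fl (pc z)) (S := fl (tinv z)) L hA gs hgs hq (fl !![p0, 0; 0, p0])
    hpc hok (fun g hg a b => hcm _ (hu g hg) a b) (fun g hg a b => hcm _ (hP g hg) a b)
    ?_ ?_ ?_ ?_ ?_ ?_ ?_ ?_ ?_ ?_ ?_ i
  · rw [← fl_mul', pc_pc hz]
  · exact (fl_star' _).symm.trans (congrArg fl (TForm555.star_pc hz))
  · rw [tf, ← fl_mul', pc_tform hz]
  · rw [tf, ← fl_mul', tform_pc hz]
  · rw [← fl_mul', pc_tinv hz]
  · rw [← fl_mul', tinv_pc hz]
  · rw [tf, ← fl_mul', tform_tinv hz]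
  · rw [tf, ← fl_mul', tinv_tform hz]
  · exact (fl_star' _).symm.trans (congrArg fl (star_tform hz))
  · exact (fl_star' _).symm.trans (congrArg fl (star_tinv hz))
  · rintro ⟨i, a⟩ ⟨j, b⟩
    fin_cases i <;> fin_cases j <;> simp [fl, hc a b]

end main

section red

variable {κ : Type*} {R : Type*} [Ring R] [StarRing R] [Algebra ℂ R] [StarModule ℂ R]
  {G : Type*} [AddCommGroup G] {𝒢 : Set (Gauge R)} {hg : ∀ g ∈ 𝒢, IsGauge g} {q : ℕ}

/-- evaluation as a bundled homomorphism -/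
def evH (hg : ∀ g ∈ 𝒢, IsGauge g) (q : ℕ) (i : ℤ) : twAlg 𝒢 hg q →⋆ₙₐ[ℂ] R where
  toFun := ev i
  map_smul' _ _ := rfl
  map_zero' := rfl
  map_add' _ _ := rfl
  map_mul' _ _ := rfl
  map_star' _ := rfl

@[simp] theorem evH_apply (i : ℤ) (a : twAlg 𝒢 hg q) : evH hg q i a = ev i a := rfl

/-- all entries are constant families -/
def Cst {I : Type*} (M : Matrix I I (twAlg 𝒢 hg q)) : Prop := ∀ i a b, ev i (M a b) = ev 0 (M a b)

theorem ev_sum' (i : ℤ) {ι : Type*} (s : Finset ι) (f : ι → twAlg 𝒢 hg q) :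
    ev i (∑ x ∈ s, f x) = ∑ x ∈ s, ev i (f x) := map_sum (evH hg q i) f s

theorem Cst.mul {J : Type*} [Fintype J] {M N : Matrix J J (twAlg 𝒢 hg q)} (hM : Cst M)
    (hN : Cst N) : Cst (M * N) := by
  intro i a b
  rw [Matrix.mul_apply, ev_sum', ev_sum']
  refine Finset.sum_congr rfl fun x _ => ?_
  rw [(ev_shom i).mul, (ev_shom 0).mul, hM, hN]

theorem Cst.one {J : Type*} [DecidableEq J] : Cst (1 : Matrix J J (twAlg 𝒢 hg q)) := by
  intro i a b
  rw [Matrix.one_apply]
  split_ifs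
  · rfl
  · rfl

theorem Cst.sub {J : Type*} {M N : Matrix J J (twAlg 𝒢 hg q)} (hM : Cst M)
    (hN : Cst N) : Cst (M - N) := by
  intro i a b
  rw [Matrix.sub_apply, (ev_shom i).sub, (ev_shom 0).sub, hM, hN]

theorem Cst.fl2 {J : Type*} [Fintype J] [DecidableEq J] {M N : Matrix J J (twAlg 𝒢 hg q)}
    (hM : Cst M) (hN : Cst N) : Cst (fl !![M, 0; 0, N]) := by
  rintro i ⟨x, a⟩ ⟨y, b⟩
  fin_cases x <;> fin_cases y
  · exact hM i a b
  · rfl
  · rfl
  · exact hN i a b

variable (F : Frame κ R) (hu : ∀ g ∈ 𝒢, ∀ k c, g.u * F.pu k c = F.pu k c * g.u)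

theorem Cst.PU {J : Type*} [DecidableEq J] (k : κ) (t : J → ℝ) :
    Cst (PU (twF F 𝒢 hg q hu) k t) := by
  intro i a b
  unfold Obj52.PU
  rw [Matrix.diagonal_apply]
  split_ifs
  · rfl
  · rfl

theorem cst_cut {J : Type*} [Fintype J] [DecidableEq J] (a : Par κ)
    (m : ℕ) (deg : J → ℤ) (x : RPr (Matrix J J (twAlg 𝒢 hg q))) (hx : Cst x.p) :
    Cst (cut (twF F 𝒢 hg q hu) a m deg x).p := by
  have h1 : Cst (dblT (m + 1) x).p := Cst.fl2 hx hx
  have h2 : Cst (wallP (twF F 𝒢 hg q hu) a.k a.c a.δ (degD (m + 1) deg) (dblT (m + 1) x).p) :=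
    h1.mul (Cst.one.sub (Cst.PU F hu a.k _))
  exact Cst.fl2 (h2.mul (Cst.PU F hu a.k _)) (h2.mul (Cst.PU F hu a.k _))

theorem cst_red (l : List (Par κ)) : ∀ X : Obj (twAlg 𝒢 hg q), Cst X.x.p →
    Cst (red (twF F 𝒢 hg q hu) l X).x.p := by
  induction l with
  | nil => intro X hX; exact hX
  | cons a l ih =>
    intro X hX
    exact ih _ (cst_cut F hu a l.length X.deg X.x hX)

/-- supported in the box, commuting with the control projections -/
def BxBd (a : R) : Prop :=
  (∀ k c, a * F.pu k c = F.pu k c * a) ∧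
  ∀ k, (∃ s, F.lo k < s ∧ F.pu k s * a = 0) ∧ (∃ t, t < F.hi k ∧ F.pu k t * a = a)

/-- the signature of an object of dimension `l.length` along the canonical cuts `l` -/
noncomputable def sgO (L : SgLaws R G) (F : Frame κ R) (l : List (Par κ)) (X : Obj R) : G :=
  L.sg (tf (dblT 0 (red F l X).x))

/-- **Twist invariance** at the level of objects. -/
theorem sgO_twist (L : SgLaws R G) (hA : Amb 𝒢) (gs : List (Gauge R)) (hgs : ∀ g ∈ gs, g ∈ 𝒢)
    (hq : q ≠ 0) (hP : ∀ g ∈ 𝒢, ∀ k c, g.P 0 * F.pu k c = F.pu k c * g.P 0)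
    (hok : ∀ {ι : Type} [Fintype ι] [DecidableEq ι] (e : Matrix ι ι R), (∀ k, BdLo F k e) →
      (∀ k, BdHi F k e) → L.ok e)
    (hcov : ∀ a, BxBd F a → a * (gs.map (fun g => 1 - g.P 0)).prod = 0)
    (l : List (Par κ)) (X : Obj (twAlg 𝒢 hA.gg q)) (hX : Cst X.x.p)
    (hXu : ∀ g ∈ 𝒢, Cm g.u (X.x.p.map (ev 0))) (hXP : ∀ g ∈ 𝒢, Cm (g.P 0) (X.x.p.map (ev 0)))
    (hred : IsOb (twF F 𝒢 hA.gg q hu) 0 Set.univ (red (twF F 𝒢 hA.gg q hu) l X).deg
      (red (twF F 𝒢 hA.gg q hu) l X).x) (i : ℤ) :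
    sgO L F l (Nat52.mapO (evH hA.gg q (i + 1)) X) = sgO L F l (Nat52.mapO (evH hA.gg q i) X) := by
  have hpu : ∀ (i : ℤ) (k : κ) (c : ℝ),
      evH hA.gg q i ((twF F 𝒢 hA.gg q hu).pu k c) = F.pu k c := fun _ _ _ => rfl
  have hnat : ∀ i : ℤ, red F l (Nat52.mapO (evH hA.gg q i) X)
      = Nat52.mapO (evH hA.gg q i) (red (twF F 𝒢 hA.gg q hu) l X) :=
    fun i => Nat52.red_map (hpu i) l X
  have hcst := cst_red F hu l X hX
  have hcm : ∀ c : R, (∀ k s, c * F.pu k s = F.pu k s * c) → Cm c (X.x.p.map (ev 0)) →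
      Cm c ((red (twF F 𝒢 hA.gg q hu) l X).x.p.map (ev 0)) := by
    intro c hc h
    have h1 := cm_red F hc l (Nat52.mapO (evH hA.gg q 0) X) h
    rw [hnat] at h1
    exact h1
  unfold sgO
  rw [hnat, hnat]
  generalize red (twF F 𝒢 hA.gg q hu) l X = Y at hred hcst hcm
  obtain ⟨J, ft, de, deg, y⟩ := Y
  simp only at hred hcst hcm
  have hz : (dblT 0 y).IsPC 0 := (dbl_isPC hred.rp).mapN Nat52.flH
  have hd : ∀ i : ℤ, dblT 0 (y.map (Nat52.mapH J (evH hA.gg q i)))
      = (dblT 0 y).map (Nat52.mapH (Fin 2 × J) (evH hA.gg q i)) :=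
    fun i => Nat52.Compat.dblT (Nat52.compat_map (evH hA.gg q i)) 0 y
  show L.sg (tf (dblT 0 (y.map (Nat52.mapH J (evH hA.gg q (i + 1))))))
    = L.sg (tf (dblT 0 (y.map (Nat52.mapH J (evH hA.gg q i)))))
  rw [hd, hd]
  obtain ⟨e, he, hec⟩ := hred.pd
  have hbx : ∀ j, BxBd F (ev 0 (e j)) := by
    intro j
    refine ⟨fun k c => ?_, fun k => ?_⟩
    · have := congrArg (ev 0) (hec j k c)
      rw [(ev_shom 0).mul, (ev_shom 0).mul] at this
      exact this
    constructor
    · obtain ⟨s, hs, h⟩ := hred.lo k (Set.mem_univ k)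
      refine ⟨s, hs, ?_⟩
      rw [he, PU, diagonal_mul_diagonal] at h
      have := congrArg (ev 0) (congrFun (congrFun h j) j)
      rw [diagonal_apply_eq, (ev_shom 0).mul] at this
      exact this
    · obtain ⟨t, ht, h⟩ := hred.hi k (Set.mem_univ k)
      refine ⟨t, ht, ?_⟩
      rw [he, PU, diagonal_mul_diagonal] at h
      have := congrArg (ev 0) (congrFun (congrFun h j) j)
      rw [diagonal_apply_eq, diagonal_apply_eq, (ev_shom 0).mul] at this
      exact this
  have hp0 : ((dblT 0 y).p).map (ev 0) = diagonal (fun a : Fin 2 × J => ev 0 (e a.2)) := by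
    have : (dblT 0 y).p = fl !![y.p, 0; 0, y.p] := rfl
    rw [this, he, Nat52.fl_diag]
    ext a b
    rw [Matrix.map_apply, diagonal_apply, diagonal_apply]
    split_ifs
    · rfl
    · rfl
    · rfl
  have hcz : Cst (dblT 0 y).p := Cst.fl2 hcst hcst
  have hp1 : ((dblT 0 y).p).map (ev 0) = fl !![y.p.map (ev 0), 0; 0, y.p.map (ev 0)] := by
    show (fl !![y.p, 0; 0, y.p]).map (ev 0) = _
    rw [fl_map', TForm555.map_fin2]
    rfl
  refine sg_tf_twist L hA gs hgs hq (dblT 0 y) hz (((dblT 0 y).p).map (ev 0)) ?_ ?_ ?_ ?_ ?_ i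
  · intro i; ext a b; exact hcz i a b
  · rw [hp1]
    have hlo : ∀ k, BdLo F k (y.p.map (ev 0)) := by
      intro k
      obtain ⟨s, hs, h⟩ := hred.lo k (Set.mem_univ k)
      refine ⟨s, hs, ?_⟩
      have h2 : PU F k (fun _ : J => s) = (PU (twF F 𝒢 hA.gg q hu) k (fun _ : J => s)).map (ev 0) := by
        ext a b
        rw [Matrix.map_apply, PU, PU, diagonal_apply, diagonal_apply]
        split_ifs <;> rfl
      rw [h2, ← (ev_shom (𝒢 := 𝒢) (hg := hA.gg) (q := q) 0).mapM.mul, h]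
      exact (ev_shom (𝒢 := 𝒢) (hg := hA.gg) (q := q) 0).mapM.zero
    have hhi : ∀ k, BdHi F k (y.p.map (ev 0)) := by
      intro k
      obtain ⟨s, hs, h⟩ := hred.hi k (Set.mem_univ k)
      refine ⟨s, hs, ?_⟩
      have h2 : PU F k (fun _ : J => s) = (PU (twF F 𝒢 hA.gg q hu) k (fun _ : J => s)).map (ev 0) := by
        ext a b
        rw [Matrix.map_apply, PU, PU, diagonal_apply, diagonal_apply]
        split_ifs <;> rfl
      rw [h2, ← (ev_shom (𝒢 := 𝒢) (hg := hA.gg) (q := q) 0).mapM.mul, h]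
    exact hok _ (fun k => ((hlo k).fl2c).fl2c) (fun k => ((hhi k).fl2c).fl2c)
  · intro g hg
    rw [hp1]
    exact Cm.fl2 (hcm _ (hu g hg) (hXu g hg)) (hcm _ (hu g hg) (hXu g hg))
  · intro g hg
    rw [hp1]
    exact Cm.fl2 (hcm _ (hP g hg) (hXP g hg)) (hcm _ (hP g hg) (hXP g hg))
  · intro a b
    rw [hp0, diagonal_apply]
    split_ifs
    · exact hcov _ (hbx _)
    · rw [zero_mul]

theorem sgO_eq_sig (L : SgLaws R G) (F : Frame κ R) (l : List (Par κ)) (X : Obj R) :
    sgO L F l X = Sig52.sig F L l X := rfl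

end red

end Crest.Agent.R217.FineTwist555
end

-- ▼ part R217/GaugeAsy_555

/-!
Row 217 (S0336), part C1, helper555: gauges in the asymptotic algebra.
-/

set_option autoImplicit false
set_option linter.unusedSectionVars false
set_option linter.unusedVariables false

open Filter Topology

namespace Crest.Agent.R217.GaugeAsy555

open Asym476 LocF555

variable {A : Type} {B : A → Type} [∀ a, Fintype (B a)] [∀ a, DecidableEq (B a)]
variable (C : Ctl B)

/-- data of a gauge chart: a control function, a threshold and unimodular phases -/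
structure GD where
  φ : C.Φ
  c : ℝ
  ω : ∀ a, B a → ℂ
  c_pos : 0 < c
  unit : ∀ a s, star (ω a s) * ω a s = 1

variable {C}

/-- the thresholds -/
noncomputable def lev (c : ℝ) (k : ℕ) : ℝ := c * (1 / 2 + 1 / (k + 2))

theorem lev_zero (c : ℝ) : lev c 0 = c := by unfold lev; norm_num

theorem lev_lt {c : ℝ} (hc : 0 < c) (k : ℕ) : lev c (k + 1) < lev c k := by
  unfold lev
  apply mul_lt_mul_of_pos_left _ hc
  have : (1 : ℝ) / ((k + 1 : ℕ) + 2) < 1 / (k + 2) := by
    apply one_div_lt_one_div_of_lt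
    · positivity
    · push_cast; linarith
  linarith

theorem half_lt_lev {c : ℝ} (hc : 0 < c) (k : ℕ) : c / 2 < lev c k := by
  unfold lev
  have : (0 : ℝ) < 1 / (k + 2) := by positivity
  nlinarith

/-- the gauge of a chart -/
noncomputable def gau (g : GD C) : Gauge (Asy C ℂ) where
  P k := ind (fun a s => lev g.c k ≤ C.u g.φ a s)
  u := dg C ℂ g.ω

theorem pow_unit {z : ℂ} (hz : star z * z = 1) (n : ℕ) : star (z ^ n) * z ^ n = 1 := by
  rw [star_pow, ← mul_pow, hz, one_pow]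

theorem un_star_mul (g : GD C) : star (gau g).u * (gau g).u = 1 := by
  show star (dg C ℂ g.ω) * dg C ℂ g.ω = 1
  rw [← map_star, ← map_mul, ← map_one (dg C ℂ)]
  congr 1
  funext a s
  exact g.unit a s

theorem un_mul_star (g : GD C) : (gau g).u * star (gau g).u = 1 := by
  show dg C ℂ g.ω * star (dg C ℂ g.ω) = 1
  rw [← map_star, ← map_mul, ← map_one (dg C ℂ)]
  congr 1
  funext a s
  show g.ω a s * star (g.ω a s) = 1
  rw [mul_comm]
  exact g.unit a s

theorem gau_isGauge (g : GD C) : IsGauge (gau g) where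
  sP k := ind_star _
  PP := ind_mul_self _
  loc k a := by
    have h : (gau g).P k * a * (1 - (gau g).P (k + 1)) = 0 := by
      show ind _ * a * (1 - ind _) = 0
      rw [one_sub_ind]
      refine ind_mul_mul_ind_eq_zero g.φ (fun r hr => ⟨lev g.c k - lev g.c (k + 1),
        sub_pos.2 (lev_lt g.c_pos k), Eventually.of_forall fun a s t _ _ h1 h2 => ?_⟩) a
      have h3 := not_le.1 h2
      exact le_trans (by linarith) (le_abs_self _)
    rw [mul_sub, mul_one, sub_eq_zero] at h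
    exact h
  uu := un_mul_star g
  uu' := un_star_mul g
  uP k := dg_comm _ _

/-- a family of gauge charts is compatible -/
theorem gau_amb (S : Set (GD C)) : Amb (gau '' S) where
  gg := by
    rintro _ ⟨g, hg, rfl⟩
    exact gau_isGauge g
  uu := by
    rintro _ ⟨g, hg, rfl⟩ _ ⟨g', hg', rfl⟩
    exact dg_comm _ _
  uP := by
    rintro _ ⟨g, hg, rfl⟩ _ ⟨g', hg', rfl⟩ k
    exact dg_comm _ _
  PP := by
    rintro _ ⟨g, hg, rfl⟩ _ ⟨g', hg', rfl⟩
    exact dg_comm _ _

theorem gau_u_ind (g : GD C) (E : ∀ a, B a → Prop) :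
    (gau g).u * ind E = ind E * (gau g).u := dg_comm _ _

theorem gau_P_ind (g : GD C) (k : ℕ) (E : ∀ a, B a → Prop) :
    (gau g).P k * ind E = ind E * (gau g).P k := dg_comm _ _

/-- criterion for `HomF` -/
theorem homF_gau (g : GD C) (M : ℤ → Loc C ℂ)
    (h : ∀ i, ∀ r < (1 : ℝ), ∀ᶠ a in C.l, ∀ s t, C.u C.o a s ≤ r → C.u C.o a t ≤ r →
      g.c / 2 < C.u g.φ a s → g.c / 2 < C.u g.φ a t →
      (M (i + 1)).1 a s t = g.ω a s * (M i).1 a s t * star (g.ω a t)) :
    HomF (gau g) (fun i => cls C ℂ (M i)) := by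
  classical
  intro i k
  have hc := g.c_pos
  have hP : (gau g).P k = cls C ℂ (dgLoc C ℂ (fun a s => if lev g.c k ≤ C.u g.φ a s then 1 else 0)) :=
    rfl
  have hu : (gau g).u = cls C ℂ (dgLoc C ℂ g.ω) := rfl
  rw [hP, hu, ← map_star, ← map_mul, ← map_mul, ← map_mul, ← map_mul, cls_eq]
  refine Rel.of_and (Subtype.property _) (Subtype.property _) fun r hr => ?_
  have hd : 0 < lev g.c k - g.c / 2 := sub_pos.2 (half_lt_lev hc k)
  filter_upwards [h i r hr, (M (i + 1)).2 g.φ r hr _ hd, (M i).2 g.φ r hr _ hd]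
    with a h1 h2 h3 s t hs ht
  show (Matrix.diagonal (fun s => if lev g.c k ≤ C.u g.φ a s then (1 : ℂ) else 0)
      * (M (i + 1)).1 a) s t
    = (Matrix.diagonal (fun s => if lev g.c k ≤ C.u g.φ a s then (1 : ℂ) else 0) *
      (Matrix.diagonal (g.ω a) * (M i).1 a
        * (Matrix.diagonal (g.ω a)).conjTranspose)) s t
  rw [Matrix.diagonal_conjTranspose, Matrix.diagonal_mul,
    Matrix.diagonal_mul, Matrix.mul_diagonal, Matrix.diagonal_mul]
  simp only [Pi.star_apply]
  by_cases hP : lev g.c k ≤ C.u g.φ a s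
  · have hs' : g.c / 2 < C.u g.φ a s := lt_of_lt_of_le (half_lt_lev hc k) hP
    by_cases ht' : g.c / 2 < C.u g.φ a t
    · rw [h1 s t hs ht hs' ht']
    · have e1 : (M (i + 1)).1 a s t = 0 := by
        by_contra h0
        have := (abs_lt.1 (h2 s t (Or.inl hs) h0)).2
        linarith [not_lt.1 ht']
      have e2 : (M i).1 a s t = 0 := by
        by_contra h0
        have := (abs_lt.1 (h3 s t (Or.inl hs) h0)).2
        linarith [not_lt.1 ht']
      rw [e1, e2]; simp
  · simp [hP]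

/-- the product of the complementary projections -/
theorem prod_gau (l : List (GD C)) :
    ((l.map gau).map (fun g => 1 - g.P 0)).prod
      = ind (fun a s => ∀ g ∈ l, C.u g.φ a s < g.c) := by
  induction l with
  | nil =>
    have : (ind (fun a s => ∀ g ∈ ([] : List (GD C)), C.u g.φ a s < g.c) : Asy C ℂ) = 1 := by
      classical
      unfold ind
      rw [← map_one (dg C ℂ)]
      congr 1
      funext a s
      simp
    rw [this]; simp
  | cons g l ih =>
    rw [List.map_cons, List.map_cons, List.prod_cons, ih]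
    show (1 - ind (fun a s => lev g.c 0 ≤ C.u g.φ a s)) * _ = _
    rw [one_sub_ind, ind_mul]
    refine ind_congr fun r hr => Eventually.of_forall fun a s _ => ?_
    rw [lev_zero, not_le]
    simp

/-- if `a` is supported in the box (left), then it is cut down by the indicator of the box -/
theorem box_mul {κ : Type} [Finite κ] (φ : κ → C.Φ) (x : Asy C ℂ) (s t : κ → ℝ)
    (hs : ∀ k, pu C ℂ (φ k) (s k) * x = 0) (ht : ∀ k, pu C ℂ (φ k) (t k) * x = x) :
    ind (fun a b => ∀ k, s k < C.u (φ k) a b ∧ C.u (φ k) a b ≤ t k) * x = x := by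
  classical
  have := Fintype.ofFinite κ
  have key : ∀ S : Finset κ, ind (fun a b => ∀ k ∈ S, s k < C.u (φ k) a b ∧ C.u (φ k) a b ≤ t k)
      * x = x := by
    intro S
    induction S using Finset.induction_on with
    | empty =>
      have : (ind (fun a b => ∀ k ∈ (∅ : Finset κ), s k < C.u (φ k) a b ∧ C.u (φ k) a b ≤ t k)
          : Asy C ℂ) = 1 := by
        unfold ind
        rw [← map_one (dg C ℂ)]
        congr 1
        funext a s
        simp
      rw [this, one_mul]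
    | insert k0 S hk ih =>
      have e : (ind (fun a b => ∀ k ∈ insert k0 S, s k < C.u (φ k) a b ∧ C.u (φ k) a b ≤ t k)
          : Asy C ℂ) = (1 - pu C ℂ (φ k0) (s k0)) * (pu C ℂ (φ k0) (t k0) *
            ind (fun a b => ∀ k ∈ S, s k < C.u (φ k) a b ∧ C.u (φ k) a b ≤ t k)) := by
        unfold pu
        rw [one_sub_ind, ind_mul, ind_mul]
        refine ind_congr fun r hr => Eventually.of_forall fun a b _ => ?_
        simp only [Finset.mem_insert, forall_eq_or_imp, not_le]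
        tauto
      rw [e, mul_assoc, mul_assoc, ih, ht k0, sub_mul, one_mul, hs k0, sub_zero]
  have h := key Finset.univ
  simpa using h

/-- covering criterion -/
theorem cover {κ : Type} [Finite κ] (φ : κ → C.Φ) (l : List (GD C))
    (x : Asy C ℂ) (s t : κ → ℝ) (hx : ∀ k c, x * pu C ℂ (φ k) c = pu C ℂ (φ k) c * x)
    (hs : ∀ k, pu C ℂ (φ k) (s k) * x = 0) (ht : ∀ k, pu C ℂ (φ k) (t k) * x = x)
    (hcov : ∀ r < (1 : ℝ), ∀ᶠ a in C.l, ∀ b, C.u C.o a b ≤ r →
      (∀ k, s k < C.u (φ k) a b ∧ C.u (φ k) a b ≤ t k) → ∃ g ∈ l, g.c ≤ C.u g.φ a b) :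
    x * ((l.map gau).map (fun g => 1 - g.P 0)).prod = 0 := by
  have h1 : x * ind (fun a b => ∀ k, s k < C.u (φ k) a b ∧ C.u (φ k) a b ≤ t k) = x := by
    have hs' : ∀ k, pu C ℂ (φ k) (s k) * star x = 0 := by
      intro k
      have := congrArg star (hs k)
      rw [star_mul, pu_star, star_zero] at this
      have h2 := congrArg star (hx k (s k))
      rw [star_mul, star_mul, pu_star] at h2
      rw [h2, this]
    have ht' : ∀ k, pu C ℂ (φ k) (t k) * star x = star x := by
      intro k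
      have := congrArg star (ht k)
      rw [star_mul, pu_star] at this
      have h2 := congrArg star (hx k (t k))
      rw [star_mul, star_mul, pu_star] at h2
      rw [h2, this]
    have := congrArg star (box_mul φ (star x) s t hs' ht')
    rw [star_mul, star_star, ind_star] at this
    exact this
  rw [← h1, mul_assoc, prod_gau, ind_mul]
  have : (ind (fun a b => (∀ k, s k < C.u (φ k) a b ∧ C.u (φ k) a b ≤ t k) ∧
      ∀ g ∈ l, C.u g.φ a b < g.c) : Asy C ℂ) = 0 := by
    have h0 : (0 : Asy C ℂ) = ind (fun a b => False) := by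
      classical
      unfold ind
      rw [← map_zero (dg C ℂ)]
      congr 1
      funext a b
      simp
    rw [h0]
    refine ind_congr fun r hr => ?_
    filter_upwards [hcov r hr] with a ha b hb
    refine ⟨fun h => ?_, fun h => h.elim⟩
    obtain ⟨g, hg, h3⟩ := ha b hb h.1
    exact absurd (h.2 g hg) (not_lt.2 h3)
  rw [this, mul_zero]

end Crest.Agent.R217.GaugeAsy555
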