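import Crest.Agent.R217.FinePkg_970
import Crest.Agent.R217.AsyCell_970
import Crest.Agent.R217.Avg_557
import Crest.Agent.R217.GaugeAsy_555
import Crest.Agent.R217.Ctl_559
import Crest.Agent.R217.Equi_970

-- ▼ part R217/FineObj_970
section

/-!
Row 217 (S0336), part C (helper970): the averaged homotopy action over the asymptotic algebra.

* `tw` calculus (`tw_mul`, `star_tw`, ...).
* `FineCtl P C` : control data compatible with a family of packages.
* `eL`, `hL`, `kL` : the twisted sums as local sequences.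
* `isMap_e`, `ho_ee`, `ho_eS` : 557's hypotheses; `exists_rp` : the regular pair.
-/

set_option autoImplicit false
set_option linter.unusedSectionVars false
set_option linter.unusedVariables false

open Filter Topology Metric Set Matrix

namespace Crest.Agent.R217.FinePkg970

open Crest.Agent.R217.Grid897 Crest.Agent.R217.PC473 Crest.Agent.R217.Flow373
open Crest.Agent.R217.Asym476 Crest.Agent.R217.AsyCell970

/-! ### the twisted sums -/

section tw

variable {q : ℕ} [NeZero q] {I : Type*} [Fintype I] [DecidableEq I] {ζ : ℂ}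

theorem zpow_val_add (hζ : ζ ^ q = 1) (i j : ZMod q) :
    ζ ^ (i + j).val = ζ ^ i.val * ζ ^ j.val := by
  rw [ZMod.val_add, ← pow_add]
  exact (pow_eq_pow_mod _ hζ).symm

theorem tw_add (X Y : ZMod q → Matrix I I ℂ) : tw ζ (fun i => X i + Y i) = tw ζ X + tw ζ Y := by
  simp only [tw, smul_add, Finset.sum_add_distrib]

theorem tw_sub (X Y : ZMod q → Matrix I I ℂ) : tw ζ (fun i => X i - Y i) = tw ζ X - tw ζ Y := by
  simp only [tw, smul_sub, Finset.sum_sub_distrib]

theorem tw_mul_left (d : Matrix I I ℂ) (X : ZMod q → Matrix I I ℂ) :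
    tw ζ (fun i => d * X i) = d * tw ζ X := by
  simp only [tw, Finset.mul_sum, Matrix.mul_smul]

theorem tw_mul_right (d : Matrix I I ℂ) (X : ZMod q → Matrix I I ℂ) :
    tw ζ (fun i => X i * d) = tw ζ X * d := by
  simp only [tw, Finset.sum_mul, Matrix.smul_mul]

theorem tw_mul (hζ : ζ ^ q = 1) (X Y : ZMod q → Matrix I I ℂ) :
    tw ζ X * tw ζ Y = tw ζ (fun r => ∑ i, X i * Y (r - i)) := by
  simp only [tw, Finset.sum_mul, Finset.mul_sum, Finset.smul_sum]
  conv_rhs => rw [Finset.sum_comm]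
  conv_lhs => rw [Finset.sum_comm]
  refine Finset.sum_congr rfl fun i _ => ?_
  rw [← Equiv.sum_comp (Equiv.addLeft i) (fun r => ζ ^ r.val • (X i * Y (r - i)))]
  refine Finset.sum_congr rfl fun j _ => ?_
  simp only [Equiv.coe_addLeft, add_sub_cancel_left]
  rw [zpow_val_add hζ, Matrix.smul_mul, Matrix.mul_smul, smul_smul]

theorem norm_one_of_pow (hζ : ζ ^ q = 1) : ‖ζ‖ = 1 := by
  have h1 : ‖ζ‖ ^ q = 1 := by rw [← norm_pow, hζ, norm_one]
  exact (pow_eq_one_iff_of_nonneg (norm_nonneg _) (NeZero.ne q)).1 h1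

theorem star_pow_val (hζ : ζ ^ q = 1) (i : ZMod q) : star (ζ ^ i.val) = ζ ^ (-i).val := by
  have h1 : ζ ^ i.val * ζ ^ (-i).val = 1 := by
    rw [← zpow_val_add hζ, add_neg_cancel, ZMod.val_zero, pow_zero]
  have h2 : star (ζ ^ i.val) * ζ ^ i.val = 1 := by
    rw [← starRingEnd_apply, Complex.conj_mul', norm_pow, norm_one_of_pow hζ]
    simp
  calc star (ζ ^ i.val) = star (ζ ^ i.val) * (ζ ^ i.val * ζ ^ (-i).val) := by rw [h1, mul_one]
    _ = ζ ^ (-i).val := by rw [← mul_assoc, h2, one_mul]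

theorem star_tw (hζ : ζ ^ q = 1) (X : ZMod q → Matrix I I ℂ) :
    star (tw ζ X) = tw ζ (fun i => star (X (-i))) := by
  unfold tw
  rw [star_sum, ← Equiv.sum_comp (Equiv.neg (ZMod q))]
  refine Finset.sum_congr rfl fun i _ => ?_
  rw [star_smul, star_pow_val hζ, Equiv.neg_apply, neg_neg]

theorem tw_congr {P : Set I} {X Y : ZMod q → Matrix I I ℂ} (h : ∀ i, EqOn P (X i) (Y i)) :
    EqOn P (tw ζ X) (tw ζ Y) := by
  unfold tw
  exact EqOn.sum _ fun i _ => (h i).smul _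

theorem tw_ne_zero {X : ZMod q → Matrix I I ℂ} {c' c : I} (h : tw ζ X c' c ≠ 0) :
    ∃ i, X i c' c ≠ 0 := by
  unfold tw at h
  rw [Matrix.sum_apply] at h
  obtain ⟨i, -, hi⟩ := Finset.exists_ne_zero_of_sum_ne_zero h
  refine ⟨i, fun h0 => hi ?_⟩
  rw [Matrix.smul_apply, h0, smul_zero]

/-- sum over the group of `q`-th roots of unity -/
theorem tw_const_one :
    tw (1 : ℂ) (fun _ : ZMod q => ((1 / q : ℝ) : ℂ) • (1 : Matrix I I ℂ)) = 1 := by
  unfold tw
  have hq : (q : ℂ) ≠ 0 := Nat.cast_ne_zero.2 (NeZero.ne q)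
  simp only [one_pow, one_smul, Finset.sum_const, Finset.card_univ, ZMod.card]
  rw [← Nat.cast_smul_eq_nsmul ℂ, smul_smul]
  push_cast
  rw [mul_one_div_cancel hq, one_smul]

theorem tw_const_ne (hζ : ζ ^ q = 1) (h1 : ζ ≠ 1) (M : Matrix I I ℂ) :
    tw ζ (fun _ : ZMod q => M) = 0 := by
  unfold tw
  rw [← Finset.sum_smul]
  have h2 : ∑ i : ZMod q, ζ ^ i.val = 0 := by
    have h3 : ζ * ∑ i : ZMod q, ζ ^ i.val = ∑ i : ZMod q, ζ ^ i.val := by
      rw [Finset.mul_sum]
      have h4 : ∀ i : ZMod q, ζ * ζ ^ i.val = ζ ^ (1 + i).val := by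
        intro i
        have h5 : ζ ^ (1 : ZMod q).val = ζ := by
          have : (1 : ZMod q) = ((1 : ℕ) : ZMod q) := by simp
          rw [this, ZMod.val_natCast, ← pow_eq_pow_mod _ hζ, pow_one]
        rw [zpow_val_add hζ, h5]
      simp only [h4]
      exact Equiv.sum_comp (Equiv.addLeft (1 : ZMod q)) (fun i : ZMod q => ζ ^ i.val)
    have h6 : (ζ - 1) * ∑ i : ZMod q, ζ ^ i.val = 0 := by rw [sub_mul, h3, one_mul, sub_self]
    rcases mul_eq_zero.1 h6 with h7 | h7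
    · exact absurd (sub_eq_zero.1 h7) h1
    · exact h7
  rw [h2, zero_smul]

end tw

/-! ### relations of the twisted sums -/

section pkg

variable {n : ℕ} {D : Flow n} {q : ℕ} [NeZero q] {K K1 : Set (Fin n → ℝ)} {Rw ε : ℝ}
  (P : FinePkg D q K K1 Rw ε) {ζ : ℂ} (hζ : ζ ^ q = 1)

theorem tw_rel_d : EqOn (cellsIn P.s (D.ovr K)) ((gridT P.N n).d * tw ζ P.E)
    (tw ζ P.E * (gridT P.N n).d) := by
  rw [← tw_mul_left, ← tw_mul_right]
  exact tw_congr P.rel_d

include hζ in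
theorem tw_rel_e : EqOn (cellsIn P.s (D.ovr K)) (tw ζ P.E * tw ζ P.E)
    (tw ζ P.E + (gridT P.N n).d * tw ζ P.Hh + tw ζ P.Hh * (gridT P.N n).d) := by
  rw [tw_mul hζ, ← tw_mul_left, ← tw_mul_right, ← tw_add, ← tw_add]
  exact tw_congr P.rel_e

include hζ in
theorem tw_rel_S : EqOn (cellsIn P.s (D.ovr K))
    (tw ζ P.E * (gridT P.N n).S - (gridT P.N n).S * star (tw ζ P.E))
    ((gridT P.N n).d * tw ζ P.Kk - tw ζ P.Kk * star (gridT P.N n).d) := by
  rw [star_tw hζ, ← tw_mul_left, ← tw_mul_right, ← tw_mul_left, ← tw_mul_right, ← tw_sub,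
    ← tw_sub]
  exact tw_congr P.rel_S

theorem tw_rel_A_one : EqOn (cellsIn P.s (closedBall 0 (1 / 2))) (tw 1 P.E - 1)
    ((gridT P.N n).d * tw 1 P.Aa + tw 1 P.Aa * (gridT P.N n).d) := by
  have h := tw_congr (ζ := 1) P.rel_A
  rw [tw_sub, tw_const_one, tw_add, tw_mul_left, tw_mul_right] at h
  exact h

include hζ in
theorem tw_rel_A_ne (h1 : ζ ≠ 1) : EqOn (cellsIn P.s (closedBall 0 (1 / 2))) (tw ζ P.E)
    ((gridT P.N n).d * tw ζ P.Aa + tw ζ P.Aa * (gridT P.N n).d) := by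
  have h := tw_congr (ζ := ζ) P.rel_A
  rw [tw_sub, tw_const_ne hζ h1, tw_add, tw_mul_left, tw_mul_right, sub_zero] at h
  exact h

end pkg

/-! ### local sequences -/

/-- position of a vertex -/
noncomputable def xv {n N : ℕ} [NeZero N] (s : ℝ) (v : VV n N) : Fin n → ℝ :=
  fun j => s * (((v j).valMinAbs : ℤ) : ℝ)


section obj

variable {n : ℕ} {A : Type} {D : A → Flow n} {q : A → ℕ} [∀ a, NeZero (q a)]
  {K K1 : A → Set (Fin n → ℝ)} {Rw ε : A → ℝ}
  {P : ∀ a, FinePkg (D a) (q a) (K a) (K1 a) (Rw a) (ε a)}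
  {C : Ctl (BV n fun a => (P a).N)}

/-- control data compatible with the packages -/
structure FineCtl (P : ∀ a, FinePkg (D a) (q a) (K a) (K1 a) (Rw a) (ε a))
    (C : Ctl (BV n fun a => (P a).N)) : Prop where
  grid : GridCont C
  near : ∀ φ, ∀ δ > (0 : ℝ), ∀ᶠ a in C.l, ∀ w w' : VV n (P a).N,
    xv (P a).s w ∈ (D a).ovr (K1 a) → ∀ i' : ℕ,
      dist (xv (P a).s w') ((D a).T i' (xv (P a).s w)) < ε a → |C.u φ a w' - C.u φ a w| < δ
  reg : ∀ r < (1 : ℝ), ∀ᶠ a in C.l, ∀ w : VV n (P a).N, C.u C.o a w ≤ r →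
    xv (P a).s w ∈ (D a).ovr (K a)

theorem FineCtl.isLocC (hF : FineCtl P C) {ζ : A → ℂ}
    {X : ∀ a, ZMod (q a) → Matrix (Cell n (P a).N) (Cell n (P a).N) ℂ}
    (hX : ∀ a, NearT (D a) (q a) (K1 a) (ε a) (P a).s (X a)) :
    IsLocC C (fun a => tw (ζ a) (X a)) := by
  intro φ r hr δ hδ
  filter_upwards [hF.near φ δ hδ] with a ha c' c _ h0
  obtain ⟨i, hi⟩ := tw_ne_zero h0
  obtain ⟨h1, i', _, h3⟩ := hX a i c' c hi
  exact ha (vt c) (vt c') h1 i' h3

theorem FineCtl.relC (hF : FineCtl P C) {M M' : SeqC n fun a => (P a).N}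
    (h : ∀ a, EqOn (cellsIn (P a).s ((D a).ovr (K a))) (M a) (M' a)) : RelC C M M' := by
  intro r hr
  filter_upwards [hF.reg r hr] with a ha c' c hc
  exact h a c' c (hc.symm.imp (ha (vt c)) (ha (vt c')))

/-- the twisted sums `e` -/
noncomputable def eL (hF : FineCtl P C) (ζ : A → ℂ) : LocC C :=
  ⟨fun a => tw (ζ a) (P a).E, hF.isLocC fun a => (P a).E_near⟩

/-- the homotopies of `e e ~ e` -/
noncomputable def hL (hF : FineCtl P C) (ζ : A → ℂ) : LocC C :=
  ⟨fun a => tw (ζ a) (P a).Hh, hF.isLocC fun a => (P a).Hh_near⟩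

/-- the homotopies of `e S ~ S e*` -/
noncomputable def kL (hF : FineCtl P C) (ζ : A → ℂ) : LocC C :=
  ⟨fun a => tw (ζ a) (P a).Kk, hF.isLocC fun a => (P a).Kk_near⟩

/-! ### degrees -/

theorem g_mul_of {N : A → ℕ} [∀ a, NeZero (N a)] {C : Ctl (BV n N)} (hg : GridCont C)
    {M : LocC C} {σ : ℂ}
    (hM : ∀ a c' c, M.1 a c' c ≠ 0 → (-1 : ℂ) ^ dm (N a) c' = σ * (-1) ^ dm (N a) c) :
    (gridL hg).g * M = σ • (M * (gridL hg).g) := by
  apply Subtype.ext
  funext a
  ext c' c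
  change ((gridT (N a) n).g * M.1 a) c' c = σ • ((M.1 a) * (gridT (N a) n).g) c' c
  rw [gridT_g_diagonal, Matrix.diagonal_mul, Matrix.mul_diagonal, smul_eq_mul]
  by_cases h0 : M.1 a c' c = 0
  · rw [h0]; ring
  · rw [hM a c' c h0]; ring

theorem toA_g_mul_of {N : A → ℕ} [∀ a, NeZero (N a)] {C : Ctl (BV n N)} (hg : GridCont C)
    {M : LocC C} {σ : ℂ}
    (hM : ∀ a c' c, M.1 a c' c ≠ 0 → (-1 : ℂ) ^ dm (N a) c' = σ * (-1) ^ dm (N a) c) :
    (gridA hg).g * toA C M = σ • (toA C M * (gridA hg).g) := by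
  have h := congrArg (toA C) (g_mul_of hg hM)
  rw [map_mul, map_smul, map_mul] at h
  exact h

theorem neg_one_pow_smul {R : Type*} [Ring R] [Algebra ℂ R] (m : ℕ) (y : R) :
    (-1 : R) ^ m * y = ((-1 : ℂ) ^ m) • y := by
  rcases Nat.even_or_odd m with hm | hm
  · rw [hm.neg_one_pow, hm.neg_one_pow, one_mul, one_smul]
  · rw [hm.neg_one_pow, hm.neg_one_pow, neg_one_mul, neg_smul, one_smul]

/-- homotopy with explicit witness (557's `Ho` is `∃ h, HoW h`) -/
structure HoW {R : Type*} [Ring R] (p g s dl dr x y h : R) : Prop where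
  ph : p * h = h
  hp : h * p = h
  gh : g * h = -(s * (h * g))
  eq : x = y + dl * h + h * dr

theorem HoW.ho {R : Type*} [Ring R] [StarRing R] {p g s dl dr x y h : R}
    (H : HoW p g s dl dr x y h) : Avg557.Ho p g s dl dr x y := ⟨h, H.ph, H.hp, H.gh, H.eq⟩

variable (hF : FineCtl P C) (ζ : A → ℂ)

theorem isMap_e : Avg557.IsMap (gridA hF.grid).p (gridA hF.grid).g 1 (gridA hF.grid).d
    (gridA hF.grid).d (toA C (eL hF ζ)) where
  px := by rw [gridA_p, one_mul]
  xp := by rw [gridA_p, mul_one]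
  gx := by
    rw [one_mul, toA_g_mul_of hF.grid (σ := 1), one_smul]
    intro a c' c h0
    obtain ⟨i, hi⟩ := tw_ne_zero h0
    rw [(P a).E_dm i c' c hi, one_mul]
  dx := by
    have h : toA C ((gridL hF.grid).d * eL hF ζ) = toA C (eL hF ζ * (gridL hF.grid).d) := by
      rw [toA_eq]
      exact hF.relC fun a => tw_rel_d (P a)
    rw [map_mul, map_mul] at h
    exact h

theorem hoW_ee (hζ : ∀ a, ζ a ^ q a = 1) :
    HoW (gridA hF.grid).p (gridA hF.grid).g 1 (gridA hF.grid).d (gridA hF.grid).d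
      (toA C (eL hF ζ) * toA C (eL hF ζ)) (toA C (eL hF ζ)) (toA C (hL hF ζ)) where
  ph := by rw [gridA_p, one_mul]
  hp := by rw [gridA_p, mul_one]
  gh := by
    rw [one_mul, toA_g_mul_of hF.grid (σ := -1), neg_smul, one_smul]
    intro a c' c h0
    obtain ⟨i, hi⟩ := tw_ne_zero h0
    rw [(P a).Hh_dm i c' c hi]
    ring
  eq := by
    have h : toA C (eL hF ζ * eL hF ζ) =
        toA C (eL hF ζ + (gridL hF.grid).d * hL hF ζ + hL hF ζ * (gridL hF.grid).d) := by
      rw [toA_eq]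
      exact hF.relC fun a => tw_rel_e (P a) (hζ a)
    rw [map_mul, map_add, map_add, map_mul, map_mul] at h
    exact h

theorem hoW_eS (hζ : ∀ a, ζ a ^ q a = 1) :
    HoW (gridA hF.grid).p (gridA hF.grid).g ((-1) ^ n) (gridA hF.grid).d
      (-star (gridA hF.grid).d) (toA C (eL hF ζ) * (gridA hF.grid).S)
      ((gridA hF.grid).S * star (toA C (eL hF ζ))) (toA C (kL hF ζ)) where
  ph := by rw [gridA_p, one_mul]
  hp := by rw [gridA_p, mul_one]
  gh := by
    rw [toA_g_mul_of hF.grid (σ := -(-1) ^ n), neg_one_pow_smul, neg_smul]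
    intro a c' c h0
    obtain ⟨i, hi⟩ := tw_ne_zero h0
    have h1 := (P a).Kk_dm i c' c hi
    have h2 : (-1 : ℂ) ^ dm (P a).N c' * (-1) ^ dm (P a).N c = (-1) ^ (n + 1) := by
      rw [← pow_add, h1]
    have h3 : (-1 : ℂ) ^ dm (P a).N c * (-1) ^ dm (P a).N c = 1 := by
      rw [← mul_pow]; simp
    calc (-1 : ℂ) ^ dm (P a).N c' = (-1) ^ dm (P a).N c' * ((-1) ^ dm (P a).N c *
          (-1) ^ dm (P a).N c) := by rw [h3, mul_one]
      _ = (-1) ^ (n + 1) * (-1) ^ dm (P a).N c := by rw [← mul_assoc, h2]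
      _ = _ := by ring
  eq := by
    have h : toA C (eL hF ζ * (gridL hF.grid).S - (gridL hF.grid).S * star (eL hF ζ)) =
        toA C ((gridL hF.grid).d * kL hF ζ - kL hF ζ * star (gridL hF.grid).d) := by
      rw [toA_eq]
      exact hF.relC fun a => tw_rel_S (P a) (hζ a)
    rw [map_sub, map_sub, map_mul, map_mul, map_mul, map_mul, map_star, map_star] at h
    have h2 := eq_add_of_sub_eq' h
    change toA C (eL hF ζ) * toA C (gridL hF.grid).S = toA C (gridL hF.grid).S *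
      star (toA C (eL hF ζ)) + toA C (gridL hF.grid).d * toA C (kL hF ζ) +
        toA C (kL hF ζ) * -star (toA C (gridL hF.grid).d)
    rw [h2]
    noncomm_ring

/-- the regular pair -/
theorem exists_rp (hζ : ∀ a, ζ a ^ q a = 1) :
    ∃ h, (RPr.mk (gridA hF.grid).p (gridA hF.grid).g (gridA hF.grid).d
      (toA C (eL hF ζ) * (gridA hF.grid).S * star (toA C (eL hF ζ)))
      (star (toA C (eL hF ζ)) * (gridA hF.grid).T * toA C (eL hF ζ)) h).IsRP n :=
  Avg557.rp_of (gridA_isPC hF.grid) (isMap_e hF ζ) (hoW_ee hF ζ hζ).ho (hoW_eS hF ζ hζ).ho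

end obj

end Crest.Agent.R217.FinePkg970
end

-- ▼ part R217/TwFine_555
section

/-!
Row 217 (S0336), part C1, helper555: the twist at `y₁` in the fine frame.
-/

set_option autoImplicit false
set_option linter.unusedSectionVars false
set_option linter.unusedVariables false

open Filter Topology

namespace Crest.Agent.R217.TwFine555

open Asym476 LocF555 GaugeAsy555 FinePkg970

theorem pow_val_add {q : ℕ} [NeZero q] {ζ : ℂ} (hζ : ζ ^ q = 1) (a b : ZMod q) :
    ζ ^ (a + b).val = ζ ^ a.val * ζ ^ b.val := by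
  rw [← pow_add, ZMod.val_add]
  conv_rhs => rw [← Nat.mod_add_div (a.val + b.val) q]
  rw [pow_add, pow_mul, hζ, one_pow, mul_one]

theorem tw_gauge {q : ℕ} [NeZero q] {ζ : ℂ} (hζ : ζ ^ q = 1) (hs : star ζ * ζ = 1) {I : Type*}
    (E : ZMod q → Matrix I I ℂ) (t : ℤ) (c' c : I) (a' a : ZMod q)
    (h : ∀ i, E i c' c ≠ 0 → a' = a + i) :
    tw (ζ ^ (t + 1)) E c' c = ζ ^ a'.val * tw (ζ ^ t) E c' c * star (ζ ^ a.val) := by
  have h0 : ζ ≠ 0 := by
    rintro rfl
    simp at hs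
  unfold tw
  rw [Matrix.sum_apply, Matrix.sum_apply, Finset.mul_sum, Finset.sum_mul]
  refine Finset.sum_congr rfl fun i _ => ?_
  simp only [Matrix.smul_apply, smul_eq_mul]
  by_cases hE : E i c' c = 0
  · rw [hE]; simp
  · have h1 : star (ζ ^ a.val) * ζ ^ a.val = 1 := pow_unit hs _
    rw [h i hE, pow_val_add hζ, zpow_add₀ h0, zpow_one, mul_pow]
    calc (ζ ^ t) ^ i.val * ζ ^ i.val * E i c' c
        = (star (ζ ^ a.val) * ζ ^ a.val) * ((ζ ^ t) ^ i.val * ζ ^ i.val * E i c' c) := by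
          rw [h1, one_mul]
      _ = _ := by ring

theorem tw_per {q : ℕ} [NeZero q] {ζ : ℂ} (hζ : ζ ^ q = 1) {I : Type*}
    (E : ZMod q → Matrix I I ℂ) (t : ℤ) : tw (ζ ^ (t + q)) E = tw (ζ ^ t) E := by
  have h0 : ζ ≠ 0 := by
    rintro rfl
    rw [zero_pow (NeZero.ne q)] at hζ
    exact zero_ne_one hζ
  rw [zpow_add₀ h0, zpow_natCast, hζ, mul_one]

end Crest.Agent.R217.TwFine555
end

-- ▼ part R217/FineSeq_970

/-!
Row 217 (S0336), part C (helper970): the sequences `e_t`, `h_t`, `k_t` (`t : ℤ`) over the fine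
control data `CF D l` of `Ctl_559`, all facts at the level of sequences of matrices on cells.
-/

set_option autoImplicit false
set_option linter.unusedSectionVars false
set_option linter.unusedVariables false

open Filter Topology Metric Set

namespace Crest.Agent.R217.FineSeq970

open Crest.Agent.R217.CruxN559 Crest.Agent.R217.Coarse889 Crest.Agent.R217.CtrlS970
open Crest.Agent.R217.FinePkg970 Crest.Agent.R217.Flow373 Crest.Agent.R217.Glob559
open Crest.Agent.R217.Grid897 Crest.Agent.R217.Asym476 Crest.Agent.R217.Ctl559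
open Crest.Agent.R217.AsyCell970 Crest.Agent.R217.PC473

universe u

variable {n : ℕ} (D : ∀ k, KDat.{u} n (cs k))

theorem eventually_eps_lt (k : ℕ) {δ : ℝ} (hδ : 0 < δ) : ∀ᶠ j in atTop, (D k).eps j < δ := by
  have h1 : ∀ᶠ j : ℕ in atTop, 1 / ((j : ℝ) + 1) < δ :=
    tendsto_one_div_add_atTop_nhds_zero_nat.eventually (gt_mem_nhds hδ)
  filter_upwards [h1] with j hj
  exact lt_of_le_of_lt ((D k).eps_le j) hj

/-- uniform invariance of the fine controls under "near an orbit" over `K1` -/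
theorem uF_near (φ : PhiF n) (k : ℕ) {ε : ℝ} (hε : 0 < ε) :
    ∃ δ > 0, ∀ j, ∀ v ∈ ovr (D k).X.D (D k).K1, ∀ g : (D k).X.G, ∀ v',
      dist v' ((D k).X.D.act g v) < δ → |uF D φ (k, j) v' - uF D φ (k, j) v| < ε := by
  obtain ⟨δ, hδ, h⟩ := exists_control (D k).X.D (uF_cont D φ (k, 0))
    (fun g v hv => uF_act D φ (k, 0) g hv) (D k).K1_cpt (D k).K1_sub hε
  refine ⟨δ, hδ, fun j v hv g v' hv' => ?_⟩
  rw [uF_fst D φ k j 0]
  have := h v hv g v' hv'
  rwa [Real.dist_eq] at this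

/-- the compatibility of the fine control data with the packages -/
theorem fineCtl {l : Filter (ℕ × ℕ)} (hl : l ≤ lf) :
    FineCtl (P := pk D) (C := CF D l) where
  grid := by
    intro φ r hr ε hε
    apply hl
    rw [mem_lf]
    intro k
    obtain ⟨δ, hδ, h⟩ := uF_unif D φ k hr hε
    have h1 := eventually_lf.1 (eventually_mu_lf D hδ) k
    filter_upwards [h1] with j hj v w hvw hst
    have hst' : (D k).w (xv D (k, j) v) ≤ r ∨ (D k).w (xv D (k, j) w) ≤ r := hst
    have h2 : dist (xv D (k, j) v) (xv D (k, j) w) ≤ mu D (k, j) := by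
      refine nb_dist_blk D (k, j) (fun _ => false) (fun _ => false) v w ?_
        (hst'.imp (fun h => norm_le_Rw_of_w D k (lt_of_le_of_lt h hr))
          (fun h => norm_le_Rw_of_w D k (lt_of_le_of_lt h hr)))
      exact hvw
    rcases hst' with hs | ht
    · exact h j _ _ hs (by rw [dist_comm]; exact lt_of_le_of_lt h2 hj)
    · rw [abs_sub_comm]
      exact h j _ _ ht (lt_of_le_of_lt h2 hj)
  near := by
    intro φ ε hε
    apply hl
    rw [mem_lf]
    intro k
    obtain ⟨δ, hδ, h⟩ := uF_near D φ k hε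
    filter_upwards [eventually_eps_lt D k hδ] with j hj w w' hw i' hd
    exact h j _ hw _ _ (hd.trans hj)
  reg := by
    intro r hr
    refine Eventually.of_forall fun a w hw => ?_
    exact ovr_U_sub D a.1 ((D a.1).w_lt _ (lt_of_le_of_lt hw hr))

/-! ### the twisting parameter -/

/-- the primitive root of unity of level `a` -/
noncomputable def zz (a : ℕ × ℕ) : ℂ := Complex.exp (2 * Real.pi * Complex.I / ((D a.1).X.q : ℂ))

theorem zz_prim (a : ℕ × ℕ) : IsPrimitiveRoot (zz D a) (D a.1).X.q :=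
  Complex.isPrimitiveRoot_exp _ (D a.1).X.q_ne_zero

theorem zz_pow (a : ℕ × ℕ) : zz D a ^ (D a.1).X.q = 1 := (zz_prim D a).pow_eq_one

theorem zz_zpow_pow (t : ℤ) (a : ℕ × ℕ) : (zz D a ^ t) ^ (D a.1).X.q = 1 := by
  rw [← zpow_natCast, ← zpow_mul, mul_comm, zpow_mul, zpow_natCast, zz_pow, one_zpow]

theorem zz_ne_one (a : ℕ × ℕ) : zz D a ≠ 1 :=
  (zz_prim D a).ne_one (D a.1).X.prime.one_lt

theorem star_zz_mul (a : ℕ × ℕ) : star (zz D a) * zz D a = 1 := by
  have h1 : ‖zz D a‖ = 1 := norm_one_of_pow (zz_pow D a)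
  rw [← starRingEnd_apply, Complex.conj_mul', h1]
  simp

/-! ### the sequences -/

/-- `d` -/
noncomputable def dS : SeqC n (NN D) := fun a => (gridT (NN D a) n).d

/-- `S` -/
noncomputable def sS : SeqC n (NN D) := fun a => (gridT (NN D a) n).S

/-- the twisted sums `e_t` -/
noncomputable def eS (t : ℤ) : SeqC n (NN D) := fun a => tw (zz D a ^ t) (pk D a).E

/-- `h_t` -/
noncomputable def hS (t : ℤ) : SeqC n (NN D) := fun a => tw (zz D a ^ t) (pk D a).Hh

/-- `k_t` -/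
noncomputable def kS (t : ℤ) : SeqC n (NN D) := fun a => tw (zz D a ^ t) (pk D a).Kk

/-- coarse homotopies `a_t` -/
noncomputable def aS (t : ℤ) : SeqC n (NN D) := fun a => tw (zz D a ^ t) (pk D a).Aa

variable {l : Filter (ℕ × ℕ)} (hl : l ≤ lf) (t : ℤ)

theorem gridCont (hl : l ≤ lf) : GridCont (CF D l) := (fineCtl D hl).grid

include hl



theorem isLocC_eS : IsLocC (CF D l) (eS D t) := (fineCtl D hl).isLocC fun a => (pk D a).E_near

theorem isLocC_hS : IsLocC (CF D l) (hS D t) := (fineCtl D hl).isLocC fun a => (pk D a).Hh_near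

theorem isLocC_kS : IsLocC (CF D l) (kS D t) := (fineCtl D hl).isLocC fun a => (pk D a).Kk_near

theorem rel_dS : RelC (CF D l) (dS D * eS D t) (eS D t * dS D) :=
  (fineCtl D hl).relC fun a => tw_rel_d (pk D a)

theorem rel_eS : RelC (CF D l) (eS D t * eS D t) (eS D t + dS D * hS D t + hS D t * dS D) :=
  (fineCtl D hl).relC fun a => tw_rel_e (pk D a) (zz_zpow_pow D t a)

theorem rel_sS : RelC (CF D l) (eS D t * sS D - sS D * star (eS D t))
    (dS D * kS D t - kS D t * star (dS D)) :=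
  (fineCtl D hl).relC fun a => tw_rel_S (pk D a) (zz_zpow_pow D t a)

omit hl

theorem eS_dm (a : ℕ × ℕ) {c' c : Cell n (NN D a)} (h : eS D t a c' c ≠ 0) :
    dm (NN D a) c' = dm (NN D a) c := by
  obtain ⟨i, hi⟩ := tw_ne_zero h
  exact (pk D a).E_dm i c' c hi

theorem hS_dm (a : ℕ × ℕ) {c' c : Cell n (NN D a)} (h : hS D t a c' c ≠ 0) :
    dm (NN D a) c' = dm (NN D a) c + 1 := by
  obtain ⟨i, hi⟩ := tw_ne_zero h
  exact (pk D a).Hh_dm i c' c hi

theorem kS_dm (a : ℕ × ℕ) {c' c : Cell n (NN D a)} (h : kS D t a c' c ≠ 0) :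
    dm (NN D a) c' + dm (NN D a) c = n + 1 := by
  obtain ⟨i, hi⟩ := tw_ne_zero h
  exact (pk D a).Kk_dm i c' c hi

/-- periodicity in `t`, level by level -/
theorem eS_per (a : ℕ × ℕ) : eS D (t + (D a.1).X.q) a = eS D t a :=
  TwFine555.tw_per (zz_pow D a) _ _

theorem hS_per (a : ℕ × ℕ) : hS D (t + (D a.1).X.q) a = hS D t a :=
  TwFine555.tw_per (zz_pow D a) _ _

theorem kS_per (a : ℕ × ℕ) : kS D (t + (D a.1).X.q) a = kS D t a :=
  TwFine555.tw_per (zz_pow D a) _ _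

/-! ### gauges -/

/-- the unitary label of the gauge `m` -/
noncomputable def om (m : ℕ) (a : ℕ × ℕ) (v : BV D a) : ℂ :=
  zz D a ^ ((D a.1).gθ m (xv D a v)).val

theorem star_om_mul (m : ℕ) (a : ℕ × ℕ) (v : BV D a) : star (om D m a v) * om D m a v = 1 := by
  unfold om
  rw [star_pow, ← mul_pow, star_zz_mul, one_pow]


/-- the gauge relation for twisted sums near the powers of the flow -/
theorem gauge_near (k m : ℕ)
    (X : ∀ a, ZMod (D a.1).X.q → Matrix (Cell n (NN D a)) (Cell n (NN D a)) ℂ)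
    (hX : ∀ a, NearT (flow (D a.1).X) (D a.1).X.q (D a.1).K1 ((D a.1).eps a.2) (mu D a) (X a)) :
    ∀ᶠ a in lk k, ∀ t : ℤ, ∀ c' c : Cell n (NN D a),
      0 < (D a.1).gκ m (xv D a (vt c')) → 0 < (D a.1).gκ m (xv D a (vt c)) →
        tw (zz D a ^ (t + 1)) (X a) c' c =
          om D m a (vt c') * tw (zz D a ^ t) (X a) c' c * star (om D m a (vt c)) := by
  rw [eventually_lk]
  filter_upwards [eventually_eps_lt D k (D k).gη_pos] with j hj t c' c hc' hc
  refine TwFine555.tw_gauge (zz_pow D (k, j)) (star_zz_mul D (k, j)) (X (k, j)) t c' c _ _ ?_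
  intro i hi
  obtain ⟨h1, i', h2, h3⟩ := hX (k, j) i c' c hi
  rw [flow_T, zpow_natCast] at h3
  have h4 := (D k).gθ_lab m (xv D (k, j) (vt c)) (xv D (k, j) (vt c')) hc hc' i' (h3.trans hj)
  exact h4.trans (by rw [h2])

theorem gauge_eS (k m : ℕ) : ∀ᶠ a in lk k, ∀ t : ℤ, ∀ c' c : Cell n (NN D a),
    0 < (D a.1).gκ m (xv D a (vt c')) → 0 < (D a.1).gκ m (xv D a (vt c)) →
      eS D (t + 1) a c' c = om D m a (vt c') * eS D t a c' c * star (om D m a (vt c)) :=
  gauge_near D k m (fun a => (pk D a).E) fun a => (pk D a).E_near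

theorem gauge_hS (k m : ℕ) : ∀ᶠ a in lk k, ∀ t : ℤ, ∀ c' c : Cell n (NN D a),
    0 < (D a.1).gκ m (xv D a (vt c')) → 0 < (D a.1).gκ m (xv D a (vt c)) →
      hS D (t + 1) a c' c = om D m a (vt c') * hS D t a c' c * star (om D m a (vt c)) :=
  gauge_near D k m (fun a => (pk D a).Hh) fun a => (pk D a).Hh_near

theorem gauge_kS (k m : ℕ) : ∀ᶠ a in lk k, ∀ t : ℤ, ∀ c' c : Cell n (NN D a),
    0 < (D a.1).gκ m (xv D a (vt c')) → 0 < (D a.1).gκ m (xv D a (vt c)) →
      kS D (t + 1) a c' c = om D m a (vt c') * kS D t a c' c * star (om D m a (vt c)) :=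
  gauge_near D k m (fun a => (pk D a).Kk) fun a => (pk D a).Kk_near


/-- over the closed ball of radius `gr / 2` around `y1` the gauges cover -/
theorem gauge_cover (k : ℕ) {x : Fin n → ℝ} (hx : (D k).w x < 1)
    (hF : dist ((D k).F x) (D k).X.y1 ≤ (D k).gr / 2) : ∃ m < (D k).gm, (D k).gc ≤ (D k).gκ m x := by
  have h1 := (D k).w_lt x hx
  rw [(D k).F_eq x (ovr_U_sub D k h1)] at hF
  exact (D k).gκ_cov x h1.1 hF

end Crest.Agent.R217.FineSeq970
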