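import Crest.Agent.R217.Obj_52
import Crest.Agent.R217.FineSeq_970
import Crest.Agent.R217.Box_970
import Crest.Agent.R217.RE6_531

-- ▼ part R217/Homog_970
section

/-!
Row 217 (S0336), part C (helper970): the homotopy of a regular pair with homogeneous data can be
chosen homogeneous; regular pairs with homogeneous data are objects (`Obj52.IsOb`).
-/

set_option autoImplicit false
set_option linter.unusedSectionVars false
set_option linter.unusedVariables false

open Matrix

namespace Crest.Agent.R217.Homog970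

open PC473 Obj52

variable {R : Type*} [Ring R] [StarRing R] {J : Type*} [Fintype J] [DecidableEq J]
  {deg : J → ℤ} {c : ℤ} {m : ℕ}

/-- the part of total degree `c` -/
def prj (deg : J → ℤ) (c : ℤ) (a : Matrix J J R) : Matrix J J R :=
  Matrix.of fun i j => if deg i + deg j = c then a i j else 0

theorem prj_apply (deg : J → ℤ) (c : ℤ) (a : Matrix J J R) (i j : J) :
    prj deg c a i j = if deg i + deg j = c then a i j else 0 := rfl

theorem prj_add (a b : Matrix J J R) : prj deg c (a + b) = prj deg c a + prj deg c b := by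
  ext i j
  simp only [prj_apply, Matrix.add_apply]
  split_ifs <;> simp

theorem prj_neg (a : Matrix J J R) : prj deg c (-a) = -prj deg c a := by
  ext i j
  simp only [prj_apply, Matrix.neg_apply]
  split_ifs <;> simp

theorem prj_sub (a b : Matrix J J R) : prj deg c (a - b) = prj deg c a - prj deg c b := by
  rw [sub_eq_add_neg, prj_add, prj_neg, ← sub_eq_add_neg]

theorem prj_pow (a : Matrix J J R) :
    prj deg c ((-1) ^ m * a) = (-1) ^ m * prj deg c a := by
  rcases Nat.even_or_odd m with h | h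
  · rw [h.neg_one_pow, one_mul, one_mul]
  · rw [h.neg_one_pow, neg_one_mul, neg_one_mul, prj_neg]

theorem prj_self {a : Matrix J J R} (h : ∀ i j, a i j ≠ 0 → deg i + deg j = c) :
    prj deg c a = a := by
  ext i j
  rw [prj_apply]
  split_ifs with h1
  · rfl
  · by_contra h2
    exact h1 (h i j (fun h3 => h2 h3.symm))

theorem prj_diag_mul {p : Matrix J J R} (hp : ∀ i j, p i j ≠ 0 → deg i = deg j)
    (a : Matrix J J R) : prj deg c (p * a) = p * prj deg c a := by
  ext i j
  rw [prj_apply, Matrix.mul_apply, Matrix.mul_apply]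
  split_ifs with h
  · refine Finset.sum_congr rfl fun k _ => ?_
    by_cases h0 : p i k = 0
    · rw [h0, zero_mul, zero_mul]
    · rw [prj_apply, if_pos (by rw [← hp i k h0]; exact h)]
  · symm
    refine Finset.sum_eq_zero fun k _ => ?_
    by_cases h0 : p i k = 0
    · rw [h0, zero_mul]
    · rw [prj_apply, if_neg (by rw [← hp i k h0]; exact h), mul_zero]

theorem prj_mul_diag {p : Matrix J J R} (hp : ∀ i j, p i j ≠ 0 → deg i = deg j)
    (a : Matrix J J R) : prj deg c (a * p) = prj deg c a * p := by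
  ext i j
  rw [prj_apply, Matrix.mul_apply, Matrix.mul_apply]
  split_ifs with h
  · refine Finset.sum_congr rfl fun k _ => ?_
    by_cases h0 : p k j = 0
    · rw [h0, mul_zero, mul_zero]
    · rw [prj_apply, if_pos (by rw [hp k j h0]; exact h)]
  · symm
    refine Finset.sum_eq_zero fun k _ => ?_
    by_cases h0 : p k j = 0
    · rw [h0, mul_zero]
    · rw [prj_apply, if_neg (by rw [hp k j h0]; exact h), zero_mul]

theorem prj_d_mul {d : Matrix J J R} (hd : ∀ i j, d i j ≠ 0 → deg i + 1 = deg j)
    (a : Matrix J J R) : prj deg c (d * a) = d * prj deg (c + 1) a := by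
  ext i j
  rw [prj_apply, Matrix.mul_apply, Matrix.mul_apply]
  split_ifs with h
  · refine Finset.sum_congr rfl fun k _ => ?_
    by_cases h0 : d i k = 0
    · rw [h0, zero_mul, zero_mul]
    · rw [prj_apply, if_pos (by rw [← hd i k h0]; linarith)]
  · symm
    refine Finset.sum_eq_zero fun k _ => ?_
    by_cases h0 : d i k = 0
    · rw [h0, zero_mul]
    · rw [prj_apply, if_neg (by rw [← hd i k h0]; intro h1; exact h (by linarith)), mul_zero]

theorem prj_mul_star_d {d : Matrix J J R} (hd : ∀ i j, d i j ≠ 0 → deg i + 1 = deg j)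
    (a : Matrix J J R) : prj deg c (a * star d) = prj deg (c + 1) a * star d := by
  have hs : ∀ i j, star d i j ≠ 0 → deg i = deg j + 1 := by
    intro i j h
    rw [Matrix.star_apply] at h
    exact (hd j i (fun h0 => h (by rw [h0, star_zero]))).symm
  ext i j
  rw [prj_apply, Matrix.mul_apply, Matrix.mul_apply]
  split_ifs with h
  · refine Finset.sum_congr rfl fun k _ => ?_
    by_cases h0 : star d k j = 0
    · rw [h0, mul_zero, mul_zero]
    · rw [prj_apply, if_pos (by rw [hs k j h0]; linarith)]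
  · symm
    refine Finset.sum_eq_zero fun k _ => ?_
    by_cases h0 : star d k j = 0
    · rw [h0, mul_zero]
    · rw [prj_apply, if_neg (by rw [hs k j h0]; intro h1; exact h (by linarith)), zero_mul]

/-- `Hm` in contrapositive form -/
theorem hm_ne {α β : J → ℤ} {a : Matrix J J R} (h : Hm α β a) {i j : J} (h0 : a i j ≠ 0) :
    α i = β j := by
  by_contra hne
  exact h0 (h i j hne)

theorem hm_of {α β : J → ℤ} {a : Matrix J J R} (h : ∀ i j, a i j ≠ 0 → α i = β j) :
    Hm α β a := fun i j hne => by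
  by_contra h0
  exact hne (h i j h0)

theorem hm_mul {α β γ : J → ℤ} {a b : Matrix J J R} (ha : Hm α β a) (hb : Hm β γ b) :
    Hm α γ (a * b) := hm_of fun i j h => by
  rw [Matrix.mul_apply] at h
  obtain ⟨k, -, hk⟩ := Finset.exists_ne_zero_of_sum_ne_zero h
  rw [hm_ne ha (left_ne_zero_of_mul hk), hm_ne hb (right_ne_zero_of_mul hk)]

theorem diag_ne {e : J → R} {i j : J} (h : (diagonal e) i j ≠ 0) : deg i = deg j := by
  by_contra hne
  exact h (diagonal_apply_ne _ (fun hij => hne (by rw [hij])))

/-- replace the homotopy by its homogeneous part -/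
theorem homog {x : RPr (Matrix J J R)} (hx : x.IsRP m)
    (hp : ∀ i j, x.p i j ≠ 0 → deg i = deg j) (hg : ∀ i j, x.g i j ≠ 0 → deg i = deg j)
    (hd : Hm (fun j => deg j + 1) deg x.d) (hf : Hm deg (fun j => m - deg j) x.f)
    (hq : Hm (fun j => m - deg j) deg x.q) :
    (RPr.mk x.p x.g x.d x.f x.q (prj deg (m + 1) x.h)).IsRP m where
  pp := hx.pp
  sp := hx.sp
  gg := hx.gg
  sg := hx.sg
  pg := hx.pg
  pd := hx.pd
  dp := hx.dp
  pf := hx.pf
  pq := hx.pq
  ph := by
    show x.p * prj deg (m + 1) x.h = prj deg (m + 1) x.h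
    rw [← prj_diag_mul hp, hx.ph]
  hp := by
    show prj deg (m + 1) x.h * x.p = prj deg (m + 1) x.h
    rw [← prj_mul_diag hp, hx.hp]
  dd := hx.dd
  sf := hx.sf
  sq := hx.sq
  df := hx.df
  qd := hx.qd
  fqf := by
    show x.f * x.q * x.f = x.f + x.d * prj deg (m + 1) x.h - prj deg (m + 1) x.h * star x.d
    have hd' : ∀ i j, x.d i j ≠ 0 → deg i + 1 = deg j := fun i j h => hm_ne hd h
    rw [← prj_d_mul hd', ← prj_mul_star_d hd']
    have h1 : prj deg m x.f = x.f := prj_self fun i j h => by
      have := hm_ne hf h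
      linarith
    have h2 : prj deg m (x.f * x.q * x.f) = x.f * x.q * x.f := prj_self fun i j h => by
      have h3 : Hm deg (fun j => m - deg j) (x.f * x.q * x.f) := by
        refine hm_mul (hm_mul hf ?_) hf
        exact hq
      have := hm_ne h3 h
      linarith
    calc x.f * x.q * x.f = prj deg m (x.f * x.q * x.f) := h2.symm
      _ = _ := by rw [hx.fqf, prj_sub, prj_add, h1]
  gd := hx.gd
  gf := hx.gf
  gq := hx.gq
  gh := by
    show x.g * prj deg (m + 1) x.h = -((-1 : Matrix J J R) ^ m * (prj deg (m + 1) x.h * x.g))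
    rw [← prj_diag_mul hg, ← prj_mul_diag hg, hx.gh, prj_neg, prj_pow]

/-- regular pairs with homogeneous data are objects -/
theorem isOb_of {κ : Type*} (F : Frame κ R) {x : RPr (Matrix J J R)} (hx : x.IsRP m)
    (hp : DgC F x.p) (hg : DgC F x.g)
    (hd : Hm (fun j => deg j + 1) deg x.d) (hf : Hm deg (fun j => m - deg j) x.f)
    (hq : Hm (fun j => m - deg j) deg x.q) :
    IsOb F m ∅ deg (RPr.mk x.p x.g x.d x.f x.q (prj deg (m + 1) x.h)) where
  rp := by
    obtain ⟨ep, hp1, -⟩ := hp
    obtain ⟨eg, hg1, -⟩ := hg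
    exact homog hx (fun i j h => by rw [hp1] at h; exact diag_ne h)
      (fun i j h => by rw [hg1] at h; exact diag_ne h) hd hf hq
  pd := hp
  gd := hg
  hd := hd
  hf := hf
  hq := hq
  hh := hm_of fun i j h => by
    change prj deg (m + 1) x.h i j ≠ 0 at h
    rw [prj_apply] at h
    split_ifs at h with h1
    · linarith
    · exact absurd rfl h
  lo := fun k hk => absurd hk (Set.notMem_empty k)
  hi := fun k hk => absurd hk (Set.notMem_empty k)

end Crest.Agent.R217.Homog970
end

-- ▼ part R217/FineX_970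

/-!
Row 217 (S0336), part C (helper970): the objects `x^t` over the asymptotic algebras.

* `gridA_isOT` : the grid tuple is an honest object, for any control data.
* `rpOf` : the regular pair of a homotopy idempotent, with homogeneous homotopy.
* `xF D hl t` : the object `x^t` over `CF D l`; `xF_isOb`.
* `sig_h` : the signature does not depend on the homotopy `h`.
-/

set_option autoImplicit false
set_option linter.unusedSectionVars false
set_option linter.unusedVariables false

open Filter Topology Metric Set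

namespace Crest.Agent.R217.FineX970

open Crest.Agent.R217.CruxN559 Crest.Agent.R217.Coarse889 Crest.Agent.R217.CtrlS970
open Crest.Agent.R217.FinePkg970 Crest.Agent.R217.Flow373 Crest.Agent.R217.Glob559
open Crest.Agent.R217.Grid897 Crest.Agent.R217.Asym476 Crest.Agent.R217.Ctl559
open Crest.Agent.R217.AsyCell970 Crest.Agent.R217.PC473 Crest.Agent.R217.Obj52
open Crest.Agent.R217.Homog970 Crest.Agent.R217.FineSeq970 Crest.Agent.R217.Sig52
open Crest.Agent.R217.Ind52 Crest.Agent.R217.Box970

universe u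

section grid

variable {n : ℕ} {A : Type} {N : A → ℕ} [∀ a, NeZero (N a)] {C : Ctl (BV n N)}

/-- integral degree of a block -/
def degZ (n : ℕ) : JJ n → ℤ := fun j => (degJ j : ℤ)

/-- homogeneity of classes -/
theorem hm_toA {M : LocC C} {α β : JJ n → ℤ}
    (h : ∀ a c' c, M.1 a c' c ≠ 0 → α (jt c') = β (jt c)) : Hm α β (toA C M) := by
  intro i j hne
  refine toA_zero_of fun a c' c hi hj => ?_
  by_contra h0
  have := h a c' c h0
  rw [hi, hj] at this
  exact hne this

theorem gridA_g_eq (hg : GridCont C) :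
    (gridA hg).g = Matrix.diagonal fun j : JJ n => algebraMap ℂ (Asy C ℂ) ((-1) ^ degJ j) := by
  ext i j
  show toA C (gridL hg).g i j = _
  by_cases hij : i = j
  · subst hij
    rw [Matrix.diagonal_apply_eq, toA_apply, ← AlgHomClass.commutes (cls C ℂ)]
    congr 1
    apply Subtype.ext
    funext a
    ext v w
    show (gridT (N a) n).g (cellEquiv n (N a) (i, v)) (cellEquiv n (N a) (i, w)) =
      (algebraMap ℂ (Matrix (VV n (N a)) (VV n (N a)) ℂ) ((-1) ^ degJ i)) v w
    rw [gridT_g_apply, Matrix.algebraMap_matrix_apply]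
    by_cases hvw : v = w
    · subst hvw
      rw [if_pos rfl, if_pos rfl]
      rfl
    · have : cellEquiv n (N a) (i, v) ≠ cellEquiv n (N a) (i, w) := fun h =>
          hvw (congrArg Prod.snd ((cellEquiv n (N a)).injective h))
      rw [if_neg this, if_neg hvw]
  · rw [Matrix.diagonal_apply_ne _ hij]
    refine toA_zero_of fun a c' c hi hj => ?_
    show (gridT (N a) n).g c' c = 0
    rw [gridT_g_apply, if_neg]
    rintro rfl
    exact hij (hi.symm.trans hj)

variable {κ : Type}

theorem dgC_one {R : Type*} [Ring R] [StarRing R] {J : Type*} [Fintype J] [DecidableEq J]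
    (F : Frame κ R) : DgC F (1 : Matrix J J R) :=
  ⟨fun _ => 1, Matrix.diagonal_one.symm, fun j k c => by rw [one_mul, mul_one]⟩

theorem dgC_alg {R : Type*} [Ring R] [StarRing R] [Algebra ℂ R] {J : Type*} [Fintype J]
    [DecidableEq J] (F : Frame κ R) (z : J → ℂ) :
    DgC F (Matrix.diagonal fun j => algebraMap ℂ R (z j)) :=
  ⟨_, rfl, fun j k c => Algebra.commutes _ _⟩

theorem gridA_dgC_p (hg : GridCont C) (F : Frame κ (Asy C ℂ)) : DgC F (gridA hg).p := by
  rw [gridA_p]
  exact dgC_one F

theorem gridA_dgC_g (hg : GridCont C) (F : Frame κ (Asy C ℂ)) : DgC F (gridA hg).g := by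
  rw [gridA_g_eq]
  exact dgC_alg F _

theorem gridA_hd (hg : GridCont C) : Hm (fun j => degZ n j + 1) (degZ n) (gridA hg).d :=
  hm_toA (M := (gridL hg).d) fun a c' c h => by
    have h1 := (gridT_d_supp n c' c h).1
    rw [dm_eq, dm_eq] at h1
    show (degJ (jt c') : ℤ) + 1 = (degJ (jt c) : ℤ)
    omega

theorem gridA_hS (hg : GridCont C) : Hm (degZ n) (fun j => n - degZ n j) (gridA hg).S :=
  hm_toA (M := (gridL hg).S) fun a c' c h => by
    have h1 := (gridT_S_supp n c' c h).1
    rw [dm_eq, dm_eq] at h1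
    show (degJ (jt c') : ℤ) = n - (degJ (jt c) : ℤ)
    omega

theorem gridA_hT (hg : GridCont C) : Hm (fun j => n - degZ n j) (degZ n) (gridA hg).T :=
  hm_toA (M := (gridL hg).T) fun a c' c h => by
    have h0 : (gridT (N a) n).S c' c ≠ 0 := by
      rw [← gridT_T]
      exact h
    have h1 := (gridT_S_supp n c' c h0).1
    rw [dm_eq, dm_eq] at h1
    show n - (degJ (jt c') : ℤ) = (degJ (jt c) : ℤ)
    omega



theorem hm_star {R : Type*} [Ring R] [StarRing R] {J : Type*} {α : J → ℤ}
    {a : Matrix J J R} (h : Hm α α a) : Hm α α (star a) := fun i j hne => by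
  rw [Matrix.star_apply, h j i fun h0 => hne h0.symm, star_zero]

theorem hm_shift {R : Type*} [Ring R] {J : Type*} {α : J → ℤ} {c : ℤ}
    {a : Matrix J J R} (h : Hm α α a) : Hm (fun j => c - α j) (fun j => c - α j) a :=
  fun i j hne => h i j fun h0 => hne (by show c - α i = c - α j; rw [h0])

/-- the regular pair of `e`, with homogeneous homotopy -/
noncomputable def rpOf (hg : GridCont C) (e h : Matrix (JJ n) (JJ n) (Asy C ℂ)) :
    RPr (Matrix (JJ n) (JJ n) (Asy C ℂ)) :=
  RPr.mk (gridA hg).p (gridA hg).g (gridA hg).d (e * (gridA hg).S * star e)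
    (star e * (gridA hg).T * e) (prj (degZ n) (n + 1) h)

theorem rpOf_isOb (hg : GridCont C) {e h : Matrix (JJ n) (JJ n) (Asy C ℂ)}
    (he : Hm (degZ n) (degZ n) e)
    (hr : (RPr.mk (gridA hg).p (gridA hg).g (gridA hg).d (e * (gridA hg).S * star e)
      (star e * (gridA hg).T * e) h).IsRP n) (F : Frame κ (Asy C ℂ)) :
    IsOb F n ∅ (degZ n) (rpOf hg e h) :=
  isOb_of F hr (gridA_dgC_p hg F) (gridA_dgC_g hg F) (gridA_hd hg)
    (hm_mul (hm_mul he (gridA_hS hg)) (hm_shift (hm_star he)))
    (hm_mul (hm_mul (hm_shift (hm_star he)) (gridA_hT hg)) he)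

end grid

section sigh

variable {κ : Type*} {R0 R1 : Type*} [Ring R0] [StarRing R0] [Algebra ℂ R0] [StarModule ℂ R0]
    [Ring R1] [StarRing R1] [Algebra ℂ R1] [StarModule ℂ R1]
    {F0 : Frame κ R0} {F1 : Frame κ R1} {G : Type*} [AddCommGroup G] (P : SgP F0 F1 G)
    {J : Type} [Fintype J] [DecidableEq J] {S : Set κ} {deg : J → ℤ}

/-- the signature does not depend on the homotopy -/
theorem sig_h {l : List (Par κ)} (hl : ∀ a ∈ l, a.Ok F0) {x y : RPr (Matrix J J R0)}
    (hx : IsOb F0 l.length S deg x) (hy : IsOb F0 l.length S deg y) (hc : Cov S l)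
    (hp : y.p = x.p) (hg : y.g = x.g) (hd : y.d = x.d) (hf : y.f = x.f) (hq : y.q = x.q) :
    sig F0 P.L l (ob deg x) = sig F0 P.L l (ob deg y) := by
  have fp : x.f * x.p = x.f := by
    have := congrArg star hx.rp.pf
    rwa [star_mul, hx.rp.sf, hx.rp.sp] at this
  have qp : x.q * x.p = x.q := by
    have := congrArg star hx.rp.pq
    rwa [star_mul, hx.rp.sq, hx.rp.sp] at this
  have gp : x.g * x.p = x.g := by
    have := congrArg star hx.rp.pg
    rwa [star_mul, hx.rp.sg, hx.rp.sp] at this
  have ps : x.p.conjTranspose = x.p := hx.rp.sp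
  refine RE531.sig_re P hl hx hy hc (α := x.p) (k := 0) (q := 0) ?_ ?_
  · exact
    { hx := hx.rp
      hy := hy.rp
      pα := by rw [hp, hx.rp.pp]
      αp := hx.rp.pp
      gα := by rw [hg, gp, hx.rp.pg]
      dα := by rw [hd, hx.rp.dp, hx.rp.pd]
      hf := by rw [hf, ps, hx.rp.pf, fp, mul_zero, zero_mul, add_zero, sub_zero]
      hq := by rw [hq, ps, hx.rp.pq, qp, mul_zero, zero_mul, add_zero, sub_zero]
      pk := by simp
      kp := by simp
      gk := by simp
      pl := by simp
      lp := by simp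
      gl := by simp }
  · obtain ⟨ep, hp1, -⟩ := hx.pd
    refine ⟨fun i j h => ?_, fun i j _ => rfl, fun i j _ => rfl⟩
    rw [hp1]
    exact Matrix.diagonal_apply_ne _ fun h0 => h (by rw [h0])

end sigh

section xF

variable {n : ℕ} (D : ∀ k, KDat.{u} n (cs k)) {l : Filter (ℕ × ℕ)} (hl : l ≤ lf) (t : ℤ)

/-- the class of `e_t` -/
noncomputable def eA : Matrix (JJ n) (JJ n) (Asy (CF D l) ℂ) :=
  toA (CF D l) ⟨eS D t, isLocC_eS D hl t⟩

theorem hm_eA : Hm (degZ n) (degZ n) (eA D hl t) :=
  hm_toA fun a c' c h => by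
    have h1 := eS_dm D t a h
    rw [dm_eq, dm_eq] at h1
    show (degJ (jt c') : ℤ) = (degJ (jt c) : ℤ)
    omega

theorem exists_hA : ∃ h, (RPr.mk (gridA (gridCont D hl)).p (gridA (gridCont D hl)).g
    (gridA (gridCont D hl)).d (eA D hl t * (gridA (gridCont D hl)).S * star (eA D hl t))
    (star (eA D hl t) * (gridA (gridCont D hl)).T * eA D hl t) h).IsRP n :=
  exists_rp (fineCtl D hl) (fun a => zz D a ^ t) (zz_zpow_pow D t)

/-- the regular pair `x^t` -/
noncomputable def xR : RPr (Matrix (JJ n) (JJ n) (Asy (CF D l) ℂ)) :=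
  rpOf (gridCont D hl) (eA D hl t) (exists_hA D hl t).choose

/-- the object `x^t` over `CF D l` -/
noncomputable def xF : Obj (Asy (CF D l) ℂ) := ob (degZ n) (xR D hl t)

theorem xR_isOb {κ : Type} (F : Frame κ (Asy (CF D l) ℂ)) : IsOb F n ∅ (degZ n) (xR D hl t) :=
  rpOf_isOb (gridCont D hl) (hm_eA D hl t) (exists_hA D hl t).choose_spec F

theorem xF_isOb {κ : Type} (F : Frame κ (Asy (CF D l) ℂ)) :
    IsOb F n ∅ (xF D hl t).deg (xF D hl t).x := xR_isOb D hl t F

end xF

end Crest.Agent.R217.FineX970
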