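import Crest.Agent.R217.SpecA_343
import Crest.Agent.R217.A8_430
import Crest.Agent.R217.A5_839_Mg
import Crest.Agent.R217.A7_418_Mg
import Mathlib
import Crest.Agent.R217.B2c_478
import Crest.Agent.R217.TwObj_555
import Crest.Agent.R217.FineSeq_970
import Crest.Agent.R217.Box_970
import Crest.Agent.R217.FineX_970

-- ▼ part R217/A1_740
section

/-!
Row 217, part A, TASK A1: the escape norm of a locally compact group without small subgroups.
-/

set_option autoImplicit false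
set_option linter.unusedSectionVars false

open Filter Topology Set
open scoped Topology

namespace Crest.Agent.R217.A1_740

open Crest.Agent.R217.SpecA343

section

variable {G : Type*} [Group G] [TopologicalSpace G]

/-- products of at most `n` elements of a small open set -/
lemma exists_small [IsTopologicalGroup G] (n : ℕ) : ∀ W ∈ 𝓝 (1 : G), ∃ U : Set G, IsOpen U ∧
    (1 : G) ∈ U ∧ ∀ l : List G, l.length ≤ n → (∀ g ∈ l, g ∈ U) → l.prod ∈ W := by
  induction n with
  | zero =>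
    intro W hW
    refine ⟨univ, isOpen_univ, mem_univ _, ?_⟩
    intro l hl _
    have : l = [] := List.length_eq_zero_iff.mp (Nat.le_zero.mp hl)
    subst this
    simpa using mem_of_mem_nhds hW
  | succ n ih =>
    intro W hW
    obtain ⟨V, hVo, hV1, hV⟩ := exists_open_nhds_one_split hW
    obtain ⟨U, hUo, hU1, hU⟩ := ih V (hVo.mem_nhds hV1)
    refine ⟨U ∩ V, hUo.inter hVo, ⟨hU1, hV1⟩, ?_⟩
    intro l hl hlU
    cases l with
    | nil => simpa using mem_of_mem_nhds hW
    | cons a l =>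
      rw [List.prod_cons]
      refine hV a (hlU a (by simp)).2 _ (hU l (by simpa using hl) ?_)
      intro g hg
      exact (hlU g (by simp [hg])).1

/-- all powers in `W` forces `g = 1` -/
lemma eq_one_of_pow_mem {W : Set G} (hinv : ∀ g ∈ W, g⁻¹ ∈ W)
    (hW : ∀ H : Subgroup G, (H : Set G) ⊆ W → H = ⊥) (g : G) (hg : ∀ i : ℕ, g ^ i ∈ W) :
    g = 1 := by
  have h : Subgroup.zpowers g = ⊥ := by
    apply hW
    rintro x hx
    obtain ⟨k, rfl⟩ := Subgroup.mem_zpowers_iff.mp hx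
    rcases Int.eq_nat_or_neg k with ⟨n, rfl | rfl⟩
    · simpa using hg n
    · rw [zpow_neg]
      exact hinv _ (by simpa using hg n)
  simpa using h

/-- (P1) the basic compactness lemma -/
lemma exists_escape [IsTopologicalGroup G] [T2Space G] {W : Set G} (hc : IsCompact W)
    (hinv : ∀ g ∈ W, g⁻¹ ∈ W)
    (hW : ∀ H : Subgroup G, (H : Set G) ⊆ W → H = ⊥) {V : Set G} (hV : V ∈ 𝓝 (1 : G)) :
    ∃ K : ℕ, ∀ g, (∀ i ≤ K, g ^ i ∈ W) → g ∈ V := by
  obtain ⟨V', hV'V, hV'o, hV'1⟩ := mem_nhds_iff.mp hV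
  have hcl : IsClosed W := hc.isClosed
  obtain ⟨K, hK⟩ := hc.elim_directed_family_closed
    (fun k : ℕ => {g : G | (∀ i ≤ k, g ^ i ∈ W) ∧ g ∉ V'})
    (by
      intro k
      have h1 : {g : G | (∀ i ≤ k, g ^ i ∈ W) ∧ g ∉ V'} =
          (⋂ i ∈ {i : ℕ | i ≤ k}, (fun g : G => g ^ i) ⁻¹' W) ∩ V'ᶜ := by
        ext g; simp
      rw [h1]
      refine IsClosed.inter ?_ hV'o.isClosed_compl
      exact isClosed_biInter fun i _ => hcl.preimage (continuous_pow i))
    (by
      rw [Set.eq_empty_iff_forall_notMem]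
      rintro g ⟨_, hg⟩
      rw [mem_iInter] at hg
      have h1 : g = 1 := eq_one_of_pow_mem hinv hW g fun i => (hg i).1 i le_rfl
      exact (hg 0).2 (h1 ▸ hV'1))
    (by
      intro a b
      refine ⟨max a b, ?_, ?_⟩
      · exact fun g hg => ⟨fun i hi => hg.1 i (hi.trans (le_max_left _ _)), hg.2⟩
      · exact fun g hg => ⟨fun i hi => hg.1 i (hi.trans (le_max_right _ _)), hg.2⟩)
  refine ⟨max K 1, fun g hg => ?_⟩
  by_contra hgV
  have : g ∈ W ∩ {g : G | (∀ i ≤ K, g ^ i ∈ W) ∧ g ∉ V'} := by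
    refine ⟨by simpa using hg 1 (le_max_right _ _), fun i hi => hg i (hi.trans (le_max_left _ _)),
      fun h => hgV (hV'V h)⟩
  rw [hK] at this
  exact this

/-- the escape norm -/
noncomputable def esc (U : Set G) (g : G) : ℝ :=
  sInf {x : ℝ | ∃ k : ℕ, (∀ i ≤ k, g ^ i ∈ U) ∧ x = 1 / ((k : ℝ) + 1)}

lemma esc_bdd (U : Set G) (g : G) :
    BddBelow {x : ℝ | ∃ k : ℕ, (∀ i ≤ k, g ^ i ∈ U) ∧ x = 1 / ((k : ℝ) + 1)} := by
  refine ⟨0, ?_⟩
  rintro x ⟨k, _, rfl⟩
  positivity

lemma esc_le {U : Set G} {g : G} {k : ℕ} (h : ∀ i ≤ k, g ^ i ∈ U) :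
    esc U g ≤ 1 / ((k : ℝ) + 1) := csInf_le (esc_bdd U g) ⟨k, h, rfl⟩

lemma esc_ne {U : Set G} (h1 : (1 : G) ∈ U) (g : G) :
    {x : ℝ | ∃ k : ℕ, (∀ i ≤ k, g ^ i ∈ U) ∧ x = 1 / ((k : ℝ) + 1)}.Nonempty :=
  ⟨1 / ((0 : ℕ) + 1), 0, by simpa using h1, rfl⟩

lemma esc_nonneg (U : Set G) (g : G) : 0 ≤ esc U g := by
  apply Real.sInf_nonneg
  rintro x ⟨k, _, rfl⟩
  positivity

lemma esc_le_one {U : Set G} (h1 : (1 : G) ∈ U) (g : G) : esc U g ≤ 1 := by
  have := esc_le (U := U) (g := g) (k := 0) (by simpa using h1)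
  simpa using this

lemma mem_of_esc {U : Set G} (h1 : (1 : G) ∈ U) {g : G} {m : ℕ} (h : (m : ℝ) * esc U g < 1) :
    g ^ m ∈ U := by
  by_contra hm
  have hm0 : 1 ≤ m := by
    rcases Nat.eq_zero_or_pos m with h0 | h0
    · subst h0; simp [h1] at hm
    · exact h0
  have hmpos : (0 : ℝ) < m := by exact_mod_cast hm0
  have : 1 / (m : ℝ) ≤ esc U g := by
    apply le_csInf (esc_ne h1 g)
    rintro x ⟨k, hk, rfl⟩
    have hkm : k < m := by
      by_contra hcon
      exact hm (hk m (not_lt.mp hcon))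
    have : (k : ℝ) + 1 ≤ m := by exact_mod_cast hkm
    exact one_div_le_one_div_of_le (by positivity) this
  have h2 : (m : ℝ) * (1 / m) ≤ m * esc U g := mul_le_mul_of_nonneg_left this hmpos.le
  rw [mul_one_div_cancel hmpos.ne'] at h2
  linarith

lemma exists_of_esc_lt {U : Set G} (h1 : (1 : G) ∈ U) {g : G} {x : ℝ} (h : esc U g < x) :
    ∃ k : ℕ, (∀ i ≤ k, g ^ i ∈ U) ∧ 1 / ((k : ℝ) + 1) < x := by
  obtain ⟨y, ⟨k, hk, rfl⟩, hy⟩ := exists_lt_of_csInf_lt (esc_ne h1 g) h
  exact ⟨k, hk, hy⟩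

lemma esc_inv {U : Set G} (hinv : ∀ g ∈ U, g⁻¹ ∈ U) (g : G) : esc U g⁻¹ = esc U g := by
  have h : ∀ x : G, x⁻¹ ∈ U ↔ x ∈ U := fun x =>
    ⟨fun hx => by simpa using hinv _ hx, fun hx => hinv _ hx⟩
  unfold esc
  simp only [inv_pow, h]

end

theorem taskA1.{u} : TaskA1.{u} := by
  intro G _ _ _ _ _ hG
  obtain ⟨U₀, hU₀, hH⟩ := hG
  obtain ⟨K₀, hK₀, hK₀U, hK₀c⟩ := local_compact_nhds hU₀
  -- the compact symmetric set `W`
  set W : Set G := K₀ ∩ K₀⁻¹ with hWdef
  have hWc : IsCompact W := hK₀c.inter_right hK₀c.inv.isClosed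
  have hWn : W ∈ 𝓝 (1 : G) := inter_mem hK₀ (by simpa using inv_mem_nhds_one G hK₀)
  have hWinv : ∀ g ∈ W, g⁻¹ ∈ W := by
    rintro g ⟨h1, h2⟩
    exact ⟨h2, by simpa using h1⟩
  have hWH : ∀ H : Subgroup G, (H : Set G) ⊆ W → H = ⊥ := fun H h =>
    hH H (h.trans (inter_subset_left.trans hK₀U))
  -- the open symmetric set `U`
  obtain ⟨U₁, hU₁o, hU₁1, hU₁⟩ := exists_small 6 W hWn
  set U : Set G := U₁ ∩ U₁⁻¹ with hUdef
  have hUo : IsOpen U := hU₁o.inter hU₁o.inv
  have hU1 : (1 : G) ∈ U := ⟨hU₁1, by simpa using hU₁1⟩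
  have hUinv : ∀ g ∈ U, g⁻¹ ∈ U := by
    rintro g ⟨h1, h2⟩
    exact ⟨h2, by simpa using h1⟩
  have hsix : ∀ l : List G, l.length ≤ 6 → (∀ g ∈ l, g ∈ U) → l.prod ∈ W :=
    fun l hl h => hU₁ l hl fun g hg => (h g hg).1
  have hUW : U ⊆ W := fun g hg => by
    simpa using hsix [g] (by simp) (by simpa using hg)
  have hUn : U ∈ 𝓝 (1 : G) := hUo.mem_nhds hU1
  -- the constant `K₁`
  obtain ⟨K₁, hK₁⟩ := exists_escape hWc hWinv hWH hUn
  -- P1 for `N`
  have hnh : ∀ V ∈ 𝓝 (1 : G), ∃ ε > 0, ∀ g, esc U g < ε → g ∈ V := by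
    intro V hV
    obtain ⟨K, hK⟩ := exists_escape hWc hWinv hWH hV
    refine ⟨1 / ((K : ℝ) + 1), by positivity, fun g hg => hK g fun i hi => hUW ?_⟩
    obtain ⟨k, hk, hk2⟩ := exists_of_esc_lt hU1 hg
    have hKk : K < k := by
      have := (one_div_lt_one_div (by positivity) (by positivity)).mp hk2
      have h3 : (K : ℝ) < k := by linarith
      exact_mod_cast h3
    exact hk i (hi.trans hKk.le)
  -- stay
  have hstay : ∀ V ∈ 𝓝 (1 : G), ∃ c > 0, ∀ g, ∀ k : ℕ, (k : ℝ) * esc U g ≤ c → g ^ k ∈ V := by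
    intro V hV
    obtain ⟨K, hK⟩ := exists_escape hWc hWinv hWH hV
    refine ⟨1 / ((K : ℝ) + 1), by positivity, fun g k hk => hK _ fun i hi => hUW ?_⟩
    rw [← pow_mul]
    apply mem_of_esc hU1
    have h1 : ((k * i : ℕ) : ℝ) * esc U g = i * (k * esc U g) := by push_cast; ring
    rw [h1]
    have h2 : (i : ℝ) * (k * esc U g) ≤ K * (1 / ((K : ℝ) + 1)) := by
      apply mul_le_mul (by exact_mod_cast hi) hk (mul_nonneg (by positivity) (esc_nonneg _ _))
        (by positivity)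
    have h3 : (K : ℝ) * (1 / ((K : ℝ) + 1)) < 1 := by
      rw [mul_one_div, div_lt_one (by positivity)]; linarith
    linarith
  -- escape from `W`
  have hescW : ∀ g, ∀ k : ℕ, (∀ i ≤ k, g ^ i ∈ W) → (k : ℝ) * esc U g ≤ K₁ + 1 := by
    intro g k hk
    have h1 : ∀ j ≤ k / (K₁ + 1), g ^ j ∈ U := by
      intro j hj
      apply hK₁
      intro i hi
      rw [← pow_mul]
      apply hk
      calc j * i ≤ (k / (K₁ + 1)) * (K₁ + 1) := Nat.mul_le_mul hj (hi.trans (Nat.le_succ _))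
        _ ≤ k := Nat.div_mul_le_self _ _
    have h2 := esc_le h1
    have h3 : (k : ℝ) ≤ (K₁ + 1) * ((k / (K₁ + 1) : ℕ) + 1) := by
      have := Nat.lt_mul_div_succ k (Nat.succ_pos K₁)
      have h4 : k ≤ (K₁ + 1) * (k / (K₁ + 1) + 1) := this.le
      exact_mod_cast h4
    have hp : (0 : ℝ) < ((k / (K₁ + 1) : ℕ) : ℝ) + 1 := by positivity
    calc (k : ℝ) * esc U g ≤ ((K₁ + 1) * ((k / (K₁ + 1) : ℕ) + 1)) *
          (1 / (((k / (K₁ + 1) : ℕ) : ℝ) + 1)) :=
          mul_le_mul h3 h2 (esc_nonneg _ _) (by positivity)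
      _ = K₁ + 1 := by field_simp
  -- conjugation
  obtain ⟨c₀, hc₀, hconj₀⟩ : ∃ c > 0, ∀ g, ∀ k : ℕ, (k : ℝ) * esc U g ≤ c → ∀ h ∈ W,
      h * g ^ k * h⁻¹ ∈ U := by
    have hopen : IsOpen {p : G × G | p.1 * p.2 * p.1⁻¹ ∈ U} :=
      hUo.preimage (by fun_prop)
    obtain ⟨u, v, hu, hv, hsu, htv, huv⟩ := generalized_tube_lemma hWc
      (isCompact_singleton (x := (1 : G))) hopen (by
        rintro ⟨a, b⟩ ⟨_, hb⟩
        simp only [mem_singleton_iff] at hb
        subst hb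
        simpa using hU1)
    obtain ⟨c, hc, hc2⟩ := hstay v (hv.mem_nhds (htv rfl))
    refine ⟨c, hc, fun g k hk h hh => ?_⟩
    have := huv (Set.mk_mem_prod (hsu hh) (hc2 g k hk))
    simpa using this
  have hpos : ∀ g, g ≠ 1 → 0 < esc U g := by
    intro g hg
    by_contra hcon
    have h0 : esc U g = 0 := le_antisymm (not_lt.mp hcon) (esc_nonneg _ _)
    exact hg (eq_one_of_pow_mem hWinv hWH g fun i => hUW (mem_of_esc hU1 (by rw [h0]; simp)))
  refine ⟨{
    U := U
    W := W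
    N := esc U
    C := max (K₁ + 2) (1 / c₀)
    one_le_C := le_max_of_le_left (by have : (0 : ℝ) ≤ K₁ := by positivity
                                      linarith)
    isOpen_U := hUo
    one_mem := hU1
    inv_mem := hUinv
    inv_mem_W := hWinv
    compact_W := hWc
    six := hsix
    N_nonneg := esc_nonneg U
    N_le_one := esc_le_one hU1
    N_one := ?_
    N_pos := hpos
    N_inv := esc_inv hUinv
    N_small := ?_
    N_nhds := hnh
    mem_U := fun g hg => by simpa using mem_of_esc (m := 1) hU1 (by simpa using hg)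
    stay := hstay
    leave := ?_
    leave_U := ?_
    esc_W := ?_
    conj := ?_ }⟩
  · -- N_one
    by_contra h
    have hp : 0 < esc U (1 : G) := lt_of_le_of_ne (esc_nonneg _ _) (Ne.symm h)
    obtain ⟨k, hk⟩ := exists_nat_one_div_lt hp
    have := esc_le (U := U) (g := (1 : G)) (k := k) (by simp [hU1])
    linarith
  · -- N_small
    intro ε hε
    obtain ⟨k, hk⟩ := exists_nat_one_div_lt hε
    have h1 : ∀ᶠ g in 𝓝 (1 : G), ∀ i ∈ Finset.range (k + 1), g ^ i ∈ U := by
      rw [Filter.eventually_all_finset]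
      intro i _
      have : Tendsto (fun g : G => g ^ i) (𝓝 1) (𝓝 (1 ^ i)) := (continuous_pow i).tendsto 1
      rw [one_pow] at this
      exact this.eventually hUn
    filter_upwards [h1] with g hg
    refine lt_of_le_of_lt (esc_le fun i hi => hg i ?_) hk
    simpa using Nat.lt_succ_of_le hi
  · -- leave
    intro g hg
    have hex : ∃ k : ℕ, g ^ k ∉ W := by
      by_contra hcon
      push Not at hcon
      exact hg (eq_one_of_pow_mem hWinv hWH g hcon)
    classical
    refine ⟨Nat.find hex, ?_, Nat.find_spec hex⟩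
    have hk0 : Nat.find hex ≠ 0 := by
      intro h0
      have := Nat.find_spec hex
      rw [h0, pow_zero] at this
      exact this (hUW hU1)
    obtain ⟨m, hm⟩ := Nat.exists_eq_succ_of_ne_zero hk0
    have h1 := hescW g m fun i hi => by
      by_contra hcon
      have := Nat.find_min' hex hcon
      omega
    rw [hm]
    have h2 := esc_le_one hU1 g
    refine le_trans ?_ (le_max_left _ _)
    push_cast
    nlinarith
  · -- leave_U
    intro g hg
    by_contra hcon
    push Not at hcon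
    apply hg
    apply hK₁
    intro i hi
    apply hcon i
    refine le_trans ?_ (le_max_left _ _)
    have : (i : ℝ) ≤ K₁ := by exact_mod_cast hi
    linarith
  · -- esc_W
    intro g k hk
    refine (hescW g k hk).trans (le_trans ?_ (le_max_left _ _))
    linarith
  · -- conj
    intro h hh g
    by_cases hg : g = 1
    · subst hg
      have : (max ((K₁ : ℝ) + 2) (1 / c₀)) * esc U (1 : G) ≥ 0 :=
        mul_nonneg (le_max_of_le_right (by positivity)) (esc_nonneg _ _)
      have h0 : esc U (1 : G) = 0 := by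
        by_contra h
        have hp : 0 < esc U (1 : G) := lt_of_le_of_ne (esc_nonneg _ _) (Ne.symm h)
        obtain ⟨k, hk⟩ := exists_nat_one_div_lt hp
        have := esc_le (U := U) (g := (1 : G)) (k := k) (by simpa using fun _ _ => hU1)
        linarith
      simpa [h0] using this
    · have hp := hpos g hg
      have h1 : ∀ i ≤ ⌊c₀ / esc U g⌋₊, (h * g * h⁻¹) ^ i ∈ U := by
        intro i hi
        rw [conj_pow]
        apply hconj₀ g i _ h (hUW hh)
        have h2 : (i : ℝ) ≤ c₀ / esc U g :=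
          le_trans (by exact_mod_cast hi) (Nat.floor_le (by positivity))
        rwa [le_div_iff₀ hp] at h2
      have h2 := esc_le h1
      have h3 : c₀ / esc U g < (⌊c₀ / esc U g⌋₊ : ℝ) + 1 := Nat.lt_floor_add_one _
      have h4 : 1 / ((⌊c₀ / esc U g⌋₊ : ℝ) + 1) ≤ 1 / (c₀ / esc U g) :=
        one_div_le_one_div_of_le (by positivity) h3.le
      calc esc U (h * g * h⁻¹) ≤ 1 / (c₀ / esc U g) := h2.trans h4
        _ = (1 / c₀) * esc U g := by field_simp
        _ ≤ max ((K₁ : ℝ) + 2) (1 / c₀) * esc U g :=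
          mul_le_mul_of_nonneg_right (le_max_right _ _) hp.le

end Crest.Agent.R217.A1_740
end

-- ▼ part R217/A9a_970
section

/-!
Row 217 (S0336), part A, task A9a: `Psi B = ∫₀¹ exp (-sB) ds` is smooth in `B`.
-/

set_option autoImplicit false

open Filter Topology
open scoped Topology ContDiff
open Crest.Agent.R217.SpecA343

namespace Crest.Agent.R217.A9a_970

open ContinuousLinearMap in
/-- Intertwining of exponentials. -/
theorem exp_comp_intertwine {V : Type*} [NormedAddCommGroup V] [NormedSpace ℝ V] [CompleteSpace V]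
    {W : Type*} [NormedAddCommGroup W] [NormedSpace ℝ W] [CompleteSpace W]
    (M : W →L[ℝ] W) (N : V →L[ℝ] V) (L : V →L[ℝ] W) (h : M.comp L = L.comp N) :
    (NormedSpace.exp M).comp L = L.comp (NormedSpace.exp N) := by
  have hpow : ∀ n : ℕ, (M ^ n).comp L = L.comp (N ^ n) := by
    intro n
    induction n with
    | zero => rfl
    | succ n ih =>
      rw [pow_succ, pow_succ, ContinuousLinearMap.mul_def, ContinuousLinearMap.mul_def,
        ContinuousLinearMap.comp_assoc, h, ← ContinuousLinearMap.comp_assoc, ih,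
        ContinuousLinearMap.comp_assoc]
  have h1 := NormedSpace.exp_series_hasSum_exp' (𝕂 := ℝ) M
  have h2 := NormedSpace.exp_series_hasSum_exp' (𝕂 := ℝ) N
  have h3 := ((ContinuousLinearMap.compL ℝ V W W).flip L).hasSum h1
  have h4 := ((ContinuousLinearMap.compL ℝ V V W) L).hasSum h2
  have h5 : (fun b : ℕ => ((ContinuousLinearMap.compL ℝ V W W).flip L)
      ((b.factorial : ℝ)⁻¹ • M ^ b)) =
      fun b : ℕ => ((ContinuousLinearMap.compL ℝ V V W) L) ((b.factorial : ℝ)⁻¹ • N ^ b) := by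
    funext b
    simp only [ContinuousLinearMap.flip_apply, ContinuousLinearMap.compL_apply,
      ContinuousLinearMap.smul_comp, ContinuousLinearMap.comp_smul, hpow]
  rw [h5] at h3
  have h6 := h3.unique h4
  simpa using h6

/-- The block operator. -/
noncomputable def blk {V : Type*} [NormedAddCommGroup V] [NormedSpace ℝ V] (B : V →L[ℝ] V) :
    (V × V) →L[ℝ] (V × V) :=
  (ContinuousLinearMap.inl ℝ V V).comp
    ((-B).comp (ContinuousLinearMap.fst ℝ V V) + ContinuousLinearMap.snd ℝ V V)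

theorem blk_contDiff {V : Type*} [NormedAddCommGroup V] [NormedSpace ℝ V] :
    ContDiff ℝ ∞ (blk (V := V)) := by
  unfold blk
  refine contDiff_const.clm_comp ?_
  refine ContDiff.add ?_ contDiff_const
  exact (contDiff_neg).clm_comp contDiff_const

theorem blk_inl {V : Type*} [NormedAddCommGroup V] [NormedSpace ℝ V] (B : V →L[ℝ] V) (s : ℝ) :
    (s • blk B).comp (ContinuousLinearMap.inl ℝ V V) =
      (ContinuousLinearMap.inl ℝ V V).comp (-(s • B)) := by
  ext v
  · simp [blk]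
  · simp [blk]

theorem blk_apply_inr {V : Type*} [NormedAddCommGroup V] [NormedSpace ℝ V] (B : V →L[ℝ] V) (v : V) :
    blk B (0, v) = (v, 0) := by
  simp [blk]

theorem psi_eq {V : Type*} [NormedAddCommGroup V] [NormedSpace ℝ V] [CompleteSpace V]
    (B : V →L[ℝ] V) :
    Psi B = (ContinuousLinearMap.fst ℝ V V).comp
      ((NormedSpace.exp (blk B)).comp (ContinuousLinearMap.inr ℝ V V)) := by
  have hcont : Continuous (fun s : ℝ => NormedSpace.exp (-(s • B))) := by
    have h0 : (fun s : ℝ => NormedSpace.exp (-(s • B))) =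
        fun s : ℝ => NormedSpace.exp (s • (-B)) := by
      funext s
      rw [smul_neg]
    rw [h0]
    exact continuous_iff_continuousAt.2
      (fun s => (hasDerivAt_exp_smul_const (𝕂 := ℝ) (-B) s).continuousAt)
  ext y
  unfold Psi
  rw [ContinuousLinearMap.intervalIntegral_apply (hcont.intervalIntegrable _ _)]
  have hder : ∀ s : ℝ, HasDerivAt
      (fun s : ℝ => (ContinuousLinearMap.fst ℝ V V)
        ((NormedSpace.exp (s • blk B)) (0, y)))
      (NormedSpace.exp (-(s • B)) y) s := by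
    intro s
    have h1 := hasDerivAt_exp_smul_const (𝕂 := ℝ) (blk B) s
    have h2 := (((ContinuousLinearMap.fst ℝ V V).comp
      (ContinuousLinearMap.apply ℝ (V × V) ((0 : V), y))).hasFDerivAt).comp_hasDerivAt s h1
    have h3 : ((ContinuousLinearMap.fst ℝ V V).comp
      (ContinuousLinearMap.apply ℝ (V × V) ((0 : V), y)))
        (NormedSpace.exp (s • blk B) * blk B) = NormedSpace.exp (-(s • B)) y := by
      have h4 := exp_comp_intertwine (s • blk B) (-(s • B)) (ContinuousLinearMap.inl ℝ V V)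
        (blk_inl B s)
      have h5 := congrArg (fun T => T y) h4
      simp only [ContinuousLinearMap.comp_apply, ContinuousLinearMap.inl_apply] at h5
      simp only [ContinuousLinearMap.comp_apply, ContinuousLinearMap.apply_apply,
        mul_apply_eq_comp, blk_apply_inr, h5, ContinuousLinearMap.coe_fst']
    rw [h3] at h2
    exact h2
  rw [intervalIntegral.integral_eq_sub_of_hasDerivAt (fun s _ => hder s)
    ((hcont.clm_apply continuous_const).intervalIntegrable _ _)]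
  simp

end Crest.Agent.R217.A9a_970

namespace Crest.Agent.R217.A9a_970

theorem taskA9a.{v} : TaskA9a.{v} := by
  intro V _ _ _
  have : CompleteSpace V := FiniteDimensional.complete ℝ V
  refine ⟨?_, ?_⟩
  · have h : (Psi (V := V)) = fun B => (ContinuousLinearMap.fst ℝ V V).comp
        ((NormedSpace.exp (blk B)).comp (ContinuousLinearMap.inr ℝ V V)) := by
      funext B
      exact psi_eq B
    rw [h]
    have hexp : ContDiff ℝ ∞ (NormedSpace.exp : ((V × V) →L[ℝ] (V × V)) → _) := by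
      rw [contDiff_iff_contDiffAt]
      intro x
      exact (NormedSpace.exp_analytic (𝕂 := ℝ) x).contDiffAt
    exact contDiff_const.clm_comp ((hexp.comp blk_contDiff).clm_comp contDiff_const)
  · unfold Psi
    simp only [smul_zero, neg_zero, NormedSpace.exp_zero]
    simp
    rfl

end Crest.Agent.R217.A9a_970
end

-- ▼ part R217/A9b_430
section

/-!
Row 217 (S0336), PART A, task A9b: the derivative of the exponential map. helper430
-/

set_option autoImplicit false

open Filter Topology BoundedContinuousFunction Metric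
open scoped Topology BoundedContinuousFunction Manifold ContDiff

namespace Crest.Agent.R217.A9b_430
open Crest.Agent.R217.SpecA343 Crest.Agent.R217.A8_430

universe u v

/-- reversed product `f (k-1) * ... * f 0` -/
def PR {G : Type u} [Group G] (f : ℕ → G) : ℕ → G
  | 0 => 1
  | k + 1 => f k * PR f k

lemma mul_pow_eq {G : Type u} [Group G] (a x : G) (k : ℕ) :
    (a * x) ^ k = a ^ k * PR (fun j => (a ^ j)⁻¹ * x * a ^ j) k := by
  induction k with
  | zero => simp [PR]
  | succ k ih =>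
    rw [pow_succ' (a * x), ih, PR, pow_succ' a]
    simp only [mul_assoc, mul_inv_cancel_left]

section
variable {G : Type u} [Group G] [TopologicalSpace G]

lemma conj_le (N : GNorm G) (b q : G) (hb : N.n b ≤ N.r) (hq : N.n q ≤ N.r) :
    N.n (b⁻¹ * q * b) ≤ 2 * N.n q := by
  have h1 := N.comm q b hq hb
  have h2 : b⁻¹ * q * b = q * (q⁻¹ * b⁻¹ * q * b) := by group
  rw [h2]
  have h3 := N.mul q (q⁻¹ * b⁻¹ * q * b)
  have hC : 0 ≤ N.C := zero_le_one.trans N.one_le_C
  have h4 : N.C * N.n q * N.n b ≤ N.n q := by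
    have h5 : N.C * N.n b ≤ 1 := by
      have := N.Cr
      have : N.C * N.n b ≤ N.C * N.r := mul_le_mul_of_nonneg_left hb hC
      linarith
    calc N.C * N.n q * N.n b = (N.C * N.n b) * N.n q := by ring
      _ ≤ 1 * N.n q := mul_le_mul_of_nonneg_right h5 (N.nonneg q)
      _ = N.n q := one_mul _
  linarith

variable {V : Type v} [NormedAddCommGroup V] [NormedSpace ℝ V] (E : ExpData G V)

lemma prod_est (w : ℕ → V) (q : ℕ → G) (m : ℕ) (σ η : ℝ) (hσ : σ ≤ E.ρ)
    (hw : ∑ j ∈ Finset.range m, ‖w j‖ ≤ σ) (hq : ∀ j < m, E.N.n (q j) ≤ η)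
    (hη : η ≤ E.N.r) :
    E.N.n ((E.exp (∑ j ∈ Finset.range m, w j))⁻¹ * PR (fun j => E.exp (w j) * q j) m) ≤
      E.K * σ ^ 2 + 2 * m * η := by
  have hK : 0 ≤ E.K := zero_le_one.trans E.one_le_K
  have hσ0 : 0 ≤ σ := (Finset.sum_nonneg fun _ _ => norm_nonneg _).trans hw
  have key : ∀ k ≤ m, E.N.n ((E.exp (∑ j ∈ Finset.range k, w j))⁻¹ *
      PR (fun j => E.exp (w j) * q j) k) ≤
      E.K * σ * (∑ j ∈ Finset.range k, ‖w j‖) + 2 * k * η := by
    intro k
    induction k with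
    | zero => intro _; simp [PR, exp_zero, E.N.one]
    | succ k ih =>
      intro hk
      have hk' : k < m := hk
      have ih' := ih hk'.le
      set S := ∑ j ∈ Finset.range k, w j with hS
      have hSk : ‖S‖ ≤ σ := by
        refine (norm_sum_le _ _).trans (le_trans ?_ hw)
        exact Finset.sum_le_sum_of_subset_of_nonneg (Finset.range_mono hk'.le)
          (fun _ _ _ => norm_nonneg _)
      have hwk : ‖w k‖ ≤ σ := by
        refine le_trans ?_ hw
        exact Finset.single_le_sum (f := fun j => ‖w j‖) (fun _ _ => norm_nonneg _)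
          (Finset.mem_range.mpr hk')
      have h1 := E.exp_add (w k) S (hwk.trans hσ) (hSk.trans hσ)
      have h2 : E.N.n ((E.exp S)⁻¹ * q k * E.exp S) ≤ 2 * η := by
        refine (conj_le E.N _ _ ((E.n_exp_le S).trans (hSk.trans (hσ.trans E.ρ_le)))
          ((hq k hk').trans hη)).trans ?_
        have := hq k hk'
        linarith
      have e : (E.exp (∑ j ∈ Finset.range (k + 1), w j))⁻¹ *
          PR (fun j => E.exp (w j) * q j) (k + 1) =
          ((E.exp (w k) * E.exp S)⁻¹ * E.exp (w k + S))⁻¹ *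
          (((E.exp S)⁻¹ * q k * E.exp S) *
            ((E.exp S)⁻¹ * PR (fun j => E.exp (w j) * q j) k)) := by
        rw [Finset.sum_range_succ, ← hS, add_comm S, PR]
        group
      rw [e, Finset.sum_range_succ]
      refine (E.N.mul _ _).trans ?_
      rw [E.N.inv]
      have h3 := E.N.mul ((E.exp S)⁻¹ * q k * E.exp S)
        ((E.exp S)⁻¹ * PR (fun j => E.exp (w j) * q j) k)
      have h4 : E.K * ‖w k‖ * ‖S‖ ≤ E.K * σ * ‖w k‖ := by
        calc E.K * ‖w k‖ * ‖S‖ ≤ E.K * ‖w k‖ * σ := by gcongr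
          _ = _ := by ring
      push_cast
      have h5 : E.K * σ * (∑ j ∈ Finset.range k, ‖w j‖ + ‖w k‖) =
        E.K * σ * (∑ j ∈ Finset.range k, ‖w j‖) + E.K * σ * ‖w k‖ := by ring
      rw [h5]
      linarith
  refine (key m le_rfl).trans ?_
  have : E.K * σ * (∑ j ∈ Finset.range m, ‖w j‖) ≤ E.K * σ * σ := by gcongr
  nlinarith

end

section
variable {A : Type v} [NormedRing A] [NormedAlgebra ℝ A] [CompleteSpace A]

/-- the primitive of `exp (-sB)` -/
noncomputable def FF (B : A) (x : ℝ) : A := ∫ s in (0 : ℝ)..x, NormedSpace.exp (-(s • B))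

lemma cont_exp (B : A) : Continuous (fun s : ℝ => NormedSpace.exp (-(s • B))) := by
  let _ : NormedAlgebra ℚ A := NormedAlgebra.restrictScalars ℚ ℝ A
  exact NormedSpace.exp_continuous.comp (by fun_prop)

lemma exp_add_mul (B : A) (s t : ℝ) : NormedSpace.exp (-((s + t) • B)) =
    NormedSpace.exp (-(s • B)) * NormedSpace.exp (-(t • B)) := by
  let _ : NormedAlgebra ℚ A := NormedAlgebra.restrictScalars ℚ ℝ A
  rw [← NormedSpace.exp_add_of_commute, add_smul, neg_add]
  exact (((Commute.refl B).smul_left s).smul_right t).neg_left.neg_right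

lemma FF_add (B : A) (x y : ℝ) : FF B (x + y) = FF B x + NormedSpace.exp (-(x • B)) * FF B y := by
  have hc := cont_exp B
  have h1 : NormedSpace.exp (-(x • B)) * FF B y =
      ∫ s in (0:ℝ)..y, NormedSpace.exp (-((x + s) • B)) := by
    have := (ContinuousLinearMap.mul ℝ A (NormedSpace.exp (-(x • B)))).intervalIntegral_comp_comm
      (hc.intervalIntegrable (μ := MeasureTheory.volume) 0 y)
    simp only [exp_add_mul]
    simpa [FF] using this.symm
  rw [h1, intervalIntegral.integral_comp_add_left (fun x => NormedSpace.exp (-(x • B))) x,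
    add_zero]
  exact (intervalIntegral.integral_add_adjacent_intervals (hc.intervalIntegrable _ _)
    (hc.intervalIntegrable _ _)).symm

lemma FF_mul (B : A) (h : ℝ) (k : ℕ) : FF B (k * h) =
    (∑ j ∈ Finset.range k, NormedSpace.exp (-(((j : ℝ) * h) • B))) * FF B h := by
  induction k with
  | zero => simp [FF]
  | succ k ih =>
    push_cast
    rw [add_mul, one_mul, FF_add, ih, Finset.sum_range_succ, add_mul]

lemma FF_tendsto (B : A) : Tendsto (fun m : ℕ => (m : ℝ) • FF B ((m : ℝ)⁻¹)) atTop (𝓝 1) := by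
  have hc := cont_exp B
  have h1 : HasDerivAt (FF B) (NormedSpace.exp (-((0 : ℝ) • B))) 0 :=
    (hc.integral_hasStrictDerivAt 0 0).hasDerivAt
  rw [zero_smul, neg_zero, NormedSpace.exp_zero] at h1
  have h2 := h1.tendsto_slope_zero_right
  have h3 : Tendsto (fun m : ℕ => ((m : ℝ))⁻¹) atTop (𝓝[>] 0) := by
    refine tendsto_nhdsWithin_iff.mpr ⟨tendsto_inv_atTop_nhds_zero_nat, ?_⟩
    filter_upwards [eventually_gt_atTop 0] with m hm
    have : (0 : ℝ) < m := by exact_mod_cast hm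
    exact inv_pos.mpr this
  refine (h2.comp h3).congr fun m => ?_
  simp [FF]

end

section MAIN
variable {G : Type u} [Group G] [TopologicalSpace G]
  {V : Type v} [NormedAddCommGroup V] [NormedSpace ℝ V]

lemma exp_smul_nat (E : ExpData G V) (u : V) (k : ℕ) : E.exp ((k : ℝ) • u) = E.exp u ^ k := by
  induction k with
  | zero => simp [exp_zero]
  | succ k ih =>
    push_cast
    rw [E.exp_add_smul, ih, one_smul, pow_succ]

variable [IsTopologicalGroup G] [T2Space G] (E : ExpData G V) (A : AdData E)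

omit [T2Space G] in
lemma Ad_eq (g : G) (u : V) : A.Ad g u = adf E g u :=
  (adf_unique E fun t => by rw [A.exp_Ad, map_smul]).symm

omit [T2Space G] in
lemma Ad_le (g : G) (hg : E.N.n g ≤ E.ρ) (u : V) : ‖A.Ad g u‖ ≤ 2 * ‖u‖ := by
  have h1 := adf_near E g (hg.trans E.ρ_le) u
  rw [← Ad_eq E A] at h1
  have hC : 0 ≤ E.N.C := zero_le_one.trans E.N.one_le_C
  have h2 : E.N.C * E.N.n g ≤ E.N.C * E.N.r := by
    have := hg.trans E.ρ_le
    gcongr
  have h3 := E.N.Cr
  have h4 : 4 * E.N.C * E.N.n g * ‖u‖ ≤ 1 * ‖u‖ := by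
    have : 4 * E.N.C * E.N.n g ≤ 1 := by linarith
    gcongr
  have h5 : ‖A.Ad g u‖ ≤ ‖A.Ad g u - u‖ + ‖u‖ := by
    simpa using norm_add_le (A.Ad g u - u) u
  linarith

omit [IsTopologicalGroup G] [T2Space G] in
lemma exp_ad_eq (z : V) (s : ℝ) :
    NormedSpace.exp (-(s • A.ad z)) = A.Ad (E.exp (-(s • z))) := by
  rw [A.Ad_exp, map_neg, map_smul]

omit [IsTopologicalGroup G] [T2Space G] in
lemma norm_neg_smul_le {z : V} {s : ℝ} (h0 : 0 ≤ s) (h1 : s ≤ 1) (hz : ‖z‖ ≤ E.ρ) :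
    E.N.n (E.exp (-(s • z))) ≤ E.ρ := by
  refine (E.n_exp_le _).trans ?_
  rw [norm_neg, norm_smul, Real.norm_eq_abs, abs_of_nonneg h0]
  calc s * ‖z‖ ≤ 1 * ‖z‖ := by gcongr
    _ ≤ E.ρ := by rw [one_mul]; exact hz

/-- the approximating sums -/
noncomputable def SS (z v : V) (m : ℕ) : V :=
  ∑ j ∈ Finset.range m, (m : ℝ)⁻¹ • A.Ad (E.exp (-(((j : ℝ) * (m : ℝ)⁻¹) • z))) v

lemma jm_mem {j m : ℕ} (hj : j < m) : 0 ≤ (j : ℝ) * (m : ℝ)⁻¹ ∧ (j : ℝ) * (m : ℝ)⁻¹ ≤ 1 := by
  have hm : (0 : ℝ) < m := by exact_mod_cast (Nat.zero_le j).trans_lt hj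
  have hj' : (j : ℝ) ≤ m := by exact_mod_cast hj.le
  refine ⟨by positivity, ?_⟩
  rw [← div_eq_mul_inv, div_le_one hm]
  exact hj'

omit [T2Space G] in
lemma sum_norm_le {z v : V} (hz : ‖z‖ ≤ E.ρ) (m : ℕ) :
    ∑ j ∈ Finset.range m, ‖(m : ℝ)⁻¹ • A.Ad (E.exp (-(((j : ℝ) * (m : ℝ)⁻¹) • z))) v‖ ≤
      2 * ‖v‖ := by
  rcases Nat.eq_zero_or_pos m with rfl | hm
  · simp
  have hm' : (0 : ℝ) < m := by exact_mod_cast hm
  calc ∑ j ∈ Finset.range m, ‖(m : ℝ)⁻¹ • A.Ad (E.exp (-(((j : ℝ) * (m : ℝ)⁻¹) • z))) v‖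
      ≤ ∑ j ∈ Finset.range m, (m : ℝ)⁻¹ * (2 * ‖v‖) := by
        refine Finset.sum_le_sum fun j hj => ?_
        obtain ⟨h0, h1⟩ := jm_mem (Finset.mem_range.mp hj)
        rw [norm_smul, Real.norm_eq_abs, abs_of_pos (inv_pos.mpr hm')]
        have := Ad_le E A _ (norm_neg_smul_le E h0 h1 hz) v
        gcongr
    _ = 2 * ‖v‖ := by
        rw [Finset.sum_const, Finset.card_range, nsmul_eq_mul]
        field_simp

omit [T2Space G] in
lemma SS_norm {z v : V} (hz : ‖z‖ ≤ E.ρ) (m : ℕ) : ‖SS E A z v m‖ ≤ 2 * ‖v‖ :=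
  (norm_sum_le _ _).trans (sum_norm_le E A hz m)

omit [T2Space G] in
lemma main_est {z v : V} (hz : ‖z‖ ≤ E.ρ) (hv : 2 * ‖v‖ ≤ E.ρ) {m : ℕ} (hm : 0 < m) :
    E.N.n ((E.exp (SS E A z v m))⁻¹ * ((E.exp z)⁻¹ * E.exp (z + v))) ≤
      4 * E.K * ‖v‖ ^ 2 + 4 * E.K * ‖z‖ * ‖v‖ * (m : ℝ)⁻¹ := by
  have hm' : (0 : ℝ) < m := by exact_mod_cast hm
  have hK : 0 ≤ E.K := zero_le_one.trans E.one_le_K
  set a := E.exp ((m : ℝ)⁻¹ • z) with ha
  set r := (E.exp ((m : ℝ)⁻¹ • z) * E.exp ((m : ℝ)⁻¹ • v))⁻¹ * E.exp ((m : ℝ)⁻¹ • (z + v)) with hr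
  set x := E.exp ((m : ℝ)⁻¹ • v) * r with hx
  have hax : a * x = E.exp ((m : ℝ)⁻¹ • (z + v)) := by
    rw [hx, hr, ha]; group
  have haxm : (a * x) ^ m = E.exp (z + v) := by
    rw [hax, ← exp_smul_nat, smul_smul, mul_inv_cancel₀ hm'.ne', one_smul]
  have ham : a ^ m = E.exp z := by
    rw [ha, ← exp_smul_nat, smul_smul, mul_inv_cancel₀ hm'.ne', one_smul]
  have haj : ∀ j : ℕ, (a ^ j)⁻¹ = E.exp (-(((j : ℝ) * (m : ℝ)⁻¹) • z)) := by
    intro j
    rw [ha, ← exp_smul_nat, smul_smul, exp_neg]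
  have hf : ∀ j : ℕ, (a ^ j)⁻¹ * x * a ^ j =
      E.exp ((m : ℝ)⁻¹ • A.Ad (E.exp (-(((j : ℝ) * (m : ℝ)⁻¹) • z))) v) *
        ((a ^ j)⁻¹ * r * a ^ j) := by
    intro j
    rw [← haj, ← map_smul, ← A.exp_Ad, hx]
    group
  have h1 := mul_pow_eq a x m
  rw [haxm, ham] at h1
  have h2 : (E.exp z)⁻¹ * E.exp (z + v) = PR (fun j =>
      E.exp ((m : ℝ)⁻¹ • A.Ad (E.exp (-(((j : ℝ) * (m : ℝ)⁻¹) • z))) v) *
        ((a ^ j)⁻¹ * r * a ^ j)) m := by
    rw [h1, inv_mul_cancel_left]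
    congr 1
    funext j
    exact hf j
  have hminv : (m : ℝ)⁻¹ ≤ 1 := by
    rw [inv_le_one₀ hm']; exact_mod_cast hm
  have hminv0 : 0 ≤ (m : ℝ)⁻¹ := (inv_pos.mpr hm').le
  have hv' : ‖v‖ ≤ E.ρ := by have := norm_nonneg v; linarith
  have hs : ∀ u : V, ‖u‖ ≤ E.ρ → ‖(m : ℝ)⁻¹ • u‖ ≤ E.ρ := by
    intro u hu
    rw [norm_smul, Real.norm_eq_abs, abs_of_nonneg hminv0]
    calc (m : ℝ)⁻¹ * ‖u‖ ≤ 1 * ‖u‖ := by gcongr
      _ ≤ E.ρ := by rw [one_mul]; exact hu
  have hrn : E.N.n r ≤ E.K * ‖z‖ * ‖v‖ * (m : ℝ)⁻¹ ^ 2 := by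
    have := E.exp_add _ _ (hs z hz) (hs v hv')
    rw [hr, smul_add]
    refine this.trans (le_of_eq ?_)
    rw [norm_smul, norm_smul, Real.norm_eq_abs, abs_of_nonneg hminv0]
    ring
  have hρ := E.ρ_pos
  have hrρ : E.K * ‖z‖ * ‖v‖ * (m : ℝ)⁻¹ ^ 2 ≤ E.ρ / 8 := by
    have h3 : (m : ℝ)⁻¹ ^ 2 ≤ 1 := pow_le_one₀ hminv0 hminv
    have h4 : E.K * ‖z‖ * ‖v‖ ≤ E.K * E.ρ * E.ρ := by gcongr
    have h5 := E.Kρ
    have h6 : E.K * E.ρ * E.ρ ≤ (1 / 8) * E.ρ := by
      have : E.K * E.ρ ≤ 1 / 8 := by linarith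
      gcongr
    calc E.K * ‖z‖ * ‖v‖ * (m : ℝ)⁻¹ ^ 2 ≤ E.K * ‖z‖ * ‖v‖ * 1 := by gcongr
      _ ≤ E.ρ / 8 := by linarith
  have hq : ∀ j < m, E.N.n ((a ^ j)⁻¹ * r * a ^ j) ≤ 2 * (E.K * ‖z‖ * ‖v‖ * (m : ℝ)⁻¹ ^ 2) := by
    intro j hj
    obtain ⟨h0, h1⟩ := jm_mem hj
    have h3 : E.N.n (a ^ j) ≤ E.N.r := by
      rw [← E.N.inv, haj]
      exact (norm_neg_smul_le E h0 h1 hz).trans E.ρ_le
    refine (conj_le E.N _ _ h3 (hrn.trans (hrρ.trans ?_))).trans ?_
    · have := E.ρ_le; linarith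
    · linarith
  have h3 := prod_est E _ _ m (2 * ‖v‖) _ hv (sum_norm_le E A (v := v) hz m) hq
    (by have := E.ρ_le; linarith)
  rw [h2]
  refine h3.trans (le_of_eq ?_)
  field_simp
  ring

/-- TASK A9b -/
theorem SS_tendsto [FiniteDimensional ℝ V] {z v : V} (hz : ‖z‖ ≤ E.ρ) :
    Tendsto (SS E A z v) atTop (𝓝 (Psi (A.ad z) v)) := by
  have : CompleteSpace V := FiniteDimensional.complete ℝ V
  set B := A.ad z with hB
  have hF : Tendsto (fun m : ℕ => ‖((m : ℝ) • FF B ((m : ℝ)⁻¹)) v - v‖) atTop (𝓝 0) := by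
    have h1 := (ContinuousLinearMap.apply ℝ V v).continuous.tendsto (1 : V →L[ℝ] V)
    have h2 := (h1.comp (FF_tendsto B)).sub_const v
    have h3 := h2.norm
    simpa using h3
  rw [tendsto_iff_norm_sub_tendsto_zero]
  refine squeeze_zero' (g := fun m : ℕ => 2 * ‖((m : ℝ) • FF B ((m : ℝ)⁻¹)) v - v‖)
    (Eventually.of_forall fun _ => norm_nonneg _) ?_ (by simpa using hF.const_mul 2)
  filter_upwards [eventually_gt_atTop 0] with m hm
  have hm' : (0 : ℝ) < m := by exact_mod_cast hm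
  have h1 : Psi B v = (∑ j ∈ Finset.range m,
      NormedSpace.exp (-(((j : ℝ) * (m : ℝ)⁻¹) • B))) (FF B ((m : ℝ)⁻¹) v) := by
    have := FF_mul B ((m : ℝ)⁻¹) m
    rw [mul_inv_cancel₀ hm'.ne'] at this
    have h2 : Psi B = FF B 1 := rfl
    rw [h2, this]
    rfl
  have h2 : Psi B v = ∑ j ∈ Finset.range m, (m : ℝ)⁻¹ •
      A.Ad (E.exp (-(((j : ℝ) * (m : ℝ)⁻¹) • z))) (((m : ℝ) • FF B ((m : ℝ)⁻¹)) v) := by
    rw [h1, _root_.sum_apply]
    refine Finset.sum_congr rfl fun j _ => ?_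
    rw [hB, exp_ad_eq, _root_.smul_apply, map_smul, smul_smul,
      inv_mul_cancel₀ hm'.ne', one_smul]
  have h3 : SS E A z v m - Psi B v = ∑ j ∈ Finset.range m, (m : ℝ)⁻¹ •
      A.Ad (E.exp (-(((j : ℝ) * (m : ℝ)⁻¹) • z))) (v - ((m : ℝ) • FF B ((m : ℝ)⁻¹)) v) := by
    rw [h2, SS, ← Finset.sum_sub_distrib]
    refine Finset.sum_congr rfl fun j _ => ?_
    rw [map_sub, smul_sub]
  rw [h3]
  refine (norm_sum_le _ _).trans ((sum_norm_le E A hz m).trans ?_)
  rw [norm_sub_rev]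

/-- TASK A9b -/
theorem taskA9b : TaskA9b.{u, v} := by
  intro G _ _ _ _ V _ _ _ E A
  have hK : 0 < E.K := zero_lt_one.trans_le E.one_le_K
  refine ⟨4 * E.K, by positivity, E.ρ / 2, by have := E.ρ_pos; positivity, fun z v hz hv => ?_⟩
  have hρ := E.ρ_pos
  have hz' : ‖z‖ ≤ E.ρ := by linarith
  have hv' : 2 * ‖v‖ ≤ E.ρ := by linarith
  have hS := SS_tendsto E A (v := v) hz'
  have hΨ : ‖Psi (A.ad z) v‖ ≤ E.ρ :=
    le_of_tendsto hS.norm (Eventually.of_forall fun m => (SS_norm E A hz' m).trans hv')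
  have h1 : Tendsto (fun m : ℕ => 4 * ‖SS E A z v m - Psi (A.ad z) v‖ +
      (4 * E.K * ‖v‖ ^ 2 + 4 * E.K * ‖z‖ * ‖v‖ * (m : ℝ)⁻¹)) atTop
      (𝓝 (4 * 0 + (4 * E.K * ‖v‖ ^ 2 + 4 * E.K * ‖z‖ * ‖v‖ * 0))) := by
    refine ((tendsto_iff_norm_sub_tendsto_zero.mp hS).const_mul 4).add ?_
    exact (tendsto_inv_atTop_nhds_zero_nat.const_mul _).const_add _
  have h2 : 4 * 0 + (4 * E.K * ‖v‖ ^ 2 + 4 * E.K * ‖z‖ * ‖v‖ * 0) = 4 * E.K * ‖v‖ ^ 2 := by ring
  rw [h2] at h1
  refine ge_of_tendsto h1 ?_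
  filter_upwards [eventually_gt_atTop 0] with m hm
  have h3 := main_est E A hz' hv' hm
  have h4 := E.dist_le _ _ hΨ ((SS_norm E A hz' m).trans hv')
  have e : (E.exp z * E.exp (Psi (A.ad z) v))⁻¹ * E.exp (z + v) =
      ((E.exp (Psi (A.ad z) v))⁻¹ * E.exp (SS E A z v m)) *
      ((E.exp (SS E A z v m))⁻¹ * ((E.exp z)⁻¹ * E.exp (z + v))) := by group
  rw [e]
  exact (E.N.mul _ _).trans (add_le_add h4 h3)

end MAIN

end Crest.Agent.R217.A9b_430
private theorem rz_af3c59fe5c : type_of% @_root_.Crest.Agent.R217.A9b_430.PR.eq_def := @_root_.Crest.Agent.R217.A9b_430.PR.eq_def -- L18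
private theorem rz_e4e4fe6f1b : type_of% @_root_.Crest.Agent.R217.A9b_430.PR.eq_1 := @_root_.Crest.Agent.R217.A9b_430.PR.eq_1 -- L18
end

-- ▼ part R217/A10a_970
section

/-!
Row 217 (S0336), part A, task A10a: bootstrapping for `Df(x) = Φ(x, f x)`.
-/

set_option autoImplicit false

open Filter Topology
open scoped Topology ContDiff
open Crest.Agent.R217.SpecA343

namespace Crest.Agent.R217.A10a_970

theorem contDiffOn_of_fderiv_eq {V : Type*} [NormedAddCommGroup V] [NormedSpace ℝ V]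
    {W : Type*} [NormedAddCommGroup W] [NormedSpace ℝ W] {s : Set V} {t : Set (V × W)}
    {f : V → W} {Φ : V × W → V →L[ℝ] W} (hs : IsOpen s) (hΦ : ContDiffOn ℝ ∞ Φ t)
    (hst : ∀ x ∈ s, (x, f x) ∈ t) (hf : ∀ x ∈ s, HasFDerivAt f (Φ (x, f x)) x) :
    ContDiffOn ℝ ∞ f s := by
  rw [contDiffOn_infty]
  intro n
  induction n with
  | zero =>
    rw [Nat.cast_zero, contDiffOn_zero]
    exact fun x hx => (hf x hx).continuousAt.continuousWithinAt
  | succ n ih =>
    push_cast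
    rw [contDiffOn_succ_iff_fderiv_of_isOpen hs]
    refine ⟨fun x hx => (hf x hx).differentiableAt.differentiableWithinAt, ?_, ?_⟩
    · intro h
      exact absurd h (by simp)
    · have h1 : ContDiffOn ℝ n (fun x => Φ (x, f x)) s := by
        have h2 : ContDiffOn ℝ n Φ t := hΦ.of_le (by exact_mod_cast le_top)
        exact h2.comp (contDiffOn_id.prodMk ih) (fun x hx => hst x hx)
      exact h1.congr (fun x hx => (hf x hx).fderiv)

end Crest.Agent.R217.A10a_970

namespace Crest.Agent.R217.A10a_970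

theorem taskA10a.{v, w} : TaskA10a.{v, w} := by
  intro V _ _ W _ _ s t f Φ hs _ hΦ hst hf
  exact contDiffOn_of_fderiv_eq hs hΦ hst hf

end Crest.Agent.R217.A10a_970
end

-- ▼ part R217/A10b_531
section

/-!
Row 217 (S0336), task A10b: the exponential chart is a local smooth structure.
-/

set_option autoImplicit false

open Filter Topology Set Metric
open scoped Topology Manifold ContDiff

namespace Crest.Agent.R217.A10b531

open Crest.Agent.R217.SpecA343

universe u v

section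
variable {G : Type u} [Group G] [TopologicalSpace G]
  {V : Type v} [NormedAddCommGroup V] [NormedSpace ℝ V]

lemma exp_zero' (E : ExpData G V) : E.exp 0 = 1 := by
  have h := E.exp_add_smul 0 0 0
  simp only [add_zero, smul_zero] at h
  exact (mul_eq_left.mp h.symm)

lemma exp_neg' (E : ExpData G V) (u : V) : E.exp (-u) = (E.exp u)⁻¹ := by
  have h := E.exp_add_smul u 1 (-1)
  simp only [add_neg_cancel, zero_smul, one_smul, neg_smul, exp_zero'] at h
  exact (inv_eq_of_mul_eq_one_right h.symm).symm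

lemma exp_inj (E : ExpData G V) {u w : V} (hu : ‖u‖ ≤ E.ρ) (hw : ‖w‖ ≤ E.ρ)
    (h : E.exp u = E.exp w) : u = w := by
  have h1 := E.le_dist u w hu hw
  rw [h, inv_mul_cancel, E.N.one, mul_zero] at h1
  have h2 : ‖w - u‖ = 0 := le_antisymm h1 (norm_nonneg _)
  exact (sub_eq_zero.mp (norm_eq_zero.mp h2)).symm

/-- the open image -/
def img (E : ExpData G V) : Set G := interior (E.exp '' ball (0 : V) E.ρ)

lemma one_mem_img (E : ExpData G V) : (1 : G) ∈ img E :=
  mem_interior_iff_mem_nhds.mpr (E.exp_nhds E.ρ E.ρ_pos)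

/-- logarithm -/
noncomputable def lg (E : ExpData G V) (g : G) : V :=
  Function.invFunOn E.exp (ball (0 : V) E.ρ) g

lemma exists_of_mem (E : ExpData G V) {g : G} (hg : g ∈ img E) :
    ∃ u ∈ ball (0 : V) E.ρ, E.exp u = g := by
  have h : g ∈ E.exp '' ball (0 : V) E.ρ := interior_subset hg
  exact h

lemma lg_mem (E : ExpData G V) {g : G} (hg : g ∈ img E) : lg E g ∈ ball (0 : V) E.ρ :=
  Function.invFunOn_mem (exists_of_mem E hg)

lemma exp_lg (E : ExpData G V) {g : G} (hg : g ∈ img E) : E.exp (lg E g) = g :=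
  Function.invFunOn_eq (exists_of_mem E hg)

lemma lg_norm (E : ExpData G V) {g : G} (hg : g ∈ img E) : ‖lg E g‖ < E.ρ := by
  simpa using lg_mem E hg

lemma lg_exp (E : ExpData G V) {u : V} (hu : ‖u‖ < E.ρ) (h : E.exp u ∈ img E) :
    lg E (E.exp u) = u :=
  exp_inj E (lg_norm E h).le hu.le (exp_lg E h)

lemma continuousOn_lg [IsTopologicalGroup G] (E : ExpData G V) : ContinuousOn (lg E) (img E) := by
  intro g hg
  apply ContinuousAt.continuousWithinAt
  rw [Metric.continuousAt_iff']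
  intro ε hε
  have h1 : ∀ᶠ h in 𝓝 g, E.N.n (g⁻¹ * h) < ε / 4 := by
    have h2 : Tendsto (fun h => g⁻¹ * h) (𝓝 g) (𝓝 1) := by
      have : ContinuousAt (fun h => g⁻¹ * h) g := by fun_prop
      simpa [ContinuousAt] using this
    exact h2.eventually (E.N.small (ε / 4) (by positivity))
  filter_upwards [h1, isOpen_interior.mem_nhds hg] with h h1 h2
  have h3 := E.le_dist (lg E g) (lg E h) (lg_norm E hg).le (lg_norm E h2).le
  rw [exp_lg E hg, exp_lg E h2] at h3
  rw [dist_eq_norm]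
  linarith

/-- the logarithmic chart -/
noncomputable def chart [IsTopologicalGroup G] (E : ExpData G V) : OpenPartialHomeomorph G V where
  toFun := lg E
  invFun := E.exp
  source := img E
  target := ball 0 E.ρ ∩ E.exp ⁻¹' (img E)
  map_source' := fun g hg => ⟨lg_mem E hg, by rw [mem_preimage, exp_lg E hg]; exact hg⟩
  map_target' := fun u hu => hu.2
  left_inv' := fun g hg => exp_lg E hg
  right_inv' := fun u hu => lg_exp E (by simpa using hu.1) hu.2
  open_source := isOpen_interior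
  open_target := isOpen_ball.inter (isOpen_interior.preimage E.cont)
  continuousOn_toFun := continuousOn_lg E
  continuousOn_invFun := E.cont.continuousOn

lemma chart_coe [IsTopologicalGroup G] (E : ExpData G V) : ⇑(chart E) = lg E := rfl
lemma chart_symm_coe [IsTopologicalGroup G] (E : ExpData G V) : ⇑(chart E).symm = E.exp := rfl

lemma lg_one (E : ExpData G V) : lg E 1 = 0 := by
  have h := lg_exp E (u := 0) (by simpa using E.ρ_pos) (by rw [exp_zero']; exact one_mem_img E)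
  rwa [exp_zero'] at h

/-- conjugation by a small element at most doubles the norm of a small element -/
lemma n_conj_le (N : GNorm G) {a b : G} (ha : N.n a ≤ N.r) (hb : N.n b ≤ N.r) :
    N.n (b⁻¹ * a * b) ≤ 2 * N.n a := by
  have h1 : b⁻¹ * a * b = a * (a⁻¹ * b⁻¹ * a * b) := by group
  rw [h1]
  have h2 := N.mul a (a⁻¹ * b⁻¹ * a * b)
  have h3 := N.comm a b ha hb
  have h4 : N.C * N.n a * N.n b ≤ N.n a := by
    have h5 : N.C * N.n b ≤ N.C * N.r := by
      apply mul_le_mul_of_nonneg_left hb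
      linarith [N.one_le_C]
    have h6 := N.Cr
    have h7 : N.C * N.n b ≤ 1 := by
      have : 0 ≤ N.C * N.r := mul_nonneg (by linarith [N.one_le_C]) N.r_pos.le
      linarith
    calc N.C * N.n a * N.n b = N.n a * (N.C * N.n b) := by ring
      _ ≤ N.n a * 1 := mul_le_mul_of_nonneg_left h7 (N.nonneg a)
      _ = N.n a := mul_one _
  linarith

lemma n_inv_mul_le (N : GNorm G) (a b c d : G) :
    N.n ((a * b)⁻¹ * (c * d)) ≤ N.n a + N.n b + N.n c + N.n d := by
  have h1 := N.mul (a * b)⁻¹ (c * d)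
  have h2 := N.mul a b
  have h3 := N.mul c d
  rw [N.inv] at h1
  linarith

lemma key (E : ExpData G V) (A : AdData E) {c δ : ℝ}
    (hE : ∀ z v : V, ‖z‖ ≤ δ → ‖v‖ ≤ δ →
      E.N.n ((E.exp z * E.exp (Psi (A.ad z) v))⁻¹ * E.exp (z + v)) ≤ c * ‖v‖ ^ 2)
    (x y z z' u v w a b : V)
    (hz : E.exp z = E.exp x * E.exp y) (hz' : E.exp z' = E.exp (x + u) * E.exp (y + v))
    (ha : a = A.Ad (E.exp y)⁻¹ (Psi (A.ad x) u)) (hb : b = Psi (A.ad y) v)
    (hw : Psi (A.ad z) w = a + b)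
    (hx : ‖x‖ ≤ δ) (hu : ‖u‖ ≤ δ) (hy : ‖y‖ ≤ δ) (hv : ‖v‖ ≤ δ) (hzδ : ‖z‖ ≤ δ) (hwδ : ‖w‖ ≤ δ)
    (haρ : ‖a‖ ≤ E.ρ) (hbρ : ‖b‖ ≤ E.ρ) (hzw : ‖z + w‖ ≤ E.ρ) (hz'ρ : ‖z'‖ ≤ E.ρ)
    (h1 : c * ‖u‖ ^ 2 ≤ E.N.r) (h2 : E.N.n (E.exp y * E.exp b) ≤ E.N.r) :
    ‖z + w - z'‖ ≤ 4 * (2 * (c * ‖u‖ ^ 2) + c * ‖v‖ ^ 2 + E.K * ‖a‖ * ‖b‖ + c * ‖w‖ ^ 2) := by
  have k0 := E.le_dist z' (z + w) hz'ρ hzw
  set P := E.exp (Psi (A.ad x) u) with hP
  set e1 := (E.exp x * P)⁻¹ * E.exp (x + u) with he1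
  set e2 := (E.exp y * E.exp b)⁻¹ * E.exp (y + v) with he2
  set e3 := (E.exp a * E.exp b)⁻¹ * E.exp (a + b) with he3
  set e4 := (E.exp z * E.exp (a + b))⁻¹ * E.exp (z + w) with he4
  have n1 : E.N.n e1 ≤ c * ‖u‖ ^ 2 := hE x u hx hu
  have n2 : E.N.n e2 ≤ c * ‖v‖ ^ 2 := by
    have := hE y v hy hv
    rwa [← hb] at this
  have n3 : E.N.n e3 ≤ E.K * ‖a‖ * ‖b‖ := E.exp_add a b haρ hbρ
  have n4 : E.N.n e4 ≤ c * ‖w‖ ^ 2 := by
    have := hE z w hzδ hwδ
    rwa [hw] at this
  have n1' : E.N.n ((E.exp y * E.exp b)⁻¹ * e1 * (E.exp y * E.exp b)) ≤ 2 * E.N.n e1 :=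
    n_conj_le E.N (n1.trans h1) h2
  have hexpa : E.exp a = (E.exp y)⁻¹ * P * E.exp y := by
    have := A.exp_Ad (E.exp y)⁻¹ (Psi (A.ad x) u)
    rw [inv_inv, ← ha] at this
    exact this.symm
  have hid : (E.exp z')⁻¹ * E.exp (z + w) =
      (((E.exp y * E.exp b)⁻¹ * e1 * (E.exp y * E.exp b)) * e2)⁻¹ * (e3 * e4) := by
    rw [he1, he2, he3, he4, hz', hz, hexpa]
    group
  rw [hid] at k0
  have k1 := n_inv_mul_le E.N ((E.exp y * E.exp b)⁻¹ * e1 * (E.exp y * E.exp b)) e2 e3 e4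
  linarith

/-- multiplication in logarithmic coordinates -/
noncomputable def mu (E : ExpData G V) (p : V × V) : V := lg E (E.exp p.1 * E.exp p.2)

/-- the derivative of `mu` at `p` as a function of `(p, mu p)` -/
noncomputable def Phi {E : ExpData G V} (A : AdData E) (q : (V × V) × V) : (V × V) →L[ℝ] V :=
  (Ring.inverse (Psi (A.ad q.2))).comp
    (((NormedSpace.exp (A.ad (-q.1.2))).comp (Psi (A.ad q.1.1))).comp
        (ContinuousLinearMap.fst ℝ V V) +
      (Psi (A.ad q.1.2)).comp (ContinuousLinearMap.snd ℝ V V))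

lemma contDiffAt_Phi [FiniteDimensional ℝ V] {E : ExpData G V} (A : AdData E)
    (hPsi : ContDiff ℝ ∞ (Psi (V := V))) (q : (V × V) × V) (hq : IsUnit (Psi (A.ad q.2))) :
    ContDiffAt ℝ ∞ (Phi A) q := by
  have : CompleteSpace V := FiniteDimensional.complete ℝ V
  have h1 : ContDiffAt ℝ ∞ (fun q : (V × V) × V => Ring.inverse (Psi (A.ad q.2))) q := by
    obtain ⟨U, hU⟩ := hq
    have h2 : ContDiffAt ℝ ∞ (Ring.inverse : (V →L[ℝ] V) → (V →L[ℝ] V)) (Psi (A.ad q.2)) := by
      rw [← hU]; exact contDiffAt_ringInverse ℝ U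
    have h3 : ContDiffAt ℝ ∞ (fun q : (V × V) × V => Psi (A.ad q.2)) q :=
      (hPsi.comp (A.ad.contDiff.comp contDiff_snd)).contDiffAt
    exact h2.comp q h3
  have hexp : ContDiff ℝ ∞ (NormedSpace.exp : (V →L[ℝ] V) → (V →L[ℝ] V)) := by
    apply AnalyticOnNhd.contDiff
    intro x _
    exact NormedSpace.exp_analytic x
  have h4 : ContDiffAt ℝ ∞ (fun q : (V × V) × V => NormedSpace.exp (A.ad (-q.1.2))) q :=
    (hexp.comp (A.ad.contDiff.comp (contDiff_snd.comp contDiff_fst).neg)).contDiffAt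
  have h5 : ContDiffAt ℝ ∞ (fun q : (V × V) × V => Psi (A.ad q.1.1)) q :=
    (hPsi.comp (A.ad.contDiff.comp (contDiff_fst.comp contDiff_fst))).contDiffAt
  have h6 : ContDiffAt ℝ ∞ (fun q : (V × V) × V => Psi (A.ad q.1.2)) q :=
    (hPsi.comp (A.ad.contDiff.comp (contDiff_snd.comp contDiff_fst))).contDiffAt
  exact h1.clm_comp (((h4.clm_comp h5).clm_comp contDiffAt_const).add
    (h6.clm_comp contDiffAt_const))

lemma hasFDerivAt_mu [FiniteDimensional ℝ V] (E : ExpData G V) (A : AdData E) {c δ : ℝ}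
    (hc : 0 < c) (hδ : 0 < δ)
    (hE : ∀ z v : V, ‖z‖ ≤ δ → ‖v‖ ≤ δ →
      E.N.n ((E.exp z * E.exp (Psi (A.ad z) v))⁻¹ * E.exp (z + v)) ≤ c * ‖v‖ ^ 2)
    {s : Set (V × V)} (hs : IsOpen s)
    (hs1 : ∀ p ∈ s, E.exp p.1 * E.exp p.2 ∈ img E)
    (hs2 : ∀ p ∈ s, ‖p.1‖ ≤ δ ∧ ‖p.2‖ ≤ δ ∧ ‖p.2‖ ≤ E.ρ / 2 ∧ ‖mu E p‖ ≤ δ ∧ ‖mu E p‖ ≤ E.ρ / 2)
    (hs3 : ∀ p ∈ s, IsUnit (Psi (A.ad (mu E p)))) :
    ∀ p ∈ s, HasFDerivAt (mu E) (Phi A (p, mu E p)) p := by
  intro p hp
  rw [hasFDerivAt_iff_isLittleO_nhds_zero]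
  refine Asymptotics.IsBigO.trans_isLittleO ?_ (Asymptotics.isLittleO_norm_pow_id one_lt_two)
  obtain ⟨x, y⟩ := p
  set z := mu E (x, y) with hz
  have hρ := E.ρ_pos
  -- the linear maps
  set La : (V × V) →L[ℝ] V := ((NormedSpace.exp (A.ad (-y))).comp (Psi (A.ad x))).comp
        (ContinuousLinearMap.fst ℝ V V) with hLa
  set Lb : (V × V) →L[ℝ] V := (Psi (A.ad y)).comp (ContinuousLinearMap.snd ℝ V V) with hLb
  have hPhi : Phi A ((x, y), z) = (Ring.inverse (Psi (A.ad z))).comp (La + Lb) := rfl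
  have hew : ∀ h : V × V, Psi (A.ad z) (Phi A ((x, y), z) h) = La h + Lb h := by
    intro h
    rw [hPhi]
    have h1 := Ring.mul_inverse_cancel _ (hs3 (x, y) hp)
    have h2 : (Psi (A.ad z) * Ring.inverse (Psi (A.ad z))) (La h + Lb h) = La h + Lb h := by
      rw [h1]; rfl
    exact h2
  -- the bound
  set D := Phi A ((x, y), z) with hD
  set M : ℝ := 4 * (2 * c + c + E.K * ‖La‖ * ‖Lb‖ + c * ‖D‖ ^ 2) with hM
  apply Asymptotics.IsBigO.of_bound M
  -- eventual smallness
  have ev1 : ∀ᶠ h : V × V in 𝓝 0, (x, y) + h ∈ s := by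
    have h1 : ContinuousAt (fun h : V × V => (x, y) + h) 0 := by fun_prop
    apply h1.eventually
    simpa using hs.mem_nhds hp
  have evn : ∀ (L : (V × V) →L[ℝ] V) (ε : ℝ), 0 < ε → ∀ᶠ h : V × V in 𝓝 0, ‖L h‖ < ε := by
    intro L ε hε
    have h1 : ContinuousAt (fun h : V × V => ‖L h‖) 0 := by fun_prop
    exact Tendsto.eventually_lt_const (by simpa using hε) h1
  have ev2 : ∀ᶠ h : V × V in 𝓝 0, ‖h‖ < min δ 1 ∧ c * ‖h‖ ^ 2 < E.N.r := by
    have h1 : ContinuousAt (fun h : V × V => ‖h‖) 0 := by fun_prop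
    have h2 : ContinuousAt (fun h : V × V => c * ‖h‖ ^ 2) 0 := by fun_prop
    exact (Tendsto.eventually_lt_const (by simpa using lt_min hδ one_pos) h1).and
      (Tendsto.eventually_lt_const (by simpa using E.N.r_pos) h2)
  filter_upwards [ev1, ev2, evn La E.ρ hρ, evn Lb (E.ρ / 2) (by positivity),
    evn D (min δ (E.ρ / 2)) (lt_min hδ (by positivity))] with h k1 k2 k3 k4 k5
  obtain ⟨k2, k2'⟩ := k2
  obtain ⟨u, v⟩ := h
  have hu : ‖u‖ ≤ ‖((u, v) : V × V)‖ := norm_fst_le (u, v)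
  have hv : ‖v‖ ≤ ‖((u, v) : V × V)‖ := norm_snd_le (u, v)
  set nh := ‖((u, v) : V × V)‖ with hnh
  have hnh0 : 0 ≤ nh := norm_nonneg _
  obtain ⟨b1, b2, b3, b4, b5⟩ := hs2 _ hp
  obtain ⟨c1, c2, c3, c4, c5⟩ := hs2 _ k1
  have hδ' := lt_min_iff.mp k2
  have hDh := lt_min_iff.mp k5
  have main := key E A hE x y z (mu E ((x, y) + (u, v))) u v (D (u, v)) (La (u, v)) (Lb (u, v))
    (by rw [hz]; exact exp_lg E (hs1 _ hp))
    (by exact exp_lg E (hs1 _ k1))
    (by rw [← exp_neg', A.Ad_exp]; rfl) rfl (hew _)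
    b1 (hu.trans hδ'.1.le) b2 (hv.trans hδ'.1.le) b4 hDh.1.le k3.le
    (k4.le.trans (by linarith))
    ((norm_add_le _ _).trans (by linarith [hDh.2]))
    (c5.trans (by linarith))
    (by
      have : c * ‖u‖ ^ 2 ≤ c * nh ^ 2 := by gcongr
      linarith)
    (by
      have h1 := E.N.mul (E.exp y) (E.exp (Lb (u, v)))
      have h2 := E.n_exp_le y
      have h3 := E.n_exp_le (Lb (u, v))
      have h4 := E.ρ_le
      simp only at b3
      linarith)
  have hflip : mu E ((x, y) + (u, v)) - mu E (x, y) - D (u, v) =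
      -(z + D (u, v) - mu E ((x, y) + (u, v))) := by
    rw [hz]; abel
  rw [hflip, norm_neg]
  refine main.trans ?_
  have g1 : ‖La (u, v)‖ ≤ ‖La‖ * nh := La.le_opNorm _
  have g2 : ‖Lb (u, v)‖ ≤ ‖Lb‖ * nh := Lb.le_opNorm _
  have g3 : ‖D (u, v)‖ ≤ ‖D‖ * nh := D.le_opNorm _
  have hK : 0 ≤ E.K := by linarith [E.one_le_K]
  have g4 : E.K * ‖La (u, v)‖ * ‖Lb (u, v)‖ ≤ E.K * (‖La‖ * nh) * (‖Lb‖ * nh) := by
    gcongr
  have g5 : ‖D (u, v)‖ ^ 2 ≤ (‖D‖ * nh) ^ 2 := by gcongr
  have g6 : ‖u‖ ^ 2 ≤ nh ^ 2 := by gcongr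
  have g7 : ‖v‖ ^ 2 ≤ nh ^ 2 := by gcongr
  rw [Real.norm_of_nonneg (by positivity), hM]
  have e1 : c * ‖u‖ ^ 2 ≤ c * nh ^ 2 := by gcongr
  have e2 : c * ‖v‖ ^ 2 ≤ c * nh ^ 2 := by gcongr
  have e3 : c * ‖D (u, v)‖ ^ 2 ≤ c * (‖D‖ * nh) ^ 2 := by gcongr
  have e4 : 4 * (2 * c + c + E.K * ‖La‖ * ‖Lb‖ + c * ‖D‖ ^ 2) * nh ^ 2 =
      4 * (2 * (c * nh ^ 2) + c * nh ^ 2 + E.K * (‖La‖ * nh) * (‖Lb‖ * nh) +
        c * (‖D‖ * nh) ^ 2) := by ring
  rw [e4]
  linarith

end

/-- TASK A10b from A9a and A10a -/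
theorem taskA10b_of (h9a : TaskA9a.{v}) (h10a : TaskA10a.{v, v}) : TaskA10b.{u, v} := by
  intro G _ _ _ _ V _ _ _ E A hE2
  have : CompleteSpace V := FiniteDimensional.complete ℝ V
  obtain ⟨c, hc, δ, hδ, hE⟩ := hE2
  obtain ⟨hPsi, hPsi0⟩ := h9a V
  have hρ := E.ρ_pos
  set s0 : Set (V × V) := (fun p : V × V => E.exp p.1 * E.exp p.2) ⁻¹' img E with hs0
  have hcm : Continuous (fun p : V × V => E.exp p.1 * E.exp p.2) :=
    (E.cont.comp continuous_fst).mul (E.cont.comp continuous_snd)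
  have hs0o : IsOpen s0 := isOpen_interior.preimage hcm
  have hmuc : ContinuousOn (mu E) s0 := (continuousOn_lg E).comp hcm.continuousOn (fun p hp => hp)
  set η : ℝ := min δ (E.ρ / 2) with hη
  have hη0 : 0 < η := lt_min hδ (by positivity)
  set T : Set V := ball 0 η ∩ {z | IsUnit (Psi (A.ad z))} with hT
  have hcPsi : Continuous (fun z : V => Psi (A.ad z)) := hPsi.continuous.comp A.ad.continuous
  have hTo : IsOpen T := isOpen_ball.inter (Units.isOpen.preimage hcPsi)
  set s : Set (V × V) := (s0 ∩ mu E ⁻¹' T) ∩ (ball 0 η ×ˢ ball 0 η) with hs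
  have hso : IsOpen s := (hmuc.isOpen_inter_preimage hs0o hTo).inter (isOpen_ball.prod isOpen_ball)
  have hmu0 : mu E (0, 0) = 0 := by simp [mu, exp_zero', lg_one]
  have h0s : ((0 : V), (0 : V)) ∈ s := by
    refine ⟨⟨?_, ?_⟩, ?_⟩
    · simp only [hs0, mem_preimage, exp_zero', mul_one]
      exact one_mem_img E
    · rw [mem_preimage, hmu0]
      refine ⟨mem_ball_self hη0, ?_⟩
      simp only [Set.mem_ofPred_eq, map_zero, hPsi0]
      exact isUnit_one
    · exact ⟨mem_ball_self hη0, mem_ball_self hη0⟩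
  have hder : ∀ p ∈ s, HasFDerivAt (mu E) (Phi A (p, mu E p)) p := by
    apply hasFDerivAt_mu E A hc hδ hE hso
    · exact fun p hp => hp.1.1
    · intro p hp
      have h1 : ‖p.1‖ < η := by simpa using hp.2.1
      have h2 : ‖p.2‖ < η := by simpa using hp.2.2
      have h3 : ‖mu E p‖ < η := by simpa using hp.1.2.1
      have h4 : η ≤ δ := min_le_left _ _
      have h5 : η ≤ E.ρ / 2 := min_le_right _ _
      exact ⟨by linarith, by linarith, by linarith, by linarith, by linarith⟩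
    · exact fun p hp => hp.1.2.2
  have hcd : ContDiffOn ℝ ∞ (mu E) s := by
    apply h10a (V × V) V s {q : (V × V) × V | IsUnit (Psi (A.ad q.2))} (mu E) (Phi A) hso
    · exact Units.isOpen.preimage (hcPsi.comp continuous_snd)
    · intro q hq
      exact (contDiffAt_Phi A hPsi q hq).contDiffWithinAt
    · exact fun p hp => hp.1.2.2
    · exact hder
  have evimg : ∀ f : V → V, ContinuousAt f 0 → f 0 = 0 →
      ∀ᶠ x in 𝓝 (0 : V), lg E (E.exp (f x)) = f x := by
    intro f hf h0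
    have h1 : ∀ᶠ y in 𝓝 (f 0), lg E (E.exp y) = y := by
      rw [h0]
      have h2 : ∀ᶠ y in 𝓝 (0 : V), E.exp y ∈ img E := by
        apply E.cont.continuousAt.eventually
        rw [exp_zero']
        exact isOpen_interior.mem_nhds (one_mem_img E)
      have h3 : ∀ᶠ y in 𝓝 (0 : V), ‖y‖ < E.ρ := by
        have : ContinuousAt (fun y : V => ‖y‖) 0 := by fun_prop
        exact Tendsto.eventually_lt_const (by simpa using hρ) this
      filter_upwards [h2, h3] with y h2 h3
      exact lg_exp E h3 h2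
    exact hf.eventually h1
  refine ⟨{ κ := chart E, one_mem := one_mem_img E, κ_one := lg_one E,
            mul_on := ⟨s, hso.mem_nhds h0s, hcd⟩, inv_at := ?_, conj_at := ?_ }⟩
  · have h1 : ContDiffAt ℝ ∞ (fun x : V => -x) 0 := contDiffAt_id.neg
    refine h1.congr_of_eventuallyEq ?_
    filter_upwards [evimg (fun x => -x) (by fun_prop) (by simp)] with x hx
    rw [chart_coe, chart_symm_coe, ← exp_neg']
    exact hx
  · intro g
    have h1 : ContDiffAt ℝ ∞ (fun x : V => A.Ad g x) 0 := (A.Ad g).contDiff.contDiffAt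
    refine h1.congr_of_eventuallyEq ?_
    filter_upwards [evimg (fun x => A.Ad g x) (by fun_prop) (by simp)] with x hx
    rw [chart_coe, chart_symm_coe, A.exp_Ad]
    exact hx

end Crest.Agent.R217.A10b531
end

-- ▼ part R217/A11_531
section

/-!
Row 217 (S0336), task A11: a local smooth structure at the identity (with smooth local
multiplication, inversion and conjugations) gives a Lie group structure for the given topology.
-/

set_option autoImplicit false

open Filter Topology Set Metric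
open scoped Topology Manifold ContDiff

namespace Crest.Agent.R217.A11531

open Crest.Agent.R217.SpecA343

universe u v w

section
variable {G : Type u} [Group G] [TopologicalSpace G] [IsTopologicalGroup G]
  {V : Type v} [NormedAddCommGroup V] [NormedSpace ℝ V]
  {E : Type w} [NormedAddCommGroup E] [NormedSpace ℝ E]

omit [IsTopologicalGroup G] in
lemma zero_mem_target (S : LocSm G V) : (0 : V) ∈ S.κ.target := by
  have := S.κ.map_source S.one_mem
  rwa [S.κ_one] at this

omit [IsTopologicalGroup G] in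
lemma symm_zero (S : LocSm G V) : S.κ.symm 0 = 1 := by
  have := S.κ.left_inv S.one_mem
  rwa [S.κ_one] at this

omit [IsTopologicalGroup G] in
lemma continuousAt_symm (S : LocSm G V) : ContinuousAt S.κ.symm 0 :=
  S.κ.continuousAt_symm (zero_mem_target S)

/-- transport of a local smooth structure by a linear homeomorphism -/
noncomputable def transport (S : LocSm G V) (L : V ≃L[ℝ] E) : LocSm G E where
  κ := S.κ ≫ₕ L.toHomeomorph.toOpenPartialHomeomorph
  one_mem := by
    simpa using S.one_mem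
  κ_one := by
    simp [S.κ_one]
  mul_on := by
    obtain ⟨s, hs, h⟩ := S.mul_on
    refine ⟨(fun p : E × E => (L.symm p.1, L.symm p.2)) ⁻¹' s, ?_, ?_⟩
    · apply ContinuousAt.preimage_mem_nhds
      · fun_prop
      · simpa using hs
    · have h2 : ContDiffOn ℝ ∞ (fun p : E × E => (L.symm p.1, L.symm p.2))
          ((fun p : E × E => (L.symm p.1, L.symm p.2)) ⁻¹' s) := by
        apply ContDiff.contDiffOn
        exact (L.symm.contDiff.comp contDiff_fst).prodMk (L.symm.contDiff.comp contDiff_snd)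
      have h3 := L.contDiff.comp_contDiffOn (h.comp h2 (fun x hx => hx))
      exact h3
  inv_at := by
    have h := S.inv_at
    have h2 : ContDiffAt ℝ ∞ (fun x : E => L.symm x) 0 := L.symm.contDiff.contDiffAt
    have h4 : ContDiffAt ℝ ∞ (fun x : V => S.κ (S.κ.symm x)⁻¹) (L.symm (0 : E)) := by
      simpa using h
    have h3 := L.contDiff.contDiffAt.comp (0 : E) (h4.comp (0 : E) h2)
    exact h3
  conj_at := by
    intro g
    have h := S.conj_at g
    have h2 : ContDiffAt ℝ ∞ (fun x : E => L.symm x) 0 := L.symm.contDiff.contDiffAt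
    have h4 : ContDiffAt ℝ ∞ (fun x : V => S.κ (g * S.κ.symm x * g⁻¹)) (L.symm (0 : E)) := by
      simpa using h
    have h3 := L.contDiff.contDiffAt.comp (0 : E) (h4.comp (0 : E) h2)
    exact h3

/-- the chart at `g` -/
noncomputable def chart (κ : OpenPartialHomeomorph G E) (U : Set G) (hU : IsOpen U) (g : G) :
    OpenPartialHomeomorph G E :=
  (Homeomorph.mulLeft g⁻¹).toOpenPartialHomeomorph ≫ₕ κ.restrOpen U hU

omit [NormedSpace ℝ E] in
lemma chart_apply (κ : OpenPartialHomeomorph G E) (U : Set G) (hU : IsOpen U) (g x : G) :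
    chart κ U hU g x = κ (g⁻¹ * x) := by
  simp [chart]

omit [NormedSpace ℝ E] in
lemma chart_symm_apply (κ : OpenPartialHomeomorph G E) (U : Set G) (hU : IsOpen U) (g : G)
    (y : E) : (chart κ U hU g).symm y = g * κ.symm y := by
  simp [chart, Homeomorph.mulLeft_symm]

omit [NormedSpace ℝ E] in
lemma mem_chart_source (κ : OpenPartialHomeomorph G E) (U : Set G) (hU : IsOpen U) (g x : G) :
    x ∈ (chart κ U hU g).source ↔ g⁻¹ * x ∈ κ.source ∧ g⁻¹ * x ∈ U := by
  simp [chart]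

/-- The charted space structure. -/
@[reducible] noncomputable def chartedSpace (κ : OpenPartialHomeomorph G E) (U : Set G)
    (hU : IsOpen U) (h1 : (1 : G) ∈ κ.source) (h1U : (1 : G) ∈ U) : ChartedSpace E G where
  atlas := Set.range (chart κ U hU)
  chartAt := chart κ U hU
  mem_chart_source := by
    intro x
    rw [mem_chart_source]
    simp [h1, h1U]
  chart_mem_atlas := fun x => ⟨x, rfl⟩

lemma exists_lieGroup (S : LocSm G E) :
    ∃ c : ChartedSpace E G, @LieGroup ℝ _ E _ E _ _ 𝓘(ℝ, E) ∞ G _ _ c := by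
  obtain ⟨s, hs, hcd⟩ := S.mul_on
  obtain ⟨δ, hδ, hδs⟩ : ∃ δ > 0, ball (0 : E) δ ×ˢ ball (0 : E) δ ⊆ s := by
    rw [nhds_prod_eq, (nhds_basis_ball (x := (0 : E))).prod_self.mem_iff] at hs
    exact hs
  set κ := S.κ with hκ
  set A : Set G := κ.source ∩ κ ⁻¹' ball 0 δ with hA
  have hA1 : A ∈ 𝓝 (1 : G) := by
    apply (κ.isOpen_inter_preimage isOpen_ball).mem_nhds
    refine ⟨S.one_mem, ?_⟩
    simp only [mem_preimage, S.κ_one, hκ]
    exact mem_ball_self hδ
  obtain ⟨U', hU', hdiv⟩ := exists_nhds_split_inv hA1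
  set U := interior U' with hUdef
  have hU : IsOpen U := isOpen_interior
  have h1U : (1 : G) ∈ U := mem_interior_iff_mem_nhds.mpr hU'
  have hdivU : ∀ a ∈ U, ∀ b ∈ U, a / b ∈ A := fun a ha b hb =>
    hdiv a (interior_subset ha) b (interior_subset hb)
  have hUA : ∀ a ∈ U, a ∈ A := fun a ha => by simpa using hdivU a ha 1 h1U
  let c : ChartedSpace E G := chartedSpace κ U hU S.one_mem h1U
  refine ⟨c, ?_⟩
  have hman : IsManifold 𝓘(ℝ, E) ∞ G := by
    apply isManifold_of_contDiffOn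
    rintro _ _ ⟨g, rfl⟩ ⟨h, rfl⟩
    simp only [modelWithCornersSelf_coe, modelWithCornersSelf_coe_symm, Function.id_comp,
      Function.comp_id, preimage_id, range_id, inter_univ]
    -- the transition map
    have key : ∀ y ∈ ((chart κ U hU g).symm ≫ₕ chart κ U hU h).source,
        y ∈ κ.target ∧ κ.symm y ∈ U ∧ h⁻¹ * (g * κ.symm y) ∈ U := by
      intro y hy
      rw [OpenPartialHomeomorph.trans_source, mem_inter_iff, mem_preimage,
        OpenPartialHomeomorph.symm_source, mem_chart_source, chart_symm_apply] at hy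
      obtain ⟨hy1, -, hy3⟩ := hy
      simp only [chart, mfld_simps] at hy1
      refine ⟨hy1.1, ?_, hy3⟩
      simpa using hy1.2
    by_cases hne : ((chart κ U hU g).symm ≫ₕ chart κ U hU h).source = ∅
    · rw [hne]; exact contDiffOn_empty
    obtain ⟨y₀, hy₀⟩ := nonempty_iff_ne_empty.mpr hne
    obtain ⟨-, h2, h3⟩ := key y₀ hy₀
    have ha : h⁻¹ * g ∈ A := by
      have := hdivU _ h3 _ h2
      simpa [div_eq_mul_inv, mul_assoc] using this
    have h4 : ContDiffOn ℝ ∞ ((fun p : E × E => κ (κ.symm p.1 * κ.symm p.2)) ∘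
        (fun y : E => (κ (h⁻¹ * g), y))) ((chart κ U hU g).symm ≫ₕ chart κ U hU h).source := by
      apply hcd.comp (contDiff_const.prodMk contDiff_id).contDiffOn
      intro y hy
      apply hδs
      obtain ⟨k1, k2, -⟩ := key y hy
      refine ⟨ha.2, ?_⟩
      have := (hUA _ k2).2
      simpa [κ.right_inv k1] using this
    refine h4.congr ?_
    intro y hy
    simp only [Function.comp_apply, OpenPartialHomeomorph.coe_trans]
    rw [chart_symm_apply, chart_apply, κ.left_inv ha.1, mul_assoc]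
  have hchart : ∀ g : G, (chartAt E g : OpenPartialHomeomorph G E) = chart κ U hU g := fun g => rfl
  have hsymm0 : κ.symm 0 = 1 := symm_zero S
  have hF : ContDiffAt ℝ ∞ (fun p : E × E => κ (κ.symm p.1 * κ.symm p.2)) (0, 0) :=
    hcd.contDiffAt hs
  have hcs : ContinuousAt κ.symm 0 := continuousAt_symm S
  refine { toIsManifold := hman, contMDiff_mul := ?_, contMDiff_inv := ?_ }
  · rintro ⟨g, h⟩
    rw [contMDiffAt_iff]
    refine ⟨continuous_mul.continuousAt, ?_⟩
    have hpt : (extChartAt (𝓘(ℝ, E).prod 𝓘(ℝ, E)) (g, h)) (g, h) = ((0 : E), (0 : E)) := by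
      simp only [extChartAt, mfld_simps, hchart, chart_apply, PartialEquiv.prod_coe]
      simp [hκ, S.κ_one]
    have hfun : (extChartAt 𝓘(ℝ, E) (g * h) ∘ (fun p : G × G => p.1 * p.2) ∘
        (extChartAt (𝓘(ℝ, E).prod 𝓘(ℝ, E)) (g, h)).symm) =
        fun p : E × E => κ (h⁻¹ * κ.symm p.1 * h * κ.symm p.2) := by
      funext p
      have e1 : (extChartAt (𝓘(ℝ, E).prod 𝓘(ℝ, E)) (g, h)).symm p =
          ((chart κ U hU g).symm p.1, (chart κ U hU h).symm p.2) := rfl
      have e2 : ∀ x : G, (extChartAt 𝓘(ℝ, E) (g * h)) x = chart κ U hU (g * h) x := fun x => rfl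
      simp only [Function.comp_apply, e1, e2, chart_apply, chart_symm_apply]
      congr 1
      group
    rw [hpt, ModelWithCorners.range_eq_univ, contDiffWithinAt_univ, hfun]
    have hcj := S.conj_at h⁻¹
    simp only [inv_inv] at hcj
    have e3 : κ (h⁻¹ * κ.symm 0 * h) = 0 := by
      rw [hsymm0, mul_one, inv_mul_cancel]; exact S.κ_one
    have h5 : ContDiffAt ℝ ∞ ((fun p : E × E => κ (κ.symm p.1 * κ.symm p.2)) ∘
        (fun p : E × E => (κ (h⁻¹ * κ.symm p.1 * h), p.2))) (0, 0) := by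
      apply ContDiffAt.comp
      · simp only [e3]; exact hF
      · apply ContDiffAt.prodMk
        · exact ContDiffAt.comp (x := ((0 : E), (0 : E))) (f := Prod.fst)
            (g := fun x : E => κ (h⁻¹ * κ.symm x * h)) hcj contDiffAt_fst
        · exact contDiffAt_snd
    have h6 : ∀ᶠ p : E × E in 𝓝 (0, 0), h⁻¹ * κ.symm p.1 * h ∈ κ.source := by
      have h7 : ContinuousAt (fun p : E × E => h⁻¹ * κ.symm p.1 * h) (0, 0) := by
        have : ContinuousAt (fun p : E × E => κ.symm p.1) (0, 0) :=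
          ContinuousAt.comp (x := ((0 : E), (0 : E))) (f := Prod.fst) (g := κ.symm) hcs
            continuousAt_fst
        exact (continuousAt_const.mul this).mul continuousAt_const
      apply h7.eventually
      simp only [hsymm0, mul_one, inv_mul_cancel]
      exact κ.open_source.mem_nhds S.one_mem
    have h8 := h5.congr_of_eventuallyEq
      (f₁ := fun p : E × E => κ (h⁻¹ * κ.symm p.1 * h * κ.symm p.2)) (by
        filter_upwards [h6] with p hp
        simp only [Function.comp_apply]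
        rw [κ.left_inv hp])
    exact h8
  · intro g
    rw [contMDiffAt_iff]
    refine ⟨continuous_inv.continuousAt, ?_⟩
    have hpt : (extChartAt 𝓘(ℝ, E) g) g = (0 : E) := by
      simp only [extChartAt, mfld_simps, hchart, chart_apply]
      simp [hκ, S.κ_one]
    have hfun : (extChartAt 𝓘(ℝ, E) g⁻¹ ∘ (fun a : G => a⁻¹) ∘ (extChartAt 𝓘(ℝ, E) g).symm) =
        fun x : E => κ (g * (κ.symm x)⁻¹ * g⁻¹) := by
      funext x
      simp only [extChartAt, mfld_simps, hchart, chart_apply, chart_symm_apply]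
      congr 1
      group
    rw [hpt, ModelWithCorners.range_eq_univ, contDiffWithinAt_univ, hfun]
    have hcj := S.conj_at g
    have hinv := S.inv_at
    have h5 : ContDiffAt ℝ ∞ ((fun x : E => κ (g * κ.symm x * g⁻¹)) ∘
        (fun x : E => κ (κ.symm x)⁻¹)) 0 := by
      have e3 : κ (κ.symm 0)⁻¹ = 0 := by rw [hsymm0, inv_one]; exact S.κ_one
      apply ContDiffAt.comp
      · rw [e3]; exact hcj
      · exact hinv
    have h6 : ∀ᶠ x : E in 𝓝 0, (κ.symm x)⁻¹ ∈ κ.source := by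
      have h7 : ContinuousAt (fun x : E => (κ.symm x)⁻¹) 0 := hcs.inv
      apply h7.eventually
      simp only [hsymm0, inv_one]
      exact κ.open_source.mem_nhds S.one_mem
    have h8 := h5.congr_of_eventuallyEq
      (f₁ := fun x : E => κ (g * (κ.symm x)⁻¹ * g⁻¹)) (by
        filter_upwards [h6] with x hx
        simp only [Function.comp_apply]
        rw [κ.left_inv hx])
    exact h8

end

/-- TASK A11 -/
theorem taskA11 : TaskA11.{u, v} := by
  intro G _ _ _ _ V _ _ _ hS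
  obtain ⟨S⟩ := hS
  let L : V ≃L[ℝ] EuclideanSpace ℝ (Fin (Module.finrank ℝ V)) :=
    ContinuousLinearEquiv.ofFinrankEq (by simp)
  exact ⟨Module.finrank ℝ V, exists_lieGroup (transport S L)⟩

end Crest.Agent.R217.A11531
end

-- ▼ part R217/PartA_531
section

/-!
Row 217 (S0336), part A, assembled: a locally compact, second countable Hausdorff group without
small compact subgroups is a Lie group (with its given topology).
-/

set_option autoImplicit false

open scoped Manifold ContDiff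

namespace Crest.Agent.R217.PartA531

open Crest.Agent.R217.SpecA343

universe u

theorem taskA7 : TaskA7.{u} :=
  A7_418.taskA7_of A4_970.taskA4a A4_970.taskA4c A5_839.taskA5a A5_839.taskA5b

theorem taskA10b : TaskA10b.{u, u} := A10b531.taskA10b_of A9a_970.taskA9a A10a_970.taskA10a

/-- PART A of row 217 -/
theorem partA : PartA.{u} :=
  partA_of_tasks A1_740.taskA1 A2490.taskA2 A3490.taskA3 A5_947.taskA6 taskA7
    A8_430.taskA8 A9b_430.taskA9b taskA10b A11531.taskA11

/-- unfolded form -/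
theorem exists_lieGroup_of_nscs (G : Type u) [Group G] [TopologicalSpace G] [IsTopologicalGroup G]
    [T2Space G] [LocallyCompactSpace G] [SecondCountableTopology G] (h : NSCS G) :
    ∃ (d : ℕ) (c : ChartedSpace (EuclideanSpace ℝ (Fin d)) G),
      @LieGroup ℝ _ (EuclideanSpace ℝ (Fin d)) _ (EuclideanSpace ℝ (Fin d)) _ _
        𝓘(ℝ, EuclideanSpace ℝ (Fin d)) ∞ G _ _ c := partA G h

end Crest.Agent.R217.PartA531
end

-- ▼ part R217/Top_478
section

/-!
Row 217 (S0336): the statement S0336 follows from the crux.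
-/

set_option autoImplicit false

open scoped Manifold ContDiff

namespace Crest.Agent.R217.Top478

open Crest.Agent.R217.SpecC478

universe u v

/-- S0336 from the crux in all dimensions `n ≥ 1` (in the universe of the group). -/
theorem s0336_of_crux (hC : ∀ n : ℕ, 1 ≤ n → Crux.{u} n)
    (n : ℕ) (hn : 1 ≤ n)
    (M : Type v) [TopologicalSpace M] [T2Space M] [SecondCountableTopology M] [ConnectedSpace M]
    [ChartedSpace (EuclideanSpace ℝ (Fin n)) M]
    (G : Type u) [Group G] [TopologicalSpace G] [IsTopologicalGroup G] [T2Space G]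
    [SecondCountableTopology G] [LocallyCompactSpace G]
    [MulAction G M] [ContinuousSMul G M] [FaithfulSMul G M] :
    ∃ (d : ℕ) (c : ChartedSpace (EuclideanSpace ℝ (Fin d)) G),
      @LieGroup ℝ _ (EuclideanSpace ℝ (Fin d)) _ (EuclideanSpace ℝ (Fin d)) _ _
        𝓘(ℝ, EuclideanSpace ℝ (Fin d)) ∞ G _ _ c :=
  PartA531.exists_lieGroup_of_nscs G (B2478.nscs_of_crux (n := n) (hC n hn) M G)

end Crest.Agent.R217.Top478
end

-- ▼ part R217/FineB_555
section

/-!
Row 217 (S0336), part C1, helper555: step (b) of the fine frame.  The twist theorem for the objects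
over column `k`, over a box near the point `y1` where the gauges are defined.
-/

set_option autoImplicit false
set_option linter.unusedSectionVars false
set_option linter.unusedVariables false

open Filter Topology Metric Set

namespace Crest.Agent.R217.FineB555

open Crest.Agent.R217.CruxN559 Crest.Agent.R217.Coarse889 Crest.Agent.R217.CtrlS970
open Crest.Agent.R217.FinePkg970 Crest.Agent.R217.Flow373 Crest.Agent.R217.Glob559
open Crest.Agent.R217.Grid897 Crest.Agent.R217.Asym476 Crest.Agent.R217.Ctl559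
open Crest.Agent.R217.AsyCell970 Crest.Agent.R217.PC473 Crest.Agent.R217.FineSeq970
open Crest.Agent.R217.GaugeAsy555 Crest.Agent.R217.TwObj555 Crest.Agent.R217.Box970
open Crest.Agent.R217.Obj52 Crest.Agent.R217.Ind52 Crest.Agent.R217.Sig52
open Crest.Agent.R217.LocF555

universe u

variable {n : ℕ} (D : ∀ k, KDat.{u} n (cs k))

/-- the homotopy idempotents `e_t` over the fine control data -/
theorem hiF {l : Filter (ℕ × ℕ)} (hl : l ≤ lf) (t : ℤ) :
    HI (CF D l) (eS D t) (hS D t) (kS D t) where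
  e_loc := isLocC_eS D hl t
  h_loc := isLocC_hS D hl t
  k_loc := isLocC_kS D hl t
  e_dm := fun a c' c h => eS_dm D t a h
  h_dm := fun a c' c h => hS_dm D t a h
  k_dm := fun a c' c h => kS_dm D t a h
  rel_d := rel_dS D hl t
  rel_e := rel_eS D hl t
  rel_S := rel_sS D hl t

/-- the gauge chart `m` in column `k` -/
noncomputable def gdK (k m : ℕ) : GD (CF D (lk k)) where
  φ := PhiF.kap m
  c := (D k).gc
  ω a v := om D m a v
  c_pos := (D k).gc_pos
  unit a v := star_om_mul D m a v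

/-- all the gauge charts of column `k` -/
noncomputable def gsK (k : ℕ) : List (GD (CF D (lk k))) := (List.range (D k).gm).map (gdK D k)

theorem om_nb (k m : ℕ) : ∀ r < (1 : ℝ), ∀ᶠ a in lk k, ∀ v w : BV D a, nbV v w →
    (D a.1).w (xv D a v) ≤ r → (D a.1).w (xv D a w) ≤ r →
    0 < (D a.1).gκ m (xv D a v) → 0 < (D a.1).gκ m (xv D a w) → om D m a v = om D m a w := by
  intro r hr
  rw [eventually_lk]
  have h1 := eventually_lf.1 (eventually_mu_lf D (D k).gη_pos) k
  filter_upwards [h1] with j hj v w hvw hv hw hv0 hw0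
  have h2 : dist (xv D (k, j) v) (xv D (k, j) w) ≤ mu D (k, j) := by
    refine nb_dist_blk D (k, j) (fun _ => false) (fun _ => false) v w ?_
      (Or.inl (norm_le_Rw_of_w D k (lt_of_le_of_lt hv hr)))
    exact hvw
  have hcV := ((D k).gκ_pos m _ hw0).1
  have h3 := (D k).gθ_lab m (xv D (k, j) w) (xv D (k, j) v) hw0 hv0 0 (by
    rw [pow_zero, (D k).X.D.act_one _ hcV]
    exact lt_of_le_of_lt h2 hj)
  rw [Nat.cast_zero, add_zero] at h3
  unfold om
  rw [show (D (k, j).1).gθ m (xv D (k, j) v) = (D (k, j).1).gθ m (xv D (k, j) w) from h3]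

theorem gRel_of {k m : ℕ} {M : ℤ → SeqC n (NN D)}
    (h : ∀ᶠ a in lk k, ∀ t : ℤ, ∀ c' c : Cell n (NN D a),
      0 < (D a.1).gκ m (xv D a (vt c')) → 0 < (D a.1).gκ m (xv D a (vt c)) →
        M (t + 1) a c' c = om D m a (vt c') * M t a c' c * star (om D m a (vt c))) :
    GRel (CF D (lk k)) (gdK D k m) M := by
  intro t r hr
  have hc := (D k).gc_pos
  filter_upwards [h] with a ha c' c _ _ h1 h2
  refine ha t c' c (lt_trans ?_ h1) (lt_trans ?_ h2) <;> exact half_pos hc

/-- **The twisted family over column `k`.** -/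
theorem twK (k : ℕ) : TwSeq (CF D (lk k)) (D k).X.q (gsK D k) (eS D) (hS D) (kS D) where
  hi t := hiF D (lk_le_lf k) t
  per_e t := by
    intro r hr
    rw [show (CF D (lk k)).l = lk k from rfl, eventually_lk]
    refine Eventually.of_forall fun j c' c _ => ?_
    exact congrFun (congrFun (eS_per D t (k, j)) c') c
  per_h t := by
    intro r hr
    rw [show (CF D (lk k)).l = lk k from rfl, eventually_lk]
    refine Eventually.of_forall fun j c' c _ => ?_
    exact congrFun (congrFun (hS_per D t (k, j)) c') c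
  per_k t := by
    intro r hr
    rw [show (CF D (lk k)).l = lk k from rfl, eventually_lk]
    refine Eventually.of_forall fun j c' c _ => ?_
    exact congrFun (congrFun (kS_per D t (k, j)) c') c
  ge g hg := by
    obtain ⟨m, -, rfl⟩ := List.mem_map.1 hg
    exact gRel_of D (gauge_eS D k m)
  gh g hg := by
    obtain ⟨m, -, rfl⟩ := List.mem_map.1 hg
    exact gRel_of D (gauge_hS D k m)
  gk g hg := by
    obtain ⟨m, -, rfl⟩ := List.mem_map.1 hg
    exact gRel_of D (gauge_kS D k m)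
  gn g hg := by
    obtain ⟨m, -, rfl⟩ := List.mem_map.1 hg
    intro r hr
    have hc := (D k).gc_pos
    filter_upwards [om_nb D k m r hr] with a ha v w hvw h1 h2 h3 h4
    refine ha v w hvw h1 h2 (lt_trans ?_ h3) (lt_trans ?_ h4) <;> exact half_pos hc

/-- near `y1` the gauge charts cover -/
theorem cover_k (k : ℕ) {lo hi : Fin n → ℝ}
    (hy : Icc lo hi ⊆ closedBall (D k).X.y1 ((D k).gr / 2)) :
    ∀ s t : Fin n → ℝ, (∀ i, lo i < s i) → (∀ i, t i < hi i) → ∀ r < (1 : ℝ),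
      ∀ᶠ a in (CF D (lk k)).l, ∀ b, (CF D (lk k)).u (CF D (lk k)).o a b ≤ r →
        (∀ i, s i < (CF D (lk k)).u (dirF D (lk k) i) a b ∧
          (CF D (lk k)).u (dirF D (lk k) i) a b ≤ t i) →
        ∃ g ∈ gsK D k, g.c ≤ (CF D (lk k)).u g.φ a b := by
  intro s t hs ht r hr
  rw [show (CF D (lk k)).l = lk k from rfl, eventually_lk]
  refine Eventually.of_forall fun j b hb hst => ?_
  have h1 : (D k).w (xv D (k, j) b) < 1 := lt_of_le_of_lt hb hr
  have h2 : (D k).F (xv D (k, j) b) ∈ closedBall (D k).X.y1 ((D k).gr / 2) :=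
    hy ⟨fun i => (hs i).le.trans (hst i).1.le, fun i => (hst i).2.trans (ht i).le⟩
  obtain ⟨m, hm, h3⟩ := gauge_cover D k h1 h2
  exact ⟨gdK D k m, List.mem_map.2 ⟨m, List.mem_range.2 hm, rfl⟩, h3⟩

/-- the regular pair of `e_t` over `CF D l`, with homotopy `h` -/
noncomputable def xR {l : Filter (ℕ × ℕ)} (hl : l ≤ lf) (t : ℤ)
    (h : Matrix (JJ n) (JJ n) (Asy (CF D l) ℂ)) : RPr (Matrix (JJ n) (JJ n) (Asy (CF D l) ℂ)) :=
  RPr.mk (gridA (gridCont D hl)).p (gridA (gridCont D hl)).g (gridA (gridCont D hl)).d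
    (cA (eS D t) (isLocC_eS D hl t) * (gridA (gridCont D hl)).S *
      star (cA (eS D t) (isLocC_eS D hl t)))
    (star (cA (eS D t) (isLocC_eS D hl t)) * (gridA (gridCont D hl)).T *
      cA (eS D t) (isLocC_eS D hl t)) h

/-- **Step (b)**: over a box near `y1` the signatures of `e_{t+1}` and `e_t` agree. -/
theorem twist_k (k : ℕ) {lo hi : Fin n → ℝ} (lt : ∀ i, lo i < hi i) (hU : Icc lo hi ⊆ (D k).U)
    (hy : Icc lo hi ⊆ closedBall (D k).X.y1 ((D k).gr / 2)) {l : List (Par (Fin n))}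
    (hd : l.map Par.k = List.finRange n) (hl : ∀ a ∈ l, a.Ok (frK D k lo hi lt)) (t : ℤ)
    {h1 h0 : Matrix (JJ n) (JJ n) (Asy (CF D (lk k)) ℂ)}
    (H1 : IsOb (frK D k lo hi lt) n ∅ (dg' n) (xR D (lk_le_lf k) (t + 1) h1))
    (H0 : IsOb (frK D k lo hi lt) n ∅ (dg' n) (xR D (lk_le_lf k) t h0)) :
    vK D k (ob (dg' n) (xR D (lk_le_lf k) (t + 1) h1)) l
      = vK D k (ob (dg' n) (xR D (lk_le_lf k) t h0)) l := by
  rw [← sig_frK D k lo hi lt, ← sig_frK D k lo hi lt]
  have hln : l.length = n := by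
    have := congrArg List.length hd
    rwa [List.length_map, List.length_finRange] at this
  have hk : ∀ i : Fin n, ∃ a ∈ l, a.k = i := by
    intro i
    have h1 : i ∈ l.map Par.k := by rw [hd]; exact List.mem_finRange i
    exact List.mem_map.1 h1
  exact (twK D k).sig_eq (lt := lt) (D k).X.q_ne_zero (gridCont D (lk_le_lf k)) (cpt_k D k hU)
    (cover_k D k hy) hln hl hk t H1 H0

end Crest.Agent.R217.FineB555
end

-- ▼ part R217/Col_555

/-!
Row 217 (S0336), part C1, helper555: in column `k` the signatures of `x^{t+1}` and `x^t` agree over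
every box in `U_k` (steps (a) and (b) together).
-/

set_option autoImplicit false
set_option linter.unusedSectionVars false
set_option linter.unusedVariables false

open Filter Topology Metric Set

namespace Crest.Agent.R217.Col555

open Crest.Agent.R217.CruxN559 Crest.Agent.R217.Coarse889 Crest.Agent.R217.CtrlS970
open Crest.Agent.R217.Glob559 Crest.Agent.R217.Asym476 Crest.Agent.R217.Ctl559
open Crest.Agent.R217.PC473 Crest.Agent.R217.Obj52 Crest.Agent.R217.Sig52
open Crest.Agent.R217.Ind52 Crest.Agent.R217.Box970 Crest.Agent.R217.FineX970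

universe u

variable {n : ℕ} (D : ∀ k, KDat.{u} n (cs k)) (k : ℕ)

/-- a box near `y1` on which the gauges are defined -/
theorem exists_box_y1 : ∃ lo hi : Fin n → ℝ, (∀ i, lo i < hi i) ∧ Icc lo hi ⊆ (D k).U ∧
    Icc lo hi ⊆ closedBall (D k).X.y1 ((D k).gr / 2) := by
  obtain ⟨δ, hδ, h⟩ := Metric.isOpen_iff.1 (D k).U_open _ (D k).y1_U
  have hg := (D k).gr_pos
  set ρ : ℝ := min (δ / 2) ((D k).gr / 2) with hρ
  have hρ0 : 0 < ρ := lt_min (by linarith) (by linarith)
  have h1 : Icc (fun i => (D k).X.y1 i - ρ) (fun i => (D k).X.y1 i + ρ)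
      ⊆ closedBall (D k).X.y1 ρ := by
    intro x hx
    rw [mem_closedBall, dist_pi_le_iff hρ0.le]
    intro i
    have h2 := hx.1 i
    have h3 := hx.2 i
    simp only at h2 h3
    rw [Real.dist_eq, abs_le]
    constructor <;> linarith
  refine ⟨_, _, fun i => ?_, h1.trans ((closedBall_subset_ball ?_).trans h),
    h1.trans (closedBall_subset_closedBall (min_le_right _ _))⟩
  · show (D k).X.y1 i - ρ < (D k).X.y1 i + ρ
    linarith
  · have := min_le_left (δ / 2) ((D k).gr / 2)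
    linarith

/-- **Steps (a) and (b)**: the signature of `x^t` in column `k` does not depend on `t`, over any
box in `U_k`. -/
theorem col_step (t : ℤ) {lo hi : Fin n → ℝ} (lt : ∀ i, lo i < hi i)
    (hU : Icc lo hi ⊆ (D k).U) {l : List (Par (Fin n))} (hd : l.map Par.k = List.finRange n)
    (hl : ∀ a ∈ l, OkIn lo hi a) :
    vK D k (xF D (lk_le_lf k) (t + 1)) l = vK D k (xF D (lk_le_lf k) t) l := by
  obtain ⟨s, s', hs, hsU, hsy⟩ := exists_box_y1 D k
  have h1 := box_indep D k (X := xF D (lk_le_lf k) (t + 1)) (fun lo hi lt => xF_isOb D _ _ _) lt hs hU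
    hsU hd (stdPar_k s s') hl (stdPar_ok hs)
  have h0 := box_indep D k (X := xF D (lk_le_lf k) t) (fun lo hi lt => xF_isOb D _ _ _) lt hs hU
    hsU hd (stdPar_k s s') hl (stdPar_ok hs)
  rw [h1, h0]
  exact FineB555.twist_k D k hs hsU hsy (stdPar_k s s')
    (fun a ha => (stdPar_ok hs a ha).ok D k hs) t (xR_isOb D (lk_le_lf k) (t + 1) _)
    (xR_isOb D (lk_le_lf k) t _)

/-- the case `t = 0` -/
theorem col_one_zero {lo hi : Fin n → ℝ} (lt : ∀ i, lo i < hi i) (hU : Icc lo hi ⊆ (D k).U)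
    {l : List (Par (Fin n))} (hd : l.map Par.k = List.finRange n) (hl : ∀ a ∈ l, OkIn lo hi a) :
    vK D k (xF D (lk_le_lf k) 1) l = vK D k (xF D (lk_le_lf k) 0) l :=
  col_step D k 0 lt hU hd hl

end Crest.Agent.R217.Col555
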