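import Mathlib
import Crest.Agent.R217.PC_473

/-!
Row 217 (S0336), part C1, piece M5-N : NORMALISATION.

Algebra of the tensor product `C(Z) ⊗ D'` of the one-dimensional line complex with an
arbitrary Poincaré tuple `D'` of dimension `m`, its cut at a wall of the line, the explicit
local contraction `L` and the explicit chain map `G : D' → W`.
-/

set_option autoImplicit false
set_option linter.unusedSectionVars false
set_option linter.unusedSimpArgs false

namespace Crest.Agent.R217.Norm551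

open PC473

/-- a bilinear multiplicative star preserving pairing `A1 × A' → A` -/
structure TP (A1 A' A : Type*) [Ring A1] [StarRing A1] [Algebra ℂ A1]
    [Ring A'] [StarRing A'] [Algebra ℂ A'] [Ring A] [StarRing A] [Algebra ℂ A] where
  t : A1 →ₗ[ℂ] A' →ₗ[ℂ] A
  mul : ∀ x y x' y', t x y * t x' y' = t (x * x') (y * y')
  str : ∀ x y, star (t x y) = t (star x) (star y)

/-- data of the line with a wall: `g` grading, `d` boundary, `S` duality, `P` half line,
`e` = the edge `e_0`, `v` = the vertex `v_1`, `k : e_0 → v_1`, and the entries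
`a b c` of the contraction of the cut line. -/
structure Line (A1 : Type*) where
  g : A1
  d : A1
  S : A1
  P : A1
  e : A1
  v : A1
  k : A1
  a : A1
  b : A1
  c : A1

structure Line.Is {A1 : Type*} [Ring A1] [StarRing A1] [Algebra ℂ A1] (x : Line A1) : Prop where
  gg : x.g * x.g = 1
  sg : star x.g = x.g
  dd : x.d * x.d = 0
  gd : x.g * x.d = -(x.d * x.g)
  sS : star x.S = x.S
  gS : x.g * x.S = -(x.S * x.g)
  dS : x.d * x.S + x.S * star x.d = 0
  Sd : x.S * x.d + star x.d * x.S = 0
  SS : x.S * x.S = 1 - (4⁻¹ : ℂ) • (x.d * star x.d + star x.d * x.d)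
  PP : x.P * x.P = x.P
  sP : star x.P = x.P
  gP : x.g * x.P = x.P * x.g
  PdP : x.P * x.d * x.P = x.P * x.d
  ee : x.e * x.e = x.e
  se : star x.e = x.e
  Pe : x.P * x.e = x.e
  ge : x.g * x.e = -x.e
  vv : x.v * x.v = x.v
  sv : star x.v = x.v
  Pv : x.P * x.v = x.v
  gv : x.g * x.v = x.v
  ev : x.e * x.v = 0
  vk : x.v * x.k = x.k
  ke : x.k * x.e = x.k
  kk : star x.k * x.k = x.e
  kk' : x.k * star x.k = x.v
  Pde : x.P * x.d * x.e = x.k
  PSe : x.P * x.S * x.e = (2⁻¹ : ℂ) • x.k
  dv : x.d * x.v = 0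
  ed : x.e * x.d = 0
  Pa : x.P * x.a = x.a
  aP : x.a * x.P = x.a
  Pb : x.P * x.b = x.b
  bP : x.b * x.P = x.b
  Pc : x.P * x.c = x.c
  cP : x.c * x.P = x.c
  ga : x.g * x.a = -(x.a * x.g)
  gb : x.g * x.b = -(x.b * x.g)
  gc : x.g * x.c = -(x.c * x.g)
  h11 : x.P * x.d * x.a + x.a * (x.P * x.d) + x.P * x.S * x.P * x.b = x.P - (2⁻¹ : ℂ) • x.e
  h12 : x.P * x.S * x.P * x.c + x.a * (x.P * x.S * x.P) = (4⁻¹ : ℂ) • x.e
  h21 : star x.d * x.P * x.b + x.b * (x.P * x.d) = x.e
  h22 : star x.d * x.P * x.c + x.c * (star x.d * x.P) + x.b * (x.P * x.S * x.P)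
          = x.P - (2⁻¹ : ℂ) • x.e

theorem cc_star (m : ℕ) : cc m * star (cc m) = 1 := by
  rw [star_cc]
  calc cc m * ((-1) ^ m * cc m) = (-1) ^ m * (cc m * cc m) := by ring
    _ = (-1) ^ m * (-1) ^ m := by rw [cc_mul_self]
    _ = ((-1) * (-1)) ^ m := by rw [mul_pow]
    _ = 1 := by norm_num

theorem star_cc' (m : ℕ) : star (cc m) * cc m = 1 := by rw [mul_comm]; exact cc_star m

section

variable {A1 A' A : Type*} [Ring A1] [StarRing A1] [Algebra ℂ A1] [StarModule ℂ A1]
    [Ring A'] [StarRing A'] [Algebra ℂ A'] [StarModule ℂ A']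
    [Ring A] [StarRing A] [Algebra ℂ A] [StarModule ℂ A]

/-- `M = p + d H + H d` -/
def MM (y : Tup A') : A' := y.p + y.d * y.H + y.H * y.d

/-- the tensor product of the line with a tuple -/
noncomputable def prod (T : TP A1 A' A) (m : ℕ) (x : Line A1) (y : Tup A') : Tup A where
  p := T.t 1 y.p
  g := T.t x.g y.g
  d := T.t x.d y.p + T.t x.g y.d
  S := cc m • T.t x.S (y.g * y.S)
  T := star (cc m) • T.t x.S (y.T * y.g)
  H := -((4⁻¹ : ℂ) • T.t (star x.d) (MM y)) + T.t x.g y.H

section derived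
variable {m : ℕ} {y : Tup A'} (hy : y.IsPC m)
include hy
theorem y_gp : y.g * y.p = y.g := by
  have := congrArg star hy.pg
  rwa [star_mul, hy.sp, hy.sg] at this
theorem y_Sp : y.S * y.p = y.S := by
  have := congrArg star hy.pS
  rwa [star_mul, hy.sp, hy.sS] at this
theorem y_Tp : y.T * y.p = y.T := by
  have := congrArg star hy.pT
  rwa [star_mul, hy.sp, hy.sT] at this
theorem y_sdp : star y.d * y.p = star y.d := by
  have := congrArg star hy.pd
  rwa [star_mul, hy.sp] at this
end derived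

section MM
variable {m : ℕ} {y : Tup A'} (hy : y.IsPC m)
include hy
theorem MM_eq : y.S * y.T = MM y := hy.ST
theorem p_MM : y.p * MM y = MM y := by
  unfold MM
  rw [mul_add, mul_add, hy.pp, ← mul_assoc, hy.pd, ← mul_assoc, hy.pH]
theorem MM_p : MM y * y.p = MM y := by
  unfold MM
  rw [add_mul, add_mul, hy.pp, mul_assoc y.d, hy.Hp, mul_assoc y.H, hy.dp]
theorem d_MM : y.d * MM y = MM y * y.d := by
  unfold MM
  rw [mul_add, mul_add, add_mul, add_mul, hy.dp, hy.pd, ← mul_assoc, hy.dd, zero_mul,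
    mul_assoc y.H y.d y.d, hy.dd, mul_zero, mul_assoc, add_zero, add_zero]
theorem g_MM : y.g * MM y = MM y * y.g := by
  unfold MM
  rw [mul_add, mul_add, add_mul, add_mul, y_gp hy, hy.pg, ← mul_assoc, hy.gd, neg_mul,
    mul_assoc y.d y.g y.H, hy.gH, mul_neg, neg_neg, ← mul_assoc y.g, hy.gH, neg_mul,
    mul_assoc y.H y.g y.d, hy.gd, mul_neg, neg_neg, mul_assoc y.d, mul_assoc y.H]
theorem gMMg : y.g * MM y * y.g = MM y := by
  rw [g_MM hy, mul_assoc, hy.gg, MM_p hy]
end MM

theorem x_gsd {x : Line A1} (hx : x.Is) : x.g * star x.d = -(star x.d * x.g) := by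
  have := congrArg star hx.gd
  rw [star_mul, star_neg, star_mul, hx.sg] at this
  rw [this, neg_neg]

theorem prod_isPC (T : TP A1 A' A) {m : ℕ} {x : Line A1} {y : Tup A'} (hx : x.Is)
    (hy : y.IsPC m) : (prod T m x y).IsPC (m + 1) := by
  have hpH : y.p * y.H = y.H := hy.pH
  have hgS : y.p * (y.g * y.S) = y.g * y.S := by rw [← mul_assoc, hy.pg]
  have hTg : y.p * (y.T * y.g) = y.T * y.g := by rw [← mul_assoc, hy.pT]
  have hSgS : (y.g * y.S) * y.g * y.g = y.g * y.S := by
    rw [mul_assoc, hy.gg, mul_assoc, y_Sp hy]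
  have hcc := cc_star m
  have hcc' := star_cc' m
  refine
  { pp := ?_, sp := ?_, gg := ?_, sg := ?_, pg := ?_, pd := ?_, dp := ?_, pS := ?_, pT := ?_,
    pH := ?_, Hp := ?_, dd := ?_, sS := ?_, sT := ?_, dS := ?_, Td := ?_, ST := ?_, gd := ?_,
    gS := ?_, gT := ?_, gH := ?_ }
  · simp only [prod, T.mul, mul_one, hy.pp]
  · simp only [prod, T.str, star_one, hy.sp]
  · simp only [prod, T.mul, hx.gg, hy.gg]
  · simp only [prod, T.str, hx.sg, hy.sg]
  · simp only [prod, T.mul, one_mul, hy.pg]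
  · simp only [prod, mul_add, T.mul, one_mul, hy.pp, hy.pd]
  · simp only [prod, add_mul, T.mul, mul_one, hy.pp, hy.dp]
  · simp only [prod, mul_smul_comm, T.mul, one_mul, hgS]
  · simp only [prod, mul_smul_comm, T.mul, one_mul, hTg]
  · simp only [prod, mul_add, mul_neg, mul_smul_comm, T.mul, one_mul, p_MM hy, hy.pH]
  · simp only [prod, add_mul, neg_mul, smul_mul_assoc, T.mul, mul_one, MM_p hy, hy.Hp]
  · -- dd
    simp only [prod, mul_add, add_mul, T.mul, hx.dd, hx.gg, hy.dd, hy.dp, hy.pd, hx.gd, hy.pp]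
    simp only [map_neg, map_zero, LinearMap.zero_apply, LinearMap.neg_apply]
    abel
  · -- sS
    rcases Nat.even_or_odd m with h | h
    · have h1 : star (cc m) = cc m := by rw [star_cc, h.neg_one_pow, one_mul]
      have h2 : y.g * y.S = y.S * y.g := by rw [hy.gS, h.neg_one_pow, one_mul]
      simp only [prod, star_smul, T.str, star_mul, hx.sS, hy.sS, hy.sg, h1, h2]
    · have h1 : star (cc m) = -cc m := by rw [star_cc, h.neg_one_pow]; ring
      have h2 : y.g * y.S = -(y.S * y.g) := by rw [hy.gS, h.neg_one_pow, neg_one_mul]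
      rw [show (prod T m x y).S = cc m • T.t x.S (y.g * y.S) from rfl, star_smul, T.str, star_mul,
        hx.sS, hy.sS, hy.sg, h1, h2]
      simp only [map_neg, smul_neg, neg_smul]
  · -- sT
    rcases Nat.even_or_odd m with h | h
    · have h1 : star (cc m) = cc m := by rw [star_cc, h.neg_one_pow, one_mul]
      have h2 : y.g * y.T = y.T * y.g := by rw [hy.gT, h.neg_one_pow, one_mul]
      simp only [prod, star_smul, T.str, star_mul, hx.sS, hy.sT, hy.sg, h1, h2]
    · have h1 : star (cc m) = -cc m := by rw [star_cc, h.neg_one_pow]; ring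
      have h2 : y.g * y.T = -(y.T * y.g) := by rw [hy.gT, h.neg_one_pow, neg_one_mul]
      simp only [prod, star_smul, T.str, star_mul, hx.sS, hy.sT, hy.sg, h1, h2, map_neg, smul_neg,
        neg_smul, star_neg, neg_neg]
  · -- dS
    have e1 : y.d * (y.g * y.S) = (y.g * y.S) * star y.d := by
      have := hy.dS
      rw [← mul_assoc, ← neg_neg (y.d * y.g), ← hy.gd, neg_mul, mul_assoc, mul_assoc,
        eq_neg_of_add_eq_zero_left this, mul_neg, neg_neg]
    have e2 : x.d * x.S = - (x.S * star x.d) := eq_neg_of_add_eq_zero_left hx.dS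
    simp only [prod, star_add, T.str, hx.sg, hy.sp, mul_add, add_mul, mul_smul_comm,
      smul_mul_assoc, T.mul, hgS, e1, e2, hx.gS, hy.sg]
    rw [mul_assoc y.g y.S y.p, y_Sp hy]
    simp only [map_neg, LinearMap.neg_apply]
    module
  · -- Td
    have e1 : (y.T * y.g) * y.d = star y.d * (y.T * y.g) := by
      have := hy.Td
      rw [mul_assoc, hy.gd, mul_neg, ← mul_assoc, eq_neg_of_add_eq_zero_left this, neg_mul,
        neg_neg, mul_assoc]
    have e2 : x.S * x.d = - (star x.d * x.S) := eq_neg_of_add_eq_zero_left hx.Sd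
    simp only [prod, star_add, T.str, hx.sg, hy.sp, mul_add, add_mul, mul_smul_comm,
      smul_mul_assoc, T.mul, hTg, e1, e2, hx.gS, hy.sg]
    rw [mul_assoc y.T y.g y.p, y_gp hy]
    simp only [map_neg, LinearMap.neg_apply]
    module
  · -- ST
    have e1 : (y.g * y.S) * (y.T * y.g) = MM y := by
      rw [mul_assoc, ← mul_assoc y.S, MM_eq hy, ← mul_assoc, gMMg hy]
    have e2 : x.g * star x.d = - (star x.d * x.g) := x_gsd hx
    have e3 : MM y * y.p = MM y := MM_p hy
    have e4 : y.p * MM y = MM y := p_MM hy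
    have e5 : y.d * MM y = MM y * y.d := d_MM hy
    simp only [prod, mul_add, add_mul, mul_smul_comm, smul_mul_assoc, T.mul, e1, smul_smul, hcc',
      one_smul, mul_neg, neg_mul, e2, hx.SS, hx.gg, hx.gd, e3, e4, e5, hy.pH, hy.Hp]
    simp only [map_neg, map_sub, map_add, map_smul, LinearMap.neg_apply, LinearMap.sub_apply,
      LinearMap.add_apply, LinearMap.smul_apply, one_smul, smul_add, smul_neg]
    have e6 : T.t 1 (MM y) = T.t 1 y.p + T.t 1 (y.d * y.H) + T.t 1 (y.H * y.d) := by
      unfold MM; simp only [map_add]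
    rw [e6]
    module
  · -- gd
    simp only [prod, mul_add, add_mul, T.mul, hx.gd, hy.gd, y_gp hy, hy.pg, hx.gg, map_neg,
      LinearMap.neg_apply]
    abel
  · -- gS
    rw [show (prod T m x y).S = cc m • T.t x.S (y.g * y.S) from rfl,
      show (prod T m x y).g = T.t x.g y.g from rfl, mul_smul_comm, smul_mul_assoc, T.mul, T.mul,
      hx.gS]
    rcases Nat.even_or_odd m with h | h
    · have h2 : y.g * y.S = y.S * y.g := by rw [hy.gS, h.neg_one_pow, one_mul]
      have h3 : (y.g * y.S) * y.g = y.g * (y.g * y.S) := by rw [mul_assoc, ← h2]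
      rw [h3, pow_succ, h.neg_one_pow]
      simp
    · have h2 : y.g * y.S = -(y.S * y.g) := by rw [hy.gS, h.neg_one_pow, neg_one_mul]
      have h3 : (y.g * y.S) * y.g = -(y.g * (y.g * y.S)) := by
        rw [mul_assoc, show y.S * y.g = -(y.g * y.S) by rw [h2, neg_neg], mul_neg]
      rw [h3, pow_succ, h.neg_one_pow]
      simp
  · -- gT
    rw [show (prod T m x y).T = star (cc m) • T.t x.S (y.T * y.g) from rfl,
      show (prod T m x y).g = T.t x.g y.g from rfl, mul_smul_comm, smul_mul_assoc, T.mul, T.mul,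
      hx.gS]
    rcases Nat.even_or_odd m with h | h
    · have h2 : y.g * y.T = y.T * y.g := by rw [hy.gT, h.neg_one_pow, one_mul]
      have h3 : y.g * (y.T * y.g) = (y.T * y.g) * y.g := by rw [← mul_assoc, h2]
      rw [h3, pow_succ, h.neg_one_pow]
      simp
    · have h2 : y.g * y.T = -(y.T * y.g) := by rw [hy.gT, h.neg_one_pow, neg_one_mul]
      have h3 : y.g * (y.T * y.g) = -((y.T * y.g) * y.g) := by
        rw [← mul_assoc, h2, neg_mul]
      rw [h3, pow_succ, h.neg_one_pow]
      simp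
  · -- gH
    have e2 : x.g * star x.d = - (star x.d * x.g) := x_gsd hx
    simp only [prod, mul_add, add_mul, mul_neg, neg_mul, mul_smul_comm, smul_mul_assoc, T.mul, e2,
      g_MM hy, hx.gg, hy.gH, map_neg, LinearMap.neg_apply]
    simp only [smul_neg]
    abel

theorem star_MM {m : ℕ} {y : Tup A'} (hy : y.IsPC m) : star (MM y) = y.T * y.S := by
  rw [← MM_eq hy, star_mul, hy.sS, hy.sT]

/-- the coherence relation `S H* + H S = 0` passes to the product -/
theorem prod_coh (T : TP A1 A' A) {m : ℕ} {x : Line A1} {y : Tup A'} (hx : x.Is)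
    (hy : y.IsPC m) (hR : y.S * star y.H + y.H * y.S = 0) :
    (prod T m x y).S * star (prod T m x y).H + (prod T m x y).H * (prod T m x y).S = 0 := by
  have e1 : (y.g * y.S) * (y.T * y.S) = MM y * (y.g * y.S) := by
    rw [← mul_assoc (MM y), ← g_MM hy, mul_assoc, mul_assoc, ← mul_assoc y.S, MM_eq hy]
  have e2 : y.H * (y.g * y.S) = (y.g * y.S) * star y.H := by
    have h1 : y.g * y.H = -(y.H * y.g) := hy.gH
    have h2 : y.H * y.g = -(y.g * y.H) := by rw [h1, neg_neg]
    rw [← mul_assoc, h2, neg_mul, mul_assoc, mul_assoc, eq_neg_of_add_eq_zero_right hR, mul_neg,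
      neg_neg]
  have e3 : x.S * x.d = - (star x.d * x.S) := eq_neg_of_add_eq_zero_left hx.Sd
  simp only [prod, star_add, star_neg, star_smul, T.str, star_star, star_MM hy, hx.sg, mul_add,
    add_mul, mul_neg, neg_mul, mul_smul_comm, smul_mul_assoc, T.mul, e1, e2, e3, hx.gS, map_neg,
    LinearMap.neg_apply]
  simp only [star_inv₀, RCLike.star_def, map_ofNat]
  module

end

section line

variable {A1 : Type*} [Ring A1] [StarRing A1] [Algebra ℂ A1] [StarModule ℂ A1]
variable {x : Line A1} (hx : x.Is)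
include hx

theorem x_eP : x.e * x.P = x.e := by
  have := congrArg star hx.Pe
  rwa [star_mul, hx.sP, hx.se] at this
theorem x_eg : x.e * x.g = -x.e := by
  have := congrArg star hx.ge
  rwa [star_mul, hx.sg, star_neg, hx.se] at this
theorem x_vP : x.v * x.P = x.v := by
  have := congrArg star hx.Pv
  rwa [star_mul, hx.sP, hx.sv] at this
theorem x_vg : x.v * x.g = x.v := by
  have := congrArg star hx.gv
  rwa [star_mul, hx.sg, hx.sv] at this
theorem x_ve : x.v * x.e = 0 := by
  have := congrArg star hx.ev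
  rwa [star_mul, hx.se, hx.sv, star_zero] at this
theorem x_gk : x.g * x.k = x.k := by
  rw [← hx.vk, ← mul_assoc, hx.gv]
theorem x_Pk : x.P * x.k = x.k := by
  rw [← hx.vk, ← mul_assoc, hx.Pv]
theorem x_ek : x.e * x.k = 0 := by
  rw [← hx.vk, ← mul_assoc, hx.ev, zero_mul]
theorem x_ske : star x.k * x.e = 0 := by
  have := congrArg star (x_ek hx)
  rwa [star_mul, hx.se, star_zero] at this
theorem x_sde : star x.d * x.e = 0 := by
  have := congrArg star hx.ed
  rwa [star_mul, hx.se, star_zero] at this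
theorem x_PsdP : x.P * star x.d * x.P = star x.d * x.P := by
  have := congrArg star hx.PdP
  rwa [star_mul, star_mul, hx.sP, ← mul_assoc] at this
theorem x_PSPe : x.P * x.S * x.P * x.e = (2⁻¹ : ℂ) • x.k := by
  rw [mul_assoc, hx.Pe, hx.PSe]
/-- wall of `P` : `P d S P + P S d* P = 0` inside the half line -/
theorem x_wall : x.P * x.d * (x.P * x.S * x.P) + (x.P * x.S * x.P) * (star x.d * x.P) = 0 := by
  have h1 : x.P * x.d * (x.P * x.S * x.P) = x.P * (x.d * x.S) * x.P := by
    calc x.P * x.d * (x.P * x.S * x.P) = (x.P * x.d * x.P) * (x.S * x.P) := by noncomm_ring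
      _ = x.P * x.d * (x.S * x.P) := by rw [hx.PdP]
      _ = _ := by noncomm_ring
  have h2 : (x.P * x.S * x.P) * (star x.d * x.P) = x.P * (x.S * star x.d) * x.P := by
    calc (x.P * x.S * x.P) * (star x.d * x.P) = x.P * x.S * (x.P * star x.d * x.P) := by
          noncomm_ring
      _ = x.P * x.S * (star x.d * x.P) := by rw [x_PsdP hx]
      _ = _ := by noncomm_ring
  rw [h1, h2, ← add_mul, ← mul_add, hx.dS, mul_zero, zero_mul]
end line

end Crest.Agent.R217.Norm551
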