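import Crest.Agent.R217.Grid3_897
import Crest.Agent.R217.ChainSpec_373
import Crest.Agent.R217.NormA_551

/-! Row 217: the boundary of `gridT` is `dd`; `gridT` as iterated product in the sense of
`NormA_551`. -/

set_option autoImplicit false
set_option linter.unusedSectionVars false

open Matrix Finset
open scoped BigOperators

namespace Crest.Agent.R217.Grid897

open Crest.Agent.R217.PC473

noncomputable section

theorem tens_succ {n : ℕ} {I : Type*} [Fintype I] [DecidableEq I]
    (a : Fin (n + 1) → Matrix I I ℂ) : tens a = tc (a 0) (tens fun k => a k.succ) := by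
  ext x y
  rw [tens_apply, tc_apply, tens_apply, Fin.prod_univ_succ]
  rfl

variable (N : ℕ) [NeZero N]


theorem gridT_bdRec : Carrier834.BdRec (N := N) (fun n => (gridT N n).d) := by
  constructor
  · intro t s
    simp [gridT]
  · intro n t s
    show (gridT N (n + 1)).d t s = _
    rw [gridT_d_succ, Matrix.add_apply, tc_apply, tc_apply, Matrix.one_apply]

variable {N}



variable (N)

/-- the torus grid has all the properties used by the chain package -/
theorem isGrid_gridT (n : ℕ) : Chain373.IsGrid (gridT N n) where
  pc := gridT_isPC N n
  p_one := gridT_p N n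
  isBd := Carrier834.isBd_of_rec (gridT_bdRec N) n
  haug := Carrier834.haug_of_rec (gridT_bdRec N) n
  adj_d t s h := (gridT_d_supp n t s h).2
  adj_S t s h := (gridT_S_supp n t s h).2
  adj_T t s h := by rw [gridT_T] at h; exact (gridT_S_supp n t s h).2
  adj_H t s h := (gridT_H_supp n t s h).2
  deg_d t s h := (gridT_d_supp n t s h).1.symm
  deg_S t s h := (gridT_S_supp n t s h).1
  deg_T t s h := by rw [gridT_T] at h; exact (gridT_S_supp n t s h).1
  deg_H t s h := (gridT_H_supp n t s h).1

end

end Crest.Agent.R217.Grid897
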