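import Mathlib
import Crest.Agent.R217.ChainSpec_373
import Crest.Agent.R217.FineSpec_970
import Crest.Agent.R217.Grid4_897
import Crest.Agent.R217.Ctl_559
import Crest.Agent.R217.Equi_970

-- ▼ part R217/Geo_373
section

/-! Row 217, M7a: geometry of torus cells in real coordinates; `MB2`, `MB3` in real units. -/

set_option autoImplicit false

open Metric Set
open Crest.Agent.R217.PC473 Crest.Agent.R217.Flow373 Crest.Agent.R217.Carrier834

namespace Crest.Agent.R217.Chain373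

variable {n N : ℕ}

/-- non-wrapping window -/
def InW (s : CellZ n N) : Prop := ∀ i, 2 * |(s i).1.valMinAbs| + 4 ≤ (N : ℤ)

theorem vma_pred [NeZero N] {a b : ZMod N} (hb : 2 * |b.valMinAbs| + 4 ≤ (N : ℤ)) (h : b = a + 1) :
    a.valMinAbs = b.valMinAbs - 1 := by
  have ha : a = b - 1 := by rw [h]; ring
  rw [ha, ZMod.valMinAbs_spec]
  have h3 := le_abs_self b.valMinAbs
  have h4 := neg_abs_le b.valMinAbs
  refine ⟨by push_cast; rfl, ?_⟩
  constructor <;> omega

theorem adj_vma [NeZero N] {t s : CellZ n N} (h : Adj t s) (hs : InW s) (i : Fin n) :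
    |((t i).1.valMinAbs : ℝ) - ((s i).1.valMinAbs : ℝ)| ≤ 1 := by
  rcases h i with h | h | h
  · rw [h]; simp
  · rw [(succ_iff (hs i)).1 h]; push_cast; simp
  · rw [vma_pred (hs i) h]; push_cast; simp

theorem adj_dist [NeZero N] {μ : ℝ} (hμ : 0 ≤ μ) {t s : CellZ n N} (h : Adj t s) (hs : InW s) :
    dist (pos μ t) (pos μ s) ≤ μ := by
  rw [dist_pi_le_iff hμ]
  intro i
  rw [Real.dist_eq]
  unfold pos
  rw [← mul_sub, abs_mul, abs_of_nonneg hμ]
  calc μ * _ ≤ μ * 1 := mul_le_mul_of_nonneg_left (adj_vma h hs i) hμ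
    _ = μ := mul_one μ

theorem adj_symm {t s : CellZ n N} (h : Adj t s) : Adj s t := fun i => by
  rcases h i with h | h | h
  · exact Or.inl h.symm
  · exact Or.inr (Or.inr h)
  · exact Or.inr (Or.inl h)

theorem inW_of_le {μ R : ℝ} (hμ : 0 < μ) (hN : 2 * R + 4 * μ ≤ μ * N) {s : CellZ n N}
    (hs : dist (pos μ s) 0 ≤ R) : InW s := by
  intro i
  have h1 : |μ * ((s i).1.valMinAbs : ℝ)| ≤ R := by
    have := (dist_le_pi_dist (pos μ s) 0 i).trans hs
    simpa [pos, Real.dist_eq] using this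
  rw [abs_mul, abs_of_pos hμ] at h1
  have h2 : μ * (2 * |((s i).1.valMinAbs : ℝ)| + 4) ≤ μ * N := by nlinarith
  have h3 := le_of_mul_le_mul_left h2 hμ
  exact_mod_cast h3

/-- the closed cell -/
def cc (μ : ℝ) (s : CellZ n N) : Set (Fin n → ℝ) :=
  {x | ∀ i, μ * ((s i).1.valMinAbs : ℝ) ≤ x i ∧
    x i ≤ μ * (((s i).1.valMinAbs : ℝ) + (if (s i).2 then 1 else 0))}

theorem pos_mem_cc {μ : ℝ} (hμ : 0 ≤ μ) (s : CellZ n N) : pos μ s ∈ cc μ s := fun i => by
  refine ⟨le_rfl, ?_⟩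
  unfold pos
  apply mul_le_mul_of_nonneg_left _ hμ
  split_ifs <;> linarith

theorem cc_dist {μ : ℝ} (hμ : 0 ≤ μ) {s : CellZ n N} {x : Fin n → ℝ} (hx : x ∈ cc μ s) :
    dist x (pos μ s) ≤ μ := by
  rw [dist_pi_le_iff hμ]
  intro i
  rw [Real.dist_eq]
  obtain ⟨h1, h2⟩ := hx i
  unfold pos
  have h3 : μ * (((s i).1.valMinAbs : ℝ) + (if (s i).2 then 1 else 0)) ≤
      μ * ((s i).1.valMinAbs : ℝ) + μ := by
    split_ifs
    · linarith
    · linarith
  rw [abs_of_nonneg (by linarith)]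
  linarith

/-- cells whose closed cell lies in `C` -/
def KK (μ : ℝ) (C : Set (Fin n → ℝ)) : Set (CellZ n N) := {s | cc μ s ⊆ C}

theorem pos_mem_of_KK {μ : ℝ} (hμ : 0 ≤ μ) {C : Set (Fin n → ℝ)} {s : CellZ n N}
    (hs : s ∈ KK μ C) : pos μ s ∈ C := hs (pos_mem_cc hμ s)

theorem mem_KK_of {μ κ : ℝ} (hμ : 0 ≤ μ) (hμκ : μ < κ) {C : Set (Fin n → ℝ)} {s : CellZ n N}
    (h : ∀ x, dist x (pos μ s) < κ → x ∈ C) : s ∈ KK μ C :=
  fun _ hx => h _ ((cc_dist hμ hx).trans_lt hμκ)

theorem face_cc [NeZero N] {μ : ℝ} (hμ : 0 ≤ μ) {t s : CellZ n N}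
    (h : IsFace (lift t) (lift s)) : cc μ t ⊆ cc μ s := by
  obtain ⟨j, hj, h⟩ := h
  have hj' : (s j).2 = true := hj
  intro x hx i
  obtain ⟨h1, h2⟩ := hx i
  rcases h with h | h
  · have hi := congrFun h i
    by_cases hij : i = j
    · subst hij
      rw [Function.update_self] at hi
      have e1 : (t i).1.valMinAbs = (s i).1.valMinAbs := congrArg Prod.fst hi
      have e2 : (t i).2 = false := congrArg Prod.snd hi
      rw [e1] at h1 h2
      rw [e2] at h2
      simp only [Bool.false_eq_true, if_false, add_zero] at h2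
      refine ⟨h1, h2.trans ?_⟩
      apply mul_le_mul_of_nonneg_left _ hμ
      rw [hj']
      simp
    · rw [Function.update_of_ne hij] at hi
      have e1 : (t i).1.valMinAbs = (s i).1.valMinAbs := congrArg Prod.fst hi
      have e2 : (t i).2 = (s i).2 := congrArg (fun p : ℤ × Bool => p.2) hi
      rw [e1] at h1 h2
      rw [e2] at h2
      exact ⟨h1, h2⟩
  · have hi := congrFun h i
    by_cases hij : i = j
    · subst hij
      rw [Function.update_self] at hi
      have e1 : (t i).1.valMinAbs = (s i).1.valMinAbs + 1 := congrArg Prod.fst hi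
      have e2 : (t i).2 = false := congrArg Prod.snd hi
      rw [e1] at h1 h2
      rw [e2] at h2
      simp only [Bool.false_eq_true, if_false, add_zero] at h2
      push_cast at h1 h2
      rw [hj']
      simp only [if_true]
      refine ⟨?_, h2⟩
      nlinarith
    · rw [Function.update_of_ne hij] at hi
      have e1 : (t i).1.valMinAbs = (s i).1.valMinAbs := congrArg Prod.fst hi
      have e2 : (t i).2 = (s i).2 := congrArg (fun p : ℤ × Bool => p.2) hi
      rw [e1] at h1 h2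
      rw [e2] at h2
      exact ⟨h1, h2⟩

theorem face_KK [NeZero N] {μ : ℝ} (hμ : 0 ≤ μ) {C : Set (Fin n → ℝ)} {t s : CellZ n N}
    (hs : s ∈ KK μ C) (h : IsFace (lift t) (lift s)) : t ∈ KK μ C :=
  (face_cc hμ h).trans hs

theorem face_dist [NeZero N] {μ : ℝ} (hμ : 0 ≤ μ) {t s : CellZ n N}
    (h : IsFace (lift t) (lift s)) : dist (pos μ t) (pos μ s) ≤ μ :=
  cc_dist hμ (face_cc hμ h (pos_mem_cc hμ t))

theorem dist_of_inBall {μ : ℝ} (hμ : 0 < μ) {y : Fin n → ℝ} {r : ℝ} (hr : 0 ≤ r)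
    {t : CellZ n N} (h : InBall (fun a => y a / μ) r (lift t)) : dist (pos μ t) y ≤ μ * r := by
  rw [dist_pi_le_iff (by positivity)]
  intro i
  obtain ⟨h1, h2⟩ := h i
  rw [Real.dist_eq]
  unfold pos
  have h3 : ((lift t i).1 : ℝ) = ((t i).1.valMinAbs : ℝ) := rfl
  rw [h3] at h1 h2
  have h4 : (0 : ℝ) ≤ (if (lift t i).2 = true then 1 else 0) := by split_ifs <;> norm_num
  have e : μ * ((t i).1.valMinAbs : ℝ) - y i = μ * (((t i).1.valMinAbs : ℝ) - y i / μ) := by
    field_simp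
  rw [e, abs_mul, abs_of_pos hμ]
  apply mul_le_mul_of_nonneg_left _ hμ.le
  rw [abs_le]
  constructor <;> linarith

theorem inBall_of_dist {μ : ℝ} (hμ : 0 < μ) {y : Fin n → ℝ} {r : ℝ}
    {t : CellZ n N} (h : dist (pos μ t) y ≤ r) : InBall (fun a => y a / μ) (r / μ + 1) (lift t) := by
  intro i
  have h1 := (dist_le_pi_dist (pos μ t) y i).trans h
  rw [Real.dist_eq] at h1
  unfold pos at h1
  have e : μ * ((t i).1.valMinAbs : ℝ) - y i = μ * (((t i).1.valMinAbs : ℝ) - y i / μ) := by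
    field_simp
  rw [e, abs_mul, abs_of_pos hμ] at h1
  have h2 : |((t i).1.valMinAbs : ℝ) - y i / μ| ≤ r / μ := by
    rw [le_div_iff₀ hμ, mul_comm]; exact h1
  rw [abs_le] at h2
  have h3 : ((lift t i).1 : ℝ) = ((t i).1.valMinAbs : ℝ) := rfl
  rw [h3]
  constructor
  · linarith
  · split_ifs <;> linarith

/-- augmentation of a column -/
noncomputable def aug0 [NeZero N] (A : Matrix (CellZ n N) (CellZ n N) ℂ) (s : CellZ n N) : ℂ :=
  ∑ t, (if dim (lift t) = 0 then A t s else 0)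

/-- **MB2** in real units -/
theorem real_map [NeZero N] {dd : Matrix (CellZ n N) (CellZ n N) ℂ} (hdd : IsBd dd)
    {μ : ℝ} (hμ : 0 < μ) {C : Set (Fin n → ℝ)} {R : ℝ} (hC : ∀ v ∈ C, dist v 0 ≤ R)
    (T : (Fin n → ℝ) → (Fin n → ℝ)) {e0 : ℝ} (he0 : 0 ≤ e0)
    (hT : ∀ v ∈ C, ∀ w ∈ C, dist w v ≤ μ → dist (T w) (T v) ≤ e0)
    (hTC : ∀ v ∈ C, dist (T v) 0 ≤ R) (hN : 2 * R + 6 * μ + 2 * n * e0 ≤ μ * N) :
    ∃ η : Matrix (CellZ n N) (CellZ n N) ℂ, (∀ s ∉ KK μ C, ∀ t, η t s = 0) ∧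
      ∀ s ∈ KK μ C, (∀ t, η t s ≠ 0 → dimZ t = dimZ s ∧
          dist (pos μ t) (T (pos μ s)) ≤ μ + n * e0) ∧
        (∀ t, (dd * η) t s = (η * dd) t s) ∧ (dimZ s = 0 → aug0 η s = 1) := by
  have hne : (0 : ℝ) ≤ n * e0 := by positivity
  have hW : ∀ s ∈ KK (n := n) (N := N) μ C, Win N (lift s) := fun s hs =>
    inW_of_le hμ (by linarith) (hC _ (pos_mem_of_KK hμ.le hs))
  obtain ⟨η, h1, h2⟩ := matrix_map hdd (KK μ C) (fun s hs t ht => face_KK hμ.le hs ht)
    (fun s a => T (pos μ s) a / μ) (ρ := e0 / μ) (by positivity)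
    (fun s hs t ht i => by
      have h3 := hT _ (pos_mem_of_KK hμ.le hs) _ (pos_mem_of_KK hμ.le (face_KK hμ.le hs ht))
        (face_dist hμ.le ht)
      have h4 := (dist_le_pi_dist (T (pos μ t)) (T (pos μ s)) i).trans h3
      rw [Real.dist_eq] at h4
      rw [← sub_div, abs_div, abs_of_pos hμ]
      exact div_le_div_of_nonneg_right h4 hμ.le)
    hW
    (fun s hs i => by
      have h3 := (dist_le_pi_dist (T (pos μ s)) 0 i).trans (hTC _ (pos_mem_of_KK hμ.le hs))
      rw [Real.dist_eq, Pi.zero_apply, sub_zero] at h3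
      rw [abs_div, abs_of_pos hμ]
      have h4 : |T (pos μ s) i| / μ ≤ R / μ := div_le_div_of_nonneg_right h3 hμ.le
      have h5 : (2 * R + 6 * μ + 2 * n * e0) / μ ≤ N := by
        rw [div_le_iff₀ hμ]; linarith [mul_comm μ (N : ℝ)]
      have h6 : (2 * R + 6 * μ + 2 * n * e0) / μ = 2 * (R / μ) + 6 + 2 * (n * (e0 / μ)) := by
        field_simp
      linarith)
  refine ⟨η, h1, fun s hs => ?_⟩
  obtain ⟨h3, h4, h5⟩ := h2 s hs
  refine ⟨fun t ht => ⟨(h3 t ht).1, ?_⟩, h4, h5⟩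
  have h6 := dist_of_inBall hμ (by positivity) (h3 t ht).2
  have h7 : μ * (1 + n * (e0 / μ)) = μ + n * e0 := by field_simp
  rwa [h7] at h6

/-- **MB3** in real units -/
theorem real_homotopy [NeZero N] {dd : Matrix (CellZ n N) (CellZ n N) ℂ} (hdd : IsBd dd)
    {μ : ℝ} (hμ : 0 < μ) {C : Set (Fin n → ℝ)} {R : ℝ} (hC : ∀ v ∈ C, dist v 0 ≤ R)
    (T : (Fin n → ℝ) → (Fin n → ℝ)) {e0 r : ℝ} (he0 : 0 ≤ e0) (hr : 0 ≤ r)
    (hT : ∀ v ∈ C, ∀ w ∈ C, dist w v ≤ μ → dist (T w) (T v) ≤ e0)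
    (hTC : ∀ v ∈ C, dist (T v) 0 ≤ R) (hN : 2 * R + 2 * r + 6 * μ + 2 * n * e0 ≤ μ * N)
    (F : Matrix (CellZ n N) (CellZ n N) ℂ)
    (hF : ∀ s ∈ KK μ C, (∀ t, F t s ≠ 0 → dimZ t = dimZ s ∧
        dist (pos μ t) (T (pos μ s)) ≤ r) ∧ (∀ t, (dd * F) t s = (F * dd) t s) ∧
        (dimZ s = 0 → aug0 F s = 0)) :
    ∃ h : Matrix (CellZ n N) (CellZ n N) ℂ, (∀ s ∉ KK μ C, ∀ t, h t s = 0) ∧
      ∀ s ∈ KK μ C, (∀ t, h t s ≠ 0 → dimZ t = dimZ s + 1 ∧
          dist (pos μ t) (T (pos μ s)) ≤ r + μ + n * e0) ∧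
        (∀ t, (dd * h + h * dd) t s = F t s) := by
  have hne : (0 : ℝ) ≤ n * e0 := by positivity
  have hW : ∀ s ∈ KK (n := n) (N := N) μ C, Win N (lift s) := fun s hs =>
    inW_of_le hμ (by linarith) (hC _ (pos_mem_of_KK hμ.le hs))
  obtain ⟨h, h1, h2⟩ := matrix_homotopy hdd (KK μ C) (fun s hs t ht => face_KK hμ.le hs ht)
    (fun s a => T (pos μ s) a / μ) (ρ := e0 / μ) (R0 := r / μ + 1) (by positivity)
    (by have : 0 ≤ r / μ := by positivity
        linarith)
    (fun s hs t ht i => by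
      have h3 := hT _ (pos_mem_of_KK hμ.le hs) _ (pos_mem_of_KK hμ.le (face_KK hμ.le hs ht))
        (face_dist hμ.le ht)
      have h4 := (dist_le_pi_dist (T (pos μ t)) (T (pos μ s)) i).trans h3
      rw [Real.dist_eq] at h4
      rw [← sub_div, abs_div, abs_of_pos hμ]
      exact div_le_div_of_nonneg_right h4 hμ.le)
    hW
    (fun s hs i => by
      have h3 := (dist_le_pi_dist (T (pos μ s)) 0 i).trans (hTC _ (pos_mem_of_KK hμ.le hs))
      rw [Real.dist_eq, Pi.zero_apply, sub_zero] at h3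
      rw [abs_div, abs_of_pos hμ]
      have h4 : |T (pos μ s) i| / μ ≤ R / μ := div_le_div_of_nonneg_right h3 hμ.le
      have h5 : (2 * R + 2 * r + 6 * μ + 2 * n * e0) / μ ≤ N := by
        rw [div_le_iff₀ hμ]; linarith [mul_comm μ (N : ℝ)]
      have h6 : (2 * R + 2 * r + 6 * μ + 2 * n * e0) / μ =
          2 * (R / μ) + 2 * (r / μ) + 6 + 2 * (n * (e0 / μ)) := by
        field_simp
      linarith)
    F (fun s hs => by
      obtain ⟨h3, h4, h5⟩ := hF s hs
      exact ⟨fun t ht => ⟨(h3 t ht).1, inBall_of_dist hμ (h3 t ht).2⟩, h4, h5⟩)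
  refine ⟨h, h1, fun s hs => ?_⟩
  obtain ⟨h3, h4⟩ := h2 s hs
  refine ⟨fun t ht => ⟨(h3 t ht).1, ?_⟩, h4⟩
  have h6 := dist_of_inBall hμ (by positivity) (h3 t ht).2
  have h7 : μ * (r / μ + 1 + n * (e0 / μ)) = r + μ + n * e0 := by field_simp
  rwa [h7] at h6

end Crest.Agent.R217.Chain373
end

-- ▼ part R217/VanCalc_373
section

/-! Row 217, M7a: calculus of local matrices (`Loc`) and matrices vanishing near a region (`Vn`),
and the word identities behind the chain package. -/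

set_option autoImplicit false

namespace Crest.Agent.R217.VanCalc373

variable {I : Type*}

/-- `A` moves the levels of the tower `Z` by at most `k` -/
def Loc (Z : ℕ → Set I) (k : ℕ) (A : Matrix I I ℂ) : Prop :=
  ∀ t s, A t s ≠ 0 → ∀ j, (t ∈ Z j → s ∈ Z (j + k)) ∧ (s ∈ Z j → t ∈ Z (j + k))

/-- `A` vanishes on rows and columns in `Z j` -/
def Vn (Z : ℕ → Set I) (j : ℕ) (A : Matrix I I ℂ) : Prop :=
  ∀ t s, (t ∈ Z j ∨ s ∈ Z j) → A t s = 0

variable {Z : ℕ → Set I} {A B : Matrix I I ℂ} {j j' k l : ℕ}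

theorem Loc.mono (hZ : Monotone Z) (h : Loc Z k A) (hk : k ≤ l) : Loc Z l A := fun t s hts j =>
  ⟨fun ht => hZ (by omega) ((h t s hts j).1 ht), fun hs => hZ (by omega) ((h t s hts j).2 hs)⟩

theorem Loc.zero : Loc Z k 0 := fun _ _ h => absurd rfl h

theorem Loc.one [DecidableEq I] (hZ : Monotone Z) : Loc Z k (1 : Matrix I I ℂ) := fun t s h j => by
  have : t = s := by
    by_contra hne
    exact h (Matrix.one_apply_ne hne)
  subst this
  exact ⟨fun ht => hZ (by omega) ht, fun ht => hZ (by omega) ht⟩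

theorem Loc.neg (h : Loc Z k A) : Loc Z k (-A) := fun t s hts => h t s (by simpa using hts)

theorem Loc.add (hA : Loc Z k A) (hB : Loc Z k B) : Loc Z k (A + B) := fun t s hts => by
  by_cases h : A t s = 0
  · exact hB t s (by
      rw [Matrix.add_apply, h, zero_add] at hts
      exact hts)
  · exact hA t s h

theorem Loc.sub (hA : Loc Z k A) (hB : Loc Z k B) : Loc Z k (A - B) := by
  rw [sub_eq_add_neg]; exact hA.add hB.neg

theorem Loc.smul (c : ℂ) (hA : Loc Z k A) : Loc Z k (c • A) := fun t s hts => hA t s fun h => by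
  apply hts
  rw [Matrix.smul_apply, h, smul_zero]

theorem Loc.mul [Fintype I] (hA : Loc Z k A) (hB : Loc Z l B) : Loc Z (k + l) (A * B) := by
  intro t s hts j
  rw [Matrix.mul_apply] at hts
  obtain ⟨r, -, hr⟩ := Finset.exists_ne_zero_of_sum_ne_zero hts
  have h1 : A t r ≠ 0 := left_ne_zero_of_mul hr
  have h2 : B r s ≠ 0 := right_ne_zero_of_mul hr
  refine ⟨fun ht => ?_, fun hs => ?_⟩
  · have := (hB r s h2 (j + k)).1 ((hA t r h1 j).1 ht)
    rwa [add_assoc] at this
  · have := (hA t r h1 (j + l)).2 ((hB r s h2 j).2 hs)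
    rwa [add_assoc, add_comm l k] at this

theorem Loc.star (h : Loc Z k A) : Loc Z k (star A) := fun t s hts j => by
  have h1 : A s t ≠ 0 := fun h0 => hts (by rw [Matrix.star_apply, h0, star_zero])
  exact ⟨(h s t h1 j).2, (h s t h1 j).1⟩

theorem Vn.mono (hZ : Monotone Z) (h : Vn Z j' A) (hj : j ≤ j') : Vn Z j A := fun t s hts =>
  h t s (hts.imp (fun ht => hZ hj ht) (fun hs => hZ hj hs))

theorem Vn.zero : Vn Z j 0 := fun _ _ _ => rfl

theorem Vn.neg (h : Vn Z j A) : Vn Z j (-A) := fun t s hts => by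
  rw [Matrix.neg_apply, h t s hts, neg_zero]

theorem Vn.add (hA : Vn Z j A) (hB : Vn Z j B) : Vn Z j (A + B) := fun t s hts => by
  rw [Matrix.add_apply, hA t s hts, hB t s hts, add_zero]

theorem Vn.sub (hA : Vn Z j A) (hB : Vn Z j B) : Vn Z j (A - B) := fun t s hts => by
  rw [Matrix.sub_apply, hA t s hts, hB t s hts, sub_zero]

theorem Vn.smul (c : ℂ) (hA : Vn Z j A) : Vn Z j (c • A) := fun t s hts => by
  rw [Matrix.smul_apply, hA t s hts, smul_zero]

theorem Vn.star (hA : Vn Z j A) : Vn Z j (star A) := fun t s hts => by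
  rw [Matrix.star_apply, hA s t hts.symm, star_zero]

theorem Vn.mul_right [Fintype I] (hZ : Monotone Z) (hA : Vn Z (j + k) A) (hB : Loc Z k B) :
    Vn Z j (A * B) := by
  intro t s hts
  rw [Matrix.mul_apply]
  refine Finset.sum_eq_zero fun r _ => ?_
  by_cases h : B r s = 0
  · rw [h, mul_zero]
  · rw [hA t r, zero_mul]
    rcases hts with ht | hs
    · exact Or.inl (hZ (by omega) ht)
    · exact Or.inr ((hB r s h j).2 hs)

theorem Vn.mul_left [Fintype I] (hZ : Monotone Z) (hA : Vn Z (j + k) A) (hB : Loc Z k B) :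
    Vn Z j (B * A) := by
  intro t s hts
  rw [Matrix.mul_apply]
  refine Finset.sum_eq_zero fun r _ => ?_
  by_cases h : B t r = 0
  · rw [h, zero_mul]
  · rw [hA r s, mul_zero]
    rcases hts with ht | hs
    · exact Or.inl ((hB t r h j).1 ht)
    · exact Or.inr (hZ (by omega) hs)

theorem vn_of_col (hZ : Monotone Z) (hA : Loc Z k A) (h : ∀ s ∈ Z (j + k), ∀ t, A t s = 0) :
    Vn Z j A := by
  intro t s hts
  by_contra hne
  rcases hts with ht | hs
  · exact hne (h s ((hA t s hne j).1 ht) t)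
  · exact hne (h s (hZ (by omega) hs) t)

/-! ### word identities -/

section words

variable {R : Type*} [Ring R] [StarRing R] {d S T H e e' e'' k U h : R}

omit [StarRing R] in
theorem word_comp :
    d * (e * e' - e'') - (e * e' - e'') * d =
      (d * e - e * d) * e' + e * (d * e' - e' * d) - (d * e'' - e'' * d) := by noncomm_ring

theorem word_F (hdS : d * S + S * star d = 0) (hTd : T * d + star d * T = 0) :
    d * (e * S * star e * T) - (e * S * star e * T) * d =
      (d * e - e * d) * S * star e * T + e * S * star (d * e - e * d) * T := by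
  have h1 : star (d * e - e * d) = star e * star d - star d * star e := by
    rw [star_sub, star_mul, star_mul]
  rw [h1]
  linear_combination (norm := noncomm_ring) e * hdS * (star e * T) - (e * S * star e) * hTd

theorem word_coarse (hdS : d * S + S * star d = 0) (hTd : T * d + star d * T = 0)
    (hST : S * T = 1 + d * H + H * d) :
    e * S * star e * T - 1 - (d * (k + e * H - e * S * star k * T) +
        (k + e * H - e * S * star k * T) * d) =
      (e - 1 - (d * k + k * d)) - (d * e - e * d) * H + (d * e - e * d) * S * star k * T +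
        e * S * star (e - 1 - (d * k + k * d)) * T := by
  have h1 : star (e - 1 - (d * k + k * d)) =
      star e - 1 - (star k * star d + star d * star k) := by
    simp only [star_sub, star_one, star_add, star_mul]
  rw [h1]
  linear_combination (norm := noncomm_ring) e * hST + (e * S * star k) * hTd +
    e * hdS * (star k * T)

theorem word_dual (hdS : d * S + S * star d = 0)
    (hTS : T * S = 1 + star H * star d + star d * star H) :
    e * S * star e - S - (d * (h * S + e * S * star e * star H) -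
        (h * S + e * S * star e * star H) * star d) =
      (e * S * star e * T - 1 - (d * h + h * d)) * S -
        (d * e - e * d) * S * star e * star H - e * S * star (d * e - e * d) * star H := by
  have h1 : star (d * e - e * d) = star e * star d - star d * star e := by
    rw [star_sub, star_mul, star_mul]
  rw [h1]
  linear_combination (norm := noncomm_ring) -(e * S * star e) * hTS + h * hdS -
    e * hdS * (star e * star H)

theorem word_commS (hdS : d * S + S * star d = 0) :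
    e * S - S * star e' - (d * (U * star e' + e * S * star k) -
        (U * star e' + e * S * star k) * star d) =
      U * star (d * e' - e' * d) + (e * S * star e - S - (d * U - U * star d)) * star e' -
        (d * e - e * d) * S * star k - e * S * star (e' * e - 1 - (d * k + k * d)) := by
  have h1 : star (d * e' - e' * d) = star e' * star d - star d * star e' := by
    rw [star_sub, star_mul, star_mul]
  have h2 : star (e' * e - 1 - (d * k + k * d)) =
      star e * star e' - 1 - (star k * star d + star d * star k) := by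
    simp only [star_sub, star_one, star_add, star_mul]
  rw [h1, h2]
  linear_combination (norm := noncomm_ring) -(e * hdS * star k)

end words

end Crest.Agent.R217.VanCalc373
end

-- ▼ part R217/Ctx_373
section

/-! Row 217, M7a: the context (tower, scales, mesh) of the chain package and its basic calculus. -/

set_option autoImplicit false

open Metric Set
open Crest.Agent.R217.PC473 Crest.Agent.R217.Flow373 Crest.Agent.R217.Carrier834
open Crest.Agent.R217.VanCalc373

namespace Crest.Agent.R217.Chain373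

/-- all the data and constants, for one mesh -/
structure Ctx (n N : ℕ) [NeZero N] where
  D : Flow n
  L : ℕ → Set (Fin n → ℝ)
  Kc : Set (Fin n → ℝ)
  κ : ℝ
  R : ℝ
  e : ℕ → ℝ
  ε : ℝ
  μ : ℝ
  x : Tup (Matrix (CellZ n N) (CellZ n N) ℂ)
  grid : IsGrid x
  hc : D.c ≤ 1 / 100
  tower : ∀ j < 40, ∀ v ∈ D.ovr (L j), ∀ v', dist v' v < κ → v' ∈ D.ovr (L (j + 1))
  bound : ∀ v ∈ D.ovr (L 40), dist v 0 ≤ R
  Kc_pre : IsPreconnected Kc
  Kc_ball : closedBall 0 1 ⊆ Kc
  Kc_lo : D.ovr (L 10) ⊆ Kc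
  Kc_hi : ∀ v ∈ Kc, ∀ v', dist v' v < κ → v' ∈ D.ovr (L 11)
  κ_pos : 0 < κ
  κ_one : κ ≤ 1
  e_pos : ∀ k, 0 < e k
  e_succ : ∀ k, e (k + 1) ≤ e k / (4 * (n + 1))
  unif : ∀ k, ∀ v ∈ D.ovr (L 40), ∀ v', dist v' v < e (k + 1) →
    v' ∈ D.V ∧ ∀ i : ℤ, dist (D.T i v') (D.T i v) < e k / (4 * (n + 1))
  e_small : e 0 ≤ 1 / 1000
  e_ε : e 0 ≤ ε / 8
  ε_κ : ε ≤ κ / 2
  μ_pos : 0 < μ
  μ_lt : μ < e 20
  win : 2 * R + 2 * n + 20 ≤ μ * N

namespace Ctx

variable {n N : ℕ} [NeZero N] (X : Ctx n N)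

/-- the invariant compact regions -/
def C (j : ℕ) : Set (Fin n → ℝ) := X.D.ovr (X.L j)

theorem C_sub (j : ℕ) : X.C j ⊆ X.D.V := X.D.ovr_sub _

theorem C_step {j : ℕ} (hj : j < 40) {v v' : Fin n → ℝ} (hv : v ∈ X.C j)
    (h : dist v' v < X.κ) : v' ∈ X.C (j + 1) := X.tower j hj v hv v' h

theorem C_succ {j : ℕ} (hj : j < 40) : X.C j ⊆ X.C (j + 1) := fun v hv =>
  X.C_step hj hv (by rw [dist_self]; exact X.κ_pos)

theorem C_mono {j k : ℕ} (hjk : j ≤ k) (hk : k ≤ 40) : X.C j ⊆ X.C k := by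
  induction k, hjk using Nat.le_induction with
  | base => exact subset_rfl
  | succ k _ ih => exact (ih (by omega)).trans (X.C_succ (by omega))

theorem T_C {j : ℕ} (i : ℤ) {v : Fin n → ℝ} (hv : v ∈ X.C j) : X.D.T i v ∈ X.C j :=
  X.D.T_ovr i hv

theorem of_T_C {j : ℕ} (i : ℤ) {v : Fin n → ℝ} (hv : v ∈ X.D.V) (h : X.D.T i v ∈ X.C j) :
    v ∈ X.C j := by
  have := X.T_C (-i) h
  rwa [X.D.T_neg_T i hv] at this

theorem n1 : (1 : ℝ) ≤ n + 1 := by
  have : (0 : ℝ) ≤ n := Nat.cast_nonneg n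
  linarith

theorem e_div (k : ℕ) : X.e k / (4 * (n + 1)) ≤ X.e k / 4 := by
  have h1 := X.e_pos k
  have h2 : (1 : ℝ) ≤ n + 1 := n1
  apply div_le_div_of_nonneg_left h1.le (by norm_num)
  linarith

theorem e_n (k : ℕ) : (n : ℝ) * (X.e k / (4 * (n + 1))) ≤ X.e k / 4 := by
  have h1 := X.e_pos k
  have h2 : (1 : ℝ) ≤ n + 1 := n1
  have h3 : (n : ℝ) * (X.e k / (4 * (n + 1))) = (X.e k / 4) * (n / (n + 1)) := by
    field_simp
  rw [h3]
  have h4 : (n : ℝ) / (n + 1) ≤ 1 := by
    rw [div_le_one (by linarith)]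
    linarith
  calc _ ≤ X.e k / 4 * 1 := mul_le_mul_of_nonneg_left h4 (by linarith)
    _ = _ := mul_one _

theorem e_quarter (k : ℕ) : X.e (k + 1) ≤ X.e k / 4 := (X.e_succ k).trans (X.e_div k)

theorem e_anti {k l : ℕ} (h : k ≤ l) : X.e l ≤ X.e k := by
  induction l, h using Nat.le_induction with
  | base => exact le_rfl
  | succ l _ ih =>
    have h1 := X.e_quarter l
    have h2 := X.e_pos l
    linarith

theorem e_κ (k : ℕ) : X.e k < X.κ := by
  have h1 := X.e_anti (Nat.zero_le k)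
  have h2 := X.e_ε
  have h3 := X.ε_κ
  have h4 := X.κ_pos
  have h5 := X.e_pos 0
  linarith

theorem e_ε' (k : ℕ) : X.e k ≤ X.ε / 8 := (X.e_anti (Nat.zero_le k)).trans X.e_ε

theorem ε_pos : 0 < X.ε := by
  have h2 := X.e_ε
  have h5 := X.e_pos 0
  linarith

theorem μ_e {k : ℕ} (hk : k ≤ 20) : X.μ < X.e k := lt_of_lt_of_le X.μ_lt (X.e_anti hk)

theorem μ_κ : X.μ < X.κ := (X.μ_e (k := 0) (by omega)).trans (X.e_κ 0)

theorem μ_one : X.μ ≤ 1 / 1000 := (X.μ_e (k := 0) (by omega)).le.trans X.e_small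


theorem inW {s : CellZ n N} (hs : pos X.μ s ∈ X.C 40) : InW s := by
  apply inW_of_le X.μ_pos (R := X.R) _ (X.bound _ hs)
  have := X.win
  have h1 := X.μ_one
  have h2 : (0 : ℝ) ≤ n := Nat.cast_nonneg n
  linarith

theorem adj_dist' {t s : CellZ n N} (hs : pos X.μ s ∈ X.C 40) (h : Adj t s) :
    dist (pos X.μ t) (pos X.μ s) ≤ X.μ := adj_dist X.μ_pos.le h (X.inW hs)

/-- the levels of the tower -/
def Z (j : ℕ) : Set (CellZ n N) := if j ≤ 40 then {s | pos X.μ s ∈ X.C j} else univ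

theorem mem_Z {j : ℕ} (hj : j ≤ 40) {s : CellZ n N} : s ∈ X.Z j ↔ pos X.μ s ∈ X.C j := by
  unfold Z
  rw [if_pos hj]
  exact Iff.rfl

theorem mem_Z' {j : ℕ} (hj : 40 < j) (s : CellZ n N) : s ∈ X.Z j := by
  unfold Z
  rw [if_neg (by omega)]
  exact mem_univ s

theorem Z_mono : Monotone X.Z := by
  intro j k hjk s hs
  by_cases hk : k ≤ 40
  · rw [X.mem_Z hk]
    rw [X.mem_Z (hjk.trans hk)] at hs
    exact X.C_mono hjk hk hs
  · exact X.mem_Z' (by omega) s

theorem mem_KK {j : ℕ} (hj : j < 40) {s : CellZ n N} (hs : s ∈ X.Z j) :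
    s ∈ KK X.μ (X.C (j + 1)) := by
  rw [X.mem_Z hj.le] at hs
  exact mem_KK_of X.μ_pos.le X.μ_κ fun x hx => X.C_step hj hs hx


/-- matrices with entries between neighbours only -/
def AdjM (A : Matrix (CellZ n N) (CellZ n N) ℂ) : Prop := ∀ t s, A t s ≠ 0 → Adj t s

omit [NeZero N] in
theorem AdjM.star {A : Matrix (CellZ n N) (CellZ n N) ℂ} (h : AdjM A) : AdjM (star A) :=
  fun t s hts => adj_symm (h s t fun h0 => hts (by rw [Matrix.star_apply, h0, star_zero]))

theorem loc_adj {A : Matrix (CellZ n N) (CellZ n N) ℂ} (h : AdjM A) : Loc X.Z 1 A := by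
  intro t s hts j
  have hadj := h t s hts
  by_cases hj : j < 40
  · rw [X.mem_Z hj.le, X.mem_Z hj.le, X.mem_Z (by omega), X.mem_Z (by omega)]
    constructor
    · intro ht
      exact X.C_step hj ht ((X.adj_dist' (X.C_mono hj.le le_rfl ht) (adj_symm hadj)).trans_lt X.μ_κ)
    · intro hs
      exact X.C_step hj hs ((X.adj_dist' (X.C_mono hj.le le_rfl hs) hadj).trans_lt X.μ_κ)
  · exact ⟨fun _ => X.mem_Z' (by omega) s, fun _ => X.mem_Z' (by omega) t⟩

/-- near the graph of `T i`, columns in `C c` -/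
def Nr (c : ℕ) (i : ℤ) (δ : ℝ) (A : Matrix (CellZ n N) (CellZ n N) ℂ) : Prop :=
  ∀ t s, A t s ≠ 0 → pos X.μ s ∈ X.C c ∧ dist (pos X.μ t) (X.D.T i (pos X.μ s)) < δ

variable {X}

theorem Nr.mono {c c' : ℕ} {i : ℤ} {δ δ' : ℝ} {A : Matrix (CellZ n N) (CellZ n N) ℂ}
    (h : X.Nr c i δ A) (hc : c ≤ c') (hc' : c' ≤ 40) (hδ : δ ≤ δ') : X.Nr c' i δ' A :=
  fun t s hts => ⟨X.C_mono hc hc' (h t s hts).1, (h t s hts).2.trans_le hδ⟩

theorem Nr.add {c : ℕ} {i : ℤ} {δ : ℝ} {A B : Matrix (CellZ n N) (CellZ n N) ℂ}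
    (hA : X.Nr c i δ A) (hB : X.Nr c i δ B) : X.Nr c i δ (A + B) := fun t s hts => by
  by_cases h : A t s = 0
  · exact hB t s (by
      rw [Matrix.add_apply, h, zero_add] at hts
      exact hts)
  · exact hA t s h

theorem Nr.neg {c : ℕ} {i : ℤ} {δ : ℝ} {A : Matrix (CellZ n N) (CellZ n N) ℂ}
    (hA : X.Nr c i δ A) : X.Nr c i δ (-A) := fun t s hts => hA t s (by simpa using hts)

theorem Nr.loc {c : ℕ} {i : ℤ} {δ : ℝ} {A : Matrix (CellZ n N) (CellZ n N) ℂ}
    (h : X.Nr c i δ A) (hδ : δ ≤ X.κ) : Loc X.Z 1 A := by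
  intro t s hts j
  obtain ⟨h1, h2⟩ := h t s hts
  by_cases hj : j < 40
  · rw [X.mem_Z hj.le, X.mem_Z hj.le, X.mem_Z (by omega), X.mem_Z (by omega)]
    constructor
    · intro ht
      refine X.of_T_C i (X.C_sub _ h1) (X.C_step hj ht ?_)
      rw [dist_comm]
      exact h2.trans_le hδ
    · intro hs
      exact X.C_step hj (X.T_C i hs) (h2.trans_le hδ)
  · exact ⟨fun _ => X.mem_Z' (by omega) s, fun _ => X.mem_Z' (by omega) t⟩

/-- the row is in the next region -/
theorem Nr.row {c : ℕ} {i : ℤ} {δ : ℝ} {A : Matrix (CellZ n N) (CellZ n N) ℂ}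
    (h : X.Nr c i δ A) (hδ : δ ≤ X.κ) (hc : c < 40) {t s : CellZ n N} (hts : A t s ≠ 0) :
    pos X.μ t ∈ X.C (c + 1) := by
  obtain ⟨h1, h2⟩ := h t s hts
  exact X.C_step hc (X.T_C i h1) (h2.trans_le hδ)

theorem Nr.mul {c c' k : ℕ} {i j : ℤ} {A B : Matrix (CellZ n N) (CellZ n N) ℂ}
    (hA : X.Nr c i (X.e (k + 1)) A) (hB : X.Nr c' j (X.e (k + 1)) B) (hc' : c' ≤ 40) :
    X.Nr c' (i + j) (X.e k) (A * B) := by
  intro t s hts
  rw [Matrix.mul_apply] at hts
  obtain ⟨r, -, hr⟩ := Finset.exists_ne_zero_of_sum_ne_zero hts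
  obtain ⟨-, h1⟩ := hA t r (left_ne_zero_of_mul hr)
  obtain ⟨h2, h3⟩ := hB r s (right_ne_zero_of_mul hr)
  refine ⟨h2, ?_⟩
  rw [X.D.T_add i j _ (X.C_sub _ h2)]
  have h4 := (X.unif k _ (X.T_C j (X.C_mono hc' le_rfl h2)) _ h3).2 i
  have h5 := dist_triangle (pos X.μ t) (X.D.T i (pos X.μ r)) (X.D.T i (X.D.T j (pos X.μ s)))
  have h6 := X.e_div k
  have h7 := X.e_quarter k
  have h8 := X.e_pos k
  linarith

theorem Nr.star {c k : ℕ} {i : ℤ} {A : Matrix (CellZ n N) (CellZ n N) ℂ}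
    (hA : X.Nr c i (X.e (k + 1)) A) (hc : c < 40) : X.Nr (c + 1) (-i) (X.e k) (star A) := by
  intro t s hts
  have hst : A s t ≠ 0 := fun h0 => hts (by rw [Matrix.star_apply, h0, star_zero])
  obtain ⟨h1, h2⟩ := hA s t hst
  refine ⟨X.C_step hc (X.T_C i h1) (h2.trans (X.e_κ _)), ?_⟩
  have h4 := (X.unif k _ (X.T_C i (X.C_mono hc.le le_rfl h1)) _ h2).2 (-i)
  rw [X.D.T_neg_T i (X.C_sub _ h1)] at h4
  rw [dist_comm]
  have h6 := X.e_div k
  have h8 := X.e_pos k
  linarith

theorem Nr.adj_mul {c k : ℕ} {i : ℤ} {A B : Matrix (CellZ n N) (CellZ n N) ℂ}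
    (hB : X.Nr c i (X.e (k + 1)) B) (hA : AdjM A) (hc : c < 40) (hk : k ≤ 19) :
    X.Nr c i (X.e k) (A * B) := by
  intro t s hts
  rw [Matrix.mul_apply] at hts
  obtain ⟨r, -, hr⟩ := Finset.exists_ne_zero_of_sum_ne_zero hts
  have h0 := hA t r (left_ne_zero_of_mul hr)
  obtain ⟨h2, h3⟩ := hB r s (right_ne_zero_of_mul hr)
  refine ⟨h2, ?_⟩
  have hr' : pos X.μ r ∈ X.C 40 := X.C_mono (by omega) le_rfl
    (hB.row (X.e_κ _).le hc (right_ne_zero_of_mul hr))
  have h1 := X.adj_dist' hr' h0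
  have h5 := dist_triangle (pos X.μ t) (pos X.μ r) (X.D.T i (pos X.μ s))
  have h6 := X.μ_e (k := k + 1) (by omega)
  have h7 := X.e_quarter k
  have h8 := X.e_pos k
  linarith

theorem Nr.mul_adj {c k : ℕ} {i : ℤ} {A B : Matrix (CellZ n N) (CellZ n N) ℂ}
    (hB : X.Nr c i (X.e (k + 1)) B) (hA : AdjM A) (hc : c < 40) (hk : k ≤ 19) :
    X.Nr (c + 1) i (X.e k) (B * A) := by
  intro t s hts
  rw [Matrix.mul_apply] at hts
  obtain ⟨r, -, hr⟩ := Finset.exists_ne_zero_of_sum_ne_zero hts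
  have h0 := hA r s (right_ne_zero_of_mul hr)
  obtain ⟨h2, h3⟩ := hB t r (left_ne_zero_of_mul hr)
  have h1 := X.adj_dist' (X.C_mono hc.le le_rfl h2) (adj_symm h0)
  refine ⟨X.C_step hc h2 (h1.trans_lt X.μ_κ), ?_⟩
  have h4 := (X.unif k _ (X.C_mono hc.le le_rfl h2) _
    (h1.trans_lt (X.μ_e (k := k + 1) (by omega)))).2 i
  have h5 := dist_triangle (pos X.μ t) (X.D.T i (pos X.μ r)) (X.D.T i (pos X.μ s))
  rw [dist_comm (X.D.T i (pos X.μ r))] at h5
  have h6 := X.e_div k
  have h7 := X.e_quarter k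
  have h8 := X.e_pos k
  linarith

variable (X)

theorem near_of_nr {c : ℕ} {i : ℤ} {δ : ℝ} {A : Matrix (CellZ n N) (CellZ n N) ℂ}
    (h : X.Nr c i δ A) (hc : c ≤ 35) (hδ : δ ≤ X.ε) :
    Near X.D (X.C 36) X.μ i X.ε A := fun t s hts => by
  have h1 := X.ε_κ
  have h2 := X.κ_pos
  refine ⟨X.C_mono (by omega) (by omega) (h t s hts).1,
    X.C_mono (by omega) (by omega) (h.row (by linarith) (by omega) hts),
    (h t s hts).2.trans_le hδ⟩

theorem van_of_vn {j : ℕ} {A : Matrix (CellZ n N) (CellZ n N) ℂ} (h : Vn X.Z j A) (hj : j ≤ 40) :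
    Van X.μ (X.C 0) A := fun t s hts => by
  apply h t s
  rw [X.mem_Z hj, X.mem_Z hj]
  exact hts.imp (fun h => X.C_mono (Nat.zero_le _) hj h) (fun h => X.C_mono (Nat.zero_le _) hj h)

end Ctx

end Crest.Agent.R217.Chain373
end

-- ▼ part R217/Eta_373
section

/-! Row 217, M7a: the chain maps `η i`, their composition homotopies. -/

set_option autoImplicit false

open Metric Set
open Crest.Agent.R217.PC473 Crest.Agent.R217.Flow373 Crest.Agent.R217.Carrier834
open Crest.Agent.R217.VanCalc373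

namespace Crest.Agent.R217.Chain373

section rel

variable {n N : ℕ}

/-- degree of a matrix `D → D` -/
def Dg (a : ℤ) (A : Matrix (CellZ n N) (CellZ n N) ℂ) : Prop :=
  ∀ t s, A t s ≠ 0 → (dimZ t : ℤ) - dimZ s = a

/-- degree of a matrix `D* → D` or `D → D*` -/
def Db (m : ℤ) (A : Matrix (CellZ n N) (CellZ n N) ℂ) : Prop :=
  ∀ t s, A t s ≠ 0 → (dimZ t : ℤ) + dimZ s = m

variable {A B : Matrix (CellZ n N) (CellZ n N) ℂ} {a b : ℤ}

theorem Dg.star (h : Dg a A) : Dg (-a) (star A) := fun t s hts => by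
  have := h s t fun h0 => hts (by rw [Matrix.star_apply, h0, star_zero])
  omega

theorem Db.star (h : Db a A) : Db a (star A) := fun t s hts => by
  have := h s t fun h0 => hts (by rw [Matrix.star_apply, h0, star_zero])
  omega

theorem Dg.neg (h : Dg a A) : Dg a (-A) := fun t s hts => h t s (by simpa using hts)

theorem Dg.add (hA : Dg a A) (hB : Dg a B) : Dg a (A + B) := fun t s hts => by
  by_cases h : A t s = 0
  · exact hB t s (by rw [Matrix.add_apply, h, zero_add] at hts; exact hts)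
  · exact hA t s h

theorem Db.neg (h : Db a A) : Db a (-A) := fun t s hts => h t s (by simpa using hts)

theorem Db.add (hA : Db a A) (hB : Db a B) : Db a (A + B) := fun t s hts => by
  by_cases h : A t s = 0
  · exact hB t s (by rw [Matrix.add_apply, h, zero_add] at hts; exact hts)
  · exact hA t s h

theorem Dg.sub (hA : Dg a A) (hB : Dg a B) : Dg a (A - B) := by
  rw [sub_eq_add_neg]; exact hA.add hB.neg

theorem Dg.one : Dg 0 (1 : Matrix (CellZ n N) (CellZ n N) ℂ) := fun t s h => by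
  have : t = s := by
    by_contra hne
    exact h (Matrix.one_apply_ne hne)
  subst this
  omega

variable [NeZero N]

theorem Dg.mul {c : ℤ} (hA : Dg a A) (hB : Dg b B) (h : a + b = c) : Dg c (A * B) := by
  intro t s hts
  rw [Matrix.mul_apply] at hts
  obtain ⟨r, -, hr⟩ := Finset.exists_ne_zero_of_sum_ne_zero hts
  have h1 := hA t r (left_ne_zero_of_mul hr)
  have h2 := hB r s (right_ne_zero_of_mul hr)
  omega

theorem Dg.mul_db {c : ℤ} (hA : Dg a A) (hB : Db b B) (h : a + b = c) : Db c (A * B) := by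
  intro t s hts
  rw [Matrix.mul_apply] at hts
  obtain ⟨r, -, hr⟩ := Finset.exists_ne_zero_of_sum_ne_zero hts
  have h1 := hA t r (left_ne_zero_of_mul hr)
  have h2 := hB r s (right_ne_zero_of_mul hr)
  omega

theorem Db.mul_dg {c : ℤ} (hA : Db a A) (hB : Dg b B) (h : a - b = c) : Db c (A * B) := by
  intro t s hts
  rw [Matrix.mul_apply] at hts
  obtain ⟨r, -, hr⟩ := Finset.exists_ne_zero_of_sum_ne_zero hts
  have h1 := hA t r (left_ne_zero_of_mul hr)
  have h2 := hB r s (right_ne_zero_of_mul hr)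
  omega

theorem Db.mul {c : ℤ} (hA : Db a A) (hB : Db b B) (h : a - b = c) : Dg c (A * B) := by
  intro t s hts
  rw [Matrix.mul_apply] at hts
  obtain ⟨r, -, hr⟩ := Finset.exists_ne_zero_of_sum_ne_zero hts
  have h1 := hA t r (left_ne_zero_of_mul hr)
  have h2 := hB r s (right_ne_zero_of_mul hr)
  omega

/-! ### augmentation -/

theorem aug0_sub (A B : Matrix (CellZ n N) (CellZ n N) ℂ) (s : CellZ n N) :
    aug0 (A - B) s = aug0 A s - aug0 B s := by
  unfold aug0
  rw [← Finset.sum_sub_distrib]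
  refine Finset.sum_congr rfl fun t _ => ?_
  split_ifs
  · rfl
  · rw [sub_zero]

theorem aug0_add (A B : Matrix (CellZ n N) (CellZ n N) ℂ) (s : CellZ n N) :
    aug0 (A + B) s = aug0 A s + aug0 B s := by
  unfold aug0
  rw [← Finset.sum_add_distrib]
  refine Finset.sum_congr rfl fun t _ => ?_
  split_ifs
  · rfl
  · rw [add_zero]

theorem aug0_one {s : CellZ n N} (hs : dimZ s = 0) :
    aug0 (1 : Matrix (CellZ n N) (CellZ n N) ℂ) s = 1 := by
  unfold aug0
  rw [Finset.sum_eq_single s]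
  · have h1 : dim (lift s) = 0 := hs
    rw [if_pos h1, Matrix.one_apply_eq]
  · intro t _ hts
    rw [Matrix.one_apply_ne hts, ite_self]
  · intro h; exact absurd (Finset.mem_univ s) h

theorem aug0_mul (A B : Matrix (CellZ n N) (CellZ n N) ℂ) (s : CellZ n N) :
    aug0 (A * B) s = ∑ r, aug0 A r * B r s := by
  unfold aug0
  have h1 : ∀ t, (if dim (lift t) = 0 then (A * B) t s else 0) =
      ∑ r, (if dim (lift t) = 0 then A t r else 0) * B r s := by
    intro t
    rw [Matrix.mul_apply]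
    split_ifs
    · rfl
    · simp
  rw [Finset.sum_congr rfl fun t _ => h1 t, Finset.sum_comm]
  refine Finset.sum_congr rfl fun r _ => ?_
  rw [Finset.sum_mul]

/-- if the columns `r` hit by column `s` of `B` have augmentation `1` -/
theorem aug0_mul_one {s : CellZ n N} (hs : dimZ s = 0)
    (hB : Dg 0 B) (h : ∀ r, B r s ≠ 0 → dimZ r = 0 → aug0 A r = 1) :
    aug0 (A * B) s = aug0 B s := by
  rw [aug0_mul]
  unfold aug0
  refine Finset.sum_congr rfl fun r _ => ?_
  by_cases hr : B r s = 0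
  · rw [hr, mul_zero, ite_self]
  · have h1 := hB r s hr
    have h2 : dimZ r = 0 := by omega
    have h3 : dim (lift r) = 0 := h2
    have h4 := h r hr h2
    unfold aug0 at h4
    rw [h4, one_mul, if_pos h3]

end rel

namespace Ctx

variable {n N : ℕ} [NeZero N] (X : Ctx n N)


theorem dg_H : Dg 1 X.x.H := fun t s h => by
  have := X.grid.deg_H t s h
  omega

theorem db_S : Db n X.x.S := fun t s h => by
  have := X.grid.deg_S t s h
  omega

theorem db_T : Db n X.x.T := fun t s h => by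
  have := X.grid.deg_T t s h
  omega

theorem adjM_d : AdjM X.x.d := X.grid.adj_d
theorem adjM_S : AdjM X.x.S := X.grid.adj_S
theorem adjM_T : AdjM X.x.T := X.grid.adj_T
theorem adjM_H : AdjM X.x.H := X.grid.adj_H

theorem loc_d : Loc X.Z 1 X.x.d := X.loc_adj X.adjM_d
theorem loc_S : Loc X.Z 1 X.x.S := X.loc_adj X.adjM_S
theorem loc_T : Loc X.Z 1 X.x.T := X.loc_adj X.adjM_T
theorem loc_H : Loc X.Z 1 X.x.H := X.loc_adj X.adjM_H

theorem dS : X.x.d * X.x.S + X.x.S * star X.x.d = 0 := X.grid.pc.dS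

theorem Td : X.x.T * X.x.d + star X.x.d * X.x.T = 0 := X.grid.pc.Td

theorem ST : X.x.S * X.x.T = 1 + X.x.d * X.x.H + X.x.H * X.x.d := by
  rw [X.grid.pc.ST, X.grid.p_one]

theorem TS : X.x.T * X.x.S = 1 + star X.x.H * star X.x.d + star X.x.d * star X.x.H := by
  have := congrArg star X.ST
  rw [star_mul, X.grid.pc.sS, X.grid.pc.sT, star_add, star_add, star_one, star_mul, star_mul] at this
  exact this

theorem aug0_d_mul (A : Matrix (CellZ n N) (CellZ n N) ℂ) (s : CellZ n N) :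
    aug0 (X.x.d * A) s = 0 := by
  rw [aug0_mul]
  refine Finset.sum_eq_zero fun r _ => ?_
  have : aug0 X.x.d r = 0 := X.grid.haug r
  rw [this, zero_mul]

theorem aug0_mul_d (A : Matrix (CellZ n N) (CellZ n N) ℂ) {s : CellZ n N} (hs : dimZ s = 0) :
    aug0 (A * X.x.d) s = 0 := by
  rw [aug0_mul]
  refine Finset.sum_eq_zero fun r _ => ?_
  by_cases h : X.x.d r s = 0
  · rw [h, mul_zero]
  · have := X.grid.deg_d r s h
    omega

/-- the properties of one chain map over `T i` -/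
structure IsEta (i : ℤ) (A : Matrix (CellZ n N) (CellZ n N) ℂ) : Prop where
  nr : X.Nr 30 i (X.e 18) A
  dg : Dg 0 A
  out : ∀ s, s ∉ KK X.μ (X.C 30) → ∀ t, A t s = 0
  comm : ∀ s ∈ KK X.μ (X.C 30), ∀ t, (X.x.d * A) t s = (A * X.x.d) t s
  aug : ∀ s ∈ KK X.μ (X.C 30), dimZ s = 0 → aug0 A s = 1

theorem hC {j : ℕ} (hj : j ≤ 40) : ∀ v ∈ X.C j, dist v 0 ≤ X.R := fun v hv =>
  X.bound v (X.C_mono hj le_rfl hv)

theorem hTC {j : ℕ} (hj : j ≤ 40) (i : ℤ) : ∀ v ∈ X.C j, dist (X.D.T i v) 0 ≤ X.R := fun _ hv =>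
  X.bound _ (X.C_mono hj le_rfl (X.T_C i hv))

theorem hT {j : ℕ} (hj : j ≤ 40) (i : ℤ) : ∀ v ∈ X.C j, ∀ w ∈ X.C j, dist w v ≤ X.μ →
    dist (X.D.T i w) (X.D.T i v) ≤ X.e 18 / (4 * (n + 1)) := fun v hv w _ h =>
  ((X.unif 18 v (X.C_mono hj le_rfl hv) w (h.trans_lt (X.μ_e (by omega)))).2 i).le

theorem hN {r : ℝ} (hr : r ≤ 1) :
    2 * X.R + 2 * r + 6 * X.μ + 2 * n * (X.e 18 / (4 * (n + 1))) ≤ X.μ * N := by
  have h1 := X.win
  have h2 := X.μ_one
  have h3 := X.e_div 18
  have h4 := X.e_pos 18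
  have h5 := X.e_anti (Nat.zero_le 18)
  have h6 := X.e_small
  have h7 : (0 : ℝ) ≤ n := Nat.cast_nonneg n
  have h8 := X.e_n 18
  have h9 : 2 * (n : ℝ) * (X.e 18 / (4 * (n + 1))) = 2 * (n * (X.e 18 / (4 * (n + 1)))) := by ring
  rw [h9]
  linarith

theorem e0_nonneg : 0 ≤ X.e 18 / (4 * (n + 1)) := by
  have h4 := X.e_pos 18
  positivity

theorem exists_eta (i : ℤ) : ∃ A, X.IsEta i A := by
  obtain ⟨A, h1, h2⟩ := real_map X.grid.isBd X.μ_pos (C := X.C 30) (X.hC (by omega)) (X.D.T i)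
    X.e0_nonneg (X.hT (by omega) i) (X.hTC (by omega) i)
    (by have := X.hN (r := 0) zero_le_one
        linarith)
  have hin : ∀ t s, A t s ≠ 0 → s ∈ KK X.μ (X.C 30) := fun t s h => by
    by_contra hs
    exact h (h1 s hs t)
  refine ⟨A, ?_, ?_, h1, fun s hs => (h2 s hs).2.1, fun s hs => (h2 s hs).2.2⟩
  · intro t s hts
    have hs := hin t s hts
    refine ⟨pos_mem_of_KK X.μ_pos.le hs, ?_⟩
    have h3 := ((h2 s hs).1 t hts).2
    have h4 := X.e_n 18
    have h5 := X.μ_e (k := 19) (by omega)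
    have h6 := X.e_quarter 18
    have h7 := X.e_pos 18
    linarith
  · intro t s hts
    have h3 := ((h2 s (hin t s hts)).1 t hts).1
    omega

open Classical in
/-- the truncated identity -/
noncomputable def id0 : Matrix (CellZ n N) (CellZ n N) ℂ :=
  Matrix.diagonal fun s => if s ∈ KK X.μ (X.C 30) then 1 else 0

theorem isEta_id0 : X.IsEta 0 X.id0 := by
  classical
  have h0 : ∀ t s, X.id0 t s ≠ 0 → t = s ∧ s ∈ KK X.μ (X.C 30) := by
    intro t s h
    have hts : t = s := by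
      by_contra hne
      exact h (Matrix.diagonal_apply_ne _ hne)
    subst hts
    refine ⟨rfl, ?_⟩
    by_contra hs
    apply h
    unfold id0
    rw [Matrix.diagonal_apply_eq, if_neg hs]
  refine ⟨?_, ?_, ?_, ?_, ?_⟩
  · intro t s h
    obtain ⟨rfl, hs⟩ := h0 t s h
    have h1 := pos_mem_of_KK X.μ_pos.le hs
    refine ⟨h1, ?_⟩
    rw [X.D.T_zero _ (X.C_sub _ h1), dist_self]
    exact X.e_pos 18
  · intro t s h
    obtain ⟨rfl, -⟩ := h0 t s h
    omega
  · intro s hs t
    by_contra h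
    exact hs (h0 t s h).2
  · intro s hs t
    unfold id0
    rw [Matrix.mul_diagonal, Matrix.diagonal_mul, if_pos hs, mul_one]
    by_cases hd : X.x.d t s = 0
    · rw [hd, mul_zero]
    · have hW : Win N (lift s) := X.inW (X.C_mono (by omega) le_rfl (pos_mem_of_KK X.μ_pos.le hs))
      have hf : IsFace (lift t) (lift s) := by
        apply isFace_of_mem_bd (R := ℂ)
        rw [Finsupp.mem_support_iff, ← X.grid.isBd s t hW]
        exact hd
      rw [if_pos (face_KK X.μ_pos.le hs hf), one_mul]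
  · intro s hs hd
    unfold aug0
    rw [Finset.sum_eq_single s]
    · have h1 : dim (lift s) = 0 := hd
      rw [if_pos h1]
      unfold id0
      rw [Matrix.diagonal_apply_eq, if_pos hs]
    · intro t _ hts
      have : X.id0 t s = 0 := Matrix.diagonal_apply_ne _ hts
      rw [this, ite_self]
    · intro h; exact absurd (Finset.mem_univ s) h

theorem vn_id0 : Vn X.Z 29 (X.id0 - 1) := by
  classical
  intro t s hts
  by_cases h : t = s
  · subst h
    have hs : t ∈ X.Z 29 := by tauto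
    unfold id0
    rw [Matrix.sub_apply, Matrix.diagonal_apply_eq, if_pos (X.mem_KK (by omega) hs),
      Matrix.one_apply_eq, sub_self]
  · unfold id0
    rw [Matrix.sub_apply, Matrix.diagonal_apply_ne _ h, Matrix.one_apply_ne h, sub_self]

variable {X}
variable {i j l : ℤ} {A B E : Matrix (CellZ n N) (CellZ n N) ℂ}

theorem IsEta.loc (h : X.IsEta i A) : Loc X.Z 1 A := h.nr.loc (X.e_κ _).le

theorem IsEta.vn (h : X.IsEta i A) : Vn X.Z 27 (X.x.d * A - A * X.x.d) := by
  refine vn_of_col (k := 2) X.Z_mono ((X.loc_d.mul h.loc).sub (h.loc.mul X.loc_d)) ?_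
  intro s hs t
  rw [Matrix.sub_apply, h.comm s (X.mem_KK (by omega) hs) t, sub_self]

/-- composition homotopy -/
theorem exists_mul (hA : X.IsEta i A) (hB : X.IsEta j B) (hE : X.IsEta l E)
    {δ : ℝ} (hδ0 : 0 ≤ δ) (hδ : δ ≤ 1 / 2)
    (hT : ∀ v ∈ X.C 36, dist (X.D.T (i + j) v) (X.D.T l v) < δ) :
    ∃ k, X.Nr 25 l (δ + X.e 16) k ∧ Dg 1 k ∧
      (∀ s ∉ KK X.μ (X.C 25), ∀ t, k t s = 0) ∧
      (∀ s ∈ KK X.μ (X.C 25), ∀ t, (X.x.d * k + k * X.x.d) t s = (A * B - E) t s) := by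
  have hAB : X.Nr 30 (i + j) (X.e 17) (A * B) :=
    hA.nr.mul hB.nr (by omega)
  have h17 := X.e_pos 17
  have h17' : X.e 17 ≤ 1 / 1000 := (X.e_anti (Nat.zero_le 17)).trans X.e_small
  obtain ⟨k, h1, h2⟩ := real_homotopy X.grid.isBd X.μ_pos (C := X.C 25) (X.hC (by omega))
    (X.D.T l) (r := δ + X.e 17) X.e0_nonneg (by linarith) (X.hT (by omega) l) (X.hTC (by omega) l)
    (X.hN (by linarith)) (A * B - E)
    (fun s hs => by
      have hs25 : pos X.μ s ∈ X.C 25 := pos_mem_of_KK X.μ_pos.le hs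
      have hs30 : s ∈ KK X.μ (X.C 30) :=
        (show cc X.μ s ⊆ X.C 25 from hs).trans (X.C_mono (by omega) (by omega))
      refine ⟨fun t hts => ?_, fun t => ?_, fun hd => ?_⟩
      · by_cases hAB0 : (A * B) t s = 0
        · have hEt : E t s ≠ 0 := fun h => hts (by rw [Matrix.sub_apply, hAB0, h, sub_self])
          refine ⟨?_, ?_⟩
          · have := hE.dg t s hEt
            omega
          · have h3 := (hE.nr t s hEt).2
            have h4 := X.e_anti (show 17 ≤ 18 by omega)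
            linarith
        · refine ⟨?_, ?_⟩
          · have := (hA.dg.mul hB.dg (c := 0) (by omega)) t s hAB0
            omega
          · have h3 := (hAB t s hAB0).2
            have h4 := hT _ (X.C_mono (by omega) (by omega) hs25)
            have h5 := dist_triangle (pos X.μ t) (X.D.T (i + j) (pos X.μ s)) (X.D.T l (pos X.μ s))
            linarith
      · have h3 : X.x.d * (A * B - E) - (A * B - E) * X.x.d =
            (X.x.d * A - A * X.x.d) * B + A * (X.x.d * B - B * X.x.d) -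
              (X.x.d * E - E * X.x.d) := word_comp
        have h4 : Vn X.Z 26 (X.x.d * (A * B - E) - (A * B - E) * X.x.d) := by
          rw [h3]
          exact (((hA.vn.mul_right X.Z_mono hB.loc).add (hB.vn.mul_left X.Z_mono hA.loc)).sub
            (hE.vn.mono X.Z_mono (by omega)))
        have h5 := h4 t s (Or.inr ((X.mem_Z (by omega)).2 (X.C_mono (by omega) (by omega) hs25)))
        rw [Matrix.sub_apply, sub_eq_zero] at h5
        exact h5
      · rw [aug0_sub, hE.aug s hs30 hd, aug0_mul_one hd hB.dg, hB.aug s hs30 hd, sub_self]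
        intro r hr hr0
        refine hA.aug r ?_ hr0
        have h6 : r ∈ X.Z 26 := (hB.loc r s hr 25).2 ((X.mem_Z (by omega)).2 hs25)
        have h7 := X.mem_KK (by omega) h6
        exact (show cc X.μ r ⊆ X.C 27 from h7).trans (X.C_mono (by omega) (by omega)))
  have hin : ∀ t s, k t s ≠ 0 → s ∈ KK X.μ (X.C 25) := fun t s h => by
    by_contra hs
    exact h (h1 s hs t)
  refine ⟨k, ?_, ?_, h1, fun s hs => (h2 s hs).2⟩
  · intro t s hts
    have hs := hin t s hts
    refine ⟨pos_mem_of_KK X.μ_pos.le hs, ?_⟩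
    have h3 := ((h2 s hs).1 t hts).2
    have h4 := X.e_n 18
    have h5 := X.μ_e (k := 19) (by omega)
    have h6 := X.e_quarter 18
    have h7 := X.e_quarter 17
    have h8 := X.e_quarter 16
    have h9 := X.e_pos 18
    linarith
  · intro t s hts
    have h3 := ((h2 s (hin t s hts)).1 t hts).1
    omega

/-- the relation of the composition homotopy, rows and columns -/
theorem mul_vn (hA : X.IsEta i A) (hB : X.IsEta j B) (hE : X.IsEta l E)
    {k : Matrix (CellZ n N) (CellZ n N) ℂ} (hk : Loc X.Z 1 k)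
    (h : ∀ s ∈ KK X.μ (X.C 25), ∀ t, (X.x.d * k + k * X.x.d) t s = (A * B - E) t s) :
    Vn X.Z 22 (A * B - E - (X.x.d * k + k * X.x.d)) := by
  refine vn_of_col (k := 2) X.Z_mono ?_ ?_
  · exact ((hA.loc.mul hB.loc).sub (hE.loc.mono X.Z_mono (by omega))).sub
      ((X.loc_d.mul hk).add (hk.mul X.loc_d))
  · intro s hs t
    rw [Matrix.sub_apply, h s (X.mem_KK (by omega) hs) t, sub_self]

end Ctx

end Crest.Agent.R217.Chain373
end

-- ▼ part R217/Dual_373
section

/-! Row 217, M7a: coarse homotopy near `0`, constancy of the augmentation, duality homotopies. -/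

set_option autoImplicit false

open Metric Set
open Crest.Agent.R217.PC473 Crest.Agent.R217.Flow373 Crest.Agent.R217.Carrier834
open Crest.Agent.R217.VanCalc373

namespace Crest.Agent.R217.Chain373

namespace Ctx

variable {n N : ℕ} [NeZero N] (X : Ctx n N)

theorem c_nonneg : 0 ≤ X.D.c :=
  dist_nonneg.trans (X.D.disp 0 0 (mem_closedBall_self zero_le_one))

theorem ball_C {j : ℕ} (hj : 11 ≤ j) (hj' : j ≤ 40) : closedBall (0 : Fin n → ℝ) 1 ⊆ X.C j :=
  fun _ hv => X.C_mono hj hj' (X.Kc_hi _ (X.Kc_ball hv) _ (by rw [dist_self]; exact X.κ_pos))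

/-- the coarse tower near `0` -/
def Zc (j : ℕ) : Set (CellZ n N) :=
  if j ≤ 9 then {s | dist (pos X.μ s) 0 ≤ 1 / 2 + j / 20} else univ

theorem mem_Zc {j : ℕ} (hj : j ≤ 9) {s : CellZ n N} :
    s ∈ X.Zc j ↔ dist (pos X.μ s) 0 ≤ 1 / 2 + j / 20 := by
  unfold Zc
  rw [if_pos hj]
  exact Iff.rfl

theorem mem_Zc' {j : ℕ} (hj : 9 < j) (s : CellZ n N) : s ∈ X.Zc j := by
  unfold Zc
  rw [if_neg (by omega)]
  exact mem_univ s

theorem Zc_mono : Monotone X.Zc := by
  intro j k hjk s hs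
  by_cases hk : k ≤ 9
  · rw [X.mem_Zc hk]
    rw [X.mem_Zc (hjk.trans hk)] at hs
    have : (j : ℝ) ≤ k := by exact_mod_cast hjk
    linarith
  · exact X.mem_Zc' (by omega) s

theorem Zc_ball {j : ℕ} (hj : j ≤ 9) {s : CellZ n N} (hs : s ∈ X.Zc j) :
    pos X.μ s ∈ closedBall (0 : Fin n → ℝ) 1 := by
  rw [X.mem_Zc hj] at hs
  rw [mem_closedBall]
  have : (j : ℝ) ≤ 9 := by exact_mod_cast hj
  linarith

theorem Zc_KK {j : ℕ} (hj : j ≤ 9) {s : CellZ n N} (hs : s ∈ X.Zc j) :
    s ∈ KK X.μ (closedBall (0 : Fin n → ℝ) 1) := by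
  intro x hx
  rw [X.mem_Zc hj] at hs
  rw [mem_closedBall]
  have : (j : ℝ) ≤ 9 := by exact_mod_cast hj
  have h1 := cc_dist X.μ_pos.le hx
  have h2 := dist_triangle x (pos X.μ s) 0
  have h3 := X.μ_one
  linarith

theorem locc {A : Matrix (CellZ n N) (CellZ n N) ℂ}
    (h : ∀ t s, A t s ≠ 0 → ∀ j ≤ 8, (t ∈ X.Zc j ∨ s ∈ X.Zc j) →
      dist (pos X.μ t) (pos X.μ s) ≤ 1 / 20) : Loc X.Zc 1 A := by
  intro t s hts j
  by_cases hj : j < 9
  · have h0 := h t s hts j (by omega)
    have e : (1 : ℝ) / 2 + ((j + 1 : ℕ) : ℝ) / 20 = 1 / 2 + j / 20 + 1 / 20 := by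
      push_cast
      ring
    constructor
    · intro ht
      have h1 := h0 (Or.inl ht)
      rw [X.mem_Zc (by omega)] at ht
      rw [X.mem_Zc (by omega), e]
      have h2 := dist_triangle (pos X.μ s) (pos X.μ t) 0
      rw [dist_comm (pos X.μ s) (pos X.μ t)] at h2
      linarith
    · intro hs
      have h1 := h0 (Or.inr hs)
      rw [X.mem_Zc (by omega)] at hs
      rw [X.mem_Zc (by omega), e]
      have h2 := dist_triangle (pos X.μ t) (pos X.μ s) 0
      linarith
  · exact ⟨fun _ => X.mem_Zc' (by omega) s, fun _ => X.mem_Zc' (by omega) t⟩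

theorem locc_adj {A : Matrix (CellZ n N) (CellZ n N) ℂ} (h : AdjM A) : Loc X.Zc 1 A := by
  refine X.locc fun t s hts j hj hts' => ?_
  have hadj := h t s hts
  have h3 := X.μ_one
  rcases hts' with ht | hs
  · have h1 := X.adj_dist' (X.ball_C (by omega) le_rfl (X.Zc_ball (by omega) ht)) (adj_symm hadj)
    rw [dist_comm]
    linarith
  · have h1 := X.adj_dist' (X.ball_C (by omega) le_rfl (X.Zc_ball (by omega) hs)) hadj
    linarith

theorem vnc_of_vn {A : Matrix (CellZ n N) (CellZ n N) ℂ} {j : ℕ} (h : Vn X.Z j A) (hj : 11 ≤ j)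
    (hj' : j ≤ 40) : Vn X.Zc 9 A := by
  intro t s hts
  apply h t s
  rw [X.mem_Z hj', X.mem_Z hj']
  exact hts.imp (fun h => X.ball_C hj hj' (X.Zc_ball le_rfl h))
    (fun h => X.ball_C hj hj' (X.Zc_ball le_rfl h))

variable {X}
variable {i j : ℤ} {A B : Matrix (CellZ n N) (CellZ n N) ℂ}

theorem IsEta.locc (h : X.IsEta i A) : Loc X.Zc 1 A := by
  refine X.locc fun t s hts j hj hts' => ?_
  obtain ⟨h1, h2⟩ := h.nr t s hts
  have hc := X.hc
  have he : X.e 18 ≤ 1 / 1000 := (X.e_anti (Nat.zero_le 18)).trans X.e_small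
  have hsV : pos X.μ s ∈ X.D.V := X.C_sub _ h1
  rcases hts' with ht | hs
  · -- `T i (pos s)` is in the unit ball
    have h3 : X.D.T i (pos X.μ s) ∈ closedBall (0 : Fin n → ℝ) 1 := by
      rw [mem_closedBall]
      rw [X.mem_Zc (by omega)] at ht
      have h4 := dist_triangle (X.D.T i (pos X.μ s)) (pos X.μ t) 0
      rw [dist_comm (X.D.T i (pos X.μ s)) (pos X.μ t)] at h4
      have : (j : ℝ) ≤ 8 := by exact_mod_cast hj
      linarith
    have h5 := X.D.disp (-i) _ h3
    rw [X.D.T_neg_T i hsV] at h5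
    have h6 := dist_triangle (pos X.μ t) (X.D.T i (pos X.μ s)) (pos X.μ s)
    rw [dist_comm (X.D.T i (pos X.μ s)) (pos X.μ s)] at h6
    linarith
  · have h5 := X.D.disp i _ (X.Zc_ball (by omega) hs)
    have h6 := dist_triangle (pos X.μ t) (X.D.T i (pos X.μ s)) (pos X.μ s)
    linarith

/-- coarse homotopy near `0` -/
theorem exists_coarse (hA : X.IsEta i A) :
    ∃ k, (∀ t s, k t s ≠ 0 → pos X.μ s ∈ closedBall (0 : Fin n → ℝ) 1 ∧
        dist (pos X.μ t) (pos X.μ s) < X.D.c + X.e 16) ∧ Dg 1 k ∧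
      Vn X.Zc 7 (A - 1 - (X.x.d * k + k * X.x.d)) := by
  have he : X.e 18 ≤ 1 / 1000 := (X.e_anti (Nat.zero_le 18)).trans X.e_small
  have he' := X.e_pos 18
  have hc := X.hc
  have hc0 := X.c_nonneg
  have hμ : X.μ ≤ X.e 18 / (4 * (n + 1)) := (X.μ_e (k := 19) (by omega)).le.trans (X.e_succ 18)
  have hb : ∀ v ∈ closedBall (0 : Fin n → ℝ) 1, dist v 0 ≤ X.R := fun v hv =>
    X.bound v (X.ball_C (by omega) le_rfl hv)
  have hKK : ∀ s ∈ KK (n := n) (N := N) X.μ (closedBall (0 : Fin n → ℝ) 1), s ∈ KK X.μ (X.C 30) :=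
    fun s hs => (show cc X.μ s ⊆ closedBall 0 1 from hs).trans (X.ball_C (by omega) (by omega))
  obtain ⟨k, h1, h2⟩ := real_homotopy X.grid.isBd X.μ_pos (C := closedBall (0 : Fin n → ℝ) 1) hb
    id (r := X.D.c + X.e 18) X.e0_nonneg (by linarith) (fun v _ w _ h => h.trans hμ) hb
    (X.hN (by linarith)) (A - 1)
    (fun s hs => by
      have hs1 : pos X.μ s ∈ closedBall (0 : Fin n → ℝ) 1 := pos_mem_of_KK X.μ_pos.le hs
      refine ⟨fun t hts => ?_, fun t => ?_, fun hd => ?_⟩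
      · by_cases hA0 : A t s = 0
        · have h1t : (1 : Matrix (CellZ n N) (CellZ n N) ℂ) t s ≠ 0 := fun h =>
            hts (by rw [Matrix.sub_apply, hA0, h, sub_self])
          have : t = s := by
            by_contra hne
            exact h1t (Matrix.one_apply_ne hne)
          subst this
          refine ⟨rfl, ?_⟩
          simp only [id, dist_self]
          linarith
        · refine ⟨by have := hA.dg t s hA0; omega, ?_⟩
          have h3 := (hA.nr t s hA0).2
          have h4 := X.D.disp i _ hs1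
          have h5 := dist_triangle (pos X.μ t) (X.D.T i (pos X.μ s)) (pos X.μ s)
          simp only [id]
          linarith
      · have := hA.comm s (hKK s hs) t
        rw [mul_sub, sub_mul, mul_one, one_mul, Matrix.sub_apply, Matrix.sub_apply, this]
      · rw [aug0_sub, hA.aug s (hKK s hs) hd, aug0_one hd, sub_self])
  have hin : ∀ t s, k t s ≠ 0 → s ∈ KK X.μ (closedBall (0 : Fin n → ℝ) 1) := fun t s h => by
    by_contra hs
    exact h (h1 s hs t)
  have hk1 : ∀ t s, k t s ≠ 0 → pos X.μ s ∈ closedBall (0 : Fin n → ℝ) 1 ∧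
        dist (pos X.μ t) (pos X.μ s) < X.D.c + X.e 16 := by
    intro t s hts
    have hs := hin t s hts
    refine ⟨pos_mem_of_KK X.μ_pos.le hs, ?_⟩
    have h3 := ((h2 s hs).1 t hts).2
    simp only [id] at h3
    have h4 := X.e_n 18
    have h5 := X.μ_e (k := 19) (by omega)
    have h6 := X.e_quarter 18
    have h7 := X.e_quarter 17
    have h8 := X.e_quarter 16
    linarith
  have hkl : Loc X.Zc 1 k := by
    refine X.locc fun t s hts j hj hts' => ?_
    have h3 := (hk1 t s hts).2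
    have he : X.e 16 ≤ 1 / 1000 := (X.e_anti (Nat.zero_le 16)).trans X.e_small
    linarith
  refine ⟨k, hk1, ?_, ?_⟩
  · intro t s hts
    have h3 := ((h2 s (hin t s hts)).1 t hts).1
    omega
  · refine vn_of_col (k := 2) X.Zc_mono ?_ ?_
    · have hd := X.locc_adj X.adjM_d
      exact ((hA.locc.mono X.Zc_mono (by omega)).sub (Loc.one X.Zc_mono)).sub
        ((hd.mul hkl).add (hkl.mul hd))
    · intro s hs t
      rw [Matrix.sub_apply, (h2 s (X.Zc_KK (by omega) hs)).2 t, sub_self]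

/-- the near-diagonal chain map `A S A* T` -/
noncomputable def FF (X : Ctx n N) (A : Matrix (CellZ n N) (CellZ n N) ℂ) :
    Matrix (CellZ n N) (CellZ n N) ℂ := A * X.x.S * star A * X.x.T

theorem FF_loc (hA : X.IsEta i A) : Loc X.Z 4 (X.FF A) :=
  ((hA.loc.mul X.loc_S).mul hA.loc.star).mul X.loc_T

theorem ASA_nr (hA : X.IsEta i A) {P : Matrix (CellZ n N) (CellZ n N) ℂ} (hP : AdjM P) :
    X.Nr 32 0 (X.e 14) (A * X.x.S * star A * P) := by
  have h1 : X.Nr 31 (-i) (X.e 17) (star A) := hA.nr.star (by omega)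
  have h2 : X.Nr 32 (-i) (X.e 16) (star A * P) := h1.mul_adj hP (by omega) (by omega)
  have h3 : X.Nr 32 (-i) (X.e 15) (X.x.S * (star A * P)) :=
    h2.adj_mul X.adjM_S (by omega) (by omega)
  have h4 : X.Nr 32 (i + -i) (X.e 14) (A * (X.x.S * (star A * P))) :=
    (hA.nr.mono (c' := 30) (by omega) (by omega) (X.e_anti (by omega : 15 ≤ 18))).mul h3 (by omega)
  rw [add_neg_cancel] at h4
  have e : A * X.x.S * star A * P = A * (X.x.S * (star A * P)) := by noncomm_ring
  rw [e]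
  exact h4

theorem FF_dg (hA : X.IsEta i A) : Dg 0 (X.FF A) := by
  have h1 : Db n (A * X.x.S) := hA.dg.mul_db X.db_S (by omega)
  have h2 : Db n (A * X.x.S * star A) := h1.mul_dg (b := -0) hA.dg.star (by omega)
  exact h2.mul X.db_T (by omega)

theorem FF_vn (hA : X.IsEta i A) : Vn X.Z 24 (X.x.d * X.FF A - X.FF A * X.x.d) := by
  unfold FF
  rw [word_F X.dS X.Td]
  refine Vn.add ?_ ?_
  · exact ((hA.vn.mul_right X.Z_mono X.loc_S).mul_right X.Z_mono hA.loc.star).mul_right X.Z_mono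
      X.loc_T
  · have h1 : Vn X.Z 26 (X.x.S * star (X.x.d * A - A * X.x.d)) :=
      hA.vn.star.mul_left X.Z_mono X.loc_S
    have h2 : Vn X.Z 25 (A * (X.x.S * star (X.x.d * A - A * X.x.d))) :=
      h1.mul_left X.Z_mono hA.loc
    have h3 := h2.mul_right (j := 24) X.Z_mono X.loc_T
    rw [← mul_assoc] at h3
    exact h3

/-- the base vertex -/
def v0 (n N : ℕ) : CellZ n N := fun _ => (0, false)

omit [NeZero N] in
theorem pos_v0 (μ : ℝ) : pos μ (v0 n N) = 0 := by
  funext i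
  simp [pos, v0]

omit [NeZero N] in
theorem dim_v0 : dimZ (v0 n N) = 0 := by
  simp [dimZ, dim, v0, lift]

/-- the augmentation of `F` is `1` at `0` -/
theorem aug_FF_zero (hA : X.IsEta i A) : aug0 (X.FF A) (v0 n N) = 1 := by
  obtain ⟨k, hk1, hk2, hk3⟩ := exists_coarse hA
  have he : X.e 16 ≤ 1 / 1000 := (X.e_anti (Nat.zero_le 16)).trans X.e_small
  have hc := X.hc
  have hkl : Loc X.Zc 1 k := by
    refine X.locc fun t s hts j hj hts' => ?_
    have h3 := (hk1 t s hts).2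
    linarith
  have hS := X.locc_adj X.adjM_S
  have hT := X.locc_adj X.adjM_T
  have hH := X.locc_adj X.adjM_H
  have hE := X.vnc_of_vn hA.vn (by omega) (by omega)
  set Y := k + A * X.x.H - A * X.x.S * star k * X.x.T with hY
  have hw : X.FF A - 1 - (X.x.d * Y + Y * X.x.d) = _ := word_coarse (e := A) (k := k) X.dS X.Td X.ST
  have hv : Vn X.Zc 4 (X.FF A - 1 - (X.x.d * Y + Y * X.x.d)) := by
    rw [hw]
    refine ((Vn.sub ?_ ?_).add ?_).add ?_
    · exact hk3.mono X.Zc_mono (by omega)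
    · exact ((hE.mono X.Zc_mono (by omega : 5 ≤ 9)).mul_right X.Zc_mono hH)
    · have h1 : Vn X.Zc 6 ((X.x.d * A - A * X.x.d) * X.x.S) :=
        (hE.mono X.Zc_mono (by omega : 7 ≤ 9)).mul_right X.Zc_mono hS
      exact (h1.mul_right (j := 5) X.Zc_mono hkl.star).mul_right X.Zc_mono hT
    · have h1 : Vn X.Zc 6 (X.x.S * star (A - 1 - (X.x.d * k + k * X.x.d))) :=
        hk3.star.mul_left X.Zc_mono hS
      have h2 : Vn X.Zc 5 (A * (X.x.S * star (A - 1 - (X.x.d * k + k * X.x.d)))) :=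
        h1.mul_left X.Zc_mono hA.locc
      have h3 := h2.mul_right (j := 4) X.Zc_mono hT
      rw [← mul_assoc] at h3
      exact h3
  have h0 : (v0 n N) ∈ X.Zc 4 := by
    rw [X.mem_Zc (by omega), pos_v0, dist_self]
    positivity
  have h1 : aug0 (X.FF A - 1 - (X.x.d * Y + Y * X.x.d)) (v0 n N) = 0 := by
    unfold aug0
    refine Finset.sum_eq_zero fun t _ => ?_
    rw [hv t _ (Or.inr h0), ite_self]
  rw [aug0_sub, aug0_sub, aug0_add, X.aug0_d_mul, X.aug0_mul_d _ dim_v0, aug0_one dim_v0] at h1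
  linear_combination h1

end Ctx

end Crest.Agent.R217.Chain373
end

-- ▼ part R217/Conn_373
section

/-! Row 217, M7a: constancy of the augmentation along the connected compact set `Kc`, the duality
homotopies. -/

set_option autoImplicit false

open Metric Set
open Crest.Agent.R217.PC473 Crest.Agent.R217.Flow373 Crest.Agent.R217.Carrier834
open Crest.Agent.R217.VanCalc373

namespace Crest.Agent.R217.Chain373

namespace Ctx

variable {n N : ℕ} [NeZero N] (X : Ctx n N)

theorem Kc_C {v : Fin n → ℝ} (hv : v ∈ X.Kc) : v ∈ X.C 11 :=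
  X.Kc_hi v hv v (by rw [dist_self]; exact X.κ_pos)

/-- the vertex below a point -/
noncomputable def vert (x : Fin n → ℝ) : CellZ n N := fun i => ((⌊x i / X.μ⌋ : ZMod N), false)

theorem vert_vma {x : Fin n → ℝ} (hx : dist x 0 ≤ X.R) (i : Fin n) :
    (X.vert x i).1.valMinAbs = ⌊x i / X.μ⌋ := by
  have h1 : |x i| ≤ X.R := by
    have := (dist_le_pi_dist x 0 i).trans hx
    simpa [Real.dist_eq] using this
  have h2 : |x i / X.μ| ≤ X.R / X.μ := by
    rw [abs_div, abs_of_pos X.μ_pos]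
    exact div_le_div_of_nonneg_right h1 X.μ_pos.le
  rw [abs_le] at h2
  have h3 := Int.floor_le (x i / X.μ)
  have h4 := Int.lt_floor_add_one (x i / X.μ)
  have h5 : 2 * (X.R / X.μ) + 4 ≤ N := by
    have h6 := X.win
    have h7 := X.μ_one
    have h8 : (0 : ℝ) ≤ n := Nat.cast_nonneg n
    have h9 : 2 * (X.R / X.μ) + 4 = (2 * X.R + 4 * X.μ) / X.μ := by
      have := X.μ_pos.ne'
      field_simp
    rw [h9, div_le_iff₀ X.μ_pos]
    linarith [mul_comm X.μ (N : ℝ)]
  have h6 : -((N : ℤ) : ℝ) < 2 * (⌊x i / X.μ⌋ : ℝ) ∧ 2 * (⌊x i / X.μ⌋ : ℝ) < ((N : ℤ) : ℝ) := by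
    push_cast
    constructor <;> linarith
  have h7 : -(N : ℤ) < 2 * ⌊x i / X.μ⌋ := by exact_mod_cast h6.1
  have h8 : 2 * ⌊x i / X.μ⌋ < (N : ℤ) := by exact_mod_cast h6.2
  unfold vert
  rw [ZMod.valMinAbs_spec]
  exact ⟨rfl, by constructor <;> omega⟩

theorem vert_dim (x : Fin n → ℝ) : dimZ (X.vert x) = 0 := by
  simp [dimZ, dim, vert, lift]

theorem vert_dist {x : Fin n → ℝ} (hx : dist x 0 ≤ X.R) : dist (pos X.μ (X.vert x)) x ≤ X.μ := by
  rw [dist_pi_le_iff X.μ_pos.le]
  intro i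
  unfold pos
  rw [X.vert_vma hx i, Real.dist_eq]
  have h3 := Int.floor_le (x i / X.μ)
  have h4 := Int.lt_floor_add_one (x i / X.μ)
  have e : X.μ * (⌊x i / X.μ⌋ : ℝ) - x i = X.μ * ((⌊x i / X.μ⌋ : ℝ) - x i / X.μ) := by
    have := X.μ_pos.ne'
    field_simp
  rw [e, abs_mul, abs_of_pos X.μ_pos]
  calc X.μ * _ ≤ X.μ * 1 := by
        apply mul_le_mul_of_nonneg_left _ X.μ_pos.le
        rw [abs_le]
        constructor <;> linarith
    _ = X.μ := mul_one _

theorem vert_pos {s : CellZ n N} (hs : dimZ s = 0) : X.vert (pos X.μ s) = s := by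
  funext i
  have h1 : (s i).2 = false := by
    by_contra hcon
    have h2 : (1 : ℕ) ≤ dim (lift s) := by
      unfold dim
      calc (1 : ℕ) = if (lift s i).2 = true then 1 else 0 := by
            have : (lift s i).2 = true := by
              show (s i).2 = true
              simpa using hcon
            rw [if_pos this]
        _ ≤ _ := Finset.single_le_sum (f := fun i => if (lift s i).2 = true then 1 else 0)
          (fun _ _ => Nat.zero_le _) (Finset.mem_univ i)
    have h3 : dim (lift s) = 0 := hs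
    omega
  unfold vert pos
  refine Prod.ext ?_ h1.symm
  have h2 : X.μ * ((s i).1.valMinAbs : ℝ) / X.μ = ((s i).1.valMinAbs : ℝ) := by
    have := X.μ_pos.ne'
    field_simp
  simp only [h2, Int.floor_intCast]
  exact ZMod.coe_valMinAbs _

variable {X}
variable {i j : ℤ} {A B F : Matrix (CellZ n N) (CellZ n N) ℂ}

/-- equal augmentation at close vertices -/
theorem aug_close (hF : Vn X.Z 24 (X.x.d * F - F * X.x.d)) {u v : CellZ n N}
    (hu : pos X.μ u ∈ X.C 12) (hu0 : dimZ u = 0) (hv : pos X.μ v ∈ X.C 12) (hv0 : dimZ v = 0)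
    (huv : ∀ i, |(u i).1.valMinAbs - (v i).1.valMinAbs| ≤ 1) : aug0 F u = aug0 F v := by
  have hWu := X.inW (X.C_mono (by omega) le_rfl hu)
  have hWv := X.inW (X.C_mono (by omega) le_rfl hv)
  have e1 : ∀ s : CellZ n N, dimZ s = 0 → ∀ i, (lift s i).2 = false := by
    intro s hs i
    by_contra hcon
    have h2 : (1 : ℕ) ≤ dim (lift s) := by
      unfold dim
      calc (1 : ℕ) = if (lift s i).2 = true then 1 else 0 := by simp [hcon]
        _ ≤ _ := Finset.single_le_sum (f := fun i => if (lift s i).2 = true then 1 else 0)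
          (fun _ _ => Nat.zero_le _) (Finset.mem_univ i)
    have h3 : dim (lift s) = 0 := hs
    omega
  have hp : 2 * X.μ < X.κ := by
    have h1 := X.μ_e (k := 1) (by omega)
    have h2 := X.e_quarter 0
    have h3 := X.e_κ 0
    have h4 := X.e_pos 0
    linarith
  refine matrix_aug X.grid.isBd X.grid.haug
    (fun i => min (u i).1.valMinAbs (v i).1.valMinAbs)
    (fun i => max (u i).1.valMinAbs (v i).1.valMinAbs) (fun i => ?_) F (fun e he _ t => ?_)
    (fun i => ?_) hu0 (fun i => ?_) hv0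
  · have h1 := hWu i
    have h2 := hWv i
    rcases min_choice (u i).1.valMinAbs (v i).1.valMinAbs with h3 | h3 <;>
    rcases max_choice (u i).1.valMinAbs (v i).1.valMinAbs with h4 | h4 <;>
    simp only [h3, h4] <;> constructor <;> omega
  · have hpe : dist (pos X.μ e) (pos X.μ u) ≤ 2 * X.μ := by
      rw [dist_pi_le_iff (by have := X.μ_pos; linarith)]
      intro i
      obtain ⟨h1, h2⟩ := he i
      have h0 : (0 : ℤ) ≤ (if (lift e i).2 = true then 1 else 0) := by split_ifs <;> omega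
      have h3 := huv i
      have hmin : (v i).1.valMinAbs - 1 ≤ min (u i).1.valMinAbs (v i).1.valMinAbs ∧
          (u i).1.valMinAbs - 1 ≤ min (u i).1.valMinAbs (v i).1.valMinAbs := by
        rw [abs_le] at h3
        constructor
        · exact le_min (by omega) (by omega)
        · exact le_min (by omega) (by omega)
      have hmax : max (u i).1.valMinAbs (v i).1.valMinAbs ≤ (u i).1.valMinAbs + 1 := by
        rw [abs_le] at h3
        exact max_le (by omega) (by omega)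
      have h4 : |((e i).1.valMinAbs : ℤ) - (u i).1.valMinAbs| ≤ 1 := by
        have h5 : (lift e i).1 = (e i).1.valMinAbs := rfl
        rw [h5] at h1 h2
        simp only at h1 h2
        rw [abs_le]
        omega
      rw [Real.dist_eq]
      unfold pos
      rw [← mul_sub, abs_mul, abs_of_pos X.μ_pos]
      have h6 : |((e i).1.valMinAbs : ℝ) - ((u i).1.valMinAbs : ℝ)| ≤ 1 := by exact_mod_cast h4
      have := X.μ_pos
      nlinarith
    have h1 := hF t e (Or.inr ((X.mem_Z (by omega)).2 (X.C_mono (by omega) (by omega)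
      (X.C_step (j := 12) (by omega) hu (hpe.trans_lt hp)))))
    rw [Matrix.sub_apply, sub_eq_zero] at h1
    exact h1
  · rw [e1 u hu0 i]
    simp only [Bool.false_eq_true, if_false, add_zero]
    exact ⟨min_le_left _ _, le_max_left _ _⟩
  · rw [e1 v hv0 i]
    simp only [Bool.false_eq_true, if_false, add_zero]
    exact ⟨min_le_right _ _, le_max_right _ _⟩

/-- the augmentation is constant along `Kc` -/
theorem aug_const (hF : Vn X.Z 24 (X.x.d * F - F * X.x.d)) {x y : Fin n → ℝ}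
    (hx : x ∈ X.Kc) (hy : y ∈ X.Kc) : aug0 F (X.vert x) = aug0 F (X.vert y) := by
  classical
  have hR : ∀ z ∈ X.Kc, dist z 0 ≤ X.R := fun z hz => X.hC (by omega) z (X.Kc_C hz)
  have hC12 : ∀ z ∈ X.Kc, pos X.μ (X.vert z) ∈ X.C 12 := fun z hz =>
    X.C_step (by omega) (X.Kc_C hz) ((X.vert_dist (hR z hz)).trans_lt X.μ_κ)
  have hloc : ∀ z ∈ X.Kc, ∀ w ∈ X.Kc, dist w z < X.μ → aug0 F (X.vert w) = aug0 F (X.vert z) := by
    intro z hz w hw hd
    refine aug_close hF (hC12 w hw) (X.vert_dim w) (hC12 z hz) (X.vert_dim z) fun i => ?_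
    rw [X.vert_vma (hR w hw) i, X.vert_vma (hR z hz) i]
    have h1 : |w i / X.μ - z i / X.μ| < 1 := by
      rw [← sub_div, abs_div, abs_of_pos X.μ_pos, div_lt_one X.μ_pos]
      have := (dist_le_pi_dist w z i).trans_lt hd
      rwa [Real.dist_eq] at this
    rw [abs_lt] at h1
    have h3 := Int.floor_le (w i / X.μ)
    have h4 := Int.lt_floor_add_one (w i / X.μ)
    have h5 := Int.floor_le (z i / X.μ)
    have h6 := Int.lt_floor_add_one (z i / X.μ)
    have h7 : ((⌊w i / X.μ⌋ : ℤ) : ℝ) - ((⌊z i / X.μ⌋ : ℤ) : ℝ) < 2 := by linarith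
    have h8 : (-2 : ℝ) < ((⌊w i / X.μ⌋ : ℤ) : ℝ) - ((⌊z i / X.μ⌋ : ℤ) : ℝ) := by linarith
    have h9 : ⌊w i / X.μ⌋ - ⌊z i / X.μ⌋ < 2 := by exact_mod_cast h7
    have h10 : -2 < ⌊w i / X.μ⌋ - ⌊z i / X.μ⌋ := by exact_mod_cast h8
    rw [abs_le]
    omega
  have hcont : ContinuousOn (fun z => decide (aug0 F (X.vert z) = aug0 F (X.vert y))) X.Kc := by
    intro z hz
    refine (continuousWithinAt_const (b := decide (aug0 F (X.vert z) =
      aug0 F (X.vert y)))).congr_of_eventuallyEq ?_ rfl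
    have : ball z X.μ ∈ nhdsWithin z X.Kc := mem_nhdsWithin_of_mem_nhds (ball_mem_nhds z X.μ_pos)
    filter_upwards [this, self_mem_nhdsWithin] with w hw hwK
    rw [hloc z hz w hwK hw]
  have := X.Kc_pre.constant hcont hx hy
  simpa using this

theorem aug_FF (hA : X.IsEta i A) {s : CellZ n N} (hs : pos X.μ s ∈ X.C 10) (hd : dimZ s = 0) :
    aug0 (X.FF A) s = 1 := by
  have h1 := aug_const (FF_vn hA) (X.Kc_lo hs)
    (X.Kc_ball (mem_closedBall_self (x := (0 : Fin n → ℝ)) zero_le_one))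
  rw [X.vert_pos hd] at h1
  rw [h1]
  have h2 : X.vert (0 : Fin n → ℝ) = v0 n N := by
    funext i
    simp [vert, v0]
  rw [h2]
  exact aug_FF_zero hA

/-- the fine homotopy `F = 1 + d h + h d` -/
theorem exists_fine (hA : X.IsEta i A) :
    ∃ h, X.Nr 10 0 (X.e 13) h ∧ Dg 1 h ∧ Vn X.Z 5 (X.FF A - 1 - (X.x.d * h + h * X.x.d)) := by
  have hnr := ASA_nr hA X.adjM_T
  have he : X.e 14 ≤ 1 / 1000 := (X.e_anti (Nat.zero_le 14)).trans X.e_small
  have he' := X.e_pos 14
  have hμ : X.μ ≤ X.e 18 / (4 * (n + 1)) := (X.μ_e (k := 19) (by omega)).le.trans (X.e_succ 18)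
  obtain ⟨h, h1, h2⟩ := real_homotopy X.grid.isBd X.μ_pos (C := X.C 10) (X.hC (by omega))
    id (r := X.e 14) X.e0_nonneg he'.le (fun v _ w _ h => h.trans hμ) (X.hC (by omega))
    (X.hN (by linarith)) (X.FF A - 1)
    (fun s hs => by
      have hs1 : pos X.μ s ∈ X.C 10 := pos_mem_of_KK X.μ_pos.le hs
      have hsZ : s ∈ X.Z 24 := (X.mem_Z (by omega)).2 (X.C_mono (by omega) (by omega) hs1)
      refine ⟨fun t hts => ?_, fun t => ?_, fun hd => ?_⟩
      · by_cases hA0 : X.FF A t s = 0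
        · have h1t : (1 : Matrix (CellZ n N) (CellZ n N) ℂ) t s ≠ 0 := fun h =>
            hts (by rw [Matrix.sub_apply, hA0, h, sub_self])
          have : t = s := by
            by_contra hne
            exact h1t (Matrix.one_apply_ne hne)
          subst this
          refine ⟨rfl, ?_⟩
          simp only [id, dist_self]
          exact he'.le
        · refine ⟨by have := FF_dg hA t s hA0; omega, ?_⟩
          have h3 := (hnr t s hA0).2
          rw [X.D.T_zero _ (X.C_sub _ hs1)] at h3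
          exact h3.le
      · have h3 := FF_vn hA t s (Or.inr hsZ)
        rw [Matrix.sub_apply, sub_eq_zero] at h3
        rw [mul_sub, sub_mul, mul_one, one_mul, Matrix.sub_apply, Matrix.sub_apply, h3]
      · rw [aug0_sub, aug_FF hA hs1 hd, aug0_one hd, sub_self])
  have hin : ∀ t s, h t s ≠ 0 → s ∈ KK X.μ (X.C 10) := fun t s hh => by
    by_contra hs
    exact hh (h1 s hs t)
  have hnrh : X.Nr 10 0 (X.e 13) h := by
    intro t s hts
    have hs := hin t s hts
    have hs1 : pos X.μ s ∈ X.C 10 := pos_mem_of_KK X.μ_pos.le hs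
    refine ⟨hs1, ?_⟩
    rw [X.D.T_zero _ (X.C_sub _ hs1)]
    have h3 := ((h2 s hs).1 t hts).2
    simp only [id] at h3
    have h4 := X.e_n 18
    have h5 := X.μ_e (k := 19) (by omega)
    have h6 := X.e_quarter 18
    have h7 := X.e_quarter 13
    have h8 := X.e_anti (show 14 ≤ 18 by omega)
    have h9 := X.e_pos 18
    linarith
  have hl : Loc X.Z 1 h := hnrh.loc (X.e_κ _).le
  refine ⟨h, hnrh, ?_, ?_⟩
  · intro t s hts
    have h3 := ((h2 s (hin t s hts)).1 t hts).1
    omega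
  · refine vn_of_col (k := 4) X.Z_mono ?_ ?_
    · exact ((FF_loc hA).sub (Loc.one X.Z_mono)).sub
        (((X.loc_d.mul hl).mono X.Z_mono (by omega)).add
          ((hl.mul X.loc_d).mono X.Z_mono (by omega)))
    · intro s hs t
      rw [Matrix.sub_apply, (h2 s (X.mem_KK (by omega) hs)).2 t, sub_self]

/-- **duality homotopy** `η S η* ~ S` -/
theorem exists_dual (hA : X.IsEta i A) :
    ∃ U, X.Nr 32 0 (X.e 12) U ∧ Db (n + 1) U ∧
      Vn X.Z 4 (A * X.x.S * star A - X.x.S - (X.x.d * U - U * star X.x.d)) := by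
  obtain ⟨h, h1, h2, h3⟩ := exists_fine hA
  refine ⟨h * X.x.S + A * X.x.S * star A * star X.x.H, ?_, ?_, ?_⟩
  · refine Nr.add ?_ ?_
    · exact (h1.mul_adj X.adjM_S (by omega) (by omega)).mono (by omega) (by omega) le_rfl
    · exact (ASA_nr hA X.adjM_H.star).mono le_rfl (by omega) (X.e_anti (by omega))
  · refine Db.add ?_ ?_
    · exact h2.mul_db X.db_S (by omega)
    · have h4 : Db n (A * X.x.S) := hA.dg.mul_db X.db_S (by omega)
      have h5 : Db n (A * X.x.S * star A) := h4.mul_dg (b := -0) hA.dg.star (by omega)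
      exact h5.mul_dg (b := -1) X.dg_H.star (by omega)
  · rw [word_dual X.dS X.TS]
    refine Vn.sub (Vn.sub ?_ ?_) ?_
    · exact h3.mul_right X.Z_mono X.loc_S
    · have h5 := ((hA.vn.mul_right (j := 26) X.Z_mono X.loc_S).mul_right (j := 25) X.Z_mono
        hA.loc.star).mul_right (j := 24) X.Z_mono X.loc_H.star
      exact h5.mono X.Z_mono (by omega)
    · have h5 : Vn X.Z 26 (X.x.S * star (X.x.d * A - A * X.x.d)) :=
        hA.vn.star.mul_left X.Z_mono X.loc_S
      have h6 : Vn X.Z 25 (A * (X.x.S * star (X.x.d * A - A * X.x.d))) :=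
        h5.mul_left X.Z_mono hA.loc
      have h7 := h6.mul_right (j := 24) X.Z_mono X.loc_H.star
      rw [← mul_assoc] at h7
      exact h7.mono X.Z_mono (by omega)

/-- `η_i S ~ S η_j*` -/
theorem exists_commS (hA : X.IsEta i A) (hB : X.IsEta j B)
    (hT : ∀ v ∈ X.C 36, dist (X.D.T (i + j) v) v < X.e 12) :
    ∃ Y, X.Nr 32 i (X.e 8) Y ∧ Db (n + 1) Y ∧
      Vn X.Z 3 (A * X.x.S - X.x.S * star B - (X.x.d * Y - Y * star X.x.d)) := by
  obtain ⟨U, hU1, hU2, hU3⟩ := exists_dual hA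
  have he : X.e 12 ≤ 1 / 1000 := (X.e_anti (Nat.zero_le 12)).trans X.e_small
  obtain ⟨k, hk1, hk2, hk3, hk4⟩ := exists_mul hB hA X.isEta_id0 (X.e_pos 12).le (by linarith)
    (fun v hv => by
      rw [X.D.T_zero _ (X.C_sub _ hv), add_comm j i]
      exact hT v hv)
  have hk1' : X.Nr 25 0 (X.e 11) k := hk1.mono le_rfl (by omega) (by
    have h1 := X.e_anti (show 12 ≤ 16 by omega)
    have h2 := X.e_quarter 11
    have h3 := X.e_pos 11
    linarith)
  have hkl : Loc X.Z 1 k := hk1'.loc (X.e_κ _).le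
  have hkv := mul_vn hB hA X.isEta_id0 hkl hk4
  have hkv' : Vn X.Z 22 (B * A - 1 - (X.x.d * k + k * X.x.d)) := by
    have e : B * A - 1 - (X.x.d * k + k * X.x.d) =
        (B * A - X.id0 - (X.x.d * k + k * X.x.d)) + (X.id0 - 1) := by noncomm_ring
    rw [e]
    exact hkv.add (X.vn_id0.mono X.Z_mono (by omega))
  have hUl : Loc X.Z 1 U := hU1.loc (X.e_κ _).le
  refine ⟨U * star B + A * X.x.S * star k, ?_, ?_, ?_⟩
  · refine Nr.add ?_ ?_
    · have h1 : X.Nr 31 (-j) (X.e 12) (star B) :=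
        (hB.nr.star (by omega)).mono le_rfl (by omega) (X.e_anti (by omega))
      have h2 : X.Nr 31 (0 + -j) (X.e 11) (U * star B) := hU1.mul h1 (by omega)
      rw [zero_add] at h2
      intro t s hts
      obtain ⟨h3, h4⟩ := h2 t s hts
      refine ⟨X.C_mono (by omega) (by omega) h3, ?_⟩
      have h5 := hT _ (X.T_C (-j) (X.C_mono (by omega) (by omega) h3))
      rw [← X.D.T_add _ _ _ (X.C_sub _ h3), add_neg_cancel_right] at h5
      have h6 := dist_triangle (pos X.μ t) (X.D.T (-j) (pos X.μ s)) (X.D.T i (pos X.μ s))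
      rw [dist_comm (X.D.T i (pos X.μ s)) (X.D.T (-j) (pos X.μ s))] at h5
      have h7 := X.e_anti (show 11 ≤ 12 by omega)
      have h8 := X.e_quarter 10
      have h9 := X.e_anti (show 8 ≤ 10 by omega)
      have h10 := X.e_pos 10
      linarith
    · have h1 : X.Nr 26 (-0) (X.e 10) (star k) := hk1'.star (by omega)
      have h2 : X.Nr 26 (-0) (X.e 9) (X.x.S * star k) := h1.adj_mul X.adjM_S (by omega) (by omega)
      have h3 : X.Nr 26 (i + -0) (X.e 8) (A * (X.x.S * star k)) :=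
        (hA.nr.mono (c' := 30) (by omega) (by omega) (X.e_anti (by omega : 9 ≤ 18))).mul h2
          (by omega)
      rw [neg_zero, add_zero, ← mul_assoc] at h3
      exact h3.mono (by omega) (by omega) le_rfl
  · refine Db.add ?_ ?_
    · exact hU2.mul_dg (b := -0) hB.dg.star (by omega)
    · have h4 : Db n (A * X.x.S) := hA.dg.mul_db X.db_S (by omega)
      exact h4.mul_dg (b := -1) hk2.star (by omega)
  · rw [word_commS X.dS]
    refine Vn.sub (Vn.sub (Vn.add ?_ ?_) ?_) ?_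
    · have h5 : Vn X.Z 26 (U * star (X.x.d * B - B * X.x.d)) :=
        hB.vn.star.mul_left X.Z_mono hUl
      exact h5.mono X.Z_mono (by omega)
    · exact hU3.mul_right X.Z_mono hB.loc.star
    · have h5 := (hA.vn.mul_right (j := 26) X.Z_mono X.loc_S).mul_right (j := 25) X.Z_mono hkl.star
      exact h5.mono X.Z_mono (by omega)
    · have h5 : Vn X.Z 21 (X.x.S * star (B * A - 1 - (X.x.d * k + k * X.x.d))) :=
        hkv'.star.mul_left X.Z_mono X.loc_S
      have h6 : Vn X.Z 20 (A * (X.x.S * star (B * A - 1 - (X.x.d * k + k * X.x.d)))) :=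
        h5.mul_left X.Z_mono hA.loc
      rw [← mul_assoc] at h6
      exact h6.mono X.Z_mono (by omega)

end Ctx

end Crest.Agent.R217.Chain373
end

-- ▼ part R217/Chain_373
section

/-! Row 217, M7a: existence of the chain package, `chainExists : Equi D → D.c ≤ 1/100 →
ChainExists D`. -/

set_option autoImplicit false

open Metric Set
open Crest.Agent.R217.PC473 Crest.Agent.R217.Flow373 Crest.Agent.R217.Carrier834
open Crest.Agent.R217.VanCalc373

namespace Crest.Agent.R217.Chain373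

namespace Ctx

variable {n N : ℕ} [NeZero N] (X : Ctx n N)

theorem van_half {A : Matrix (CellZ n N) (CellZ n N) ℂ} {j : ℕ} (h : Vn X.Zc j A) :
    Van X.μ (closedBall 0 (1 / 2)) A := fun t s hts => by
  apply h.mono X.Zc_mono (Nat.zero_le j) t s
  rw [X.mem_Zc (by omega), X.mem_Zc (by omega)]
  rcases hts with h1 | h1
  · left
    rw [mem_closedBall] at h1
    simpa using h1
  · right
    rw [mem_closedBall] at h1
    simpa using h1

/-- the package -/
theorem pkg (M : ℕ) : ∃ η, ChainPkg X.D (X.C 0) (X.C 36) M X.ε (X.e 12) X.μ X.x η := by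
  classical
  choose η' hη' using X.exists_eta
  let η : ℤ → Matrix (CellZ n N) (CellZ n N) ℂ := fun i => if i = 0 then X.id0 else η' i
  have hη : ∀ i, X.IsEta i (η i) := by
    intro i
    by_cases hi : i = 0
    · subst hi
      simp only [η, if_true]
      exact X.isEta_id0
    · simp only [η, if_neg hi]
      exact hη' i
  have hη0 : η 0 = X.id0 := by simp [η]
  have heε : ∀ k, X.e k ≤ X.ε := fun k => by
    have h1 := X.e_ε' k
    have h2 := X.ε_pos
    linarith
  have he12 : X.e 12 ≤ 1 / 2 := by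
    have := (X.e_anti (Nat.zero_le 12)).trans X.e_small
    linarith
  refine ⟨η, ?_, ?_, ?_, ?_, ?_, ?_, ?_, ?_⟩
  · intro i _
    exact X.near_of_nr (hη i).nr (by omega) (heε _)
  · intro i _ t s hts
    have := (hη i).dg t s hts
    omega
  · rw [hη0]
    exact X.van_of_vn X.vn_id0 (by omega)
  · intro i _
    exact X.van_of_vn (hη i).vn (by omega)
  · intro i j l _ _ _ hT
    obtain ⟨k, hk1, hk2, hk3, hk4⟩ := exists_mul (hη i) (hη j) (hη l) (X.e_pos 12).le he12 hT
    have hδ : X.e 12 + X.e 16 ≤ X.ε := by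
      have h1 := X.e_ε' 12
      have h2 := X.e_ε' 16
      have h3 := X.ε_pos
      linarith
    have hδκ : X.e 12 + X.e 16 ≤ X.κ := by
      have h1 := X.ε_κ
      have h2 := X.κ_pos
      linarith
    refine ⟨k, X.near_of_nr hk1 (by omega) hδ, ?_, ?_⟩
    · intro t s hts
      have := hk2 t s hts
      omega
    · exact X.van_of_vn (mul_vn (hη i) (hη j) (hη l) (hk1.loc hδκ) hk4) (by omega)
  · intro i _
    obtain ⟨U, hU1, hU2, hU3⟩ := exists_dual (hη i)
    refine ⟨U, X.near_of_nr hU1 (by omega) (heε _), ?_, X.van_of_vn hU3 (by omega)⟩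
    intro t s hts
    have := hU2 t s hts
    omega
  · intro i j _ _ hT
    obtain ⟨Y, hY1, hY2, hY3⟩ := exists_commS (hη i) (hη j) hT
    refine ⟨Y, X.near_of_nr hY1 (by omega) (heε _), ?_, X.van_of_vn hY3 (by omega)⟩
    intro t s hts
    have := hY2 t s hts
    omega
  · intro i _
    obtain ⟨k, hk1, hk2, hk3⟩ := exists_coarse (hη i)
    refine ⟨k, fun t s hts => ?_, fun t s hts => ?_, X.van_half hk3⟩
    · obtain ⟨h1, h2⟩ := hk1 t s hts
      exact ⟨h1, h2.trans_le (by have := heε 16; linarith)⟩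
    · have := hk2 t s hts
      omega

end Ctx

/-- the scales -/
theorem exists_scales {n : ℕ} {D : Flow n} (hE : Equi D) {K : Set (Fin n → ℝ)} (hK : IsCompact K)
    (hKO : K ⊆ D.Om) {a : ℝ} (ha : 0 < a) :
    ∃ e : ℕ → ℝ, e 0 = a ∧ (∀ k, 0 < e k) ∧ (∀ k, e (k + 1) ≤ e k / (4 * (n + 1))) ∧
      ∀ k, ∀ v ∈ D.ovr K, ∀ v', dist v' v < e (k + 1) →
        v' ∈ D.V ∧ ∀ i : ℤ, dist (D.T i v') (D.T i v) < e k / (4 * (n + 1)) := by
  have h4 : ∀ b : ℝ, 0 < b → 0 < b / (4 * (n + 1)) := fun b hb => by positivity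
  have hex : ∀ b : {b : ℝ // 0 < b}, ∃ δ : {b : ℝ // 0 < b}, δ.1 ≤ b.1 / (4 * (n + 1)) ∧
      ∀ v ∈ D.ovr K, ∀ v', dist v' v < δ.1 →
        v' ∈ D.V ∧ ∀ i : ℤ, dist (D.T i v') (D.T i v) < b.1 / (4 * (n + 1)) := by
    rintro ⟨b, hb⟩
    obtain ⟨δ, hδ, h⟩ := hE K hKO hK _ (h4 b hb)
    refine ⟨⟨min δ (b / (4 * (n + 1))), lt_min hδ (h4 b hb)⟩, min_le_right _ _, ?_⟩
    intro v hv v' hv'
    exact h v hv v' (hv'.trans_le (min_le_left _ _))
  choose F hF1 hF2 using hex
  let e : ℕ → {b : ℝ // 0 < b} := fun k => Nat.rec ⟨a, ha⟩ (fun _ b => F b) k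
  exact ⟨fun k => (e k).1, rfl, fun k => (e k).2, fun k => hF1 (e k), fun k => hF2 (e k)⟩

/-- **M7a** -/
theorem chainExists {n : ℕ} {D : Flow n} (hE : Equi D) (hc : D.c ≤ 1 / 100) : ChainExists D := by
  intro K hK hKO
  obtain ⟨LA, κA, hκA, hA0, hAc, hAO, hAm, hAt⟩ := D.exists_tower hK hKO 10
  have hCA : IsCompact (D.ovr (LA 10)) := D.proper _ (hAO 10 le_rfl) (hAc 10 le_rfl)
  obtain ⟨Kc, hKc, hKcp, hKcV, hKcC, hKcB⟩ := D.exists_conn hCA (D.ovr_sub _)
  set K1 : Set (Fin n → ℝ) := LA 10 ∪ D.f '' Kc with hK1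
  have hK1c : IsCompact K1 := (hAc 10 le_rfl).union (hKc.image_of_continuousOn (D.f_cont.mono hKcV))
  have hK1O : K1 ⊆ D.Om := union_subset (hAO 10 le_rfl) (by
    rintro _ ⟨v, hv, rfl⟩
    exact D.f_mem v (hKcV hv))
  obtain ⟨LB, κB, hκB, hB0, hBc, hBO, hBm, hBt⟩ := D.exists_tower hK1c hK1O 40
  have hKcK1 : Kc ⊆ D.ovr (LB 0) := fun v hv => by
    rw [hB0]
    exact ⟨hKcV hv, Or.inr ⟨v, hv, rfl⟩⟩
  set L : ℕ → Set (Fin n → ℝ) := fun j => if j ≤ 10 then LA j else LB (j - 10) with hL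
  have hLA : ∀ j, j ≤ 10 → L j = LA j := fun j hj => by simp only [hL, if_pos hj]
  have hLB : ∀ j, 10 < j → L j = LB (j - 10) := fun j hj => by
    simp only [hL, if_neg (by omega : ¬ j ≤ 10)]
  set κ : ℝ := min (min κA κB) 1 with hκ
  have hκ0 : 0 < κ := lt_min (lt_min hκA hκB) one_pos
  have hκA' : κ ≤ κA := (min_le_left _ _).trans (min_le_left _ _)
  have hκB' : κ ≤ κB := (min_le_left _ _).trans (min_le_right _ _)
  have htower : ∀ j < 40, ∀ v ∈ D.ovr (L j), ∀ v', dist v' v < κ → v' ∈ D.ovr (L (j + 1)) := by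
    intro j hj v hv v' hv'
    by_cases h1 : j < 10
    · rw [hLA j h1.le] at hv
      rw [hLA (j + 1) (by omega)]
      exact hAt j h1 v hv v' (hv'.trans_le hκA')
    · by_cases h2 : j = 10
      · subst h2
        rw [hLA 10 le_rfl] at hv
        rw [hLB (10 + 1) (by omega)]
        have hv0 : v ∈ D.ovr (LB 0) := by
          rw [hB0]
          exact D.ovr_mono subset_union_left hv
        exact hBt 0 (by omega) v hv0 v' (hv'.trans_le hκB')
      · rw [hLB j (by omega)] at hv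
        rw [hLB (j + 1) (by omega), show j + 1 - 10 = (j - 10) + 1 by omega]
        exact hBt (j - 10) (by omega) v hv v' (hv'.trans_le hκB')
  have hLc : ∀ j ≤ 40, IsCompact (L j) := fun j hj => by
    by_cases h1 : j ≤ 10
    · rw [hLA j h1]; exact hAc j h1
    · rw [hLB j (by omega)]; exact hBc _ (by omega)
  have hLO : ∀ j ≤ 40, L j ⊆ D.Om := fun j hj => by
    by_cases h1 : j ≤ 10
    · rw [hLA j h1]; exact hAO j h1
    · rw [hLB j (by omega)]; exact hBO _ (by omega)
  have hC40 : IsCompact (D.ovr (L 40)) := D.proper _ (hLO 40 le_rfl) (hLc 40 le_rfl)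
  obtain ⟨R, hR⟩ := hC40.isBounded.subset_closedBall (0 : Fin n → ℝ)
  have hAmono : ∀ j, K ⊆ LA j := fun j => by
    induction j with
    | zero => rw [hA0]
    | succ j ih => exact ih.trans (hAm j)
  have hBmono : ∀ j, K1 ⊆ LB j := fun j => by
    induction j with
    | zero => rw [hB0]
    | succ j ih => exact ih.trans (hBm j)
  have hKL : K ⊆ L 36 := by
    rw [hLB 36 (by omega)]
    exact (hAmono 10).trans (subset_union_left.trans (hBmono _))
  refine ⟨L 36, hLc 36 (by omega), hLO 36 (by omega), hKL, κ / 2, by linarith,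
    2 * R + 2 * n + 20, fun ε hε hε0 => ?_⟩
  obtain ⟨e, he0, hepos, hesucc, heunif⟩ := exists_scales hE (hLc 40 le_rfl) (hLO 40 le_rfl)
    (a := min (ε / 8) (1 / 1000)) (lt_min (by linarith) (by norm_num))
  refine ⟨e 12, hepos 12, fun M => ⟨e 20, hepos 20, fun μ hμ hμ0 N _ hN x hx => ?_⟩⟩
  let X : Ctx n N :=
    { D := D
      L := L
      Kc := Kc
      κ := κ
      R := R
      e := e
      ε := ε
      μ := μ
      x := x
      grid := hx
      hc := hc
      tower := htower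
      bound := fun v hv => hR hv
      Kc_pre := hKcp
      Kc_ball := hKcB
      Kc_lo := by rw [hLA 10 le_rfl]; exact hKcC
      Kc_hi := fun v hv v' hv' => by
        rw [hLB 11 (by omega)]
        exact hBt 0 (by omega) v (hKcK1 hv) v' (hv'.trans_le hκB')
      κ_pos := hκ0
      κ_one := min_le_right _ _
      e_pos := hepos
      e_succ := hesucc
      unif := heunif
      e_small := by rw [he0]; exact min_le_right _ _
      e_ε := by rw [he0]; exact min_le_left _ _
      ε_κ := hε0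
      μ_pos := hμ
      μ_lt := hμ0
      win := hN }
  have h0 : X.C 0 = D.ovr K := by
    show D.ovr (L 0) = D.ovr K
    rw [hLA 0 (by omega), hA0]
  have := X.pkg M
  rw [h0] at this
  exact this

end Crest.Agent.R217.Chain373
end

-- ▼ part R217/FineExist_373
section

/-! Row 217, M7: the averaging step `FineOfChain` (homogeneous components of the averages). -/

set_option autoImplicit false
set_option linter.unusedSectionVars false
set_option linter.style.haveILetI false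

open Metric Set Matrix
open Crest.Agent.R217.Grid897 Crest.Agent.R217.PC473 Crest.Agent.R217.Flow373
open Crest.Agent.R217.Chain373
open Crest.Agent.R217.FinePkg970 (FinePkg EqOn cellsIn NearT Returns FineOfChain)

namespace Crest.Agent.R217.FineExist373

section sums

variable {I : Type*} [Fintype I] {L q : ℕ} [NeZero L] [NeZero q] (φ : ZMod L →+* ZMod q)

/-- homogeneous component of the average -/
noncomputable def cmp (X : ZMod L → Matrix I I ℂ) (r : ZMod q) : Matrix I I ℂ :=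
  (L : ℂ)⁻¹ • ∑ a, if φ a = r then X a else 0

/-- homogeneous component of a double average -/
noncomputable def cmp2 (X : ZMod L → ZMod L → Matrix I I ℂ) (r : ZMod q) : Matrix I I ℂ :=
  ((L : ℂ)⁻¹ * (L : ℂ)⁻¹) • ∑ a, ∑ b, if φ (a + b) = r then X a b else 0

theorem cmp_supp {X : ZMod L → Matrix I I ℂ} {r : ZMod q} {t s : I} (h : cmp φ X r t s ≠ 0) :
    ∃ a, φ a = r ∧ X a t s ≠ 0 := by
  unfold cmp at h
  rw [Matrix.smul_apply, Matrix.sum_apply] at h
  have h1 : ∑ a, (if φ a = r then X a else 0) t s ≠ 0 := fun h0 => h (by rw [h0, smul_zero])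
  obtain ⟨a, -, ha⟩ := Finset.exists_ne_zero_of_sum_ne_zero h1
  by_cases hr : φ a = r
  · rw [if_pos hr] at ha
    exact ⟨a, hr, ha⟩
  · rw [if_neg hr] at ha
    exact absurd rfl ha

theorem cmp2_supp {X : ZMod L → ZMod L → Matrix I I ℂ} {r : ZMod q} {t s : I}
    (h : cmp2 φ X r t s ≠ 0) : ∃ a b, φ (a + b) = r ∧ X a b t s ≠ 0 := by
  unfold cmp2 at h
  rw [Matrix.smul_apply, Matrix.sum_apply] at h
  have h1 : ∑ a, (∑ b, if φ (a + b) = r then X a b else 0) t s ≠ 0 :=
    fun h0 => h (by rw [h0, smul_zero])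
  obtain ⟨a, -, ha⟩ := Finset.exists_ne_zero_of_sum_ne_zero h1
  rw [Matrix.sum_apply] at ha
  obtain ⟨b, -, hb⟩ := Finset.exists_ne_zero_of_sum_ne_zero ha
  by_cases hr : φ (a + b) = r
  · rw [if_pos hr] at hb
    exact ⟨a, b, hr, hb⟩
  · rw [if_neg hr] at hb
    exact absurd rfl hb

theorem cmp_sub (X Y : ZMod L → Matrix I I ℂ) (r : ZMod q) :
    cmp φ (fun a => X a - Y a) r = cmp φ X r - cmp φ Y r := by
  unfold cmp
  rw [← smul_sub, ← Finset.sum_sub_distrib]
  congr 1
  refine Finset.sum_congr rfl fun a _ => ?_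
  split_ifs
  · rfl
  · rw [sub_zero]

theorem cmp_add (X Y : ZMod L → Matrix I I ℂ) (r : ZMod q) :
    cmp φ (fun a => X a + Y a) r = cmp φ X r + cmp φ Y r := by
  unfold cmp
  rw [← smul_add, ← Finset.sum_add_distrib]
  congr 1
  refine Finset.sum_congr rfl fun a _ => ?_
  split_ifs
  · rfl
  · rw [add_zero]

theorem cmp_mul_left (A : Matrix I I ℂ) (X : ZMod L → Matrix I I ℂ) (r : ZMod q) :
    cmp φ (fun a => A * X a) r = A * cmp φ X r := by
  unfold cmp
  rw [Matrix.mul_smul, Finset.mul_sum]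
  congr 1
  refine Finset.sum_congr rfl fun a _ => ?_
  split_ifs
  · rfl
  · rw [mul_zero]

theorem cmp_mul_right (A : Matrix I I ℂ) (X : ZMod L → Matrix I I ℂ) (r : ZMod q) :
    cmp φ (fun a => X a * A) r = cmp φ X r * A := by
  unfold cmp
  rw [Matrix.smul_mul, Finset.sum_mul]
  congr 1
  refine Finset.sum_congr rfl fun a _ => ?_
  split_ifs
  · rfl
  · rw [zero_mul]

theorem cmp2_sub (X Y : ZMod L → ZMod L → Matrix I I ℂ) (r : ZMod q) :
    cmp2 φ (fun a b => X a b - Y a b) r = cmp2 φ X r - cmp2 φ Y r := by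
  unfold cmp2
  rw [← smul_sub, ← Finset.sum_sub_distrib]
  congr 1
  refine Finset.sum_congr rfl fun a _ => ?_
  rw [← Finset.sum_sub_distrib]
  refine Finset.sum_congr rfl fun b _ => ?_
  split_ifs
  · rfl
  · rw [sub_zero]

theorem cmp2_add (X Y : ZMod L → ZMod L → Matrix I I ℂ) (r : ZMod q) :
    cmp2 φ (fun a b => X a b + Y a b) r = cmp2 φ X r + cmp2 φ Y r := by
  unfold cmp2
  rw [← smul_add, ← Finset.sum_add_distrib]
  congr 1
  refine Finset.sum_congr rfl fun a _ => ?_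
  rw [← Finset.sum_add_distrib]
  refine Finset.sum_congr rfl fun b _ => ?_
  split_ifs
  · rfl
  · rw [add_zero]

theorem cmp2_mul_left (A : Matrix I I ℂ) (X : ZMod L → ZMod L → Matrix I I ℂ) (r : ZMod q) :
    cmp2 φ (fun a b => A * X a b) r = A * cmp2 φ X r := by
  unfold cmp2
  rw [Matrix.mul_smul, Finset.mul_sum]
  congr 1
  refine Finset.sum_congr rfl fun a _ => ?_
  rw [Finset.mul_sum]
  refine Finset.sum_congr rfl fun b _ => ?_
  split_ifs
  · rfl
  · rw [mul_zero]

theorem cmp2_mul_right (A : Matrix I I ℂ) (X : ZMod L → ZMod L → Matrix I I ℂ) (r : ZMod q) :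
    cmp2 φ (fun a b => X a b * A) r = cmp2 φ X r * A := by
  unfold cmp2
  rw [Matrix.smul_mul, Finset.sum_mul]
  congr 1
  refine Finset.sum_congr rfl fun a _ => ?_
  rw [Finset.sum_mul]
  refine Finset.sum_congr rfl fun b _ => ?_
  split_ifs
  · rfl
  · rw [zero_mul]

theorem natL_ne : (L : ℂ) ≠ 0 := by
  exact_mod_cast NeZero.ne L

/-- a double average depending on the sum only -/
theorem cmp2_diag (X : ZMod L → Matrix I I ℂ) (r : ZMod q) :
    cmp2 φ (fun a b => X (a + b)) r = cmp φ X r := by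
  unfold cmp2 cmp
  have h1 : ∀ a : ZMod L, (∑ b, if φ (a + b) = r then X (a + b) else 0) =
      ∑ c, if φ c = r then X c else 0 := fun a =>
    Equiv.sum_comp (Equiv.addLeft a) (fun c => if φ c = r then X c else 0)
  rw [Finset.sum_congr rfl fun a _ => h1 a, Finset.sum_const, Finset.card_univ, ZMod.card,
    ← Nat.cast_smul_eq_nsmul ℂ, smul_smul, mul_assoc, inv_mul_cancel₀ natL_ne, mul_one]

/-- the convolution -/
theorem conv_cmp (X : ZMod L → Matrix I I ℂ) (r : ZMod q) :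
    ∑ i, cmp φ X i * cmp φ X (r - i) = cmp2 φ (fun a b => X a * X b) r := by
  unfold cmp cmp2
  have h1 : ∀ i : ZMod q, ((L : ℂ)⁻¹ • ∑ a, if φ a = i then X a else 0) *
      ((L : ℂ)⁻¹ • ∑ b, if φ b = r - i then X b else 0) =
      ((L : ℂ)⁻¹ * (L : ℂ)⁻¹) • ∑ a, ∑ b,
        (if φ a = i then X a else 0) * (if φ b = r - i then X b else 0) := by
    intro i
    rw [smul_mul_smul_comm, Finset.sum_mul_sum]
  rw [Finset.sum_congr rfl fun i _ => h1 i, ← Finset.smul_sum]
  congr 1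
  rw [Finset.sum_comm]
  refine Finset.sum_congr rfl fun a _ => ?_
  rw [Finset.sum_comm]
  refine Finset.sum_congr rfl fun b _ => ?_
  rw [Finset.sum_eq_single (φ a)]
  · rw [if_pos rfl]
    by_cases h : φ b = r - φ a
    · rw [if_pos h, if_pos (by rw [map_add, h]; ring)]
    · rw [if_neg h, if_neg (fun h2 => h (by rw [← h2, map_add]; ring)), mul_zero]
  · intro i _ hi
    rw [if_neg (fun h => hi h.symm), zero_mul]
  · intro h; exact absurd (Finset.mem_univ _) h

variable [DecidableEq I]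

/-- the fibres of `φ` have `L / q` elements -/
theorem cmp_one (r : ZMod q) :
    cmp φ (fun _ => (1 : Matrix I I ℂ)) r = ((1 / q : ℝ) : ℂ) • 1 := by
  classical
  have hq : (q : ℂ) ≠ 0 := natL_ne
  have hL : (L : ℂ) ≠ 0 := natL_ne
  have e1 : ∀ r : ZMod q, (∑ a : ZMod L, if φ a = r then (1 : Matrix I I ℂ) else 0) =
      (∑ a : ZMod L, if φ a = r then (1 : ℂ) else 0) • 1 := by
    intro r
    rw [Finset.sum_smul]
    refine Finset.sum_congr rfl fun a _ => ?_
    split_ifs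
    · rw [one_smul]
    · rw [zero_smul]
  have e2 : ∀ r : ZMod q, (∑ a : ZMod L, if φ a = r then (1 : ℂ) else 0) =
      ∑ a : ZMod L, if φ a = 0 then (1 : ℂ) else 0 := by
    intro r
    have h0 : φ ((r.val : ℕ) : ZMod L) = r := by
      rw [map_natCast, ZMod.natCast_zmod_val]
    rw [← Equiv.sum_comp (Equiv.addLeft ((r.val : ℕ) : ZMod L))
      (fun a => if φ a = r then (1 : ℂ) else 0)]
    refine Finset.sum_congr rfl fun a _ => ?_
    simp only [Equiv.coe_addLeft, map_add, h0, add_eq_left]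
  have e3 : ∑ r : ZMod q, (∑ a : ZMod L, if φ a = r then (1 : ℂ) else 0) = L := by
    rw [Finset.sum_comm]
    simp [ZMod.card]
  rw [Finset.sum_congr rfl fun r _ => e2 r, Finset.sum_const, Finset.card_univ, ZMod.card,
    nsmul_eq_mul] at e3
  unfold cmp
  rw [e1, e2, smul_smul]
  congr 1
  push_cast
  field_simp
  linear_combination e3

end sums

section van

variable {n N : ℕ} [NeZero N] {L q : ℕ} [NeZero L] [NeZero q] (φ : ZMod L →+* ZMod q)

theorem cmp_van {μ : ℝ} {C : Set (Fin n → ℝ)}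
    {X : ZMod L → Matrix (Carrier834.CellZ n N) (Carrier834.CellZ n N) ℂ} (r : ZMod q)
    (h : ∀ a, Van μ C (X a)) : Van μ C (cmp φ X r) := fun t s hts => by
  by_contra hne
  obtain ⟨a, -, ha⟩ := cmp_supp φ hne
  exact ha (h a t s hts)

theorem cmp2_van {μ : ℝ} {C : Set (Fin n → ℝ)}
    {X : ZMod L → ZMod L → Matrix (Carrier834.CellZ n N) (Carrier834.CellZ n N) ℂ} (r : ZMod q)
    (h : ∀ a b, Van μ C (X a b)) : Van μ C (cmp2 φ X r) := fun t s hts => by
  by_contra hne
  obtain ⟨a, b, -, ha⟩ := cmp2_supp φ hne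
  exact ha (h a b t s hts)

omit [NeZero N] in
theorem eqOn_of_van {μ : ℝ} {C : Set (Fin n → ℝ)}
    {X Y : Matrix (Cell n N) (Cell n N) ℂ} (h : Van μ C (X - Y)) :
    EqOn (cellsIn μ C) X Y := fun c' c hc => by
  have h1 := h c' c hc.symm
  rw [Matrix.sub_apply, sub_eq_zero] at h1
  exact h1

end van

theorem fineOfChain : FineOfChain := by
  intro n D q _ hCh hRet K hK hKO
  obtain ⟨K', hK', hK'O, hKK', ε0, hε0, R0, H⟩ := hCh K hK hKO
  refine ⟨K', hK', hK'O, hKK', ε0, hε0, fun ε hε hεε0 Rw => ?_⟩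
  obtain ⟨δ, hδ, H⟩ := H ε hε hεε0
  obtain ⟨L, hL, hqL, hLT⟩ := hRet K' hK'O hK' δ hδ
  obtain ⟨μ0, hμ0, H⟩ := H L
  haveI : NeZero L := ⟨hL.ne'⟩
  -- the mesh
  obtain ⟨μ, hμ, hμ1⟩ := exists_between (lt_min hμ0 hε)
  have hμμ0 : μ < μ0 := hμ1.trans_le (min_le_left _ _)
  have hμε : μ < ε := hμ1.trans_le (min_le_right _ _)
  obtain ⟨N, hN⟩ := exists_nat_gt ((2 * |Rw| + 6 * μ + |R0| + 1) / μ)
  rw [div_lt_iff₀ hμ] at hN
  have hN0 : 0 < N := by
    rcases Nat.eq_zero_or_pos N with h | h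
    · subst h
      rw [Nat.cast_zero, zero_mul] at hN
      have h1 := abs_nonneg Rw
      have h2 := abs_nonneg R0
      linarith
    · exact h
  haveI : NeZero N := ⟨hN0.ne'⟩
  have hwin : Rw + 3 * μ < μ * N / 2 := by
    have h1 := le_abs_self Rw
    have h2 := abs_nonneg R0
    linarith [mul_comm μ (N : ℝ)]
  have hR0 : R0 ≤ μ * N := by
    have h1 := abs_nonneg Rw
    have h2 := le_abs_self R0
    linarith [mul_comm μ (N : ℝ)]
  obtain ⟨η, hη⟩ := H μ hμ hμμ0 N hR0 (gridT N n) (isGrid_gridT N n)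
  set φ : ZMod L →+* ZMod q := ZMod.castHom hqL (ZMod q) with hφ
  have hval : ∀ a : ZMod L, ((a.val : ℕ) : ZMod q) = φ a := by
    intro a
    have h1 : φ ((a.val : ℕ) : ZMod L) = ((a.val : ℕ) : ZMod q) := map_natCast φ _
    rw [← h1, ZMod.natCast_zmod_val]
  have hM : ∀ a : ZMod L, |((a.val : ℕ) : ℤ)| ≤ (L : ℤ) := by
    intro a
    rw [abs_of_nonneg (by positivity)]
    exact_mod_cast (ZMod.val_lt a).le
  have hadd : ∀ a b : ZMod L, ∀ v ∈ D.ovr K',
      dist (D.T (((a.val : ℕ) : ℤ) + ((b.val : ℕ) : ℤ)) v)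
        (D.T ((((a + b).val : ℕ)) : ℤ) v) < δ := by
    intro a b v hv
    by_cases h : a.val + b.val < L
    · rw [ZMod.val_add, Nat.mod_eq_of_lt h]
      push_cast
      rw [dist_self]
      exact hδ
    · have ha := ZMod.val_lt a
      have hb := ZMod.val_lt b
      have h1 : (a.val + b.val) % L = a.val + b.val - L := by
        rw [Nat.mod_eq_sub_mod (by omega), Nat.mod_eq_of_lt (by omega)]
      have h2 : ((a.val : ℕ) : ℤ) + ((b.val : ℕ) : ℤ) = L + (((a + b).val : ℕ) : ℤ) := by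
        rw [ZMod.val_add, h1]; omega
      rw [h2]
      exact hLT v hv _
  have hneg : ∀ a : ZMod L, ∀ v ∈ D.ovr K',
      dist (D.T (((a.val : ℕ) : ℤ) + (((-a).val : ℕ) : ℤ)) v) v < δ := by
    intro a v hv
    have h1 := hadd a (-a) v hv
    rw [add_neg_cancel, ZMod.val_zero, Nat.cast_zero, D.T_zero v hv.1] at h1
    exact h1
  choose k hk1 hk2 hk3 using fun a b : ZMod L => hη.mul _ _ _ (hM a) (hM b) (hM (a + b)) (hadd a b)
  choose Y hY1 hY2 hY3 using fun a : ZMod L => hη.commS _ _ (hM a) (hM (-a)) (hneg a)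
  choose A hA1 hA2 hA3 using fun a : ZMod L => hη.coarse _ (hM a)
  refine ⟨{
    N := N
    s := μ
    s_pos := hμ
    s_lt := hμε
    window := hwin
    E := cmp φ (fun a => η ((a.val : ℕ) : ℤ))
    Hh := cmp2 φ k
    Kk := cmp φ Y
    Aa := cmp φ A
    E_near := ?_
    Hh_near := ?_
    Kk_near := ?_
    E_dm := ?_
    Hh_dm := ?_
    Kk_dm := ?_
    rel_d := ?_
    rel_e := ?_
    rel_S := ?_
    Aa_dm := ?_
    Aa_near := ?_
    rel_A := ?_ }⟩
  · intro i t s h
    obtain ⟨a, ha, h1⟩ := cmp_supp φ h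
    have h2 := hη.near _ (hM a) t s h1
    exact ⟨h2.1, a.val, (hval a).trans ha, h2.2.2⟩
  · intro i t s h
    obtain ⟨a, b, ha, h1⟩ := cmp2_supp φ h
    have h2 := hk1 a b t s h1
    exact ⟨h2.1, (a + b).val, (hval (a + b)).trans ha, h2.2.2⟩
  · intro i t s h
    obtain ⟨a, ha, h1⟩ := cmp_supp φ h
    have h2 := hY1 a t s h1
    exact ⟨h2.1, a.val, (hval a).trans ha, h2.2.2⟩
  · intro i t s h
    obtain ⟨a, -, h1⟩ := cmp_supp φ h
    exact hη.deg _ (hM a) t s h1
  · intro i t s h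
    obtain ⟨a, b, -, h1⟩ := cmp2_supp φ h
    exact hk2 a b t s h1
  · intro i t s h
    obtain ⟨a, -, h1⟩ := cmp_supp φ h
    exact hY2 a t s h1
  · intro r
    apply eqOn_of_van
    rw [← cmp_mul_left, ← cmp_mul_right, ← cmp_sub]
    exact cmp_van φ r fun a => hη.comm _ (hM a)
  · intro r
    apply eqOn_of_van
    rw [conv_cmp, ← cmp2_diag φ (fun a => η ((a.val : ℕ) : ℤ)), ← cmp2_mul_left, ← cmp2_mul_right,
      ← cmp2_add, ← cmp2_add, ← cmp2_sub]
    refine cmp2_van φ r fun a b => ?_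
    have h := hk3 a b
    have e : η ((a.val : ℕ) : ℤ) * η ((b.val : ℕ) : ℤ) -
        (η (((a + b).val : ℕ) : ℤ) + (gridT N n).d * k a b + k a b * (gridT N n).d) =
        η ((a.val : ℕ) : ℤ) * η ((b.val : ℕ) : ℤ) - η (((a + b).val : ℕ) : ℤ) -
          ((gridT N n).d * k a b + k a b * (gridT N n).d) := by
      rw [add_assoc, sub_sub]
    rw [e]
    exact h
  · intro r
    apply eqOn_of_van
    have hstar : (gridT N n).S * star (cmp φ (fun a => η ((a.val : ℕ) : ℤ)) (-r)) =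
        cmp φ (fun a => (gridT N n).S * star (η (((-a).val : ℕ) : ℤ))) r := by
      rw [cmp_mul_left]
      congr 1
      unfold cmp
      rw [star_smul, star_sum]
      have hc : star ((L : ℂ)⁻¹) = (L : ℂ)⁻¹ := by
        rw [star_inv₀]; simp
      rw [hc]
      congr 1
      refine Fintype.sum_equiv (Equiv.neg _) _ _ fun a => ?_
      simp only [Equiv.neg_apply, neg_neg, map_neg]
      by_cases h : φ a = -r
      · rw [if_pos h, if_pos (by rw [h, neg_neg])]
      · rw [if_neg h, if_neg (fun h2 => h (by rw [← h2, neg_neg])), star_zero]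
    rw [hstar, ← cmp_mul_right, ← cmp_mul_left, ← cmp_mul_right, ← cmp_sub, ← cmp_sub, ← cmp_sub]
    exact cmp_van φ r fun a => hY3 a
  · intro i t s h
    obtain ⟨a, -, h1⟩ := cmp_supp φ h
    exact hA2 a t s h1
  · intro i t s h
    obtain ⟨a, -, h1⟩ := cmp_supp φ h
    exact (hA1 a t s h1).2
  · intro r
    apply eqOn_of_van
    rw [← cmp_one φ r, ← cmp_mul_left, ← cmp_mul_right, ← cmp_add, ← cmp_sub, ← cmp_sub]
    exact cmp_van φ r fun a => hA3 a

end Crest.Agent.R217.FineExist373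
end

-- ▼ part R217/KDatEx_373

/-! Row 217: the sequence of local data exists if `CruxN n` fails. -/

set_option autoImplicit false

open Metric Set

namespace Crest.Agent.R217.KDatEx373

open Crest.Agent.R217.CruxN559 Crest.Agent.R217.Coarse889 Crest.Agent.R217.CtrlS970
open Crest.Agent.R217.Glob559 Crest.Agent.R217.Ctl559

universe u

theorem chainExists_flow {n : ℕ} {c : ℝ} (hc : c ≤ 1 / 100) (X : CE.{u} n c) :
    Chain373.ChainExists (flow X) :=
  Chain373.chainExists (equi_toFlow X.D X.x c X.ball_V (disp' X)) hc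

theorem exists_kdat' {n : ℕ} (hn : 0 < n) {c : ℝ} (hc : c ≤ 1 / 100) (X : CE.{u} n c) :
    ∃ K : KDat.{u} n c, K.X = X :=
  exists_kdat hn X (chainExists_flow hc X) FineExist373.fineOfChain

/-- the sequence of local data, from the failure of `CruxN n` -/
theorem nonempty_kdat_seq {n : ℕ} (hn : 0 < n) (h : ¬ CruxN.{u} n) :
    Nonempty (∀ k : ℕ, KDat.{u} n (cs k)) :=
  ⟨fun k => (exists_kdat' hn (cs_le k) (nonempty_ce h (cs_pos k)).some).choose⟩

/-- `CruxN n` follows if there is no sequence of local data -/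
theorem cruxN_of_no_kdat {n : ℕ} (hn : 0 < n) (h : (∀ k : ℕ, KDat.{u} n (cs k)) → False) :
    CruxN.{u} n := by
  by_contra hc
  exact h (nonempty_kdat_seq hn hc).some

end Crest.Agent.R217.KDatEx373
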