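import Crest.Agent.R217.LineCom_551
import Crest.Agent.R217.Cut1_473

/-!
Row 217 (S0336), part C1, piece M5-N : lines inside a frame; the product with a line is an honest
object; the explicit admissible triple at the wall of the line.
-/

set_option autoImplicit false
set_option linter.unusedSectionVars false

namespace Crest.Agent.R217.Norm551

open PC473 Matrix Obj52

section hm

variable {κ : Type*} {R : Type*} [Ring R] [StarRing R] [Algebra ℂ R] [StarModule ℂ R]
variable {J : Type*} [Fintype J] [DecidableEq J]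

theorem Hm.both {α β α' β' : J → ℤ} {a : Matrix J J R} (h : Hm α β a) (h' : Hm α' β' a) :
    Hm (fun j => α j + α' j) (fun j => β j + β' j) a := by
  intro i j hne
  by_cases h1 : α i = β j
  · by_cases h2 : α' i = β' j
    · exact absurd (by simp only; rw [h1, h2]) hne
    · exact h' i j h2
  · exact h i j h1

end hm

section lineF

variable {κ : Type*} {R : Type*} [Ring R] [StarRing R] [Algebra ℂ R] [StarModule ℂ R]
variable {J : Type*} [Fintype J] [DecidableEq J]

/-- a line in direction `k` of a frame, with degree function `dx` -/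
structure LineF (F : Frame κ R) (k : κ) (dx : J → ℤ) (x : Line (Matrix J J R)) : Prop where
  is : x.Is
  gD : DgC F x.g
  PD : DgC F x.P
  eD : DgC F x.e
  vD : DgC F x.v
  lo0 : F.lo k < 0
  hi0 : 0 < F.hi k
  Plo : ∀ s < 0, PU F k (fun _ => s) * x.P = 0
  Phi : ∀ t > 0, PU F k (fun _ => t) * (1 - x.P) = 1 - x.P
  ehi : ∀ t > 0, PU F k (fun _ => t) * x.e = x.e
  vhi : ∀ t > 0, PU F k (fun _ => t) * x.v = x.v
  hd : Hm (fun j => dx j + 1) dx x.d
  hS : Hm dx (fun j => 1 - dx j) x.S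
  he : Hm dx (fun _ => 1) x.e
  hv : Hm dx (fun _ => 0) x.v
  ha : Hm dx (fun j => dx j + 1) x.a
  hb : Hm dx (fun j => 1 - dx j) x.b
  hc : Hm (fun j => dx j + 1) dx x.c

/-- the line preserves the degree function `dy` -/
structure Pres (dy : J → ℤ) (x : Line (Matrix J J R)) : Prop where
  hd : Hm dy dy x.d
  hS : Hm dy dy x.S
  ha : Hm dy dy x.a
  hb : Hm dy dy x.b
  hc : Hm dy dy x.c

/-- the tuple preserves the degree function `dx` -/
structure PresT (dx : J → ℤ) (y : Tup (Matrix J J R)) : Prop where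
  hd : Hm dx dx y.d
  hS : Hm dx dx y.S
  hT : Hm dx dx y.T
  hH : Hm dx dx y.H

variable {F : Frame κ R} {k : κ} {dx dy : J → ℤ} {x : Line (Matrix J J R)}
  {y : Tup (Matrix J J R)} {m : ℕ} {S : Set κ}

theorem dgc_one : DgC F (1 : Matrix J J R) :=
  ⟨fun _ => 1, by rw [diagonal_one], fun j k c => by rw [one_mul, mul_one]⟩


theorem dgc_add {a b : Matrix J J R} (ha : DgC F a) (hb : DgC F b) : DgC F (a + b) := by
  obtain ⟨e, rfl, he⟩ := ha
  obtain ⟨e', rfl, he'⟩ := hb
  refine ⟨fun j => e j + e' j, by rw [diagonal_add], fun j k c => ?_⟩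
  rw [add_mul, mul_add, he, he']

theorem hm_MM (hy : IsOT F m S dy y) : Hm dy dy (MM y) := by
  unfold MM
  refine Hm.addc (Hm.addc (hy.pd.hmc fun _ => rfl) ?_) ?_
  · exact (hy.hd.mulc hy.hH).congrc (by intro i j h; simpa using h)
  · exact hy.hH.mulc hy.hd

theorem hm_MM' (hy : IsOT F m S dy y) (hP : PresT dx y) : Hm dx dx (MM y) := by
  unfold MM
  exact Hm.addc (Hm.addc (hy.pd.hmc fun _ => rfl) (hP.hd.mulc hP.hH)) (hP.hH.mulc hP.hd)

theorem isOT_prodA (hx : LineF F k dx x) (hP : Pres dy x) (hc : ComT x y)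
    (hy : IsOT F m S dy y) (hPT : PresT dx y) :
    IsOT F (m + 1) S (fun j => dx j + dy j) (prodA m x y) := by
  have hpy : Hm dy dy y.p := hy.pd.hmc fun _ => rfl
  have hpx : Hm dx dx y.p := hy.pd.hmc fun _ => rfl
  have hgy : Hm dy dy y.g := hy.gd.hmc fun _ => rfl
  have hgx : Hm dx dx y.g := hy.gd.hmc fun _ => rfl
  have kgy : Hm dy dy x.g := hx.gD.hmc fun _ => rfl
  have kgx : Hm dx dx x.g := hx.gD.hmc fun _ => rfl
  constructor
  · exact prodA_isPC hc hx.is hy.pc
  · exact hy.pd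
  · exact hx.gD.mulc hy.gd
  · -- d
    refine Hm.addc ?_ ?_
    · exact (Hm.both (hx.hd.mulc hpx) (hP.hd.mulc hpy)).congrc
        (by intro i j h; omega)
    · refine (Hm.both (kgx.mulc hPT.hd) (Hm.mulc (β := fun j => dy j + 1)
        (hx.gD.hmc fun _ => rfl) hy.hd)).congrc
        (by intro i j h; omega)
  · -- S
    refine Hm.smulCc ?_ _
    refine (Hm.both (hx.hS.mulc (Hm.mulc (β := fun j => 1 - dx j) (γ := fun j => 1 - dx j)
      (hy.gd.hmc fun _ => rfl) (hPT.hS.congrc (by intro i j h; omega))))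
      (hP.hS.mulc (hgy.mulc hy.hS))).congrc (by intro i j h; push_cast; omega)
  · -- T
    refine Hm.smulCc ?_ _
    refine (Hm.both (Hm.mulc (α := fun j => 1 - dx j) (β := dx) (γ := dx)
      (hx.hS.congrc (by intro i j h; omega)) (hPT.hT.mulc hgx))
      (Hm.mulc (α := fun j => (m : ℤ) - dy j) (β := fun j => (m : ℤ) - dy j)
        (hP.hS.congrc (by intro i j h; omega)) (hy.hT.mulc hgy))).congrc
        (by intro i j h; push_cast; omega)
  · -- H
    refine Hm.addc (Hm.negc (Hm.smulCc ?_ _)) ?_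
    · refine (Hm.both (hx.hd.starc.mulc (Hm.congrc (hm_MM' hy hPT) (α' := fun j => dx j + 1)
        (β' := fun j => dx j + 1) (by intro i j h; omega)))
        (hP.hd.starc.mulc (hm_MM hy))).congrc (by intro i j h; omega)
    · refine (Hm.both (kgx.mulc hPT.hH) (kgy.mulc hy.hH)).congrc
        (by intro i j h; omega)
  · exact hy.lo
  · exact hy.hi

theorem isOT_edgeA (hx : LineF F k dx x) (hc : ComT x y) (hy : IsOT F m S dy y) :
    IsOT F m (insert k S) dy (edgeA x.e y) := by
  have hcom : ∀ z ∈ StarSubalgebra.centralizer ℂ x.set, x.e * z = z * x.e := fun z hz =>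
    ((StarSubalgebra.mem_centralizer_iff ℂ).1 hz x.e (by simp [Line.set])).1
  have he : ∀ {α : J → ℤ}, Hm α α x.e := fun {α} => hx.eD.hmc fun _ => rfl
  have hl : PU F k (fun _ => F.lo k / 2) * x.e = 0 := by
    rw [← hx.is.Pe, ← mul_assoc, hx.Plo _ (by linarith [hx.lo0]), zero_mul]
  have hh : PU F k (fun _ => F.hi k / 2) * x.e = x.e := hx.ehi _ (by linarith [hx.hi0])
  have ee := hx.is.ee
  have cp := hcom _ hc.p
  have cg := hcom _ hc.g
  have cd := hcom _ hc.d
  have cS := hcom _ hc.S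
  have cT := hcom _ hc.T
  have cH := hcom _ hc.H
  have csd := hcom _ (star_mem hc.d)
  have key : ∀ a b : Matrix J J R, x.e * a = a * x.e → x.e * a * (x.e * b) = x.e * (a * b) := by
    intro a b h
    rw [h, mul_assoc, ← mul_assoc x.e x.e, ee, ← mul_assoc, ← h, mul_assoc]
  constructor
  · constructor <;> simp only [edgeA]
    · rw [key _ _ cp, hy.pc.pp]
    · rw [star_mul, hx.is.se, hy.pc.sp, cp]
    · rw [key _ _ cg, hy.pc.gg]
    · rw [star_mul, hx.is.se, hy.pc.sg, cg]
    · rw [key _ _ cp, hy.pc.pg]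
    · rw [key _ _ cp, hy.pc.pd]
    · rw [key _ _ cd, hy.pc.dp]
    · rw [key _ _ cp, hy.pc.pS]
    · rw [key _ _ cp, hy.pc.pT]
    · rw [key _ _ cp, hy.pc.pH]
    · rw [key _ _ cH, hy.pc.Hp]
    · rw [key _ _ cd, hy.pc.dd, mul_zero]
    · rw [star_mul, hx.is.se, hy.pc.sS, cS]
    · rw [star_mul, hx.is.se, hy.pc.sT, cT]
    · rw [star_mul, hx.is.se, ← csd, key _ _ cd, key _ _ cS, ← mul_add, hy.pc.dS, mul_zero]
    · rw [star_mul, hx.is.se, ← csd, key _ _ cT, key _ _ csd, ← mul_add, hy.pc.Td, mul_zero]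
    · rw [key _ _ cS, key _ _ cd, key _ _ cH, ← mul_add, ← mul_add, hy.pc.ST]
    · rw [key _ _ cg, key _ _ cd, hy.pc.gd, mul_neg]
    · rw [key _ _ cg, key _ _ cS, hy.pc.gS]
      rcases neg_one_pow_eq_or (Matrix J J R) m with h | h <;> rw [h] <;> simp
    · rw [key _ _ cg, key _ _ cT, hy.pc.gT]
      rcases neg_one_pow_eq_or (Matrix J J R) m with h | h <;> rw [h] <;> simp
    · rw [key _ _ cg, key _ _ cH, hy.pc.gH, mul_neg]
  · exact hx.eD.mulc hy.pd
  · exact hx.eD.mulc hy.gd
  · exact he.mulc hy.hd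
  · exact he.mulc hy.hS
  · exact he.mulc hy.hT
  · exact he.mulc hy.hH
  · rintro k' (rfl | hk')
    · exact ⟨F.lo k' / 2, by linarith [hx.lo0], by
        show _ * (x.e * y.p) = 0
        rw [← mul_assoc, hl, zero_mul]⟩
    · show BdLo F k' (x.e * y.p)
      rw [cp]; exact (hy.lo k' hk').mulc
  · rintro k' (rfl | hk')
    · exact ⟨F.hi k' / 2, by linarith [hx.hi0], by
        show _ * (x.e * y.p) = x.e * y.p
        rw [← mul_assoc, hh]⟩
    · show BdHi F k' (x.e * y.p)
      rw [cp]; exact (hy.hi k' hk').mulc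

/-- the explicit contraction at the wall -/
noncomputable def Lc (m : ℕ) (hc : ComT x y) : Matrix (Fin 2) (Fin 2) (Matrix J J R) :=
  LL (TPc x.set) m x.up hc.up

/-- the explicit strip at the wall -/
noncomputable def Qc (hc : ComT x y) : Matrix (Fin 2) (Fin 2) (Matrix J J R) :=
  QQ (TPc x.set) x.up hc.up

theorem Qc_eq (hc : ComT x y) : Qc hc = !![(x.e + x.v) * y.p, 0; 0, x.e * y.p] := rfl

theorem Lc_eq (hc : ComT x y) : Lc m hc =
    !![x.a * y.p + x.P * x.S * x.P * x.g * x.b * y.H,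
       cc m • (x.P * x.S * x.P * x.g * x.c * (y.H * (y.g * y.S)));
       star (cc m) • (x.b * (y.T * y.g)),
       x.c * (y.T * y.S) - x.P * x.g * star y.H] := rfl

theorem adm (hx : LineF F k dx x) (hP : Pres dy x) (hc : ComT x y)
    (hy : IsOT F m S dy y) (hPT : PresT dx y) (hR : y.S * star y.H + y.H * y.S = 0) :
    Adm F k m (fun j => dx j + dy j) (prodA m x y) (x.P * y.p) (Lc m hc) (Qc hc) := by
  have hcomP : x.P * y.p = y.p * x.P :=
    ((StarSubalgebra.mem_centralizer_iff ℂ).1 hc.p x.P (by simp [Line.set])).1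
  have h1 := isQuot (TPc x.set) hx.is.up (hc.up_isPC hy.pc) (m := m)
  have h2 := isComp (TPc x.set) hx.is.up (hc.up_isPC hy.pc) (Subtype.ext hR)
  rw [prod_eq hc] at h1
  unfold WW at h2
  rw [prod_eq hc] at h2
  have kPx : ∀ {α β : J → ℤ}, (∀ i, α i = β i) → Hm α β x.P := fun h => hx.PD.hmc h
  have kgx : ∀ {α β : J → ℤ}, (∀ i, α i = β i) → Hm α β x.g := fun h => hx.gD.hmc h
  have kpy : ∀ {α β : J → ℤ}, (∀ i, α i = β i) → Hm α β y.p := fun h => hy.pd.hmc h
  have kgy : ∀ {α β : J → ℤ}, (∀ i, α i = β i) → Hm α β y.g := fun h => hy.gd.hmc h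
  have hPSPg : Hm dx (fun j => 1 - dx j) (x.P * x.S * x.P * x.g) :=
    (((kPx fun _ => rfl).mulc hx.hS).mulc (kPx fun _ => rfl)).mulc (kgx fun _ => rfl)
  have hPSPg' : Hm dy dy (x.P * x.S * x.P * x.g) :=
    (((kPx fun _ => rfl).mulc hP.hS).mulc (kPx fun _ => rfl)).mulc (kgx fun _ => rfl)
  constructor
  · exact h1
  · exact hx.PD.mulc hy.pd
  · refine ⟨F.lo k / 2, by linarith [hx.lo0], ?_⟩
    rw [← mul_assoc, hx.Plo _ (by linarith [hx.lo0]), zero_mul]
  · refine ⟨F.hi k / 2, by linarith [hx.hi0], ?_⟩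
    have : (prodA m x y).p - x.P * y.p = (1 - x.P) * y.p := by
      rw [sub_mul, one_mul]; rfl
    rw [this, ← mul_assoc, hx.Phi _ (by linarith [hx.hi0])]
  · exact h2
  · rw [Lc_eq]
    refine Hm.fl2c ?_ ?_ ?_ ?_
    · refine Hm.congrc (α := fun j => dx j + dy j) (β := fun j => (dx j + 1) + dy j) ?_
        (by intro i j h; simp [degB]; omega)
      refine Hm.addc ?_ ?_
      · exact Hm.both (hx.ha.mulc (kpy fun _ => rfl)) (hP.ha.mulc (kpy fun _ => rfl))
      · refine Hm.congrc (Hm.both ((hPSPg.mulc (hx.hb.congrc (α' := fun j => 1 - dx j) (β' := dx)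
          (by intro i j h; omega))).mulc hPT.hH)
          ((hPSPg'.mulc hP.hb).mulc hy.hH)) (by intro i j h; omega)
    · refine Hm.smulCc ?_ _
      refine Hm.congrc (α := fun j => dx j + dy j)
        (β := fun j => (2 - dx j) + ((m : ℤ) - dy j + 1)) ?_
        (by intro i j h; simp [degB]; omega)
      refine Hm.both ?_ ?_
      · refine (hPSPg.mulc (hx.hc.congrc (α' := fun j => 1 - dx j) (β' := fun j => 2 - dx j)
          (by intro i j h; omega))).mulc ?_
        refine Hm.mulc (β := fun j => 2 - dx j) (hPT.hH.congrc (by intro i j h; omega)) ?_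
        exact Hm.mulc (β := fun j => 2 - dx j) (kgy fun _ => rfl)
          (hPT.hS.congrc (by intro i j h; omega))
      · refine (hPSPg'.mulc hP.hc).mulc ?_
        refine hy.hH.mulc ?_
        exact Hm.mulc (β := fun j => dy j + 1) (kgy fun _ => rfl)
          (hy.hS.congrc (by intro i j h; omega))
    · refine Hm.smulCc ?_ _
      refine Hm.congrc (α := fun j => (1 - dx j) + ((m : ℤ) - dy j)) (β := fun j => dx j + dy j) ?_
        (by intro i j h; simp [degB]; omega)
      refine Hm.both ?_ ?_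
      · exact (hx.hb.congrc (α' := fun j => 1 - dx j) (β' := dx) (by intro i j h; omega)).mulc
          (hPT.hT.mulc (kgy fun _ => rfl))
      · exact (hP.hb.congrc (α' := fun j => (m : ℤ) - dy j) (β' := fun j => (m : ℤ) - dy j)
          (by intro i j h; omega)).mulc (hy.hT.mulc (kgy fun _ => rfl))
    · refine Hm.congrc (α := fun j => dx j + 1 + dy j) (β := fun j => dx j + dy j) ?_
        (by intro i j h; simp [degB]; omega)
      refine Hm.subc ?_ ?_
      · refine Hm.both (hx.hc.mulc (hPT.hT.mulc hPT.hS)) ?_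
        refine hP.hc.mulc ?_
        exact (hy.hT.congrc (α' := dy) (β' := fun j => (m : ℤ) - dy j)
          (by intro i j h; omega)).mulc (hy.hS.congrc (by intro i j h; omega))
      · refine Hm.congrc (Hm.both (((kPx (α := dx) fun _ => rfl).mulc
          (kgx fun _ => rfl)).mulc hPT.hH.starc)
          (((kPx (α := fun j => dy j + 1) fun _ => rfl).mulc (kgx fun _ => rfl)).mulc hy.hH.starc))
          (by intro i j h; omega)
  · rw [Qc_eq]
    exact ((dgc_add hx.eD hx.vD).mulc hy.pd).fl2c (hx.eD.mulc hy.pd)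
  · refine ⟨F.hi k / 2, by linarith [hx.hi0], ?_⟩
    have he := hx.ehi (F.hi k / 2) (by linarith [hx.hi0])
    have hv := hx.vhi (F.hi k / 2) (by linarith [hx.hi0])
    rw [Qc_eq, Cut1x473.PU_mul_fl, mul_zero, ← mul_assoc, ← mul_assoc, mul_add, he, hv]

end lineF

end Crest.Agent.R217.Norm551
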