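import Crest.Agent.R217.Grid3_897
import Crest.Agent.R217.NormA_551
import Crest.Agent.R217.Grid4_897
import Crest.Agent.R217.LineCom_551
import Crest.Agent.R217.AsyCell_970
import Crest.Agent.R217.NormB_551
import Crest.Agent.R217.FrameAsy_476

-- ▼ part R217/Line1_897
section

/-! Row 217: the circle grid with a wall at `0`: identities valid in a window. -/

set_option autoImplicit false
set_option linter.unusedSectionVars false

open Matrix Finset
open scoped BigOperators

namespace Crest.Agent.R217.Grid897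

noncomputable section

variable (N : ℕ) [NeZero N]

/-- the window -/
def Win (x : C1 N) : Prop := 2 * |x.1.valMinAbs| + 8 ≤ (N : ℤ)

/-- equality in the window -/
def WEq (M M' : Matrix (C1 N) (C1 N) ℂ) : Prop := ∀ s t, Win N s → Win N t → M s t = M' s t

/-- right half line: vertices `≥ 1`, edges `≥ 0` -/
def inP (x : C1 N) : Prop := 1 ≤ 2 * x.1.valMinAbs + (if x.2 then 1 else 0)

instance (x : C1 N) : Decidable (inP N x) := by unfold inP; infer_instance

/-- projection to the right half line -/
def Pw : Matrix (C1 N) (C1 N) ℂ := Matrix.diagonal fun x => if inP N x then 1 else 0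

/-- the first edge -/
def ew : Matrix (C1 N) (C1 N) ℂ := Matrix.diagonal fun x => if x = (0, true) then 1 else 0

/-- the first vertex -/
def vw : Matrix (C1 N) (C1 N) ℂ := Matrix.diagonal fun x => if x = (1, false) then 1 else 0

/-- first edge to first vertex -/
def kw : Matrix (C1 N) (C1 N) ℂ := Matrix.of fun x y =>
  if x = (1, false) ∧ y = (0, true) then 1 else 0

/-- first edge to the last vertex outside -/
def uw : Matrix (C1 N) (C1 N) ℂ := Matrix.of fun x y =>
  if x = (0, false) ∧ y = (0, true) then 1 else 0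

variable {N}

theorem Pw_mul (M : Matrix (C1 N) (C1 N) ℂ) (s t : C1 N) :
    (Pw N * M) s t = (if inP N s then 1 else 0) * M s t := by
  rw [Pw, Matrix.diagonal_mul]

theorem mul_Pw (M : Matrix (C1 N) (C1 N) ℂ) (s t : C1 N) :
    (M * Pw N) s t = M s t * (if inP N t then 1 else 0) := by
  rw [Pw, Matrix.mul_diagonal]

theorem Pw_sq : Pw N * Pw N = Pw N := by
  rw [Pw, Matrix.diagonal_mul_diagonal]
  congr 1; funext x; split_ifs <;> simp

theorem star_Pw : star (Pw N) = Pw N := by
  rw [Pw, Matrix.star_eq_conjTranspose, Matrix.diagonal_conjTranspose]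
  congr 1; funext x; simp only [Pi.star_apply]; split_ifs <;> simp

theorem g1_Pw : g1 N * Pw N = Pw N * g1 N := by
  rw [Pw, g1, Matrix.diagonal_mul_diagonal, Matrix.diagonal_mul_diagonal]
  congr 1; funext x; rw [mul_comm]

theorem ew_sq : ew N * ew N = ew N := by
  rw [ew, Matrix.diagonal_mul_diagonal]
  congr 1; funext x; split_ifs <;> simp

theorem star_ew : star (ew N) = ew N := by
  rw [ew, Matrix.star_eq_conjTranspose, Matrix.diagonal_conjTranspose]
  congr 1; funext x; simp only [Pi.star_apply]; split_ifs <;> simp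

theorem vw_sq : vw N * vw N = vw N := by
  rw [vw, Matrix.diagonal_mul_diagonal]
  congr 1; funext x; split_ifs <;> simp

theorem star_vw : star (vw N) = vw N := by
  rw [vw, Matrix.star_eq_conjTranspose, Matrix.diagonal_conjTranspose]
  congr 1; funext x; simp only [Pi.star_apply]; split_ifs <;> simp

theorem Pw_ew : Pw N * ew N = ew N := by
  rw [Pw, ew, Matrix.diagonal_mul_diagonal]
  congr 1; funext x
  by_cases h : x = (0, true)
  · subst h
    simp [inP]
  · simp [h]

theorem g1_ew : g1 N * ew N = -ew N := by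
  rw [g1, ew, Matrix.diagonal_mul_diagonal, Matrix.diagonal_neg]
  congr 1; funext x
  by_cases h : x = (0, true)
  · subst h; simp
  · simp [h]

theorem g1_vw : g1 N * vw N = vw N := by
  rw [g1, vw, Matrix.diagonal_mul_diagonal]
  congr 1; funext x
  by_cases h : x = (1, false)
  · subst h; simp
  · simp [h]

theorem ew_vw : ew N * vw N = 0 := by
  rw [ew, vw, Matrix.diagonal_mul_diagonal, ← Matrix.diagonal_zero]
  congr 1; funext x
  by_cases h : x = (1, false)
  · subst h; simp
  · simp [h]

theorem vw_kw : vw N * kw N = kw N := by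
  ext x y
  rw [vw, Matrix.diagonal_mul, kw, Matrix.of_apply]
  by_cases h : x = (1, false) <;> simp [h]

theorem kw_ew : kw N * ew N = kw N := by
  ext x y
  rw [ew, Matrix.mul_diagonal, kw, Matrix.of_apply]
  by_cases h : y = (0, true) <;> simp [h]

theorem star_kw_kw : star (kw N) * kw N = ew N := by
  ext x y
  rw [Matrix.mul_apply, ew, Matrix.diagonal_apply, Finset.sum_eq_single ((1 : ZMod N), false)]
  · simp only [Matrix.star_apply, kw, Matrix.of_apply, true_and]
    by_cases h : x = (0, true)
    · subst h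
      by_cases h2 : y = (0, true)
      · subst h2; simp
      · have : (0, true) ≠ y := fun h => h2 h.symm
        simp [h2, this]
    · simp only [h, if_false, star_zero, zero_mul]
      split_ifs <;> rfl
  · intro z _ hz
    simp [kw, hz]
  · intro h; exact absurd (Finset.mem_univ _) h

theorem kw_star_kw : kw N * star (kw N) = vw N := by
  ext x y
  rw [Matrix.mul_apply, vw, Matrix.diagonal_apply, Finset.sum_eq_single ((0 : ZMod N), true)]
  · simp only [Matrix.star_apply, kw, Matrix.of_apply, and_true]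
    by_cases h : x = (1, false)
    · subst h
      by_cases h2 : y = (1, false)
      · subst h2; simp
      · have : (1, false) ≠ y := fun h => h2 h.symm
        simp [h2, this]
    · simp only [h, if_false, zero_mul]
      split_ifs <;> rfl
  · intro z _ hz
    simp [kw, hz]
  · intro h; exact absurd (Finset.mem_univ _) h

theorem star_uw_uw : star (uw N) * uw N = ew N := by
  ext x y
  rw [Matrix.mul_apply, ew, Matrix.diagonal_apply, Finset.sum_eq_single ((0 : ZMod N), false)]
  · simp only [Matrix.star_apply, uw, Matrix.of_apply, true_and]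
    by_cases h : x = (0, true)
    · subst h
      by_cases h2 : y = (0, true)
      · subst h2; simp
      · have : (0, true) ≠ y := fun h => h2 h.symm
        simp [h2, this]
    · simp only [h, if_false, star_zero, zero_mul]
      split_ifs <;> rfl
  · intro z _ hz
    simp [uw, hz]
  · intro h; exact absurd (Finset.mem_univ _) h

theorem d1_vw : d1 N * vw N = 0 := by
  ext x y
  rw [vw, Matrix.mul_diagonal, Matrix.zero_apply]
  by_cases h : y = (1, false)
  · subst h
    simp [d1, rr, jj]
  · simp [h]

theorem ew_d1 : ew N * d1 N = 0 := by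
  ext x y
  rw [ew, Matrix.diagonal_mul, Matrix.zero_apply]
  by_cases h : x = (0, true)
  · subst h
    simp [d1, rr, jj]
  · simp [h]

/-! ### identities in the window -/

theorem Win.win4 {x : C1 N} (h : Win N x) : 2 * |x.1.valMinAbs| + 4 ≤ (N : ℤ) := by
  unfold Win at h; omega

theorem d1_win {s t : C1 N} (ht : Win N t) : d1 N s t =
    (if s.2 = false ∧ t.2 = true ∧ s.1.valMinAbs = t.1.valMinAbs + 1 then 1 else 0) -
    (if s.2 = false ∧ t.2 = true ∧ s.1.valMinAbs = t.1.valMinAbs then 1 else 0) := by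
  simp only [d1, rr, jj, Matrix.sub_apply, Matrix.of_apply, valMinAbs_succ ht.win4,
    ZMod.injective_valMinAbs.eq_iff]

theorem s1_win {s t : C1 N} (hs : Win N s) (ht : Win N t) : s1 N s t =
    (1 / 2 : ℂ) * (((if s.2 = false ∧ t.2 = true ∧ s.1.valMinAbs = t.1.valMinAbs + 1 then 1 else 0) +
    (if s.2 = false ∧ t.2 = true ∧ s.1.valMinAbs = t.1.valMinAbs then 1 else 0)) +
    ((if t.2 = false ∧ s.2 = true ∧ t.1.valMinAbs = s.1.valMinAbs + 1 then 1 else 0) +
    (if t.2 = false ∧ s.2 = true ∧ t.1.valMinAbs = s.1.valMinAbs then 1 else 0))) := by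
  have h : ∀ (p : Prop) [Decidable p], star (if p then (1 : ℂ) else 0) = if p then 1 else 0 := by
    intro p _; split_ifs <;> simp
  simp only [s1, rr, jj, Matrix.smul_apply, Matrix.add_apply, Matrix.star_apply, Matrix.of_apply,
    valMinAbs_succ ht.win4, valMinAbs_succ hs.win4, ZMod.injective_valMinAbs.eq_iff, smul_eq_mul,
    h]

theorem eq_zero_iff_vma (x : ZMod N) : x = 0 ↔ x.valMinAbs = 0 := by
  rw [ZMod.valMinAbs_eq_zero]

theorem Win.big {x : C1 N} (h : Win N x) : 8 ≤ (N : ℤ) := by
  unfold Win at h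
  have := abs_nonneg x.1.valMinAbs
  omega

theorem eq_one_iff_vma (hN : 8 ≤ (N : ℤ)) (x : ZMod N) : x = 1 ↔ x.valMinAbs = 1 := by
  have h := valMinAbs_succ (a := x) (b := 0) (by simp; omega)
  simp only [ZMod.valMinAbs_zero, zero_add] at h
  exact h.symm

theorem eq_zero_true (x : C1 N) : x = (0, true) ↔ x.1.valMinAbs = 0 ∧ x.2 = true := by
  rw [Prod.ext_iff, eq_zero_iff_vma]

theorem eq_zero_false (x : C1 N) : x = (0, false) ↔ x.1.valMinAbs = 0 ∧ x.2 = false := by
  rw [Prod.ext_iff, eq_zero_iff_vma]

theorem eq_one_false (hN : 8 ≤ (N : ℤ)) (x : C1 N) :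
    x = (1, false) ↔ x.1.valMinAbs = 1 ∧ x.2 = false := by
  rw [Prod.ext_iff, eq_one_iff_vma hN]

theorem Pw_vw_win : WEq N (Pw N * vw N) (vw N) := by
  intro s t hs ht
  rw [Pw, vw, Matrix.diagonal_mul_diagonal, Matrix.diagonal_apply, Matrix.diagonal_apply]
  by_cases h : s = t
  · simp only [h, if_true]
    by_cases h1 : t = (1, false)
    · have h2 : inP N t := by
        have := (eq_one_false ht.big t).mp h1
        unfold inP
        rw [this.1, this.2]
        norm_num
      simp [h1] at h2 ⊢
      exact h2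
    · simp [h1]
  · simp [h]

theorem Pw_d1_Pw : WEq N (Pw N * d1 N * Pw N) (Pw N * d1 N) := by
  intro s t hs ht
  rw [mul_Pw, Pw_mul, d1_win ht]
  unfold inP
  rcases s with ⟨s, _ | _⟩ <;> rcases t with ⟨t, _ | _⟩ <;>
    simp only [Bool.false_eq_true, Bool.true_eq_false, reduceCtorEq, if_false, if_true, true_and,
      false_and, and_false, and_true] <;>
    split_ifs <;> first | (exfalso; omega) | norm_num

theorem d1_Pw_sub : WEq N (d1 N * Pw N - Pw N * d1 N * Pw N) (-uw N) := by
  intro s t hs ht
  rw [Matrix.sub_apply, mul_Pw, mul_Pw, Pw_mul, d1_win ht, Matrix.neg_apply, uw, Matrix.of_apply]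
  simp only [eq_zero_false, eq_zero_true]
  unfold inP
  rcases s with ⟨s, _ | _⟩ <;> rcases t with ⟨t, _ | _⟩ <;>
    simp only [Bool.false_eq_true, Bool.true_eq_false, reduceCtorEq, if_false, if_true, true_and,
      false_and, and_false, and_true] <;>
    split_ifs <;> first | (exfalso; omega) | norm_num

theorem s1_Pw_sub : WEq N (s1 N * Pw N - Pw N * s1 N * Pw N) ((2⁻¹ : ℂ) • uw N) := by
  intro s t hs ht
  rw [Matrix.sub_apply, mul_Pw, mul_Pw, Pw_mul, s1_win hs ht, Matrix.smul_apply, uw,
    Matrix.of_apply]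
  simp only [eq_zero_false, eq_zero_true]
  unfold inP
  rcases s with ⟨s, _ | _⟩ <;> rcases t with ⟨t, _ | _⟩ <;>
    simp only [Bool.false_eq_true, Bool.true_eq_false, reduceCtorEq, if_false, if_true, true_and,
      false_and, and_false, and_true] <;>
    split_ifs <;> first | (exfalso; omega) | norm_num

theorem mul_ew (M : Matrix (C1 N) (C1 N) ℂ) (s t : C1 N) :
    (M * ew N) s t = M s t * (if t = (0, true) then 1 else 0) := by
  rw [ew, Matrix.mul_diagonal]

theorem Pw_d1_ew : WEq N (Pw N * d1 N * ew N) (kw N) := by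
  intro s t hs ht
  rw [mul_ew, Pw_mul, d1_win ht, kw, Matrix.of_apply]
  simp only [eq_zero_true, eq_one_false hs.big]
  unfold inP
  rcases s with ⟨s, _ | _⟩ <;> rcases t with ⟨t, _ | _⟩ <;>
    simp only [Bool.false_eq_true, Bool.true_eq_false, reduceCtorEq, if_false, if_true, true_and,
      false_and, and_false, and_true] <;>
    split_ifs <;> first | (exfalso; omega) | norm_num

theorem Pw_s1_ew : WEq N (Pw N * s1 N * ew N) ((2⁻¹ : ℂ) • kw N) := by
  intro s t hs ht
  rw [mul_ew, Pw_mul, s1_win hs ht, Matrix.smul_apply, kw, Matrix.of_apply]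
  simp only [eq_zero_true, eq_one_false hs.big]
  unfold inP
  rcases s with ⟨s, _ | _⟩ <;> rcases t with ⟨t, _ | _⟩ <;>
    simp only [Bool.false_eq_true, Bool.true_eq_false, reduceCtorEq, if_false, if_true, true_and,
      false_and, and_false, and_true] <;>
    split_ifs <;> first | (exfalso; omega) | norm_num

end

end Crest.Agent.R217.Grid897
end

-- ▼ part R217/Line2_897
section

/-! Row 217: abstract half line: the local contraction from the basic relations. -/

set_option autoImplicit false
set_option linter.unusedSectionVars false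

namespace Crest.Agent.R217.Grid897

open Norm551

variable {A : Type*} [Ring A] [StarRing A] [Algebra ℂ A] [StarModule ℂ A]

/-- basic relations of the line with a wall -/
structure PreLine (g d S P e v k u : A) : Prop where
  gg : g * g = 1
  sg : star g = g
  dd : d * d = 0
  gd : g * d = -(d * g)
  sS : star S = S
  gS : g * S = -(S * g)
  dS : d * S + S * star d = 0
  Sd : S * d + star d * S = 0
  SS : S * S = 1 - (4⁻¹ : ℂ) • (d * star d + star d * d)
  PP : P * P = P
  sP : star P = P
  gP : g * P = P * g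
  PdP : P * d * P = P * d
  ee : e * e = e
  se : star e = e
  Pe : P * e = e
  ge : g * e = -e
  vv : v * v = v
  sv : star v = v
  Pv : P * v = v
  gv : g * v = v
  ev : e * v = 0
  vk : v * k = k
  ke : k * e = k
  kk : star k * k = e
  kk' : k * star k = v
  Pde : P * d * e = k
  PSe : P * S * e = (2⁻¹ : ℂ) • k
  dv : d * v = 0
  ed : e * d = 0
  uu : star u * u = e
  dP : d * P - P * d * P = -u
  SP : S * P - P * S * P = (2⁻¹ : ℂ) • u

/-- the line with its contraction -/
noncomputable def lineOf (g d S P e v k : A) : Line A where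
  g := g
  d := d
  S := S
  P := P
  e := e
  v := v
  k := k
  a := (4⁻¹ : ℂ) • (P * star d * P)
  b := P * S * P
  c := (4⁻¹ : ℂ) • (P * d * P)

variable {g d S P e v k u : A}

theorem PreLine.line (h : PreLine g d S P e v k u) : (lineOf g d S P e v k).Is := by
  obtain ⟨gg, sg, dd, gd, sS, gS, dS, Sd, SS, PP, sP, gP, PdP, ee, se, Pe, ge, vv, sv, Pv, gv, ev,
    vk, ke, kk, kk', Pde, PSe, dv, ed, uu, dP, SP⟩ := h
  have gD : g * star d = -(star d * g) := by
    have := congrArg star gd
    rw [star_mul, star_neg, star_mul, sg] at this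
    rw [this, neg_neg]
  have Pu : P * u = 0 := by
    have h1 : P * (d * P - P * d * P) = 0 := by
      rw [mul_sub, ← mul_assoc, ← mul_assoc, ← mul_assoc, PP, sub_self]
    rw [dP, mul_neg, neg_eq_zero] at h1
    exact h1
  have uP : star u * P = 0 := by
    have := congrArg star Pu
    rwa [star_mul, sP, star_zero] at this
  have hPd : P * d = d * P + u := by
    have h1 : d * P + u = P * d * P := by rw [sub_eq_iff_eq_add] at dP; rw [dP]; abel
    rw [h1, PdP]
  have hDP : star d * P = P * star d + star u := by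
    have := congrArg star hPd
    rwa [star_mul, star_add, star_mul, sP] at this
  have PDP : P * star d * P = star d * P := by
    have := congrArg star PdP
    rwa [star_mul, star_mul, sP, ← mul_assoc] at this
  have hSP : S * P = P * S * P + (2⁻¹ : ℂ) • u := by
    rw [← SP]; abel
  have hPS : P * S = P * S * P + (2⁻¹ : ℂ) • star u := by
    have := congrArg star hSP
    rw [star_mul, star_add, star_mul, star_mul, sP, sS, star_smul, ← mul_assoc] at this
    simpa using this
  -- the three products
  have e1 : P * S * P * d = P * S * d * P + (2⁻¹ : ℂ) • e := by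
    have h1 : P * S * u = (2⁻¹ : ℂ) • e := by
      rw [hPS, add_mul, mul_assoc (P * S), Pu, mul_zero, zero_add, smul_mul_assoc, uu]
    rw [mul_assoc (P * S) P d, hPd, mul_add, h1, ← mul_assoc]
  have e1' : star d * P * S * P = P * star d * S * P + (2⁻¹ : ℂ) • e := by
    have := congrArg star e1
    simp only [star_mul, star_add, star_smul, sP, sS, se] at this
    rw [← mul_assoc, ← mul_assoc, ← mul_assoc, ← mul_assoc] at this
    simpa using this
  have e2 : P * star d * P * d = P * star d * d * P - e := by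
    have h1 : P * star d * u = -e := by
      have h2 : P * star d = star d * P - star u := by rw [hDP]; abel
      rw [h2, sub_mul, mul_assoc, Pu, mul_zero, zero_sub, uu]
    rw [mul_assoc (P * star d) P d, hPd, mul_add, h1, ← mul_assoc]
    abel
  have e3 : P * S * P * S * P = P * S * S * P - (4⁻¹ : ℂ) • e := by
    have h1 : P * S * (S * P) = (P * S * P + (2⁻¹ : ℂ) • star u) * (P * S * P + (2⁻¹ : ℂ) • u) := by
      rw [← hSP, ← hPS]
    have h2 : (P * S * P + (2⁻¹ : ℂ) • star u) * (P * S * P + (2⁻¹ : ℂ) • u) =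
        P * S * P * S * P + (4⁻¹ : ℂ) • e := by
      rw [add_mul, mul_add, mul_add]
      have a1 : P * S * P * (P * S * P) = P * S * P * S * P := by
        rw [← mul_assoc, ← mul_assoc, mul_assoc (P * S) P P, PP]
      have a2 : P * S * P * ((2⁻¹ : ℂ) • u) = 0 := by
        rw [mul_smul_comm, mul_assoc, Pu, mul_zero, smul_zero]
      have a3 : ((2⁻¹ : ℂ) • star u) * (P * S * P) = 0 := by
        rw [smul_mul_assoc, ← mul_assoc, ← mul_assoc, uP, zero_mul, zero_mul, smul_zero]
      have a4 : ((2⁻¹ : ℂ) • star u) * ((2⁻¹ : ℂ) • u) = (4⁻¹ : ℂ) • e := by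
        rw [smul_mul_smul_comm, uu]; norm_num
      rw [a1, a2, a3, a4]
      abel
    rw [← mul_assoc, h2] at h1
    rw [h1]
    abel
  have e4 : P * S * d * P + P * star d * S * P = 0 := by
    have : P * S * d * P + P * star d * S * P = P * (S * d + star d * S) * P := by noncomm_ring
    rw [this, Sd, mul_zero, zero_mul]
  have e5 : P * S * S * P = P - (4⁻¹ : ℂ) • (P * d * star d * P + P * star d * d * P) := by
    have : P * S * S * P = P * (S * S) * P := by noncomm_ring
    rw [this, SS, mul_sub, sub_mul, mul_one, PP, mul_smul_comm, smul_mul_assoc]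
    congr 2
    noncomm_ring
  refine ⟨gg, sg, dd, gd, sS, gS, dS, Sd, SS, PP, sP, gP, PdP, ee, se, Pe, ge, vv, sv, Pv, gv, ev,
    vk, ke, kk, kk', Pde, PSe, dv, ed, ?_, ?_, ?_, ?_, ?_, ?_, ?_, ?_, ?_, ?_, ?_, ?_, ?_⟩
  · simp only [lineOf, mul_smul_comm, ← mul_assoc, PP]
  · simp only [lineOf, smul_mul_assoc, mul_assoc, PP]
  · simp only [lineOf, ← mul_assoc, PP]
  · simp only [lineOf, mul_assoc, PP]
  · simp only [lineOf, mul_smul_comm, ← mul_assoc, PP]
  · simp only [lineOf, smul_mul_assoc, mul_assoc, PP]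
  · simp only [lineOf, mul_smul_comm, smul_mul_assoc]
    rw [← smul_neg]
    congr 1
    rw [← mul_assoc, ← mul_assoc, gP, mul_assoc P g, gD, mul_neg, neg_mul, mul_assoc (P * star d),
      ← gP]
    simp only [mul_assoc]
  · simp only [lineOf]
    rw [← mul_assoc, ← mul_assoc, gP, mul_assoc P g, gS, mul_neg, neg_mul, mul_assoc (P * S),
      ← gP]
    simp only [mul_assoc]
  · simp only [lineOf, mul_smul_comm, smul_mul_assoc]
    rw [← smul_neg]
    congr 1
    rw [← mul_assoc, ← mul_assoc, gP, mul_assoc P g, gd, mul_neg, neg_mul, mul_assoc (P * d),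
      ← gP]
    simp only [mul_assoc]
  · -- h11
    simp only [lineOf, mul_smul_comm, smul_mul_assoc]
    have a1 : P * d * (P * star d * P) = P * d * star d * P := by
      rw [← mul_assoc, ← mul_assoc, PdP]
    have a2 : P * star d * P * (P * d) = P * star d * d * P - e := by
      rw [← mul_assoc, mul_assoc (P * star d) P P, PP, e2]
    have a3 : P * S * P * (P * S * P) = P * S * P * S * P := by
      rw [← mul_assoc, ← mul_assoc, mul_assoc (P * S) P P, PP]
    rw [a1, a2, a3, e3, e5]
    module
  · -- h12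
    simp only [lineOf, mul_smul_comm, smul_mul_assoc]
    have a1 : P * S * P * (P * d * P) = P * S * d * P + (2⁻¹ : ℂ) • e := by
      rw [PdP, ← mul_assoc, mul_assoc (P * S) P P, PP, e1]
    have a2 : P * star d * P * (P * S * P) = P * star d * S * P + (2⁻¹ : ℂ) • e := by
      rw [← e1', ← mul_assoc, ← mul_assoc, mul_assoc (P * star d) P P, PP, PDP]
    rw [a1, a2, ← smul_add]
    have : P * S * d * P + (2⁻¹ : ℂ) • e + (P * star d * S * P + (2⁻¹ : ℂ) • e) = e := by
      rw [add_add_add_comm, e4, zero_add, ← add_smul]; norm_num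
    rw [this]
  · -- h21
    simp only [lineOf]
    have a1 : P * S * P * (P * d) = P * S * d * P + (2⁻¹ : ℂ) • e := by
      rw [← mul_assoc, mul_assoc (P * S) P P, PP, e1]
    have a2 : star d * P * (P * S * P) = P * star d * S * P + (2⁻¹ : ℂ) • e := by
      rw [← e1', ← mul_assoc, ← mul_assoc, mul_assoc (star d) P P, PP]
    rw [a1, a2, add_add_add_comm, add_comm (P * star d * S * P), e4, zero_add, ← add_smul]
    norm_num
  · -- h22
    simp only [lineOf, mul_smul_comm, smul_mul_assoc]
    have a1 : star d * P * (P * d * P) = P * star d * d * P - e := by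
      rw [← e2, PdP, ← mul_assoc, mul_assoc (star d) P P, PP, PDP]
    have a2 : P * d * P * (star d * P) = P * d * star d * P := by
      rw [PdP, ← mul_assoc]
    have a3 : P * S * P * (P * S * P) = P * S * P * S * P := by
      rw [← mul_assoc, ← mul_assoc, mul_assoc (P * S) P P, PP]
    rw [a1, a2, a3, e3, e5]
    module

end Crest.Agent.R217.Grid897
end

-- ▼ part R217/LineOp_897
section

/-! Row 217: matrices acting on one coordinate of the torus grid; `gridT` as a word in them. -/

set_option autoImplicit false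
set_option linter.unusedSectionVars false

open Matrix Finset
open scoped BigOperators

namespace Crest.Agent.R217.Grid897

open Crest.Agent.R217.PC473

noncomputable section

variable {n : ℕ} {N : ℕ} [NeZero N]

/-- `M` acting on coordinate `i` -/
def opm (i : Fin n) (M : Matrix (C1 N) (C1 N) ℂ) : Matrix (Cell n N) (Cell n N) ℂ :=
  tens (Function.update (fun _ => 1) i M)

theorem opm_apply (i : Fin n) (M : Matrix (C1 N) (C1 N) ℂ) (x y : Cell n N) :
    opm i M x y = if ∀ j, j ≠ i → x j = y j then M (x i) (y i) else 0 := by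
  rw [opm, tens_apply, ← Finset.mul_prod_erase _ _ (Finset.mem_univ i), Function.update_self]
  split_ifs with h
  · rw [Finset.prod_eq_one, mul_one]
    intro j hj
    rw [Function.update_of_ne (Finset.ne_of_mem_erase hj), h j (Finset.ne_of_mem_erase hj),
      Matrix.one_apply_eq]
  · push Not at h
    obtain ⟨j, hj, hne⟩ := h
    rw [Finset.prod_eq_zero (Finset.mem_erase.2 ⟨hj, Finset.mem_univ j⟩), mul_zero]
    rw [Function.update_of_ne hj, Matrix.one_apply_ne hne]

theorem opm_mul (i : Fin n) (M M' : Matrix (C1 N) (C1 N) ℂ) :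
    opm i (M * M') = opm i M * opm i M' := by
  rw [opm, opm, opm, tens_mul]
  refine tens_congr fun j => ?_
  by_cases h : j = i
  · subst h; simp
  · simp [Function.update_of_ne h]

theorem opm_one (i : Fin n) : opm i (1 : Matrix (C1 N) (C1 N) ℂ) = 1 := by
  rw [opm, ← tens_one]
  exact tens_congr fun j => by by_cases h : j = i <;> simp [h]

theorem opm_add (i : Fin n) (M M' : Matrix (C1 N) (C1 N) ℂ) :
    opm i (M + M') = opm i M + opm i M' := by
  ext x y
  rw [Matrix.add_apply, opm_apply, opm_apply, opm_apply]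
  split_ifs <;> simp

theorem opm_smul (i : Fin n) (c : ℂ) (M : Matrix (C1 N) (C1 N) ℂ) :
    opm i (c • M) = c • opm i M := by
  ext x y
  rw [Matrix.smul_apply, opm_apply, opm_apply]
  split_ifs <;> simp

theorem opm_zero (i : Fin n) : opm i (0 : Matrix (C1 N) (C1 N) ℂ) = 0 := by
  ext x y
  rw [opm_apply]
  split_ifs <;> simp

theorem opm_star (i : Fin n) (M : Matrix (C1 N) (C1 N) ℂ) :
    opm i (star M) = star (opm i M) := by
  ext x y
  rw [Matrix.star_apply, opm_apply, opm_apply]
  by_cases h : ∀ j, j ≠ i → x j = y j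
  · rw [if_pos h, if_pos (fun j hj => (h j hj).symm), Matrix.star_apply]
  · rw [if_neg h, if_neg (fun h' => h fun j hj => (h' j hj).symm), star_zero]

/-- `opm` as a star algebra hom -/
def opi (n N : ℕ) [NeZero N] (i : Fin n) :
    Matrix (C1 N) (C1 N) ℂ →⋆ₐ[ℂ] Matrix (Cell n N) (Cell n N) ℂ where
  toFun := opm i
  map_one' := opm_one i
  map_mul' := opm_mul i
  map_zero' := opm_zero i
  map_add' := opm_add i
  commutes' c := by rw [Algebra.algebraMap_eq_smul_one, opm_smul, opm_one,
    Algebra.algebraMap_eq_smul_one]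
  map_star' := opm_star i

theorem opi_apply (i : Fin n) (M : Matrix (C1 N) (C1 N) ℂ) (x y : Cell n N) :
    opi n N i M x y = if ∀ j, j ≠ i → x j = y j then M (x i) (y i) else 0 := opm_apply i M x y

theorem opi_comm {i j : Fin n} (h : i ≠ j) (M M' : Matrix (C1 N) (C1 N) ℂ) :
    opi n N i M * opi n N j M' = opi n N j M' * opi n N i M := by
  show opm i M * opm j M' = opm j M' * opm i M
  rw [opm, opm, tens_mul, tens_mul]
  refine tens_congr fun l => ?_
  by_cases h1 : l = i
  · subst h1
    simp [Function.update_of_ne h]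
  · by_cases h2 : l = j
    · subst h2
      simp [Function.update_of_ne h.symm]
    · simp [Function.update_of_ne h1, Function.update_of_ne h2]

theorem opi_diagonal (i : Fin n) (D : C1 N → ℂ) :
    opi n N i (Matrix.diagonal D) = Matrix.diagonal fun x => D (x i) := by
  ext x y
  rw [opi_apply, Matrix.diagonal_apply, Matrix.diagonal_apply]
  by_cases h : x = y
  · subst h; simp
  · rw [if_neg h]
    split_ifs with h1 h2
    · exfalso
      apply h
      funext j
      by_cases hj : j = i
      · subst hj; exact h2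
      · exact h1 j hj
    · rfl
    · rfl

/-- `1 ⊗ B` as a star algebra hom -/
def tl (n N : ℕ) [NeZero N] :
    Matrix (Cell n N) (Cell n N) ℂ →⋆ₐ[ℂ] Matrix (Cell (n + 1) N) (Cell (n + 1) N) ℂ where
  toFun B := tc 1 B
  map_one' := tc_one
  map_mul' B B' := by rw [tc_mul, one_mul]
  map_zero' := tc_zero_right _
  map_add' := tc_add_right _
  commutes' c := by rw [Algebra.algebraMap_eq_smul_one, tc_smul_right, tc_one,
    Algebra.algebraMap_eq_smul_one]
  map_star' B := by rw [star_tc, star_one]

theorem tl_apply (B : Matrix (Cell n N) (Cell n N) ℂ) : tl n N B = tc 1 B := rfl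

theorem opi_zero (M : Matrix (C1 N) (C1 N) ℂ) : opi (n + 1) N 0 M = tc M 1 := by
  show opm 0 M = _
  rw [opm, tens_succ, Function.update_self, ← tens_one]
  congr 1

theorem opi_succ (i : Fin n) (M : Matrix (C1 N) (C1 N) ℂ) :
    opi (n + 1) N i.succ M = tl n N (opi n N i M) := by
  show opm i.succ M = tc 1 (opm i M)
  rw [opm, tens_succ, opm, Function.update_of_ne (Fin.succ_ne_zero i).symm]
  congr 1
  refine tens_congr fun k => ?_
  by_cases h : k = i
  · subst h; simp
  · rw [Function.update_of_ne h, Function.update_of_ne (fun h' => h (Fin.succ_injective _ h'))]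

end

/-! ### the word -/

open Norm551

section word

variable {A B : Type*} [Ring A] [StarRing A] [Algebra ℂ A] [StarModule ℂ A]
  [Ring B] [StarRing B] [Algebra ℂ B] [StarModule ℂ B] {ι κ : Type*}

/-- iterated product of lines -/
noncomputable def gl (X : ι → Line A) : List ι → Tup A
  | [] => ⟨1, 1, 0, 1, 1, 0⟩
  | i :: L => prodA L.length (X i) (gl X L)

theorem gl_map (f : A →⋆ₐ[ℂ] B) (X : ι → Line A) (X' : κ → Line B) (s : ι → κ)
    (hg : ∀ i, (X' (s i)).g = f (X i).g) (hd : ∀ i, (X' (s i)).d = f (X i).d)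
    (hS : ∀ i, (X' (s i)).S = f (X i).S) (L : List ι) :
    gl X' (L.map s) = (gl X L).map f := by
  induction L with
  | nil => simp [gl, Tup.map]
  | cons i L ih =>
    rw [List.map_cons, gl, gl, ih, List.length_map]
    simp only [prodA, Tup.map, MM, hg, hd, hS, map_mul, map_add, map_smul, map_neg, map_star]

end word

noncomputable section

/-- the line of the coordinate `i` in the finite matrix algebra -/
def lineF (n N : ℕ) [NeZero N] (i : Fin n) : Line (Matrix (Cell n N) (Cell n N) ℂ) :=
  lineOf (opi n N i (g1 N)) (opi n N i (d1 N)) (opi n N i (s1 N)) (opi n N i (Pw N))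
    (opi n N i (ew N)) (opi n N i (vw N)) (opi n N i (kw N))

theorem gridT_eq_gl (N : ℕ) [NeZero N] : (n : ℕ) →
    gridT N n = gl (lineF n N) (List.finRange n)
  | 0 => by simp [gridT, gl]
  | (n + 1) => by
    have ih := gridT_eq_gl N n
    have hx := gridT_isPC N n
    have h : gl (lineF (n + 1) N) ((List.finRange n).map Fin.succ) =
        (gl (lineF n N) (List.finRange n)).map (tl n N) :=
      gl_map (tl n N) (lineF n N) (lineF (n + 1) N) Fin.succ
        (fun i => opi_succ i _) (fun i => opi_succ i _) (fun i => opi_succ i _) _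
    rw [List.finRange_succ, gl, h, ← ih, List.length_map, List.length_finRange]
    have hMM : MM (gridT N n) = (gridT N n).S * (gridT N n).T := hx.ST.symm
    show circ N n (gridT N n) = _
    unfold circ prodA
    have e0 : MM ((gridT N n).map (tl n N)) = tl n N (MM (gridT N n)) := by
      simp only [MM, Tup.map, map_add, map_mul]
    rw [e0, hMM]
    simp only [Tup.map, lineF, lineOf, opi_zero, tl_apply, tc_mul, mul_one, one_mul,
      star_tc, star_one, neg_smul, one_div, tc_neg_left]
    simp only [tc_smul_left]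

end

end Crest.Agent.R217.Grid897
private theorem rz_0f1a287b6c : type_of% @_root_.Crest.Agent.R217.Grid897.gl.eq_def := @_root_.Crest.Agent.R217.Grid897.gl.eq_def -- L162
private theorem rz_9294025689 : type_of% @_root_.Crest.Agent.R217.Grid897.gl.eq_1 := @_root_.Crest.Agent.R217.Grid897.gl.eq_1 -- L162
end

-- ▼ part R217/LineAsy_897

/-! Row 217 (S0336), part C: the coordinate lines of the torus grid over the asymptotic algebra
(hypotheses of `NormB_551` / `NormC_551`). -/

set_option autoImplicit false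
set_option linter.unusedSectionVars false

open Filter Topology Matrix
open scoped BigOperators

namespace Crest.Agent.R217.Grid897

open Crest.Agent.R217.PC473 Crest.Agent.R217.Norm551 Crest.Agent.R217.Asym476
  Crest.Agent.R217.AsyCell970 Crest.Agent.R217.Obj52

noncomputable section

variable {n : ℕ} {A : Type} {N : A → ℕ} [∀ a, NeZero (N a)]

/-- sequences of matrices on the circle -/
abbrev SeqL (N : A → ℕ) : Type := ∀ a, Matrix (C1 (N a)) (C1 (N a)) ℂ

/-- acting on coordinate `i`, levelwise -/
def opS (n : ℕ) (N : A → ℕ) [∀ a, NeZero (N a)] (i : Fin n) : SeqL N →⋆ₐ[ℂ] SeqC n N where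
  toFun M := fun a => opi n (N a) i (M a)
  map_one' := funext fun _ => map_one _
  map_mul' _ _ := funext fun _ => map_mul _ _ _
  map_zero' := funext fun _ => map_zero _
  map_add' _ _ := funext fun _ => map_add _ _ _
  commutes' c := funext fun a => AlgHomClass.commutes (opi n (N a) i) c
  map_star' _ := funext fun _ => map_star _ _

theorem opS_apply (i : Fin n) (M : SeqL N) (a : A) : opS n N i M a = opi n (N a) i (M a) := rfl

/-- what is used about the control data: positions, window, grid continuity -/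
structure GridCtl (C : Ctl (BV n N)) where
  μ : A → ℝ
  μ_pos : ∀ a, 0 < μ a
  μ_lim : Tendsto μ C.l (𝓝 0)
  ξ : Fin n → C.Φ
  hξ : ∀ i a v, C.u (ξ i) a v = μ a * (((v i).valMinAbs : ℤ) : ℝ)
  cont : GridCont C
  win : ∀ r < (1 : ℝ), ∀ᶠ a in C.l, ∀ v : VV n (N a), C.u C.o a v ≤ r →
    ∀ i, 2 * |(v i).valMinAbs| + 8 ≤ (N a : ℤ)

variable {C : Ctl (BV n N)}

/-- circle matrices which become local on coordinate `i` -/
def SL (C : Ctl (BV n N)) (i : Fin n) : StarSubalgebra ℂ (SeqL N) :=
  (LocC C).comap (opS n N i)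

theorem mem_SL {i : Fin n} {M : SeqL N} : M ∈ SL C i ↔ IsLocC C (opS n N i M) := Iff.rfl

/-- the class of a circle matrix acting on coordinate `i` -/
def Th (C : Ctl (BV n N)) (i : Fin n) : SL C i →⋆ₐ[ℂ] Matrix (JJ n) (JJ n) (Asy C ℂ) :=
  (toA C).comp (StarAlgHom.codRestrict ((opS n N i).comp (SL C i).subtype) (LocC C) fun x => x.2)

theorem Th_apply (i : Fin n) (x : SL C i) : Th C i x = toA C ⟨opS n N i x.1, x.2⟩ := rfl

theorem mem_SL_of_nb (h : GridCtl C) {i : Fin n} {M : SeqL N}
    (hM : ∀ a s t, M a s t ≠ 0 → nb1 (N a) s t) : M ∈ SL C i := by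
  rw [mem_SL]
  refine h.cont.isLocC fun a c' c h0 => ?_
  rw [opS_apply, opi_apply] at h0
  intro j
  by_cases hj : j = i
  · subst hj
    refine hM a _ _ fun h1 => h0 ?_
    rw [h1]
    split_ifs <;> rfl
  · have : ∀ j, j ≠ i → c' j = c j := by
      by_contra hc
      exact h0 (by rw [if_neg hc])
    rw [this j hj]
    exact nb1_refl _

theorem mem_SL_diag {i : Fin n} (D : ∀ a, C1 (N a) → ℂ) :
    (fun a => Matrix.diagonal (D a) : SeqL N) ∈ SL C i := by
  rw [mem_SL]
  refine isLocC_of_diag C fun a c' c hne => ?_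
  rw [opS_apply, opi_diagonal, Matrix.diagonal_apply_ne]
  rintro rfl
  exact hne rfl

theorem blkSeq_apply (M : SeqC n N) (j j' : JJ n) (a : A) (s t : VV n (N a)) :
    blkSeq M j j' a s t = M a (cellEquiv n (N a) (j, s)) (cellEquiv n (N a) (j', t)) := rfl

theorem opS_win (h : GridCtl C) {i : Fin n} {x y : SeqL N} (hx : IsLocC C (opS n N i x))
    (hy : IsLocC C (opS n N i y)) (hxy : ∀ a, WEq (N a) (x a) (y a)) :
    RelC C (opS n N i x) (opS n N i y) := by
  rw [relC_iff]
  intro j j'
  apply Rel.of_and (IsLocC.blk hx j j') (IsLocC.blk hy j j')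
  intro r hr
  filter_upwards [h.win r hr] with a ha s t hs ht
  have h1 := ha s hs i
  have h2 := ha t ht i
  rw [blkSeq_apply, blkSeq_apply, opS_apply, opS_apply, opi_apply, opi_apply]
  rw [hxy a (cellEquiv n (N a) (j, s) i) (cellEquiv n (N a) (j', t) i) h1 h2]

/-- equality in the window suffices -/
theorem Th_eq (h : GridCtl C) {i : Fin n} {x y : SL C i}
    (hxy : ∀ a, WEq (N a) (x.1 a) (y.1 a)) : Th C i x = Th C i y := by
  rw [Th_apply, Th_apply, toA_eq]
  exact opS_win h x.2 y.2 hxy

theorem Th_congr {i : Fin n} {x y : SL C i} (hxy : ∀ a, x.1 a = y.1 a) :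
    Th C i x = Th C i y := by
  have : x = y := Subtype.ext (funext hxy)
  rw [this]

/-- operators on different coordinates commute -/
theorem Th_comm {i j : Fin n} (hij : i ≠ j) (x : SL C i) (y : SL C j) :
    Th C i x * Th C j y = Th C j y * Th C i x := by
  rw [Th_apply, Th_apply, ← map_mul, ← map_mul]
  congr 1
  exact Subtype.ext (funext fun a => opi_comm hij _ _)

/-! ### the line -/

section line

variable (h : GridCtl C) (i : Fin n)

def gL : SL C i := ⟨fun a => g1 (N a), mem_SL_diag _⟩
def dL : SL C i := ⟨fun a => d1 (N a), mem_SL_of_nb h fun _ _ _ h0 => (d1_supp h0).2.2⟩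
def sL : SL C i := ⟨fun a => s1 (N a), mem_SL_of_nb h fun _ _ _ h0 => (s1_supp h0).2⟩
def PL : SL C i := ⟨fun a => Pw (N a), mem_SL_diag _⟩
def eL : SL C i := ⟨fun a => ew (N a), mem_SL_diag _⟩
def vL : SL C i := ⟨fun a => vw (N a), mem_SL_diag _⟩

theorem kw_nb {N : ℕ} [NeZero N] {s t : C1 N} (h0 : kw N s t ≠ 0) : nb1 N s t := by
  rw [kw, Matrix.of_apply] at h0
  by_cases hc : s = (1, false) ∧ t = (0, true)
  · rw [hc.1, hc.2]
    right; left; simp
  · rw [if_neg hc] at h0
    exact absurd rfl h0

theorem uw_nb {N : ℕ} [NeZero N] {s t : C1 N} (h0 : uw N s t ≠ 0) : nb1 N s t := by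
  rw [uw, Matrix.of_apply] at h0
  by_cases hc : s = (0, false) ∧ t = (0, true)
  · rw [hc.1, hc.2]
    left; rfl
  · rw [if_neg hc] at h0
    exact absurd rfl h0

def kL : SL C i := ⟨fun a => kw (N a), mem_SL_of_nb h fun _ _ _ h0 => kw_nb h0⟩
def uL : SL C i := ⟨fun a => uw (N a), mem_SL_of_nb h fun _ _ _ h0 => uw_nb h0⟩

/-- the line of the coordinate `i` -/
def LA : Line (Matrix (JJ n) (JJ n) (Asy C ℂ)) :=
  lineOf (Th C i (gL i)) (Th C i (dL h i)) (Th C i (sL h i)) (Th C i (PL i)) (Th C i (eL i))
    (Th C i (vL i)) (Th C i (kL h i))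

theorem LA_pre : PreLine (Th C i (gL i)) (Th C i (dL h i)) (Th C i (sL h i)) (Th C i (PL i))
    (Th C i (eL i)) (Th C i (vL i)) (Th C i (kL h i)) (Th C i (uL h i)) where
  gg := by
    rw [← map_mul, ← map_one (Th C i)]
    exact Th_congr fun a => g1_sq _
  sg := by
    rw [← map_star]
    exact Th_congr fun a => star_g1 _
  dd := by
    rw [← map_mul, ← map_zero (Th C i)]
    exact Th_congr fun a => d1_sq _
  gd := by
    rw [← map_mul, ← map_mul, ← map_neg]
    exact Th_congr fun a => g1_d1 _
  sS := by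
    rw [← map_star]
    exact Th_congr fun a => star_s1 _
  gS := by
    rw [← map_mul, ← map_mul, ← map_neg]
    exact Th_congr fun a => g1_s1 _
  dS := by
    rw [← map_star, ← map_mul, ← map_mul, ← map_add, ← map_zero (Th C i)]
    exact Th_congr fun a => d1_s1 _
  Sd := by
    rw [← map_star, ← map_mul, ← map_mul, ← map_add, ← map_zero (Th C i)]
    exact Th_congr fun a => s1_d1 _
  SS := by
    rw [← map_star, ← map_mul, ← map_mul, ← map_mul, ← map_add, ← map_smul, ← map_one (Th C i),
      ← map_sub]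
    refine Th_congr fun a => ?_
    have := s1_sq (N a)
    rw [one_div] at this
    exact this
  PP := by
    rw [← map_mul]
    exact Th_congr fun a => Pw_sq
  sP := by
    rw [← map_star]
    exact Th_congr fun a => star_Pw
  gP := by
    rw [← map_mul, ← map_mul]
    exact Th_congr fun a => g1_Pw
  PdP := by
    rw [← map_mul, ← map_mul]
    exact Th_eq h fun a => Pw_d1_Pw
  ee := by
    rw [← map_mul]
    exact Th_congr fun a => ew_sq
  se := by
    rw [← map_star]
    exact Th_congr fun a => star_ew
  Pe := by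
    rw [← map_mul]
    exact Th_congr fun a => Pw_ew
  ge := by
    rw [← map_mul, ← map_neg]
    exact Th_congr fun a => g1_ew
  vv := by
    rw [← map_mul]
    exact Th_congr fun a => vw_sq
  sv := by
    rw [← map_star]
    exact Th_congr fun a => star_vw
  Pv := by
    rw [← map_mul]
    exact Th_eq h fun a => Pw_vw_win
  gv := by
    rw [← map_mul]
    exact Th_congr fun a => g1_vw
  ev := by
    rw [← map_mul, ← map_zero (Th C i)]
    exact Th_congr fun a => ew_vw
  vk := by
    rw [← map_mul]
    exact Th_congr fun a => vw_kw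
  ke := by
    rw [← map_mul]
    exact Th_congr fun a => kw_ew
  kk := by
    rw [← map_star, ← map_mul]
    exact Th_congr fun a => star_kw_kw
  kk' := by
    rw [← map_star, ← map_mul]
    exact Th_congr fun a => kw_star_kw
  Pde := by
    rw [← map_mul, ← map_mul]
    exact Th_eq h fun a => Pw_d1_ew
  PSe := by
    rw [← map_mul, ← map_mul, ← map_smul]
    exact Th_eq h fun a => Pw_s1_ew
  dv := by
    rw [← map_mul, ← map_zero (Th C i)]
    exact Th_congr fun a => d1_vw
  ed := by
    rw [← map_mul, ← map_zero (Th C i)]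
    exact Th_congr fun a => ew_d1
  uu := by
    rw [← map_star, ← map_mul]
    exact Th_congr fun a => star_uw_uw
  dP := by
    rw [← map_mul, ← map_mul, ← map_mul, ← map_sub, ← map_neg]
    exact Th_eq h fun a => d1_Pw_sub
  SP := by
    rw [← map_mul, ← map_mul, ← map_mul, ← map_sub, ← map_smul]
    exact Th_eq h fun a => s1_Pw_sub

theorem LA_is : (LA h i).Is := (LA_pre h i).line

/-- all entries of the line come from circle matrices -/
theorem LA_set {z : Matrix (JJ n) (JJ n) (Asy C ℂ)} (hz : z ∈ (LA h i).set) :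
    ∃ x : SL C i, z = Th C i x := by
  simp only [Line.set, LA, lineOf, Set.mem_insert_iff, Set.mem_singleton_iff] at hz
  rcases hz with rfl | rfl | rfl | rfl | rfl | rfl | rfl | rfl | rfl | rfl
  · exact ⟨_, rfl⟩
  · exact ⟨_, rfl⟩
  · exact ⟨_, rfl⟩
  · exact ⟨_, rfl⟩
  · exact ⟨_, rfl⟩
  · exact ⟨_, rfl⟩
  · exact ⟨_, rfl⟩
  · exact ⟨(4⁻¹ : ℂ) • (PL i * star (dL h i) * PL i), by
      rw [map_smul, map_mul, map_mul, map_star]⟩
  · exact ⟨PL i * sL h i * PL i, by rw [map_mul, map_mul]⟩
  · exact ⟨(4⁻¹ : ℂ) • (PL i * dL h i * PL i), by rw [map_smul, map_mul, map_mul]⟩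

theorem LA_comm {i j : Fin n} (hij : i ≠ j) :
    (LA h j).set ⊆ (StarSubalgebra.centralizer ℂ (LA h i).set : Set _) := by
  intro w hw
  obtain ⟨y, rfl⟩ := LA_set h j hw
  rw [SetLike.mem_coe, StarSubalgebra.mem_centralizer_iff]
  intro z hz
  obtain ⟨x, rfl⟩ := LA_set h i hz
  exact ⟨Th_comm hij x y, by rw [← map_star]; exact Th_comm hij (star x) y⟩

end line

/-! ### the grid tuple is the iterated product of the lines -/

/-- evaluation of a local sequence at a level -/
def evL (C : Ctl (BV n N)) (a : A) : LocC C →⋆ₐ[ℂ] Matrix (Cell n (N a)) (Cell n (N a)) ℂ where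
  toFun M := M.1 a
  map_one' := rfl
  map_mul' _ _ := rfl
  map_zero' := rfl
  map_add' _ _ := rfl
  commutes' _ := rfl
  map_star' _ := rfl


/-- the line of coordinate `i` in the local sequences (only `g`, `d`, `S` matter) -/
def lineL (h : GridCtl C) (i : Fin n) : Line (LocC C) :=
  lineOf ⟨opS n N i (gL i : SL C i).1, (gL i : SL C i).2⟩ ⟨opS n N i (dL h i).1, (dL h i).2⟩
    ⟨opS n N i (sL h i).1, (sL h i).2⟩ 0 0 0 0

theorem gridL_eq_gl (h : GridCtl C) : gridL h.cont = gl (lineL h) (List.finRange n) := by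
  have key : ∀ a, (gl (lineL h) (List.finRange n)).map (evL C a) = gridT (N a) n := by
    intro a
    rw [gridT_eq_gl, ← List.map_id (List.finRange n)]
    rw [gl_map (evL C a) (lineL h) (lineF n (N a)) id (fun i => rfl) (fun i => rfl) (fun i => rfl)]
    rw [List.map_id]
  have hp := fun a => congrArg Tup.p (key a)
  have hg := fun a => congrArg Tup.g (key a)
  have hd := fun a => congrArg Tup.d (key a)
  have hS := fun a => congrArg Tup.S (key a)
  have hT := fun a => congrArg Tup.T (key a)
  have hH := fun a => congrArg Tup.H (key a)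
  refine Tup.ext ?_ ?_ ?_ ?_ ?_ ?_
  · exact Subtype.ext (funext fun a => (hp a).symm)
  · exact Subtype.ext (funext fun a => (hg a).symm)
  · exact Subtype.ext (funext fun a => (hd a).symm)
  · exact Subtype.ext (funext fun a => (hS a).symm)
  · exact Subtype.ext (funext fun a => (hT a).symm)
  · exact Subtype.ext (funext fun a => (hH a).symm)

theorem gridA_eq_gl (h : GridCtl C) : gridA h.cont = gl (LA h) (List.finRange n) := by
  rw [gridA, gridL_eq_gl h]
  have := gl_map (toA C) (lineL h) (LA h) id (fun i => rfl) (fun i => rfl) (fun i => rfl)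
    (List.finRange n)
  rw [List.map_id] at this
  exact this.symm

/-! ### diagonal entries, homogeneity -/

theorem Th_diag_apply (i : Fin n) (D : ∀ a, C1 (N a) → ℂ) :
    Th C i ⟨fun a => Matrix.diagonal (D a), mem_SL_diag _⟩ =
      Matrix.diagonal fun j : JJ n => dg C ℂ (fun a (v : VV n (N a)) => D a (v i, j i)) := by
  ext j j'
  rw [Th_apply, toA_apply]
  by_cases hj : j = j'
  · subst hj
    rw [Matrix.diagonal_apply_eq, dg_apply]
    congr 1
    apply Subtype.ext
    funext a
    ext s t
    show opi n (N a) i (Matrix.diagonal (D a)) (cellEquiv n (N a) (j, s))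
      (cellEquiv n (N a) (j, t)) = Matrix.diagonal (fun v : VV n (N a) => D a (v i, j i)) s t
    rw [opi_diagonal, Matrix.diagonal_apply, Matrix.diagonal_apply]
    by_cases hst : s = t
    · subst hst
      simp
      rfl
    · rw [if_neg hst, if_neg]
      intro h'
      exact hst (congrArg Prod.snd ((cellEquiv n (N a)).injective h'))
  · rw [Matrix.diagonal_apply_ne _ hj, ← map_zero (cls C ℂ)]
    congr 1
    apply Subtype.ext
    funext a
    ext s t
    show opi n (N a) i (Matrix.diagonal (D a)) (cellEquiv n (N a) (j, s))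
      (cellEquiv n (N a) (j', t)) = 0
    rw [opi_diagonal, Matrix.diagonal_apply_ne]
    intro h'
    exact hj (congrArg Prod.fst ((cellEquiv n (N a)).injective h'))

/-- degree in direction `i` -/
def dgi (i : Fin n) (j : JJ n) : ℤ := if j i then 1 else 0

theorem Th_supp {i : Fin n} (x : SL C i) {j j' : JJ n}
    (h0 : (∃ l, l ≠ i ∧ j l ≠ j' l) ∨ ∀ a (s t : ZMod (N a)), x.1 a (s, j i) (t, j' i) = 0) :
    Th C i x j j' = 0 := by
  rw [Th_apply]
  refine toA_zero_of fun a c' c hc' hc => ?_
  show opi n (N a) i (x.1 a) c' c = 0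
  rw [opi_apply]
  subst hc' hc
  rcases h0 with ⟨l, hl, hne⟩ | h0
  · rw [if_neg]
    intro h1
    exact hne (congrArg Prod.snd (h1 l hl))
  · split_ifs with h1
    · exact h0 a _ _
    · rfl

/-- other degrees are preserved -/
theorem Th_pres {i l : Fin n} (hil : l ≠ i) (x : SL C i) : Hm (dgi l) (dgi l) (Th C i x) := by
  intro j j' hne
  refine Th_supp x (Or.inl ⟨l, hil, fun h => hne ?_⟩)
  unfold dgi
  rw [h]

theorem Th_hm {i : Fin n} (x : SL C i) {α β : JJ n → ℤ}
    (h : ∀ j j' : JJ n, α j ≠ β j' → ∀ a (s t : ZMod (N a)), x.1 a (s, j i) (t, j' i) = 0) :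
    Hm α β (Th C i x) := fun j j' hne => Th_supp x (Or.inr (h j j' hne))

section fields

variable (h : GridCtl C) (i : Fin n)

theorem LA_a : (LA h i).a = Th C i ((4⁻¹ : ℂ) • (PL i * star (dL h i) * PL i)) := by
  rw [map_smul, map_mul, map_mul, map_star]
  rfl

theorem LA_b : (LA h i).b = Th C i (PL i * sL h i * PL i) := by
  rw [map_mul, map_mul]
  rfl

theorem LA_c : (LA h i).c = Th C i ((4⁻¹ : ℂ) • (PL i * dL h i * PL i)) := by
  rw [map_smul, map_mul, map_mul]
  rfl

theorem LA_Pres {l : Fin n} (hil : l ≠ i) : Pres (dgi l) (LA h i) where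
  hd := Th_pres hil (dL h i)
  hS := Th_pres hil (sL h i)
  ha := by rw [LA_a]; exact Th_pres hil _
  hb := by rw [LA_b]; exact Th_pres hil _
  hc := by rw [LA_c]; exact Th_pres hil _

variable {κ : Type} (dir : κ → C.Φ) (lo hi : κ → ℝ) (lt : ∀ k, lo k < hi k)

theorem dgc_diag (D : ∀ a, C1 (N a) → ℂ) (M : SL C i) (hM : ∀ a, M.1 a = Matrix.diagonal (D a)) :
    DgC (frame C ℂ dir lo hi lt) (Th C i M) := by
  have e : M = ⟨fun a => Matrix.diagonal (D a), mem_SL_diag _⟩ := Subtype.ext (funext hM)
  rw [e, Th_diag_apply]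
  exact ⟨_, rfl, fun j k c => dg_comm _ _⟩

theorem dg_eq_zero {f : ∀ a, VV n (N a) → ℂ} (hf : ∀ a v, f a v = 0) : dg C ℂ f = 0 := by
  rw [← map_zero (dg C ℂ)]
  congr 1
  funext a v
  exact hf a v

theorem pu_mul_dg (φ : C.Φ) (c : ℝ) (f : ∀ a, VV n (N a) → ℂ) :
    pu C ℂ φ c * dg C ℂ f = dg C ℂ (fun a v => (if C.u φ a v ≤ c then 1 else 0) * f a v) := by
  classical
  unfold pu ind
  rw [← map_mul]
  congr 1

theorem Th_diag' (M : SL C i) (D : ∀ a, C1 (N a) → ℂ) (hM : ∀ a, M.1 a = Matrix.diagonal (D a)) :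
    Th C i M = Matrix.diagonal fun j : JJ n => dg C ℂ (fun a (v : VV n (N a)) => D a (v i, j i)) := by
  have e : M = ⟨fun a => Matrix.diagonal (D a), mem_SL_diag _⟩ := Subtype.ext (funext hM)
  rw [e, Th_diag_apply]

theorem LA_LineF (k : κ) (hk : dir k = h.ξ i) (h0 : lo k < 0) (h1 : 0 < hi k) :
    LineF (frame C ℂ dir lo hi lt) k (dgi i) (LA h i) where
  is := LA_is h i
  gD := dgc_diag i dir lo hi lt _ (gL i) fun a => rfl
  PD := dgc_diag i dir lo hi lt _ (PL i) fun a => rfl
  eD := dgc_diag i dir lo hi lt _ (eL i) fun a => rfl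
  vD := dgc_diag i dir lo hi lt _ (vL i) fun a => rfl
  lo0 := h0
  hi0 := h1
  Plo s hs := by
    show PU _ k _ * Th C i (PL i) = 0
    rw [Th_diag' i (PL i) _ fun a => rfl, PU, Matrix.diagonal_mul_diagonal,
      ← Matrix.diagonal_zero]
    congr 1
    funext j
    rw [frame_pu, pu_mul_dg]
    refine dg_eq_zero fun a v => ?_
    rw [hk, h.hξ]
    by_cases hc : h.μ a * (((v i).valMinAbs : ℤ) : ℝ) ≤ s
    · have h2 : (v i).valMinAbs < 0 := by
        by_contra h3
        push Not at h3
        have : 0 ≤ h.μ a * (((v i).valMinAbs : ℤ) : ℝ) :=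
          mul_nonneg (h.μ_pos a).le (by exact_mod_cast h3)
        linarith
      have h3 : ¬ inP (N a) (v i, j i) := by
        unfold inP
        simp only
        split_ifs <;> omega
      rw [if_neg h3, mul_zero]
    · rw [if_neg hc, zero_mul]
  Phi t ht := by
    show PU _ k _ * (1 - Th C i (PL i)) = 1 - Th C i (PL i)
    rw [← map_one (Th C i), ← map_sub]
    rw [Th_diag' i (1 - PL i) (fun a x => 1 - if inP (N a) x then 1 else 0) fun a => by
      show 1 - Pw (N a) = _
      rw [Pw, ← Matrix.diagonal_one, Matrix.diagonal_sub], PU, Matrix.diagonal_mul_diagonal]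
    congr 1
    funext j
    rw [frame_pu, pu_mul_dg]
    congr 1
    funext a v
    rw [hk, h.hξ]
    by_cases hc : inP (N a) (v i, j i)
    · rw [if_pos hc]; simp
    · have h2 : (v i).valMinAbs ≤ 0 := by
        by_contra h3
        push Not at h3
        apply hc
        unfold inP
        simp only
        split_ifs <;> omega
      have h3 : h.μ a * (((v i).valMinAbs : ℤ) : ℝ) ≤ t := by
        have : h.μ a * (((v i).valMinAbs : ℤ) : ℝ) ≤ 0 :=
          mul_nonpos_of_nonneg_of_nonpos (h.μ_pos a).le (by exact_mod_cast h2)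
        linarith
      rw [if_pos h3, one_mul]
  ehi t ht := by
    show PU _ k _ * Th C i (eL i) = Th C i (eL i)
    rw [Th_diag' i (eL i) _ fun a => rfl, PU, Matrix.diagonal_mul_diagonal]
    congr 1
    funext j
    rw [frame_pu, pu_mul_dg]
    congr 1
    funext a v
    rw [hk, h.hξ]
    by_cases hc : (v i, j i) = ((0 : ZMod (N a)), true)
    · have h2 : v i = 0 := congrArg Prod.fst hc
      have h3 : h.μ a * (((v i).valMinAbs : ℤ) : ℝ) ≤ t := by
        rw [h2, ZMod.valMinAbs_zero, Int.cast_zero, mul_zero]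
        exact ht.le
      rw [if_pos h3, one_mul]
    · simp [hc]
  vhi t ht := by
    show PU _ k _ * Th C i (vL i) = Th C i (vL i)
    rw [Th_diag' i (vL i) _ fun a => rfl, PU, Matrix.diagonal_mul_diagonal]
    congr 1
    funext j
    rw [frame_pu, pu_mul_dg]
    refine dg_congr fun r hr => ?_
    have hμ : ∀ᶠ a in C.l, h.μ a < t := h.μ_lim.eventually (gt_mem_nhds ht)
    filter_upwards [hμ] with a ha v hv
    rw [hk, h.hξ]
    by_cases hc : (v i, j i) = ((1 : ZMod (N a)), false)
    · have h2 : v i = 1 := congrArg Prod.fst hc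
      have h3 : (1 : ZMod (N a)).valMinAbs ≤ 1 := by
        by_contra h4
        push Not at h4
        have e2 := (ZMod.valMinAbs_spec (1 : ZMod (N a)) ((1 : ZMod (N a)).valMinAbs)).1 rfl
        have e3 := e2.2
        rw [Set.mem_Ioc] at e3
        have e4 : (1 : ZMod (N a)).valMinAbs = 1 := by
          rw [ZMod.valMinAbs_spec]
          refine ⟨by simp, ?_⟩
          rw [Set.mem_Ioc]
          constructor <;> omega
        omega
      have h4 : h.μ a * (((v i).valMinAbs : ℤ) : ℝ) ≤ t := by
        rw [h2]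
        have h5 : (((1 : ZMod (N a)).valMinAbs : ℤ) : ℝ) ≤ 1 := by exact_mod_cast h3
        calc h.μ a * (((1 : ZMod (N a)).valMinAbs : ℤ) : ℝ) ≤ h.μ a * 1 :=
              mul_le_mul_of_nonneg_left h5 (h.μ_pos a).le
          _ ≤ t := by rw [mul_one]; exact ha.le
      rw [if_pos h4, one_mul]
    · simp [hc]
  hd := Th_hm (dL h i) fun j j' hne a s t => by
    by_contra h0
    have h2 := d1_supp h0
    apply hne
    have e1 : j i = false := h2.1
    have e2 : j' i = true := h2.2.1
    unfold dgi
    rw [e1, e2]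
    simp
  hS := Th_hm (sL h i) fun j j' hne a s t => by
    by_contra h0
    have h2 := s1_supp h0
    apply hne
    have e1 : j i = !(j' i) := h2.1
    unfold dgi
    rw [e1]
    cases j' i <;> simp
  he := Th_hm (eL i) fun j j' hne a s t => by
    show ew (N a) _ _ = 0
    rw [ew, Matrix.diagonal_apply]
    split_ifs with h2 h3
    · exfalso
      apply hne
      have e1 : j i = true := congrArg Prod.snd h3
      unfold dgi
      rw [e1]
      simp
    · rfl
    · rfl
  hv := Th_hm (vL i) fun j j' hne a s t => by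
    show vw (N a) _ _ = 0
    rw [vw, Matrix.diagonal_apply]
    split_ifs with h2 h3
    · exfalso
      apply hne
      have e1 : j i = false := congrArg Prod.snd h3
      unfold dgi
      rw [e1]
      simp
    · rfl
    · rfl
  ha := by
    rw [LA_a]
    refine Th_hm _ fun j j' hne a s t => ?_
    show ((4⁻¹ : ℂ) • (Pw (N a) * star (d1 (N a)) * Pw (N a))) _ _ = 0
    rw [Matrix.smul_apply, mul_Pw, Pw_mul, Matrix.star_apply]
    by_contra h0
    have h1 : star (d1 (N a) (t, j' i) (s, j i)) ≠ 0 := fun h => h0 (by rw [h]; simp)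
    have h2 := d1_supp (star_ne_zero.1 h1)
    apply hne
    have e1 : j' i = false := h2.1
    have e2 : j i = true := h2.2.1
    unfold dgi
    rw [e1, e2]
    simp
  hb := by
    rw [LA_b]
    refine Th_hm _ fun j j' hne a s t => ?_
    show (Pw (N a) * s1 (N a) * Pw (N a)) _ _ = 0
    rw [mul_Pw, Pw_mul]
    by_contra h0
    have h1 : s1 (N a) (s, j i) (t, j' i) ≠ 0 := fun h => h0 (by rw [h]; simp)
    have h2 := s1_supp h1
    apply hne
    have e1 : j i = !(j' i) := h2.1
    unfold dgi
    rw [e1]
    cases j' i <;> simp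
  hc := by
    rw [LA_c]
    refine Th_hm _ fun j j' hne a s t => ?_
    show ((4⁻¹ : ℂ) • (Pw (N a) * d1 (N a) * Pw (N a))) _ _ = 0
    rw [Matrix.smul_apply, mul_Pw, Pw_mul]
    by_contra h0
    have h1 : d1 (N a) (s, j i) (t, j' i) ≠ 0 := fun h => h0 (by rw [h]; simp)
    have h2 := d1_supp h1
    apply hne
    have e1 : j i = false := h2.1
    have e2 : j' i = true := h2.2.1
    unfold dgi
    rw [e1, e2]
    simp


end fields

end

end Crest.Agent.R217.Grid897
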