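import Mathlib
import Crest.Agent.R217.RE6_531
import Crest.Agent.R217.NormC_551
import Crest.Agent.R217.Ind_52
import Crest.Agent.R217.SgPAsy_476
import Crest.Agent.R217.RE4_531
import Crest.Agent.R217.Param_52
import Crest.Agent.R217.LineAsy_897

-- ▼ part R217/NearOne_559
section

/-!
Row 217 (S0336), part C: homotopy idempotents homotopic to `1` or to `0`.

* `sig_near_one` : `e ≃ 1` gives the signature of the tuple itself.
* `sig_near_zero` : `e ≃ 0` gives signature zero.
-/

set_option autoImplicit false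
set_option linter.unusedSectionVars false
set_option linter.unusedVariables false

namespace Crest.Agent.R217.Near559

open Matrix PC473 Obj52 Nat52 Sum52 Sig52 Ind52 RE531

section ring

variable {A : Type*} [Ring A] [StarRing A] {m : ℕ} {z : Tup A} {e a : A}

theorem star_comm (hed : z.d * e = e * z.d) : star e * star z.d = star z.d * star e := by
  have := congrArg star hed
  rwa [star_mul, star_mul] at this

theorem star_e (he : e = 1 + z.d * a + a * z.d) :
    star e = 1 + star a * star z.d + star z.d * star a := by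
  have := congrArg star he
  rwa [star_add, star_add, star_mul, star_mul, star_one] at this

theorem near_f (hz : z.IsPC m) (hed : z.d * e = e * z.d) (he : e = 1 + z.d * a + a * z.d) :
    e * z.S * star e = 1 * z.S * star (1 : A) +
      z.d * (a * z.S * star e - z.S * star a) - (a * z.S * star e - z.S * star a) * star z.d := by
  have hdS : z.d * z.S = -(z.S * star z.d) := eq_neg_of_add_eq_zero_left hz.dS
  have hs := star_comm hed
  have hse := star_e he
  have e1 : z.d * (a * z.S * star e) - a * z.S * star e * star z.d =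
      (z.d * a + a * z.d) * z.S * star e := by
    have e0 : a * z.S * star e * star z.d = -(a * (z.d * z.S) * star e) := by
      rw [mul_assoc (a * z.S), hs, hdS]
      noncomm_ring
    rw [e0]
    noncomm_ring
  have e2 : z.S * star a * star z.d - z.d * (z.S * star a) =
      z.S * (star a * star z.d + star z.d * star a) := by
    rw [← mul_assoc z.d z.S, hdS]
    noncomm_ring
  have e3 : z.d * a + a * z.d = e - 1 := by rw [he]; noncomm_ring
  have e4 : star a * star z.d + star z.d * star a = star e - 1 := by rw [hse]; noncomm_ring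
  rw [star_one, one_mul, mul_one]
  calc e * z.S * star e = z.S + ((e - 1) * z.S * star e + z.S * (star e - 1)) := by noncomm_ring
    _ = z.S + ((z.d * (a * z.S * star e) - a * z.S * star e * star z.d) +
        (z.S * star a * star z.d - z.d * (z.S * star a))) := by rw [e1, e2, e3, e4]
    _ = _ := by noncomm_ring

theorem near_q (hz : z.IsPC m) (hed : z.d * e = e * z.d) (he : e = 1 + z.d * a + a * z.d) :
    z.T = star (1 : A) * (star e * z.T * e) * 1 +
      (star a * z.T * e - z.T * a) * z.d - star z.d * (star a * z.T * e - z.T * a) := by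
  have hTd : z.T * z.d = -(star z.d * z.T) := eq_neg_of_add_eq_zero_left hz.Td
  have hs := star_comm hed
  have hse := star_e he
  have e1 : star a * z.T * e * z.d - star z.d * (star a * z.T * e) =
      -((star a * star z.d + star z.d * star a) * z.T * e) := by
    rw [mul_assoc (star a * z.T), ← hed, ← mul_assoc (star a * z.T) z.d e, mul_assoc (star a) z.T,
      hTd]
    noncomm_ring
  have e2 : star z.d * (z.T * a) - z.T * a * z.d = -(z.T * (z.d * a + a * z.d)) := by
    rw [← mul_assoc (star z.d) z.T, show star z.d * z.T = -(z.T * z.d) by rw [hTd, neg_neg]]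
    noncomm_ring
  have e3 : z.d * a + a * z.d = e - 1 := by rw [he]; noncomm_ring
  have e4 : star a * star z.d + star z.d * star a = star e - 1 := by rw [hse]; noncomm_ring
  rw [star_one, one_mul, mul_one]
  calc z.T = star e * z.T * e + (-((star e - 1) * z.T * e) + -(z.T * (e - 1))) := by noncomm_ring
    _ = star e * z.T * e + ((star a * z.T * e * z.d - star z.d * (star a * z.T * e)) +
        (star z.d * (z.T * a) - z.T * a * z.d)) := by rw [e1, e2, e3, e4]
    _ = _ := by noncomm_ring

theorem zero_f (hz : z.IsPC m) (hed : z.d * e = e * z.d) (he : e = z.d * a + a * z.d) :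
    e * z.S * star e = z.d * (a * z.S * star e) - (a * z.S * star e) * star z.d := by
  have hdS : z.d * z.S = -(z.S * star z.d) := eq_neg_of_add_eq_zero_left hz.dS
  have hs := star_comm hed
  have e0 : a * z.S * star e * star z.d = -(a * (z.d * z.S) * star e) := by
    rw [mul_assoc (a * z.S), hs, hdS]
    noncomm_ring
  have e1 : (z.d * a + a * z.d) * z.S * star e = e * z.S * star e := by rw [← he]
  rw [e0, ← e1]
  noncomm_ring

theorem pow_comm' (x : A) : (-1 : A) ^ m * x = x * (-1 : A) ^ m := by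
  rcases Nat.even_or_odd m with hm | hm
  · rw [hm.neg_one_pow, one_mul, mul_one]
  · rw [hm.neg_one_pow, neg_one_mul, mul_neg_one]

theorem g_star_e (hz : z.IsPC m) (hge : z.g * e = e * z.g) : z.g * star e = star e * z.g := by
  have := congrArg star hge
  rw [star_mul, star_mul, hz.sg] at this
  exact this.symm

theorem g_star_a (hz : z.IsPC m) (hga : z.g * a = -(a * z.g)) :
    z.g * star a = -(star a * z.g) := by
  have := congrArg star hga
  rw [star_mul, star_neg, star_mul, hz.sg] at this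
  rw [this, neg_neg]

theorem near_gk1 (hz : z.IsPC m) (hge : z.g * e = e * z.g) (hga : z.g * a = -(a * z.g)) :
    z.g * (a * z.S * star e) = -((-1 : A) ^ m * (a * z.S * star e * z.g)) := by
  have h1 := g_star_e hz hge
  calc z.g * (a * z.S * star e) = (z.g * a) * z.S * star e := by noncomm_ring
    _ = -(a * (z.g * z.S) * star e) := by rw [hga]; noncomm_ring
    _ = -(a * ((-1) ^ m * (z.S * z.g)) * star e) := by rw [hz.gS]
    _ = -((-1) ^ m * (a * (z.S * (z.g * star e)))) := by
        rw [← mul_assoc a, ← pow_comm']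
        simp only [mul_assoc]
    _ = _ := by rw [h1]; simp only [mul_assoc]

theorem near_gk2 (hz : z.IsPC m) (hga : z.g * a = -(a * z.g)) :
    z.g * (z.S * star a) = -((-1 : A) ^ m * (z.S * star a * z.g)) := by
  have h1 := g_star_a hz hga
  calc z.g * (z.S * star a) = (z.g * z.S) * star a := by rw [mul_assoc]
    _ = (-1) ^ m * (z.S * (z.g * star a)) := by rw [hz.gS]; simp only [mul_assoc]
    _ = _ := by rw [h1]; simp only [mul_assoc, mul_neg]

theorem near_gl1 (hz : z.IsPC m) (hge : z.g * e = e * z.g) (hga : z.g * a = -(a * z.g)) :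
    z.g * (star a * z.T * e) = -((-1 : A) ^ m * (star a * z.T * e * z.g)) := by
  have h1 := g_star_a hz hga
  calc z.g * (star a * z.T * e) = (z.g * star a) * z.T * e := by noncomm_ring
    _ = -(star a * (z.g * z.T) * e) := by rw [h1]; noncomm_ring
    _ = -(star a * ((-1) ^ m * (z.T * z.g)) * e) := by rw [hz.gT]
    _ = -((-1) ^ m * (star a * (z.T * (z.g * e)))) := by
        rw [← mul_assoc (star a), ← pow_comm']
        simp only [mul_assoc]
    _ = _ := by rw [hge]; simp only [mul_assoc]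

theorem near_gl2 (hz : z.IsPC m) (hga : z.g * a = -(a * z.g)) :
    z.g * (z.T * a) = -((-1 : A) ^ m * (z.T * a * z.g)) := by
  calc z.g * (z.T * a) = (z.g * z.T) * a := by rw [mul_assoc]
    _ = (-1) ^ m * (z.T * (z.g * a)) := by rw [hz.gT]; simp only [mul_assoc]
    _ = _ := by rw [hga]; simp only [mul_assoc, mul_neg]

end ring

section mat

variable {κ : Type*} {R0 R1 : Type*} [Ring R0] [StarRing R0] [Algebra ℂ R0] [StarModule ℂ R0]
    [Ring R1] [StarRing R1] [Algebra ℂ R1] [StarModule ℂ R1]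
    {F0 : Frame κ R0} {F1 : Frame κ R1} {G : Type*} [AddCommGroup G] (P : SgP F0 F1 G)
    {J : Type} [Fintype J] [DecidableEq J]
    {S : Set κ} {deg : J → ℤ} {z : Tup (Matrix J J R0)} {e a : Matrix J J R0}

theorem hypR_one {m : ℕ} (hz : z.IsPC m) (hp : z.p = 1) (hed : z.d * e = e * z.d)
    (hge : z.g * e = e * z.g) (he : e = 1 + z.d * a + a * z.d) (hga : z.g * a = -(a * z.g))
    {h0 h : Matrix J J R0} (hx : (RPr.mk z.p z.g z.d z.S z.T h0).IsRP m)
    (hy : (RPr.mk z.p z.g z.d (e * z.S * star e) (star e * z.T * e) h).IsRP m) :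
    HypR m (RPr.mk z.p z.g z.d z.S z.T h0)
      (RPr.mk z.p z.g z.d (e * z.S * star e) (star e * z.T * e) h) 1
      (a * z.S * star e - z.S * star a) (star a * z.T * e - z.T * a) where
  hx := hx
  hy := hy
  pα := by rw [hp, Matrix.one_mul]
  αp := by rw [hp, Matrix.one_mul]
  gα := by rw [Matrix.mul_one, Matrix.one_mul]
  dα := by rw [Matrix.mul_one, Matrix.one_mul]
  hf := near_f hz hed he
  hq := near_q hz hed he
  pk := by rw [hp, Matrix.one_mul]
  kp := by rw [hp, Matrix.mul_one]
  gk := by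
    show z.g * _ = -((-1) ^ m * (_ * z.g))
    rw [mul_sub, sub_mul, mul_sub, near_gk1 hz hge hga, near_gk2 hz hga]
    abel
  pl := by rw [hp, Matrix.one_mul]
  lp := by rw [hp, Matrix.mul_one]
  gl := by
    show z.g * _ = -((-1) ^ m * (_ * z.g))
    rw [mul_sub, sub_mul, mul_sub, near_gl1 hz hge hga, near_gl2 hz hga]
    abel

theorem hm_k {m : ℕ} {a S e : Matrix J J R0} (ha : Hm deg (fun j => deg j + 1) a)
    (hS : Hm deg (fun j => m - deg j) S) (he : Hm deg deg e) :
    Hm deg (fun j => (m : ℤ) + 1 - deg j) (a * S * star e) := by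
  have h1 : HmR (fun j => deg j + 1) (fun j => (m : ℤ) + 1 - deg j) S :=
    HmR.congrc (show HmR deg (fun j => (m : ℤ) - deg j) S from hS) (by intro i j h; omega)
  have h2 : HmR (fun j => (m : ℤ) + 1 - deg j) (fun j => (m : ℤ) + 1 - deg j) (star e) :=
    (HmR.ct (show HmR deg deg e from he)).congrc (by intro i j h; omega)
  exact (HmR.mulc (show HmR deg (fun j => deg j + 1) a from ha) h1).mulc h2

theorem hm_l {m : ℕ} {a T e : Matrix J J R0} (ha : Hm deg (fun j => deg j + 1) a)
    (hT : Hm (fun j => m - deg j) deg T) (he : Hm deg deg e) :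
    Hm (fun j => (m : ℤ) - deg j) (fun j => deg j + 1) (star a * T * e) := by
  have h1 : HmR (fun j => (m : ℤ) - deg j) (fun j => (m : ℤ) + 1 - deg j) (star a) :=
    (HmR.ct (show HmR deg (fun j => deg j + 1) a from ha)).congrc (by intro i j h; omega)
  have h2 : HmR (fun j => (m : ℤ) + 1 - deg j) (fun j => deg j + 1) T :=
    HmR.congrc (show HmR (fun j => (m : ℤ) - deg j) deg T from hT) (by intro i j h; omega)
  have h3 : HmR (fun j => deg j + 1) (fun j => deg j + 1) e :=
    HmR.congrc (show HmR deg deg e from he) (by intro i j h; omega)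
  exact (h1.mulc h2).mulc h3

theorem hm_one : Hm deg deg (1 : Matrix J J R0) := by
  intro i j h
  rw [Matrix.one_apply_ne]
  rintro rfl
  exact h rfl

/-- `e ≃ 1` -/
theorem sig_near_one {l : List (Par κ)} (hl : ∀ b ∈ l, b.Ok F0) (hc : Cov S l)
    (hz : IsOT F0 l.length S deg z) (hp : z.p = 1) (hed : z.d * e = e * z.d)
    (hge : z.g * e = e * z.g) (he : e = 1 + z.d * a + a * z.d) (hga : z.g * a = -(a * z.g))
    (hde : Hm deg deg e) (hda : Hm deg (fun j => deg j + 1) a) {h : Matrix J J R0}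
    (hy : IsOb F0 l.length S deg
      (RPr.mk z.p z.g z.d (e * z.S * star e) (star e * z.T * e) h)) :
    sig F0 P.L l (ob deg (RPr.mk z.p z.g z.d (e * z.S * star e) (star e * z.T * e) h)) =
      sig F0 P.L l (ob deg (Norm551.rpT z)) := by
  have hx := Norm551.isOb_rpT hz
  refine (sig_re P hl hx hy hc (hypR_one hz.pc hp hed hge he hga hx.rp hy.rp) ?_).symm
  refine ⟨hm_one, ?_, ?_⟩
  · have h1 := hm_k hda hz.hS hde
    have h2 : Hm deg (fun j => (l.length : ℤ) + 1 - deg j) (z.S * star a) := by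
      have h3 : HmR (fun j => (l.length : ℤ) - deg j) (fun j => (l.length : ℤ) + 1 - deg j)
          (star a) :=
        (HmR.ct (show HmR deg (fun j => deg j + 1) a from hda)).congrc (by intro i j h; omega)
      exact HmR.mulc (show HmR deg (fun j => (l.length : ℤ) - deg j) z.S from hz.hS) h3
    exact HmR.sub (show HmR deg (fun j => (l.length : ℤ) + 1 - deg j) _ from h1) h2
  · have h1 := hm_l hda hz.hT hde
    have h2 : Hm (fun j => (l.length : ℤ) - deg j) (fun j => deg j + 1) (z.T * a) :=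
      HmR.mulc (show HmR (fun j => (l.length : ℤ) - deg j) deg z.T from hz.hT)
        (show HmR deg (fun j => deg j + 1) a from hda)
    exact HmR.sub (show HmR (fun j => (l.length : ℤ) - deg j) (fun j => deg j + 1) _ from h1) h2

/-- `e ≃ 0` -/
theorem sig_near_zero {l : List (Par κ)} (hl : ∀ b ∈ l, b.Ok F0) (hc : Cov S l)
    (hz : IsOT F0 l.length S deg z) (hp : z.p = 1) (hed : z.d * e = e * z.d)
    (hge : z.g * e = e * z.g) (he : e = z.d * a + a * z.d) (hga : z.g * a = -(a * z.g))
    (hde : Hm deg deg e) (hda : Hm deg (fun j => deg j + 1) a) {h : Matrix J J R0}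
    (hy : IsOb F0 l.length S deg
      (RPr.mk z.p z.g z.d (e * z.S * star e) (star e * z.T * e) h)) :
    sig F0 P.L l (ob deg (RPr.mk z.p z.g z.d (e * z.S * star e) (star e * z.T * e) h)) = 0 := by
  refine sig_null_f P hl hy hc (k := a * z.S * star e) (zero_f hz.pc hed he) ?_ ?_
    (near_gk1 hz.pc hge hga) (hm_k hda hz.hS hde)
  · show z.p * _ = _
    rw [hp, Matrix.one_mul]
  · show _ * z.p = _
    rw [hp, Matrix.mul_one]

end mat

end Crest.Agent.R217.Near559
end

-- ▼ part R217/Res_52
section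

/-!
Row 217 (S0336), part C, module M4: restriction of signatures along `C.Le C'` (L2).
-/

set_option autoImplicit false
set_option linter.unusedSectionVars false

open Filter Topology Matrix

namespace Crest.Agent.R217.Res52

open PC473 Obj52 Nat52 Sum52 TForm555 LocF555 Sig52 Ind52 Asym476

section frm

variable {κ : Type*} {R : Type*} [Ring R] [StarRing R] [Algebra ℂ R] [StarModule ℂ R]
  {J : Type} [Fintype J] [DecidableEq J] {F : Frame κ R} {S : Set κ} {deg : J → ℤ}
  {x : RPr (Matrix J J R)}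

/-- naturality of the level zero form -/
theorem frm_map {R' : Type*} [Ring R'] [StarRing R'] [Algebra ℂ R'] [StarModule ℂ R']
    (ev : R →⋆ₙₐ[ℂ] R') (x : RPr (Matrix J J R)) :
    frm (x.map (mapH J ev)) = (frm x).map ev := by
  unfold frm
  rw [(compat_map ev).dblT, ← tform_smap (shom (mapH (Fin 2 × J) ev))]
  rfl

theorem frm_lo (h : IsOb F 0 S deg x) (k : κ) (hk : k ∈ S) : BdLo F k (frm x) := by
  rw [← frmP_mul h]
  exact (frmP_lo h k hk).mulc

theorem frm_hi (h : IsOb F 0 S deg x) (k : κ) (hk : k ∈ S) : BdHi F k (frm x) := by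
  rw [← frmP_mul h]
  obtain ⟨t, h1, h2⟩ := frmP_hi h k hk
  exact ⟨t, h1, by rw [← Matrix.mul_assoc, h2]⟩

end frm

section res

variable {A : Type} {B : A → Type} [∀ a, Fintype (B a)] [∀ a, DecidableEq (B a)]
  {κ : Type} [Fintype κ] {C C' : Ctl B}

/-- restriction of coefficients as a non-unital homomorphism -/
noncomputable abbrev chgN (h : C.Le C') : Asy C ℂ →⋆ₙₐ[ℂ] Asy C' ℂ :=
  (chg ℂ h).toNonUnitalStarAlgHom

/-- restriction of objects -/
theorem isOb_res (h : C.Le C') {dir : κ → C.Φ} {dir' : κ → C'.Φ}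
    (hdir : ∀ k a s, C.u (dir k) a s = C'.u (dir' k) a s) {lo hi : κ → ℝ}
    {lt : ∀ k, lo k < hi k} {m : ℕ} {S : Set κ} {J : Type} [Fintype J] [DecidableEq J]
    {deg : J → ℤ} {x : RPr (Matrix J J (Asy C ℂ))}
    (hx : IsOb (frame C ℂ dir lo hi lt) m S deg x) :
    IsOb (frame C' ℂ dir' lo hi lt) m S deg (x.map (mapH J (chgN h))) :=
  hx.map (fun k c => chg_pu h (dir k) (dir' k) (hdir k) c) rfl rfl

/-- signatures are compatible with restriction -/
theorem sig_res (h : C.Le C') {dir : κ → C.Φ} {dir' : κ → C'.Φ}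
    (hdir : ∀ k a s, C.u (dir k) a s = C'.u (dir' k) a s) {lo hi : κ → ℝ}
    {lt : ∀ k, lo k < hi k} (hC : Cpt C dir lo hi) (hCC : CptTo C C' dir lo hi)
    {l : List (Par κ)} (hl : ∀ a ∈ l, a.Ok (frame C ℂ dir lo hi lt)) {S : Set κ}
    {X : Obj (Asy C ℂ)} (hX : IsOb (frame C ℂ dir lo hi lt) l.length S X.deg X.x)
    (hc : Cov S l) (v : A → ℤ)
    (hv : sig (frame C ℂ dir lo hi lt) (sgLaws C) l X = (v : Germ C.l ℤ)) :
    sig (frame C' ℂ dir' lo hi lt) (sgLaws C') l (mapO (chgN h) X) = (v : Germ C'.l ℤ) := by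
  have hpu : ∀ k c, chgN h ((frame C ℂ dir lo hi lt).pu k c)
      = (frame C' ℂ dir' lo hi lt).pu k c := fun k c => chg_pu h (dir k) (dir' k) (hdir k) c
  have h1 := red_isOb hl X hX hc
  unfold sig
  rw [red_map hpu]
  show sg (frm ((red (frame C ℂ dir lo hi lt) l X).x.map (mapH _ (chgN h)))) = _
  rw [frm_map]
  exact sg_chg_of_bd h hC hCC (frm_herm h1) (fun k => frm_lo h1 k (Set.mem_univ k))
    (fun k => frm_hi h1 k (Set.mem_univ k)) v hv

end res

end Crest.Agent.R217.Res52
end

-- ▼ part R217/NormD_551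
section

/-!
Row 217 (S0336), part C1, piece M5-N : iterated products with lines.
-/

set_option autoImplicit false
set_option linter.unusedSectionVars false

namespace Crest.Agent.R217.Norm551

open PC473 Matrix Obj52 RE531

section edge

variable {A : Type*} [Ring A] [StarRing A] [Algebra ℂ A] [StarModule ℂ A]

/-- the unit tuple of a projection -/
def unitT (E : A) : Tup A := ⟨E, E, 0, E, E, 0⟩

theorem edgeA_unitT (e E : A) : edgeA e (unitT E) = unitT (e * E) := by
  simp [edgeA, unitT]

/-- commutation of a projection with the entries of a tuple -/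
structure ComE (e : A) (y : Tup A) : Prop where
  p : e * y.p = y.p * e
  g : e * y.g = y.g * e
  d : e * y.d = y.d * e
  S : e * y.S = y.S * e
  T : e * y.T = y.T * e
  H : e * y.H = y.H * e

theorem key_e {e a b : A} (ee : e * e = e) (h : e * a = a * e) :
    e * a * (e * b) = e * (a * b) := by
  rw [h, mul_assoc, ← mul_assoc e e, ee, ← mul_assoc, ← h, mul_assoc]

/-- restriction to a projection commutes with the product with a line -/
theorem edgeA_prodA (m : ℕ) {e : A} {x : Line A} {y : Tup A} (ee : e * e = e)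
    (hg : e * x.g = x.g * e) (hd : e * x.d = x.d * e) (hsd : e * star x.d = star x.d * e)
    (hS : e * x.S = x.S * e) (hy : ComE e y) :
    edgeA e (prodA m x y) = prodA m x (edgeA e y) := by
  have c : ∀ {a b : A}, e * a = a * e → e * (a * b) = a * (e * b) := fun h => by
    rw [← mul_assoc, h, mul_assoc]
  have k : ∀ {a b : A}, e * a = a * e → e * a * (e * b) = e * (a * b) := fun h => key_e ee h
  ext1 <;> simp only [edgeA, prodA, MM, mul_add, mul_neg, mul_smul_comm]
  · rw [c hg]
  · rw [c hd, c hg]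
  · rw [c hS, k hy.g]
  · rw [c hS, k hy.T]
  · rw [c hsd, c hsd, c hsd, c hg, k hy.d, k hy.H]


theorem comE_prodA (m : ℕ) {e : A} {x : Line A} {y : Tup A}
    (hg : e * x.g = x.g * e) (hd : e * x.d = x.d * e) (hsd : e * star x.d = star x.d * e)
    (hS : e * x.S = x.S * e) (hy : ComE e y) : ComE e (prodA m x y) := by
  have c : ∀ {a b : A}, e * a = a * e → e * b = b * e → e * (a * b) = a * b * e :=
    fun ha hb => by rw [← mul_assoc, ha, mul_assoc, hb, mul_assoc]
  have ca : ∀ {a b : A}, e * a = a * e → e * b = b * e → e * (a + b) = (a + b) * e :=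
    fun ha hb => by rw [mul_add, add_mul, ha, hb]
  have cs : ∀ {a : A} (z : ℂ), e * a = a * e → e * (z • a) = (z • a) * e :=
    fun z ha => by rw [mul_smul_comm, smul_mul_assoc, ha]
  refine ⟨hy.p, c hg hy.g, ca (c hd hy.p) (c hg hy.d), cs _ (c hS (c hy.g hy.S)),
    cs _ (c hS (c hy.T hy.g)), ca ?_ (c hg hy.H)⟩
  have h1 : e * MM y = MM y * e := ca (ca hy.p (c hy.d hy.H)) (c hy.H hy.d)
  have h2 := cs (4⁻¹ : ℂ) (c hsd h1)
  rw [mul_neg, h2, neg_mul]

theorem comE_unitT {e E : A} (h : e * E = E * e) : ComE e (unitT E) :=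
  ⟨h, h, by simp [unitT], h, h, by simp [unitT]⟩

/-- the iterated product -/
noncomputable def gl (y : Tup A) : List (Line A) → Tup A
  | [] => y
  | x :: L => prodA L.length x (gl y L)

theorem comE_gl {e : A} {y : Tup A} {L : List (Line A)}
    (hL : ∀ x ∈ L, x.set ⊆ (StarSubalgebra.centralizer ℂ ({e} : Set A) : Set A))
    (hy : ComE e y) : ComE e (gl y L) := by
  induction L with
  | nil => exact hy
  | cons x L ih =>
    have h := hL x List.mem_cons_self
    have hc : ∀ z ∈ x.set, e * z = z * e ∧ star e * z = z * star e := fun z hz =>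
      (StarSubalgebra.mem_centralizer_iff ℂ).1 (h hz) e rfl
    have hs : ∀ z ∈ x.set, e * star z = star z * e := fun z hz =>
      ((StarSubalgebra.mem_centralizer_iff ℂ).1 (star_mem (h hz)) e rfl).1
    refine comE_prodA _ ?_ ?_ ?_ ?_ (ih fun x hx => hL x (List.mem_cons_of_mem _ hx))
    · exact (hc _ (by simp [Line.set])).1
    · exact (hc _ (by simp [Line.set])).1
    · exact hs _ (by simp [Line.set])
    · exact (hc _ (by simp [Line.set])).1

theorem edgeA_gl {e E : A} {L : List (Line A)} (ee : e * e = e) (he : e * E = E * e)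
    (hL : ∀ x ∈ L, x.set ⊆ (StarSubalgebra.centralizer ℂ ({e} : Set A) : Set A)) :
    edgeA e (gl (unitT E) L) = gl (unitT (e * E)) L := by
  induction L with
  | nil => exact edgeA_unitT e E
  | cons x L ih =>
    have h := hL x List.mem_cons_self
    have hc : ∀ z ∈ x.set, e * z = z * e ∧ star e * z = z * star e := fun z hz =>
      (StarSubalgebra.mem_centralizer_iff ℂ).1 (h hz) e rfl
    have hs : ∀ z ∈ x.set, e * star z = star z * e := fun z hz =>
      ((StarSubalgebra.mem_centralizer_iff ℂ).1 (star_mem (h hz)) e rfl).1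
    have hL' := fun x hx => hL x (List.mem_cons_of_mem _ hx)
    show edgeA e (prodA L.length x (gl (unitT E) L)) = prodA L.length x (gl (unitT (e * E)) L)
    rw [edgeA_prodA L.length ee (hc _ (by simp [Line.set])).1 (hc _ (by simp [Line.set])).1
      (hs _ (by simp [Line.set])) (hc _ (by simp [Line.set])).1
      (comE_gl hL' (comE_unitT he)), ih hL']

theorem comT_gl {x : Line A} {y : Tup A} {L : List (Line A)}
    (hL : ∀ x' ∈ L, x'.set ⊆ (StarSubalgebra.centralizer ℂ x.set : Set A))
    (hy : ComT x y) : ComT x (gl y L) := by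
  induction L with
  | nil => exact hy
  | cons x' L ih =>
    have h := hL x' List.mem_cons_self
    have ih' := ih fun x hx => hL x (List.mem_cons_of_mem _ hx)
    have hg : x'.g ∈ StarSubalgebra.centralizer ℂ x.set := h (by simp [Line.set])
    have hd : x'.d ∈ StarSubalgebra.centralizer ℂ x.set := h (by simp [Line.set])
    have hS : x'.S ∈ StarSubalgebra.centralizer ℂ x.set := h (by simp [Line.set])
    refine ⟨ih'.p, mul_mem hg ih'.g, add_mem (mul_mem hd ih'.p) (mul_mem hg ih'.d),
      SMulMemClass.smul_mem _ (mul_mem hS (mul_mem ih'.g ih'.S)),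
      SMulMemClass.smul_mem _ (mul_mem hS (mul_mem ih'.T ih'.g)),
      add_mem (neg_mem (SMulMemClass.smul_mem _ (mul_mem (star_mem hd) ?_))) (mul_mem hg ih'.H)⟩
    exact add_mem (add_mem ih'.p (mul_mem ih'.d ih'.H)) (mul_mem ih'.H ih'.d)

theorem comT_unitT {x : Line A} {E : A} (h : E ∈ StarSubalgebra.centralizer ℂ x.set) :
    ComT x (unitT E) := ⟨h, h, zero_mem _, h, h, zero_mem _⟩

theorem unitT_isPC {E : A} (h : E * E = E) (hs : star E = E) : (unitT E).IsPC 0 := by
  constructor <;> simp [unitT, h, hs]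

end edge

section frame

variable {κ : Type*} {R : Type*} [Ring R] [StarRing R] [Algebra ℂ R] [StarModule ℂ R]
variable {J : Type*} [Fintype J] [DecidableEq J]

/-- a line with its direction and degree function -/
structure LD (κ : Type*) (J R : Type*) where
  k : κ
  dg : J → ℤ
  X : Line (Matrix J J R)

/-- the degree function of the product -/
def dgl (L : List (LD κ J R)) : J → ℤ :=
  match L with
  | [] => fun _ => 0
  | a :: L => fun j => a.dg j + dgl L j

/-- compatibility of two lines -/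
structure Cmp (a b : LD κ J R) : Prop where
  ab : Pres b.dg a.X
  ba : Pres a.dg b.X
  com : b.X.set ⊆ (StarSubalgebra.centralizer ℂ a.X.set : Set (Matrix J J R))

variable {F : Frame κ R} {m : ℕ} {S : Set κ} {L : List (LD κ J R)} {a : LD κ J R}
  {y : Tup (Matrix J J R)} {E : Matrix J J R}

theorem pres_dgl (h : ∀ b ∈ L, Pres b.dg a.X) : Pres (dgl L) a.X := by
  induction L with
  | nil => constructor <;> exact fun i j h => absurd rfl h
  | cons b L ih =>
    have h1 := h b List.mem_cons_self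
    have h2 := ih fun b hb => h b (List.mem_cons_of_mem _ hb)
    exact ⟨Hm.both h1.hd h2.hd, Hm.both h1.hS h2.hS, Hm.both h1.ha h2.ha, Hm.both h1.hb h2.hb,
      Hm.both h1.hc h2.hc⟩

theorem presT_prodA {dx dy : J → ℤ} {x : Line (Matrix J J R)} (hg : DgC F x.g)
    (hx : Pres dx x) (hy : PresT dx y) (hyp : DgC F y.p) (hyg : DgC F y.g) :
    PresT dx (prodA m x y) := by
  have kg : Hm dx dx x.g := hg.hmc fun _ => rfl
  have kp : Hm dx dx y.p := hyp.hmc fun _ => rfl
  have kyg : Hm dx dx y.g := hyg.hmc fun _ => rfl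
  constructor
  · exact (hx.hd.mulc kp).addc (kg.mulc hy.hd)
  · exact (hx.hS.mulc (kyg.mulc hy.hS)).smulCc _
  · exact (hx.hS.mulc (hy.hT.mulc kyg)).smulCc _
  · refine Hm.addc (Hm.negc (Hm.smulCc (hx.hd.starc.mulc ?_) _)) (kg.mulc hy.hH)
    exact (kp.addc (hy.hd.mulc hy.hH)).addc (hy.hH.mulc hy.hd)

theorem unitT_isOT (hE : E * E = E) (hs : star E = E) (hD : DgC F E)
    (hlo : ∀ k ∈ S, BdLo F k E) (hhi : ∀ k ∈ S, BdHi F k E) :
    IsOT F 0 S (fun _ => 0) (unitT E) where
  pc := unitT_isPC hE hs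
  pd := hD
  gd := hD
  hd := Hm.zeroc
  hS := hD.hmc fun _ => rfl
  hT := hD.hmc fun _ => rfl
  hH := Hm.zeroc
  lo := hlo
  hi := hhi

theorem presT_unitT (dx : J → ℤ) (hD : DgC F E) : PresT dx (unitT E) :=
  ⟨Hm.zeroc, hD.hmc fun _ => rfl, hD.hmc fun _ => rfl, Hm.zeroc⟩

/-- a list of compatible lines -/
structure Good (F : Frame κ R) (L : List (LD κ J R)) : Prop where
  line : ∀ a ∈ L, LineF F a.k a.dg a.X
  cmp : L.Pairwise Cmp

theorem Good.tail (h : Good F (a :: L)) : Good F L :=
  ⟨fun b hb => h.line b (List.mem_cons_of_mem _ hb), (List.pairwise_cons.1 h.cmp).2⟩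

/-- hypotheses on the base projection -/
structure Base (F : Frame κ R) (S : Set κ) (L : List (LD κ J R)) (E : Matrix J J R) : Prop where
  EE : E * E = E
  sE : star E = E
  ED : DgC F E
  lo : ∀ k ∈ S, BdLo F k E
  hi : ∀ k ∈ S, BdHi F k E
  com : ∀ a ∈ L, E ∈ StarSubalgebra.centralizer ℂ a.X.set

/-- the product tuple -/
noncomputable def glL (E : Matrix J J R) (L : List (LD κ J R)) : Tup (Matrix J J R) :=
  gl (unitT E) (L.map LD.X)

theorem glL_cons : glL E (a :: L) = prodA L.length a.X (glL E L) := by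
  simp [glL, gl]


/-- everything about the product tuple -/
structure Tot (F : Frame κ R) (S : Set κ) (L : List (LD κ J R)) (E : Matrix J J R) : Prop where
  ot : IsOT F L.length S (dgl L) (glL E L)
  coh : (glL E L).S * star (glL E L).H + (glL E L).H * (glL E L).S = 0

theorem comT_glL (h : ∀ b ∈ L, b.X.set ⊆ (StarSubalgebra.centralizer ℂ a.X.set : Set _))
    (hE : E ∈ StarSubalgebra.centralizer ℂ a.X.set) : ComT a.X (glL E L) := by
  refine comT_gl ?_ (comT_unitT hE)
  intro x hx
  obtain ⟨b, hb, rfl⟩ := List.mem_map.1 hx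
  exact h b hb

theorem presT_glL (hg : Good F L) (hb : Base F S L E) (ht : ∀ L', L' <:+ L → Tot F S L' E)
    {dx : J → ℤ} (h : ∀ b ∈ L, Pres dx b.X) : PresT dx (glL E L) := by
  induction L with
  | nil => exact presT_unitT dx hb.ED
  | cons a L ih =>
    rw [glL_cons]
    have h1 := ht L (List.suffix_cons _ _)
    refine presT_prodA (F := F) (dy := dx) (hg.line a List.mem_cons_self).gD
      (h a List.mem_cons_self)
      (ih hg.tail ⟨hb.EE, hb.sE, hb.ED, hb.lo, hb.hi, fun b hb' =>
        hb.com b (List.mem_cons_of_mem _ hb')⟩ (fun L' hL' => ht L' (hL'.trans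
          (List.suffix_cons _ _))) fun b hb => h b (List.mem_cons_of_mem _ hb)) h1.ot.pd h1.ot.gd

theorem Base.tail (hb : Base F S (a :: L) E) : Base F S L E :=
  ⟨hb.EE, hb.sE, hb.ED, hb.lo, hb.hi, fun b hb' => hb.com b (List.mem_cons_of_mem _ hb')⟩

theorem tot (hg : Good F L) (hb : Base F S L E) : ∀ L', L' <:+ L → Tot F S L' E := by
  induction L with
  | nil =>
    intro L' hL'
    rw [List.suffix_nil.1 hL']
    refine ⟨unitT_isOT hb.EE hb.sE hb.ED hb.lo hb.hi, ?_⟩
    simp [glL, gl, unitT]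
  | cons a L ih =>
    intro L' hL'
    have ih' := ih hg.tail hb.tail
    rcases List.suffix_cons_iff.1 hL' with rfl | h
    · have h1 := ih' L List.suffix_rfl
      have hcm := (List.pairwise_cons.1 hg.cmp).1
      have hla := hg.line a List.mem_cons_self
      have hc : ComT a.X (glL E L) :=
        comT_glL (fun b hb' => (hcm b hb').com) (hb.com a List.mem_cons_self)
      have hP : PresT a.dg (glL E L) :=
        presT_glL hg.tail hb.tail ih' fun b hb' => (hcm b hb').ba
      refine ⟨?_, ?_⟩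
      · rw [glL_cons]
        exact isOT_prodA hla (pres_dgl fun b hb' => (hcm b hb').ab) hc h1.ot hP
      · rw [glL_cons]
        exact prodA_coh hc hla.is h1.ot.pc h1.coh
    · exact ih' L' h

end frame

end Crest.Agent.R217.Norm551
private theorem rz_650ea82627 : type_of% @_root_.Crest.Agent.R217.Norm551.dgl.eq_def := @_root_.Crest.Agent.R217.Norm551.dgl.eq_def -- L152
private theorem rz_5fcba734b6 : type_of% @_root_.Crest.Agent.R217.Norm551.dgl.eq_1 := @_root_.Crest.Agent.R217.Norm551.dgl.eq_1 -- L152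
private theorem rz_aabdc5aa08 : type_of% @_root_.Crest.Agent.R217.Norm551.gl.eq_def := @_root_.Crest.Agent.R217.Norm551.gl.eq_def -- L77
private theorem rz_a5f7790a19 : type_of% @_root_.Crest.Agent.R217.Norm551.gl.eq_1 := @_root_.Crest.Agent.R217.Norm551.gl.eq_1 -- L77
end

-- ▼ part R217/NormE_551
section

/-!
Row 217 (S0336), part C1, piece M5-N : the normalisation induction.
-/

set_option autoImplicit false
set_option linter.unusedSectionVars false

namespace Crest.Agent.R217.Norm551

open PC473 Matrix Obj52 RE531 Sig52 Ind52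

section main

variable {κ : Type*} {R0 R1 : Type*} [Ring R0] [StarRing R0] [Algebra ℂ R0] [StarModule ℂ R0]
    [Ring R1] [StarRing R1] [Algebra ℂ R1] [StarModule ℂ R1]
    {F0 : Frame κ R0} {F1 : Frame κ R1} {G : Type*} [AddCommGroup G] (P : SgP F0 F1 G)

/-- independence of the cut -/
def CutInd : Prop :=
  ∀ {J : Type} [Fintype J] [DecidableEq J] {a : Par κ} {l : List (Par κ)},
    (∀ b ∈ a :: l, b.Ok F0) → ∀ {S : Set κ} {deg : J → ℤ} {z : Tup (Matrix J J R0)},
    IsOT F0 (l.length + 1) S deg z → Cov S (a :: l) → ∀ {Pw : Matrix J J R0}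
    {Gw Qw : Matrix (Fin 2) (Fin 2) (Matrix J J R0)},
    Adm F0 a.k l.length deg z Pw Gw Qw →
    sig F0 P.L l (ob (degB l.length deg) (cutT F0 a l.length deg z))
      = sig F0 P.L l (ob (degB l.length deg) (cutR l.length z Pw Gw Qw))

/-- the double of an honest object -/
def Two : Prop :=
  ∀ {J : Type} [Fintype J] [DecidableEq J] {a : Par κ} {l : List (Par κ)},
    (∀ b ∈ a :: l, b.Ok F0) → ∀ {S : Set κ} {deg : J → ℤ} {z : Tup (Matrix J J R0)},
    IsOT F0 (l.length + 1) S deg z → Cov S (a :: l) →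
    sig F0 P.L (a :: l) (ob deg (rpT z))
      = 2 • sig F0 P.L l (ob (degB l.length deg) (cutT F0 a l.length deg z))

/-- lemma RE -/
def Re : Prop :=
  ∀ {J J' : Type} [Fintype J] [DecidableEq J] [Fintype J'] [DecidableEq J'] {l : List (Par κ)},
    (∀ b ∈ l, b.Ok F0) → ∀ {S : Set κ} {deg : J → ℤ} {deg' : J' → ℤ}
    {x : RPr (Matrix J J R0)} {y : RPr (Matrix J' J' R0)} {α : Matrix J' J R0},
    IsOb F0 l.length S deg x → IsOb F0 l.length S deg' y → Cov S l →
    HypR l.length x y α 0 0 → HmR deg' deg α →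
    sig F0 P.L l (ob deg x) = sig F0 P.L l (ob deg' y)

variable {J : Type} [Fintype J] [DecidableEq J]

/-- the product of the edge projections -/
noncomputable def prodE (L : List (LD κ J R0)) (E : Matrix J J R0) : Matrix J J R0 :=
  match L with
  | [] => E
  | a :: L => prodE L (a.X.e * E)

theorem cmp_e {a b : LD κ J R0} (h : Cmp a b) :
    b.X.set ⊆ (StarSubalgebra.centralizer ℂ ({a.X.e} : Set (Matrix J J R0)) : Set _) := by
  intro z hz
  have h1 := (StarSubalgebra.mem_centralizer_iff ℂ).1 (h.com hz) a.X.e (by simp [Line.set])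
  refine (StarSubalgebra.mem_centralizer_iff ℂ).2 fun w hw => ?_
  rw [Set.mem_singleton_iff.1 hw]
  exact h1

theorem base_step {S : Set κ} {L : List (LD κ J R0)} {a : LD κ J R0} {E : Matrix J J R0}
    (hg : Good F0 (a :: L)) (hb : Base F0 S (a :: L) E) :
    Base F0 (insert a.k S) L (a.X.e * E) := by
  have hla := hg.line a List.mem_cons_self
  have hcm := (List.pairwise_cons.1 hg.cmp).1
  have hcE : a.X.e * E = E * a.X.e :=
    ((StarSubalgebra.mem_centralizer_iff ℂ).1 (hb.com a List.mem_cons_self) a.X.e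
      (by simp [Line.set])).1
  have hc : ComT a.X (unitT E) := comT_unitT (hb.com a List.mem_cons_self)
  have h1 := isOT_edgeA hla hc (unitT_isOT hb.EE hb.sE hb.ED hb.lo hb.hi)
  rw [edgeA_unitT] at h1
  refine ⟨h1.pc.pp, h1.pc.sp, h1.pd, h1.lo, h1.hi, fun b hb' => ?_⟩
  have h2 := hb.com b (List.mem_cons_of_mem _ hb')
  refine mul_mem ?_ h2
  refine (StarSubalgebra.mem_centralizer_iff ℂ).2 fun z hz => ?_
  have h3 := (StarSubalgebra.mem_centralizer_iff ℂ).1 ((hcm b hb').com hz) a.X.e
    (by simp [Line.set])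
  refine ⟨h3.1.symm, ?_⟩
  have h4 := congrArg star h3.1
  rw [star_mul, star_mul, hla.is.se] at h4
  exact h4

/-- the normalisation induction -/
theorem norm_ind (hI : CutInd P) (h2 : Two P) (hRe : Re P) {l : List (Par κ)}
    (hl : ∀ a ∈ l, a.Ok F0) {S : Set κ} {L : List (LD κ J R0)} {E : Matrix J J R0}
    (hk : l.map Par.k = L.map LD.k) (hc : Cov S l) (hg : Good F0 L) (hb : Base F0 S L E) :
    sig F0 P.L l (ob (dgl L) (rpT (glL E L)))
      = (2 ^ L.length) • sig F0 P.L [] (ob (fun _ => 0) (rpT (unitT (prodE L E)))) := by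
  induction l generalizing S L E with
  | nil =>
    cases L with
    | nil => simp [prodE, glL, gl, dgl]
    | cons a L => simp at hk
  | cons a l ih =>
    cases L with
    | nil => simp at hk
    | cons b L =>
      simp only [List.map_cons, List.cons.injEq] at hk
      obtain ⟨hk1, hk2⟩ := hk
      have hlen : l.length = L.length := by
        have := congrArg List.length hk2
        simpa using this
      have hl' : ∀ b ∈ l, b.Ok F0 := fun b hb => hl b (List.mem_cons_of_mem _ hb)
      have hla := hg.line b List.mem_cons_self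
      have hcm := (List.pairwise_cons.1 hg.cmp).1
      have ht := tot hg.tail hb.tail L List.suffix_rfl
      have htt := tot hg hb _ List.suffix_rfl
      have hcT : ComT b.X (glL E L) :=
        comT_glL (fun b hb' => (hcm b hb').com) (hb.com b List.mem_cons_self)
      have hP : PresT b.dg (glL E L) :=
        presT_glL hg.tail hb.tail (tot hg.tail hb.tail) fun b hb' => (hcm b hb').ba
      have hPr : Pres (dgl L) b.X := pres_dgl fun b hb' => (hcm b hb').ab
      have hot : IsOT F0 (l.length + 1) S (dgl (b :: L)) (glL E (b :: L)) := by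
        have := htt.ot
        rwa [List.length_cons, ← hlen] at this
      have hy : IsOT F0 l.length S (dgl L) (glL E L) := by rw [hlen]; exact ht.ot
      have hadm := adm hla hPr hcT hy hP ht.coh
      have hcut := isOT_edgeA hla hcT hy
      have hz : prodA l.length b.X (glL E L) = glL E (b :: L) := by rw [glL_cons, hlen]
      have hbs := base_step hg hb
      rw [h2 hl hot hc]
      have e1 : sig F0 P.L l (ob (degB l.length (dgl (b :: L)))
          (cutT F0 a l.length (dgl (b :: L)) (glL E (b :: L))))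
          = sig F0 P.L l (ob (degB l.length (dgl (b :: L)))
            (cutR l.length (glL E (b :: L)) (b.X.P * (glL E L).p) (Lc l.length hcT) (Qc hcT))) := by
        refine hI hl hot hc ?_
        rw [hk1, ← hz]
        exact hadm
      have e2 : sig F0 P.L l (ob (dgl L) (rpT (edgeA b.X.e (glL E L))))
          = sig F0 P.L l (ob (degB l.length (dgl (b :: L)))
            (cutR l.length (glL E (b :: L)) (b.X.P * (glL E L).p) (Lc l.length hcT) (Qc hcT))) := by
        refine hRe (S := insert b.k S) hl' (isOb_rpT hcut) ?_ ?_ ?_ (hmR_alp hla hPr hcT hy)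
        · rw [← hz]
          refine Cut1x473.T2 ?_ hadm
          rw [hz]; exact hot
        · rw [← hk1]; exact hc.tail
        · rw [← hz]
          exact hypR hla.is hcT hy.pc ht.coh hcut.pc
      have e3 : edgeA b.X.e (glL E L) = glL (b.X.e * E) L := by
        unfold glL
        refine edgeA_gl hla.is.ee ?_ ?_
        · exact ((StarSubalgebra.mem_centralizer_iff ℂ).1 (hb.com b List.mem_cons_self) b.X.e
            (by simp [Line.set])).1
        · intro x hx
          obtain ⟨b', hb', rfl⟩ := List.mem_map.1 hx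
          exact cmp_e (hcm b' hb')
      rw [e1, ← e2, e3, ih hl' (S := insert b.k S) hk2 (by rw [← hk1]; exact hc.tail) hg.tail hbs]
      rw [smul_smul, List.length_cons, pow_succ, mul_comm]
      rfl

end main

end Crest.Agent.R217.Norm551
private theorem rz_50ac062591 : type_of% @_root_.Crest.Agent.R217.Norm551.prodE.eq_def := @_root_.Crest.Agent.R217.Norm551.prodE.eq_def -- L52
private theorem rz_907962da34 : type_of% @_root_.Crest.Agent.R217.Norm551.prodE.eq_1 := @_root_.Crest.Agent.R217.Norm551.prodE.eq_1 -- L52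
end

-- ▼ part R217/NormF_551
section

/-!
Row 217 (S0336), part C1, piece M5-N : the base of the normalisation: a single projection.
-/

set_option autoImplicit false
set_option linter.unusedSectionVars false

namespace Crest.Agent.R217.Norm551

open PC473 Matrix Obj52 RE531 Sig52 Ind52 Sum52 Nat52 TForm555 LocF555

section base

variable {κ : Type*} {R0 R1 : Type*} [Ring R0] [StarRing R0] [Algebra ℂ R0] [StarModule ℂ R0]
    [Ring R1] [StarRing R1] [Algebra ℂ R1] [StarModule ℂ R1]
    {F0 : Frame κ R0} {F1 : Frame κ R1} {G : Type*} [AddCommGroup G] (P : SgP F0 F1 G)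
    {J : Type} [Fintype J] [DecidableEq J]

theorem sg_sm {a b : Matrix J J R0} (oa : P.L.ok a) (ob : P.L.ok b) (ha : aᴴ = a) (hb : bᴴ = b) :
    P.L.sg (sm a b) = P.L.sg a + P.L.sg b := by
  have ok0 : P.L.ok (0 : Matrix J J R0) := by
    have := P.L.ok_sub _ _ oa oa
    rwa [sub_self] at this
  have okB : P.L.ok (fromBlocks a 0 0 b) := P.L.ok_blocks _ _ _ _ oa ok0 ok0 ob
  have hhB : (fromBlocks a 0 0 b)ᴴ = fromBlocks a 0 0 b := by
    rw [fromBlocks_conjTranspose, ha, hb, conjTranspose_zero]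
  rw [← cj_s2, sg_cj P _ hhB okB, P.L.sg_blocks _ _ oa ob ha hb]

theorem frm_unit {E : Matrix J J R0} (hE : E * E = E) (hs : star E = E) :
    frm (rpT (unitT E)) = sm (fl !![E, E; E, 2 * E]) (fl !![2 * E, -E; -E, E]) := by
  have e0 : cc 0 = 1 := by simp [cc]
  have hd : dblT 0 (rpT (unitT E)) = ⟨fl !![E, 0; 0, E], fl !![E, 0; 0, E], 0,
      fl !![E, E; E, 2 * E], fl !![2 * E, -E; -E, E], 0⟩ := by
    unfold dblT dbl rpT unitT
    have h1 : (2 : Matrix J J R0) * (2 * E - E) = 2 * E := by
      congr 1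
      rw [two_mul E, add_sub_cancel_right]
    simp only [Tup.map, Tup.mk.injEq, pow_zero, one_mul, aa, e0, one_smul, hE, star_zero, zero_mul,
      mul_zero, h1]
    refine ⟨trivial, trivial, ?_, trivial, ?_, ?_⟩
    · rw [← zero_fin2]; rfl
    · congr 1
      have h2 : (2 : Matrix J J R0) * E - E = E := by
        rw [two_mul E, add_sub_cancel_right]
      rw [h2, hE]
    · rw [← zero_fin2]; rfl
  unfold frm
  rw [hd]
  have a1 : (fl !![E, E; E, 2 * E] : Matrix (Fin 2 × J) (Fin 2 × J) R0) * fl !![E, 0; 0, E]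
      = fl !![E, E; E, 2 * E] := by
    rw [← Nat52.fl_mul, mul_fin_two]
    simp only [mul_zero, zero_mul, add_zero, zero_add, hE, mul_assoc]
  have a2 : (fl !![2 * E, -E; -E, E] : Matrix (Fin 2 × J) (Fin 2 × J) R0) * fl !![E, E; E, 2 * E]
      = fl !![E, 0; 0, E] := by
    rw [← Nat52.fl_mul, mul_fin_two]
    congr 1
    refine fin2_eq ?_ ?_ ?_ ?_ <;>
      simp only [mul_assoc, hE, two_mul, mul_add, add_mul, neg_mul, mul_neg] <;> abel
  have a3 : (fl !![E, 0; 0, E] : Matrix (Fin 2 × J) (Fin 2 × J) R0) * fl !![2 * E, -E; -E, E]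
      = fl !![2 * E, -E; -E, E] := by
    rw [← Nat52.fl_mul, mul_fin_two]
    congr 1
    refine fin2_eq ?_ ?_ ?_ ?_ <;>
      simp only [mul_assoc, hE, two_mul, mul_add, add_mul, neg_mul, mul_neg, zero_mul] <;> abel
  have a4 : (fl !![2 * E, -E; -E, E] : Matrix (Fin 2 × J) (Fin 2 × J) R0) * fl !![E, 0; 0, E]
      = fl !![2 * E, -E; -E, E] := by
    rw [← Nat52.fl_mul, mul_fin_two]
    congr 1
    refine fin2_eq ?_ ?_ ?_ ?_ <;>
      simp only [mul_assoc, hE, two_mul, mul_add, add_mul, neg_mul, mul_neg, mul_zero] <;> abel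
  have hx : xi (⟨fl !![E, 0; 0, E], fl !![E, 0; 0, E], 0,
      fl !![E, E; E, 2 * E], fl !![2 * E, -E; -E, E], 0⟩ : Tup (Matrix (Fin 2 × J) (Fin 2 × J) R0))
      = 0 := by
    simp [xi]
  unfold tform ac dc gc TForm555.uu yy TForm555.sw
  rw [hx]
  unfold sm
  congr 1
  simp only [mul_fin_two, add_fin2, mul_zero, zero_mul, add_zero, zero_add, star_zero, neg_zero,
    smul_zero, a1, a2, a3, a4]

theorem sig_unit {E : Matrix J J R0} (hE : E * E = E) (hs : star E = E) (hD : DgC F0 E)
    (hlo : ∀ k, BdLo F0 k E) (hhi : ∀ k, BdHi F0 k E) :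
    sig F0 P.L [] (ob (fun _ => 0) (rpT (unitT E))) = 4 • P.L.sg E := by
  show P.L.sg (frm (rpT (unitT E))) = _
  rw [frm_unit hE hs]
  have okE : P.L.ok E := P.ok_cpt E E hD hE hs hlo hhi hE
  have hsE : Eᴴ = E := hs
  have okD : P.L.ok (sm E E) := by
    refine P.ok_cpt (sm E E) _ (hD.fl2c hD) ?_ ?_ (fun k => BdLo_sm (hlo k) (hlo k))
      (fun k => BdHi_sm (hhi k) (hhi k)) ?_
    · rw [sm_mul, hE]
    · rw [sm_star, hs]
    · rw [sm_mul, hE]
  have hhD : (sm E E)ᴴ = sm E E := by
    have := sm_star E E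
    rw [hs] at this
    exact this
  have hsgD : P.L.sg (sm E E) = P.L.sg E + P.L.sg E := sg_sm P okE okE hsE hsE
  have hC : IsUnit (fl !![1, 1; 0, 1] : Matrix (Fin 2 × J) (Fin 2 × J) R0) := by
    refine ⟨⟨fl !![1, 1; 0, 1], fl !![1, -1; 0, 1], ?_, ?_⟩, rfl⟩ <;>
    · rw [← Nat52.fl_mul, mul_fin_two, ← Nat52.fl_one (R := R0) (J := J)]
      congr 1
      rw [one_fin_two]
      refine fin2_eq ?_ ?_ ?_ ?_ <;> simp
  have hC' : IsUnit (fl !![1, 0; -1, 1] : Matrix (Fin 2 × J) (Fin 2 × J) R0) := by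
    refine ⟨⟨fl !![1, 0; -1, 1], fl !![1, 0; 1, 1], ?_, ?_⟩, rfl⟩ <;>
    · rw [← Nat52.fl_mul, mul_fin_two, ← Nat52.fl_one (R := R0) (J := J)]
      congr 1
      rw [one_fin_two]
      refine fin2_eq ?_ ?_ ?_ ?_ <;> simp
  have hX : (fl !![E, E; E, 2 * E] : Matrix (Fin 2 × J) (Fin 2 × J) R0)
      = (fl !![1, 1; 0, 1])ᴴ * sm E E * fl !![1, 1; 0, 1] := by
    have h1 : (fl !![1, 1; 0, 1] : Matrix (Fin 2 × J) (Fin 2 × J) R0)ᴴ = fl !![1, 0; 1, 1] := by
      have := Cut1x473.fl_star (!![1, 1; 0, 1] : Matrix (Fin 2) (Fin 2) (Matrix J J R0))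
      rw [star_fin2] at this
      simp only [star_one, star_zero] at this
      exact this.symm
    rw [h1]
    unfold sm
    rw [← Nat52.fl_mul, ← Nat52.fl_mul, mul_fin_two, mul_fin_two]
    congr 1
    refine fin2_eq ?_ ?_ ?_ ?_ <;> simp [two_mul]
  have hY : (fl !![2 * E, -E; -E, E] : Matrix (Fin 2 × J) (Fin 2 × J) R0)
      = (fl !![1, 0; -1, 1])ᴴ * sm E E * fl !![1, 0; -1, 1] := by
    have h1 : (fl !![1, 0; -1, 1] : Matrix (Fin 2 × J) (Fin 2 × J) R0)ᴴ = fl !![1, -1; 0, 1] := by
      have := Cut1x473.fl_star (!![1, 0; -1, 1] : Matrix (Fin 2) (Fin 2) (Matrix J J R0))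
      rw [star_fin2] at this
      simp only [star_one, star_zero, star_neg] at this
      exact this.symm
    rw [h1]
    unfold sm
    rw [← Nat52.fl_mul, ← Nat52.fl_mul, mul_fin_two, mul_fin_two]
    congr 1
    refine fin2_eq ?_ ?_ ?_ ?_ <;> simp [two_mul]
  have okX : P.L.ok (fl !![E, E; E, 2 * E] : Matrix (Fin 2 × J) (Fin 2 × J) R0) := by
    rw [hX]; exact P.L.ok_mul_right _ _ (P.L.ok_mul_left _ _ okD)
  have okY : P.L.ok (fl !![2 * E, -E; -E, E] : Matrix (Fin 2 × J) (Fin 2 × J) R0) := by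
    rw [hY]; exact P.L.ok_mul_right _ _ (P.L.ok_mul_left _ _ okD)
  have hhX : (fl !![E, E; E, 2 * E] : Matrix (Fin 2 × J) (Fin 2 × J) R0)ᴴ
      = fl !![E, E; E, 2 * E] := by
    rw [hX]
    simp only [conjTranspose_mul, conjTranspose_conjTranspose, hhD, Matrix.mul_assoc]
  have hhY : (fl !![2 * E, -E; -E, E] : Matrix (Fin 2 × J) (Fin 2 × J) R0)ᴴ
      = fl !![2 * E, -E; -E, E] := by
    rw [hY]
    simp only [conjTranspose_mul, conjTranspose_conjTranspose, hhD, Matrix.mul_assoc]
  rw [sg_sm P okX okY hhX hhY, hX, hY, P.L.sg_congr _ _ okD hhD hC, P.L.sg_congr _ _ okD hhD hC',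
    hsgD]
  abel

end base

end Crest.Agent.R217.Norm551
end

-- ▼ part R217/NormG_551
section

/-!
Row 217 (S0336), part C1, piece M5-N : the normalisation in the asymptotic algebra.
-/

set_option autoImplicit false
set_option linter.unusedSectionVars false

open Filter Topology Matrix

namespace Crest.Agent.R217.Norm551

open PC473 Obj52 RE531 Sig52 Ind52 Asym476 Sig330

section base

variable {κ : Type*} {R0 R1 : Type*} [Ring R0] [StarRing R0] [Algebra ℂ R0] [StarModule ℂ R0]
    [Ring R1] [StarRing R1] [Algebra ℂ R1] [StarModule ℂ R1]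
    {F0 : Frame κ R0} {F1 : Frame κ R1} {G : Type*} [AddCommGroup G] (P : SgP F0 F1 G)
    {J : Type} [Fintype J] [DecidableEq J]

theorem base_prodE {S : Set κ} {L : List (LD κ J R0)} {E : Matrix J J R0}
    (hg : Good F0 L) (hb : Base F0 S L E) :
    Base F0 (S ∪ {k | ∃ a ∈ L, a.k = k}) [] (prodE L E) := by
  induction L generalizing S E with
  | nil =>
    have : S ∪ {k | ∃ a ∈ ([] : List (LD κ J R0)), a.k = k} = S := by ext; simp
    rw [this]; exact hb
  | cons a L ih =>
    have h := ih hg.tail (base_step hg hb)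
    have e : S ∪ {k | ∃ b ∈ a :: L, b.k = k} = insert a.k S ∪ {k | ∃ b ∈ L, b.k = k} := by
      ext k
      simp only [Set.mem_union, Set.mem_setOf_eq, List.mem_cons, Set.mem_insert_iff,
        exists_eq_or_imp]
      constructor
      · rintro (h | h | h)
        · exact Or.inl (Or.inr h)
        · exact Or.inl (Or.inl h.symm)
        · exact Or.inr h
      · rintro ((h | h) | h)
        · exact Or.inr (Or.inl h.symm)
        · exact Or.inl h
        · exact Or.inr (Or.inr h)
    rw [e]; exact h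

theorem base_one {L : List (LD κ J R0)} : Base F0 ∅ L (1 : Matrix J J R0) where
  EE := one_mul _
  sE := star_one _
  ED := dgc_one
  lo := fun k hk => absurd hk (Set.notMem_empty k)
  hi := fun k hk => absurd hk (Set.notMem_empty k)
  com := fun a _ => one_mem _

/-- the normalisation: signature of the iterated product of lines -/
theorem norm_all (hI : CutInd P) (h2 : Two P) (hRe : Re P) {l : List (Par κ)}
    (hl : ∀ a ∈ l, a.Ok F0) {L : List (LD κ J R0)}
    (hk : l.map Par.k = L.map LD.k) (hc : ∀ k, ∃ a ∈ l, a.k = k) (hg : Good F0 L) :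
    sig F0 P.L l (ob (dgl L) (rpT (glL 1 L))) = (2 ^ L.length * 4) • P.L.sg (prodE L 1) := by
  have hcov : Cov ∅ l := fun k => Or.inr (hc k)
  have hb := base_prodE hg (base_one (F0 := F0) (L := L))
  have hall : ∀ k, k ∈ (∅ : Set κ) ∪ {k | ∃ a ∈ L, a.k = k} := by
    intro k
    right
    obtain ⟨a, ha, rfl⟩ := hc k
    have h1 : a.k ∈ l.map Par.k := List.mem_map_of_mem ha
    rw [hk] at h1
    obtain ⟨b, hb, h2⟩ := List.mem_map.1 h1
    exact ⟨b, hb, h2⟩
  rw [norm_ind P hI h2 hRe hl hk hcov hg base_one,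
    sig_unit P hb.EE hb.sE hb.ED (fun k => hb.lo k (hall k)) (fun k => hb.hi k (hall k)),
    smul_smul]

theorem dgl_eq_sum (L : List (LD κ J R0)) (j : J) :
    dgl L j = (L.map fun a => a.dg j).sum := by
  induction L with
  | nil => rfl
  | cons a L ih => simp [dgl, ih]

end base

section asy

variable {A : Type} {B : A → Type} [∀ a, Fintype (B a)] [∀ a, DecidableEq (B a)]
variable {κ : Type} [Fintype κ] {C : Ctl B}
  {J : Type} [Fintype J] [DecidableEq J]

theorem diag_ind_mul (E E' : J → ∀ a, B a → Prop) :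
    (Matrix.diagonal fun j => (ind (E j) : Asy C ℂ)) * Matrix.diagonal (fun j => ind (E' j))
      = Matrix.diagonal fun j => ind fun a s => E j a s ∧ E' j a s := by
  rw [diagonal_mul_diagonal]
  congr 1
  funext j
  exact ind_mul _ _

theorem prodE_ind {ι : Type*} (L : List ι) (f : ι → LD κ J (Asy C ℂ))
    (Ee : ι → J → ∀ a, B a → Prop) (hE : ∀ i ∈ L, (f i).X.e = diagonal fun j => ind (Ee i j))
    (E0 : J → ∀ a, B a → Prop) :
    prodE (L.map f) (diagonal fun j => (ind (E0 j) : Asy C ℂ))
      = diagonal fun j => ind fun a s => E0 j a s ∧ ∀ i ∈ L, Ee i j a s := by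
  induction L generalizing E0 with
  | nil => simp [prodE]
  | cons i L ih =>
    rw [List.map_cons]
    show prodE (L.map f) ((f i).X.e * _) = _
    rw [hE i List.mem_cons_self, diag_ind_mul, ih fun i hi => hE i (List.mem_cons_of_mem _ hi)]
    congr 1
    funext j
    congr 1
    funext a s
    simp only [List.mem_cons, forall_eq_or_imp, eq_iff_iff]
    tauto

theorem one_eq_ind : (1 : Matrix J J (Asy C ℂ)) = diagonal fun _ => ind fun _ _ => True := by
  rw [← diagonal_one]
  congr 1
  funext j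
  have := one_sub_ind (C := C) (K := ℂ) fun _ _ => False
  have h0 : (ind (fun _ _ => False) : Asy C ℂ) = 0 := by
    unfold ind
    simp only [if_false]
    exact map_zero (dg C ℂ)
  rw [h0, sub_zero] at this
  rw [this]
  simp

/-- signature of a finite set of cells -/
theorem sg_diag_ind (E : J → ∀ a, B a → Prop) {r : ℝ} (hr : r < 1)
    (h : ∀ᶠ a in C.l, ∀ j s, E j a s → C.u C.o a s ≤ r)
    (m : ℕ) (hm : ∀ᶠ a in C.l, Nat.card {p : J × B a // E p.1 a p.2} = m) :
    sg (diagonal fun j => (ind (E j) : Asy C ℂ)) = ((fun _ => (m : ℤ) : A → ℤ) : Germ C.l ℤ) := by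
  classical
  have hc : CRep (diagonal fun j => (ind (E j) : Asy C ℂ))
      (fun a => diagonal fun p : J × B a => if E p.1 a p.2 then (1 : ℂ) else 0) := by
    refine ⟨?_, r, hr, ?_⟩
    · have := RepM.diagonal (C := C) (K := ℂ) fun j a s => if E j a s then 1 else 0
      convert this using 4
      unfold ind
      congr 1
    · filter_upwards [h] with a h1 p q h2
      by_cases hpq : p = q
      · subst hpq
        rw [diagonal_apply_eq] at h2
        have h3 : E p.1 a p.2 := by
          by_contra h3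
          exact h2 (by simp [h3])
        exact ⟨h1 _ _ h3, h1 _ _ h3⟩
      · exact absurd (diagonal_apply_ne _ hpq) h2
  rw [sg_eq hc, Germ.coe_eq]
  filter_upwards [hm] with a ha
  have e1 : (fun p : J × B a => if E p.1 a p.2 then (1 : ℂ) else 0)
      = fun p => ((if E p.1 a p.2 then (1 : ℝ) else 0 : ℝ) : ℂ) := by
    funext p; split_ifs <;> simp
  have e2 : -(diagonal fun p : J × B a => ((if E p.1 a p.2 then (1 : ℝ) else 0 : ℝ) : ℂ))
      = diagonal fun p => ((-(if E p.1 a p.2 then (1 : ℝ) else 0) : ℝ) : ℂ) := by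
    rw [diagonal_neg]; congr 1; funext p; simp
  unfold sgn
  rw [e1, e2, pos_diagonal, pos_diagonal]
  have h1 : Fintype.card {p : J × B a // 0 < (if E p.1 a p.2 then (1 : ℝ) else 0)} = m := by
    rw [← ha, Nat.card_eq_fintype_card]
    refine Fintype.card_congr (Equiv.subtypeEquivRight fun p => ?_)
    split_ifs with h <;> simp [h]
  have h2 : Fintype.card {p : J × B a // 0 < -(if E p.1 a p.2 then (1 : ℝ) else 0)} = 0 := by
    rw [Fintype.card_eq_zero_iff]
    refine ⟨fun p => ?_⟩
    have := p.2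
    split_ifs at this <;> norm_num at this
  rw [h1, h2]
  simp

variable {dir : κ → C.Φ} {lo hi : κ → ℝ} {lt : ∀ k, lo k < hi k}

/-- NORMALISATION in the asymptotic algebra -/
theorem norm_asy (hC : Cpt C dir lo hi) (hI : CutInd (sgP lt hC)) (h2 : Two (sgP lt hC))
    (hRe : Re (sgP lt hC)) {l : List (Par κ)} (hl : ∀ a ∈ l, a.Ok (frame C ℂ dir lo hi lt))
    {ι : Type*} (Li : List ι) (f : ι → LD κ J (Asy C ℂ))
    (hk : l.map Par.k = Li.map fun i => (f i).k) (hc : ∀ k, ∃ a ∈ l, a.k = k)
    (hg : Good (frame C ℂ dir lo hi lt) (Li.map f))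
    (Ee : ι → J → ∀ a, B a → Prop) (hE : ∀ i ∈ Li, (f i).X.e = diagonal fun j => ind (Ee i j))
    {r : ℝ} (hr : r < 1)
    (h : ∀ᶠ a in C.l, ∀ j s, (∀ i ∈ Li, Ee i j a s) → C.u C.o a s ≤ r)
    (hm : ∀ᶠ a in C.l, Nat.card {p : J × B a // ∀ i ∈ Li, Ee i p.1 a p.2} = 1) :
    sig (frame C ℂ dir lo hi lt) (sgP lt hC).L l
        (ob (dgl (Li.map f)) (rpT (glL 1 (Li.map f))))
      = ((fun _ => (2 ^ Li.length * 4 : ℤ) : A → ℤ) : Germ C.l ℤ) := by
  have hk' : l.map Par.k = (Li.map f).map LD.k := by rw [List.map_map]; exact hk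
  rw [norm_all (sgP lt hC) hI h2 hRe hl hk' hc hg, one_eq_ind,
    prodE_ind Li f Ee hE]
  have e : (sgP lt hC).L.sg (diagonal fun j => (ind (fun a s => True ∧ ∀ i ∈ Li, Ee i j a s)
      : Asy C ℂ)) = ((fun _ => ((1 : ℕ) : ℤ) : A → ℤ) : Germ C.l ℤ) := by
    refine sg_diag_ind (C := C) _ hr ?_ 1 ?_
    · filter_upwards [h] with a h1 j s h2
      exact h1 j s h2.2
    · filter_upwards [hm] with a h1
      simpa using h1
  rw [e, List.length_map]
  have : ∀ n : ℕ, n • (((fun _ => ((1 : ℕ) : ℤ)) : A → ℤ) : Germ C.l ℤ)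
      = ((fun _ => (n : ℤ) : A → ℤ) : Germ C.l ℤ) := by
    intro n
    rw [← Germ.coe_smul]
    congr 1
    funext a
    simp
  rw [this]
  congr 1

end asy

end Crest.Agent.R217.Norm551
end

-- ▼ part R217/NormH_551
section

/-!
Row 217 (S0336), part C1, piece M5-N : the normalisation without hypotheses.
-/

set_option autoImplicit false
set_option linter.unusedSectionVars false

open Filter Topology Matrix

namespace Crest.Agent.R217.Norm551

open PC473 Obj52 RE531 Sig52 Ind52 Asym476 Sig330 Param52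

section gen

variable {κ : Type*} {R0 R1 : Type} [Ring R0] [StarRing R0] [Algebra ℂ R0] [StarModule ℂ R0]
    [Ring R1] [StarRing R1] [Algebra ℂ R1] [StarModule ℂ R1]
    {F0 : Frame κ R0} {F1 : Frame κ R1} {G : Type*} [AddCommGroup G] (P : SgP F0 F1 G)

theorem cutInd_all : CutInd P := by
  intro J _ _ a l hl S deg z hz hc Pw Gw Qw ha
  exact cut_indep P (fun b hb => hl b (List.mem_cons_of_mem _ hb)) hc.tail hz
    (Cut2x473.canon_adm (hl a List.mem_cons_self) hz) ha

theorem two_all : Two P := by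
  intro J _ _ a l hl S deg z hz hc
  have := sig_two P hl (h := z.H * z.S) hz (isOb_rpT hz) hc
  rw [two_smul]
  exact this

theorem re_all : Re P := by
  intro J J' _ _ _ _ l hl S deg deg' x y α hx hy hc h hα
  exact sig_re P hl hx hy hc h ⟨hα, fun _ _ _ => rfl, fun _ _ _ => rfl⟩

end gen

section asy

variable {A : Type} {B : A → Type} [∀ a, Fintype (B a)] [∀ a, DecidableEq (B a)]
variable {κ : Type} [Fintype κ] {C : Ctl B}
  {J : Type} [Fintype J] [DecidableEq J]
variable {dir : κ → C.Φ} {lo hi : κ → ℝ} {lt : ∀ k, lo k < hi k}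

/-- NORMALISATION in the asymptotic algebra -/
theorem norm_asy' (hC : Cpt C dir lo hi)
    {l : List (Par κ)} (hl : ∀ a ∈ l, a.Ok (frame C ℂ dir lo hi lt))
    {ι : Type*} (Li : List ι) (f : ι → LD κ J (Asy C ℂ))
    (hk : l.map Par.k = Li.map fun i => (f i).k) (hc : ∀ k, ∃ a ∈ l, a.k = k)
    (hg : Good (frame C ℂ dir lo hi lt) (Li.map f))
    (Ee : ι → J → ∀ a, B a → Prop) (hE : ∀ i ∈ Li, (f i).X.e = diagonal fun j => ind (Ee i j))
    {r : ℝ} (hr : r < 1)
    (h : ∀ᶠ a in C.l, ∀ j s, (∀ i ∈ Li, Ee i j a s) → C.u C.o a s ≤ r)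
    (hm : ∀ᶠ a in C.l, Nat.card {p : J × B a // ∀ i ∈ Li, Ee i p.1 a p.2} = 1) :
    sig (frame C ℂ dir lo hi lt) (sgP lt hC).L l
        (ob (dgl (Li.map f)) (rpT (glL 1 (Li.map f))))
      = ((fun _ => (2 ^ Li.length * 4 : ℤ) : A → ℤ) : Germ C.l ℤ) :=
  norm_asy hC (cutInd_all _) (two_all _) (re_all _) hl Li f hk hc hg Ee hE hr h hm

end asy

end Crest.Agent.R217.Norm551
end

-- ▼ part R217/NormI_551

/-!
Row 217 (S0336), part C1, piece M5-N : the signature of the grid.
-/

set_option autoImplicit false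
set_option linter.unusedSectionVars false

open Filter Topology Matrix
open scoped BigOperators

namespace Crest.Agent.R217.Norm551

open PC473 Obj52 RE531 Sig52 Ind52 Asym476 Grid897 AsyCell970

section close

variable {κ κ' : Type*} {R : Type*} [Ring R] [StarRing R] [Algebra ℂ R] [StarModule ℂ R]
variable {J : Type*} [Fintype J] [DecidableEq J]

/-- a line in a direction which is close to another one -/
theorem LineF.close {F : Frame κ R} {F' : Frame κ' R} {k : κ} {k' : κ'} {dx : J → ℤ}
    {x : Line (Matrix J J R)} (h : LineF F k dx x)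
    (hg : DgC F' x.g) (hP : DgC F' x.P) (he : DgC F' x.e) (hv : DgC F' x.v)
    (hlo : F'.lo k' < 0) (hhi : 0 < F'.hi k')
    (h1 : ∀ s t : ℝ, s < t → F'.pu k' s * F.pu k t = F'.pu k' s)
    (h2 : ∀ s t : ℝ, s < t → F.pu k s * F'.pu k' t = F.pu k s)
    (hc : ∀ s t : ℝ, F.pu k s * F'.pu k' t = F'.pu k' t * F.pu k s) :
    LineF F' k' dx x where
  is := h.is
  gD := hg
  PD := hP
  eD := he
  vD := hv
  lo0 := hlo
  hi0 := hhi
  Plo s hs := by
    have e : PU F' k' (fun _ : J => s) = PU F' k' (fun _ => s) * PU F k (fun _ => s / 2) := by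
      unfold PU
      rw [diagonal_mul_diagonal]
      congr 1; funext j
      exact (h1 _ _ (by linarith)).symm
    rw [e, Matrix.mul_assoc, h.Plo _ (by linarith), Matrix.mul_zero]
  Phi t ht := up h2 hc ht (h.Phi _ (by linarith))
  ehi t ht := up h2 hc ht (h.ehi _ (by linarith))
  vhi t ht := up h2 hc ht (h.vhi _ (by linarith))
  hd := h.hd
  hS := h.hS
  he := h.he
  hv := h.hv
  ha := h.ha
  hb := h.hb
  hc := h.hc
where
  up {F : Frame κ R} {F' : Frame κ' R} {k : κ} {k' : κ'} {a : Matrix J J R}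
      (h2 : ∀ s t : ℝ, s < t → F.pu k s * F'.pu k' t = F.pu k s)
      (hc : ∀ s t : ℝ, F.pu k s * F'.pu k' t = F'.pu k' t * F.pu k s) {t : ℝ} (ht : 0 < t)
      (ha : PU F k (fun _ => t / 2) * a = a) : PU F' k' (fun _ => t) * a = a := by
    have e : PU F' k' (fun _ : J => t) * PU F k (fun _ => t / 2) = PU F k (fun _ => t / 2) := by
      unfold PU
      rw [diagonal_mul_diagonal]
      congr 1; funext j
      rw [← hc]
      exact h2 _ _ (by linarith)
    conv_lhs => rw [← ha, ← Matrix.mul_assoc, e, ha]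

end close

section grid

variable {n : ℕ} {A : Type} {N : A → ℕ} [∀ a, NeZero (N a)] {C : Ctl (BV n N)}

variable (h : GridCtl C) {dir : Fin n → C.Φ} {lo hi : Fin n → ℝ} {lt : ∀ k, lo k < hi k}

theorem lineF_LA (hdir : ∀ i, ∀ r < (1 : ℝ), ∀ ε > (0 : ℝ), ∀ᶠ a in C.l, ∀ v,
      C.u C.o a v ≤ r → |C.u (h.ξ i) a v - C.u (dir i) a v| < ε)
    (h0 : ∀ i, lo i < 0) (h1 : ∀ i, 0 < hi i) (i : Fin n) :
    LineF (frame C ℂ dir lo hi lt) i (dgi i) (LA h i) := by
  have hb : LineF (frame C ℂ h.ξ (fun _ => -1) (fun _ => 1) (fun _ => by norm_num)) i (dgi i)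
      (LA h i) := LA_LineF h i _ _ _ _ i rfl (by norm_num) (by norm_num)
  have hdir' : ∀ r < (1 : ℝ), ∀ ε > (0 : ℝ), ∀ᶠ a in C.l, ∀ v,
      C.u C.o a v ≤ r → |C.u (dir i) a v - C.u (h.ξ i) a v| < ε := by
    intro r hr ε hε
    filter_upwards [hdir i r hr ε hε] with a ha v hv
    rw [abs_sub_comm]
    exact ha v hv
  refine LineF.close hb ?_ ?_ ?_ ?_ (h0 i) (h1 i) ?_ ?_ ?_
  · exact dgc_diag i dir lo hi lt _ (gL i) fun a => rfl
  · exact dgc_diag i dir lo hi lt _ (PL i) fun a => rfl
  · exact dgc_diag i dir lo hi lt _ (eL i) fun a => rfl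
  · exact dgc_diag i dir lo hi lt _ (vL i) fun a => rfl
  · intro s t hst
    exact pu_mul_pu_close hdir' hst
  · intro s t hst
    exact pu_mul_pu_close (hdir i) hst
  · intro s t
    exact ind_comm _ _

/-- the lines with their directions and degrees -/
noncomputable def fLD (i : Fin n) : LD (Fin n) (JJ n) (Asy C ℂ) := ⟨i, dgi i, LA h i⟩

theorem good_LA (hdir : ∀ i, ∀ r < (1 : ℝ), ∀ ε > (0 : ℝ), ∀ᶠ a in C.l, ∀ v,
      C.u C.o a v ≤ r → |C.u (h.ξ i) a v - C.u (dir i) a v| < ε)
    (h0 : ∀ i, lo i < 0) (h1 : ∀ i, 0 < hi i) :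
    Good (frame C ℂ dir lo hi lt) ((List.finRange n).map (fLD h)) where
  line := by
    intro a ha
    obtain ⟨i, _, rfl⟩ := List.mem_map.1 ha
    exact lineF_LA h hdir h0 h1 i
  cmp := by
    rw [List.pairwise_map]
    refine (List.nodup_finRange n).imp ?_
    intro i j hij
    exact ⟨LA_Pres h i (Ne.symm hij), LA_Pres h j hij, LA_comm h hij⟩

theorem glL_LA (L : List (Fin n)) : glL 1 (L.map (fLD h)) = Grid897.gl (LA h) L := by
  induction L with
  | nil => rfl
  | cons i L ih =>
    rw [List.map_cons, glL_cons, ih, List.length_map]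
    rfl

theorem dgl_LA : dgl ((List.finRange n).map (fLD h)) = fun j => ((Grid897.degJ j : ℕ) : ℤ) := by
  funext j
  rw [dgl_eq_sum, List.map_map, Grid897.degJ, Nat.cast_sum, Fin.sum_univ_def]
  congr 1
  refine List.map_congr_left fun i _ => ?_
  show dgi i j = _
  unfold dgi
  split_ifs <;> simp

/-- NORMALISATION: the signature of the grid is the constant `4 * 2 ^ n` -/
theorem norm_grid (hC : Cpt C dir lo hi)
    (hdir : ∀ i, ∀ r < (1 : ℝ), ∀ ε > (0 : ℝ), ∀ᶠ a in C.l, ∀ v,
      C.u C.o a v ≤ r → |C.u (h.ξ i) a v - C.u (dir i) a v| < ε)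
    (h0 : ∀ i, lo i < 0) (h1 : ∀ i, 0 < hi i)
    {r : ℝ} (hr : r < 1) (hor : ∀ᶠ a in C.l, C.u C.o a (fun _ => 0) ≤ r)
    {l : List (Par (Fin n))} (hl : ∀ a ∈ l, a.Ok (frame C ℂ dir lo hi lt))
    (hk : l.map Par.k = List.finRange n) :
    sig (frame C ℂ dir lo hi lt) (sgP lt hC).L l 
        (ob (fun j => ((Grid897.degJ j : ℕ) : ℤ)) (rpT (gridA h.cont)))
      = ((fun _ => (2 ^ n * 4 : ℤ) : A → ℤ) : Germ C.l ℤ) := by
  have hk' : l.map Par.k = (List.finRange n).map fun i => (fLD h i).k := by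
    rw [hk]; exact (List.map_id _).symm
  have hc : ∀ k, ∃ a ∈ l, a.k = k := by
    intro k
    have : k ∈ l.map Par.k := by rw [hk]; exact List.mem_finRange k
    exact List.mem_map.1 this
  have hE : ∀ i ∈ List.finRange n, (fLD h i).X.e
      = diagonal fun j => ind fun a (v : VV n (N a)) => (v i, j i) = ((0 : ZMod (N a)), true) := by
    intro i _
    show Th C i (eL i) = _
    rw [Th_diag' i (eL i) _ fun a => rfl]
    congr 1
    funext j
    unfold ind
    congr 1
    funext a v
    congr 1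
  have hcell : ∀ a (j : JJ n) (v : VV n (N a)),
      (∀ i ∈ List.finRange n, (v i, j i) = ((0 : ZMod (N a)), true)) ↔
        j = (fun _ => true) ∧ v = fun _ => 0 := by
    intro a j v
    constructor
    · intro h1
      exact ⟨funext fun i => congrArg Prod.snd (h1 i (List.mem_finRange i)),
        funext fun i => congrArg Prod.fst (h1 i (List.mem_finRange i))⟩
    · rintro ⟨rfl, rfl⟩ i _
      rfl
  have key := norm_asy' hC hl (List.finRange n) (fLD h) hk' hc (good_LA h hdir h0 h1)
    (fun i j a (v : VV n (N a)) => (v i, j i) = ((0 : ZMod (N a)), true)) hE hr ?_ ?_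
  · rw [glL_LA, dgl_LA, ← gridA_eq_gl, List.length_finRange] at key
    exact key
  · filter_upwards [hor] with a ha j v hv
    obtain ⟨_, rfl⟩ := (hcell a j v).1 hv
    exact ha
  · refine Eventually.of_forall fun a => ?_
    rw [Nat.card_eq_one_iff_unique]
    constructor
    · constructor
      rintro ⟨⟨j, v⟩, hp⟩ ⟨⟨j', v'⟩, hp'⟩
      obtain ⟨rfl, rfl⟩ := (hcell a j v).1 hp
      obtain ⟨rfl, rfl⟩ := (hcell a j' v').1 hp'
      rfl
    · exact ⟨⟨(fun _ => true, fun _ => 0), (hcell a _ _).2 ⟨rfl, rfl⟩⟩⟩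

end grid

end Crest.Agent.R217.Norm551
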