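import Mathlib
import Crest.Agent.R217.FineSeq_970
import Crest.Agent.R217.CoGrid_559
import Crest.Agent.R217.NormI_551_Mg
import Crest.Agent.R217.TwObj_555
import Crest.Agent.R217.LineAsy_897
import Crest.Agent.R217.FineX_970
import Crest.Agent.R217.KDatEx_373

-- ▼ part R217/CoSeq_559
section

/-!
Row 217 (S0336), part C: the sequences over the coarse control data `CC D`.
-/

set_option autoImplicit false
set_option linter.unusedSectionVars false
set_option linter.unusedVariables false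

open Filter Topology Metric Set

namespace Crest.Agent.R217.CoSeq559

open Crest.Agent.R217.CruxN559 Crest.Agent.R217.Coarse889 Crest.Agent.R217.CtrlS970
open Crest.Agent.R217.FinePkg970 Crest.Agent.R217.Flow373 Crest.Agent.R217.Glob559
open Crest.Agent.R217.Grid897 Crest.Agent.R217.Asym476 Crest.Agent.R217.Ctl559
open Crest.Agent.R217.AsyCell970 Crest.Agent.R217.PC473 Crest.Agent.R217.FineSeq970

universe u

/-! ### restriction of sequences -/

section res

variable {n : ℕ} {A : Type} {N : A → ℕ} [∀ a, NeZero (N a)] {C C' : Ctl (BV n N)}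

theorem isLocC_res (h : C.Le C') {M : SeqC n N} (hM : IsLocC C M) : IsLocC C' M := by
  rw [isLocC_iff] at hM ⊢
  exact fun i j => h.isLoc (hM i j)

theorem relC_res (h : C.Le C') {M M' : SeqC n N} (hM : RelC C M M') : RelC C' M M' := by
  rw [relC_iff] at hM ⊢
  exact fun i j => h.rel (hM i j)

/-- restriction of classes -/
theorem toA_chg (h : C.Le C') (M : LocC C) :
    (toA C M).map (chg ℂ h) = toA C' ⟨M.1, isLocC_res h (mem_LocC.1 M.2)⟩ := by
  ext i j
  rw [Matrix.map_apply, toA_apply, toA_apply, chg_cls]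
  rfl

end res

variable {n : ℕ} (D : ∀ k, KDat.{u} n (cs k))

/-- `F` is close to the identity on a bigger ball -/
theorem dist_F_le' (k : ℕ) {x : Fin n → ℝ} (hx : ‖x‖ ≤ 3 / 4) : dist ((D k).F x) x ≤ cs k := by
  have h1 : x ∈ closedBall (0 : Fin n → ℝ) 1 := by
    rw [mem_closedBall_zero_iff]
    linarith
  have h2 := (D k).X.ball_V h1
  have h3 := ((D k).X.disp x h2 (Or.inl h1)).2
  have h4 := cs_le k
  refine dist_F_le D k ⟨h2, ?_⟩
  rw [mem_closedBall_zero_iff]
  have h5 : ‖(D k).X.D.f x‖ ≤ dist ((D k).X.D.f x) x + ‖x‖ := by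
    rw [dist_eq_norm]
    calc ‖(D k).X.D.f x‖ = ‖((D k).X.D.f x - x) + x‖ := by rw [sub_add_cancel]
      _ ≤ _ := norm_add_le _ _
  linarith

theorem eventually_eps_lc {δ : ℝ} (hδ : 0 < δ) : ∀ᶠ a in lc, cs a.1 + (D a.1).eps a.2 < δ := by
  have h1 : ∀ᶠ k in atTop, cs k < δ / 2 := tendsto_cs.eventually (gt_mem_nhds (by positivity))
  have h2 : ∀ᶠ a in lf, (D a.1).eps a.2 < δ / 2 := by
    rw [eventually_lf]
    intro k
    exact eventually_eps_lt D k (by positivity)
  filter_upwards [eventually_lc_fst h1, lc_le_lf h2] with a ha ha'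
  linarith

/-- sequences of small displacement are local for the coarse control data -/
theorem isLocC_C_of_small {M : SeqC n (NN D)}
    (hM : ∀ a c' c, M a c' c ≠ 0 →
      dist (xv D a (vt c')) (xv D a (vt c)) < cs a.1 + (D a.1).eps a.2) :
    IsLocC (CC D) M := by
  -- symmetric statement
  have key : ∀ ε > (0 : ℝ), ∀ φ, ∀ᶠ a in lc, ∀ x y : Fin n → ℝ, ‖x‖ ≤ 1 / 2 →
      dist x y < cs a.1 + (D a.1).eps a.2 → |uC D φ a x - uC D φ a y| < ε := by
    intro ε hε φ
    have h1 : ∀ᶠ k in atTop, cs k < ε / 4 := tendsto_cs.eventually (gt_mem_nhds (by positivity))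
    filter_upwards [eventually_eps_lc D (show 0 < min (ε / 4) (1 / 4) by positivity),
      eventually_lc_fst h1] with a ha hk x y hx hxy
    have hd : dist x y < ε / 4 := hxy.trans (ha.trans_le (min_le_left _ _))
    have hd' : dist x y < 1 / 4 := hxy.trans (ha.trans_le (min_le_right _ _))
    have hy : ‖y‖ ≤ 3 / 4 := by
      have : ‖y‖ ≤ ‖x‖ + dist x y := by
        rw [dist_comm, dist_eq_norm]
        calc ‖y‖ = ‖x + (y - x)‖ := by rw [add_sub_cancel]
          _ ≤ _ := norm_add_le _ _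
      linarith
    cases φ with
    | x i =>
      have h2 := dist_le_pi_dist x y i
      rw [Real.dist_eq] at h2
      show |x i - y i| < ε
      linarith
    | f i =>
      have h2 := dist_le_pi_dist ((D a.1).F x) ((D a.1).F y) i
      rw [Real.dist_eq] at h2
      have h3 := dist_F_le' D a.1 (x := x) (by linarith)
      have h4 := dist_F_le' D a.1 hy
      have h5 : dist ((D a.1).F x) ((D a.1).F y) ≤ dist ((D a.1).F x) x + dist x y +
          dist y ((D a.1).F y) := dist_triangle4 _ _ _ _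
      rw [dist_comm y] at h5
      show |(D a.1).F x i - (D a.1).F y i| < ε
      linarith
    | o =>
      have h2 : |‖x‖ - ‖y‖| ≤ dist x y := by
        rw [dist_eq_norm]
        exact abs_norm_sub_norm_le _ _
      show |2 * ‖x‖ - 2 * ‖y‖| < ε
      rw [← mul_sub, abs_mul, abs_two]
      linarith
  intro φ r hr ε hε
  filter_upwards [key ε hε φ] with a ha c' c hc h0
  have h1 := hM a c' c h0
  rcases hc with h | h
  · have h2 : 2 * ‖xv D a (vt c')‖ ≤ r := h
    exact ha _ _ (by linarith) h1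
  · have h2 : 2 * ‖xv D a (vt c)‖ ≤ r := h
    rw [abs_sub_comm]
    exact ha _ _ (by linarith) (by rw [dist_comm]; exact h1)

variable (t : ℤ)

theorem isLocC_aS : IsLocC (CC D) (aS D t) := by
  refine isLocC_C_of_small D fun a c' c h0 => ?_
  obtain ⟨i, hi⟩ := tw_ne_zero h0
  exact (pk D a).Aa_near i c' c hi

theorem isLocC_eS_C : IsLocC (CC D) (eS D t) := isLocC_res (le_CC D) (isLocC_eS D (le_refl lf) t)

theorem aS_dm (a : ℕ × ℕ) {c' c : Cell n (NN D a)} (h : aS D t a c' c ≠ 0) :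
    dm (NN D a) c' = dm (NN D a) c + 1 := by
  obtain ⟨i, hi⟩ := tw_ne_zero h
  exact (pk D a).Aa_dm i c' c hi

theorem relC_C_of {M M' : SeqC n (NN D)}
    (h : ∀ a, EqOn (cellsIn (mu D a) (closedBall 0 (1 / 2))) (M a) (M' a)) :
    RelC (CC D) M M' := by
  intro r hr
  refine Eventually.of_forall fun a c' c hc => h a c' c (hc.symm.imp ?_ ?_)
  · intro h
    have h2 : 2 * ‖xv D a (vt c)‖ ≤ r := h
    show xv D a (vt c) ∈ closedBall 0 (1 / 2)
    rw [mem_closedBall_zero_iff]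
    linarith
  · intro h
    have h2 : 2 * ‖xv D a (vt c')‖ ≤ r := h
    show xv D a (vt c') ∈ closedBall 0 (1 / 2)
    rw [mem_closedBall_zero_iff]
    linarith

/-- `e_0 ≃ 1` -/
theorem rel_zero : RelC (CC D) (eS D 0 - 1) (dS D * aS D 0 + aS D 0 * dS D) := by
  refine relC_C_of D fun a => ?_
  have h := tw_rel_A_one (pk D a)
  show EqOn _ (tw (zz D a ^ (0 : ℤ)) (pk D a).E - 1)
    ((gridT (NN D a) n).d * tw (zz D a ^ (0 : ℤ)) (pk D a).Aa +
      tw (zz D a ^ (0 : ℤ)) (pk D a).Aa * (gridT (NN D a) n).d)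
  rw [zpow_zero]
  exact h

/-- `e_1 ≃ 0` -/
theorem rel_one : RelC (CC D) (eS D 1) (dS D * aS D 1 + aS D 1 * dS D) := by
  refine relC_C_of D fun a => ?_
  show EqOn _ (tw (zz D a ^ (1 : ℤ)) (pk D a).E)
    ((gridT (NN D a) n).d * tw (zz D a ^ (1 : ℤ)) (pk D a).Aa +
      tw (zz D a ^ (1 : ℤ)) (pk D a).Aa * (gridT (NN D a) n).d)
  rw [zpow_one]
  exact tw_rel_A_ne (pk D a) (zz_pow D a) (zz_ne_one D a)

end Crest.Agent.R217.CoSeq559
end

-- ▼ part R217/CoVal_559
section

/-!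
Row 217 (S0336), part C: values of the signature in the coarse frame.
-/

set_option autoImplicit false
set_option linter.unusedSectionVars false
set_option linter.unusedVariables false

open Filter Topology Metric Set

namespace Crest.Agent.R217.CoVal559

open Crest.Agent.R217.CruxN559 Crest.Agent.R217.Coarse889 Crest.Agent.R217.CtrlS970
open Crest.Agent.R217.FinePkg970 Crest.Agent.R217.Flow373 Crest.Agent.R217.Glob559
open Crest.Agent.R217.Grid897 Crest.Agent.R217.Asym476 Crest.Agent.R217.Ctl559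
open Crest.Agent.R217.AsyCell970 Crest.Agent.R217.PC473 Crest.Agent.R217.FineSeq970
open Crest.Agent.R217.CoSeq559 Crest.Agent.R217.TwObj555 Crest.Agent.R217.Obj52
open Crest.Agent.R217.Sig52 Crest.Agent.R217.Ind52 Crest.Agent.R217.Nat52

universe u

variable {n : ℕ} (D : ∀ k, KDat.{u} n (cs k))

/-- the control data of the coarse frame in the form used by the normalisation -/
noncomputable def gridCtl_C : GridCtl (CC D) where
  μ := mu D
  μ_pos := mu_pos D
  μ_lim := tendsto_mu_lc D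
  ξ := PhiC.x
  hξ i a v := rfl
  cont := gridCont_C D
  win r hr := by
    filter_upwards [win_C D] with a ha v hv
    have h2 : 2 * ‖Ctl559.xv D a v‖ ≤ r := hv
    exact ha v (by linarith)

/-- the class of `e_t` in the coarse frame -/
noncomputable def eC (t : ℤ) : Matrix (JJ n) (JJ n) (Asy (CC D) ℂ) := cA (eS D t) (isLocC_eS_C D t)

/-- the class of the coarse homotopy -/
noncomputable def aC (t : ℤ) : Matrix (JJ n) (JJ n) (Asy (CC D) ℂ) := cA (aS D t) (isLocC_aS D t)

/-- the grid in the coarse frame -/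
noncomputable def gC : Tup (Matrix (JJ n) (JJ n) (Asy (CC D) ℂ)) := gridA (gridCont_C D)

variable (t : ℤ)

theorem hm_eC : Hm (dg' n) (dg' n) (eC D t) :=
  toA_hm fun a c' c h0 => by
    have := eS_dm D t a h0
    rw [dm_eq, dm_eq] at this
    simp only [dg']
    omega

theorem hm_aC : Hm (dg' n) (fun j => dg' n j + 1) (aC D t) :=
  toA_hm fun a c' c h0 => by
    have := aS_dm D t a h0
    rw [dm_eq, dm_eq] at this
    simp only [dg']
    omega

theorem g_eC : (gC D).g * eC D t = eC D t * (gC D).g := by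
  unfold gC
  rw [gridA_g, g_mul_hm (hm_eC D t), one_mul]

theorem g_aC : (gC D).g * aC D t = -(aC D t * (gC D).g) := by
  unfold gC
  rw [gridA_g, g_mul_hm1 (hm_aC D t), one_mul]

theorem d_eC : (gC D).d * eC D t = eC D t * (gC D).d := by
  have h1 := cA_eq (hM := lm (isLocC_d (gridCont_C D)) (isLocC_eS_C D t))
    (hM' := lm (isLocC_eS_C D t) (isLocC_d (gridCont_C D)))
    (relC_res (le_CC D) (rel_dS D (le_refl lf) t))
  rw [cA_mul (isLocC_d (gridCont_C D)) (isLocC_eS_C D t),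
    cA_mul (isLocC_eS_C D t) (isLocC_d (gridCont_C D))] at h1
  exact h1

theorem loc_sum : IsLocC (CC D) (dS D * aS D t + aS D t * dS D) :=
  la (lm (isLocC_d (gridCont_C D)) (isLocC_aS D t)) (lm (isLocC_aS D t) (isLocC_d (gridCont_C D)))

theorem cA_sum : cA (dS D * aS D t + aS D t * dS D) (loc_sum D t) =
    (gC D).d * aC D t + aC D t * (gC D).d := by
  have h1 := cA_add (C := CC D) (lm (isLocC_d (gridCont_C D)) (isLocC_aS D t))
    (lm (isLocC_aS D t) (isLocC_d (gridCont_C D))) (loc_sum D t)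
  rw [cA_mul (isLocC_d (gridCont_C D)) (isLocC_aS D t),
    cA_mul (isLocC_aS D t) (isLocC_d (gridCont_C D))] at h1
  exact h1

theorem eC_zero : eC D 0 = 1 + (gC D).d * aC D 0 + aC D 0 * (gC D).d := by
  have hone : IsLocC (CC D) (1 : SeqC n (NN D)) := (LocC (CC D)).one_mem
  have h1 := cA_eq (hM := ls (isLocC_eS_C D 0) hone) (hM' := loc_sum D 0) (rel_zero D)
  rw [cA_sum, cA_sub (isLocC_eS_C D 0) hone] at h1
  have h2 : cA (1 : SeqC n (NN D)) hone = 1 := map_one (toA (CC D))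
  rw [h2] at h1
  have h3 : eC D 0 = 1 + ((gC D).d * aC D 0 + aC D 0 * (gC D).d) := by
    rw [← h1]
    show eC D 0 = 1 + (eC D 0 - 1)
    rw [add_sub_cancel]
  rw [h3, add_assoc]

theorem eC_one : eC D 1 = (gC D).d * aC D 1 + aC D 1 * (gC D).d := by
  have h1 := cA_eq (hM := isLocC_eS_C D 1) (hM' := loc_sum D 1) (rel_one D)
  rw [cA_sum] at h1
  exact h1

/-- the regular pairs of the coarse frame -/
noncomputable def rC (h : Matrix (JJ n) (JJ n) (Asy (CC D) ℂ)) :
    RPr (Matrix (JJ n) (JJ n) (Asy (CC D) ℂ)) :=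
  RPr.mk (gC D).p (gC D).g (gC D).d (eC D t * (gC D).S * star (eC D t))
    (star (eC D t) * (gC D).T * eC D t) h

section val

variable {κ : Type} {R1 : Type*} [Ring R1] [StarRing R1] [Algebra ℂ R1] [StarModule ℂ R1]
    {F0 : Frame κ (Asy (CC D) ℂ)} {F1 : Frame κ R1} {G : Type*} [AddCommGroup G] (P : SgP F0 F1 G)

include P

/-- the value for `t = 0` -/
theorem val_zero {l : List (Par κ)} (hl : ∀ b ∈ l, b.Ok F0) (hc : Cov ∅ l) (hlen : l.length = n)
    {h : Matrix (JJ n) (JJ n) (Asy (CC D) ℂ)} (hy : IsOb F0 n ∅ (dg' n) (rC D 0 h)) :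
    sig F0 P.L l (ob (dg' n) (rC D 0 h)) = sig F0 P.L l (ob (dg' n) (Norm551.rpT (gC D))) := by
  have hz : IsOT F0 l.length ∅ (dg' n) (gC D) := by
    rw [hlen]
    exact gridA_isOT (gridCont_C D) F0
  exact Near559.sig_near_one P hl hc hz (gridA_p _) (d_eC D 0) (g_eC D 0) (eC_zero D) (g_aC D 0)
    (hm_eC D 0) (hm_aC D 0) (by rw [hlen]; exact hy)

/-- the value for `t = 1` -/
theorem val_one {l : List (Par κ)} (hl : ∀ b ∈ l, b.Ok F0) (hc : Cov ∅ l) (hlen : l.length = n)
    {h : Matrix (JJ n) (JJ n) (Asy (CC D) ℂ)} (hy : IsOb F0 n ∅ (dg' n) (rC D 1 h)) :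
    sig F0 P.L l (ob (dg' n) (rC D 1 h)) = 0 := by
  have hz : IsOT F0 l.length ∅ (dg' n) (gC D) := by
    rw [hlen]
    exact gridA_isOT (gridCont_C D) F0
  exact Near559.sig_near_zero P hl hc hz (gridA_p _) (d_eC D 1) (g_eC D 1) (eC_one D) (g_aC D 1)
    (hm_eC D 1) (hm_aC D 1) (by rw [hlen]; exact hy)

end val

end Crest.Agent.R217.CoVal559
end

-- ▼ part R217/TopC_559

/-!
Row 217 (S0336), part C: the contradiction.
-/

set_option autoImplicit false
set_option linter.unusedSectionVars false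
set_option linter.unusedVariables false

open Filter Topology Metric Set

namespace Crest.Agent.R217.TopC559

open Crest.Agent.R217.CruxN559 Crest.Agent.R217.Coarse889 Crest.Agent.R217.CtrlS970
open Crest.Agent.R217.FinePkg970 Crest.Agent.R217.Flow373 Crest.Agent.R217.Glob559
open Crest.Agent.R217.Grid897 Crest.Agent.R217.Asym476 Crest.Agent.R217.Ctl559
open Crest.Agent.R217.AsyCell970 Crest.Agent.R217.PC473 Crest.Agent.R217.FineSeq970
open Crest.Agent.R217.CoSeq559 Crest.Agent.R217.Obj52 Crest.Agent.R217.CoVal559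
open Crest.Agent.R217.Sig52 Crest.Agent.R217.Ind52 Crest.Agent.R217.Nat52
open Crest.Agent.R217.Box970 Crest.Agent.R217.FineX970 Crest.Agent.R217.Res52

universe u

/-! ### restriction of the regular pairs -/

section res

variable {n : ℕ} {A : Type} {N : A → ℕ} [∀ a, NeZero (N a)] {C C' : Ctl (AsyCell970.BV n N)}

theorem gridA_res (h : C.Le C') (hg : GridCont C) (hg' : GridCont C') :
    (gridA hg).p.map (chg ℂ h) = (gridA hg').p ∧ (gridA hg).g.map (chg ℂ h) = (gridA hg').g ∧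
    (gridA hg).d.map (chg ℂ h) = (gridA hg').d ∧ (gridA hg).S.map (chg ℂ h) = (gridA hg').S ∧
    (gridA hg).T.map (chg ℂ h) = (gridA hg').T :=
  ⟨toA_chg h (gridL hg).p, toA_chg h (gridL hg).g, toA_chg h (gridL hg).d,
    toA_chg h (gridL hg).S, toA_chg h (gridL hg).T⟩

theorem rp_res (h : C.Le C') (hg : GridCont C) (hg' : GridCont C') (M : LocC C)
    (h0 : Matrix (JJ n) (JJ n) (Asy C ℂ)) :
    (rpOf hg (toA C M) h0).map (mapH (JJ n) (chgN h)) =
      RPr.mk (gridA hg').p (gridA hg').g (gridA hg').d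
        (toA C' ⟨M.1, isLocC_res h (mem_LocC.1 M.2)⟩ * (gridA hg').S *
          star (toA C' ⟨M.1, isLocC_res h (mem_LocC.1 M.2)⟩))
        (star (toA C' ⟨M.1, isLocC_res h (mem_LocC.1 M.2)⟩) * (gridA hg').T *
          toA C' ⟨M.1, isLocC_res h (mem_LocC.1 M.2)⟩)
        ((Homog970.prj (degZ n) (n + 1) h0).map (chg ℂ h)) := by
  obtain ⟨e1, e2, e3, e4, e5⟩ := gridA_res h hg hg'
  have e6 := toA_chg h M
  have m1 : ∀ X : Matrix (JJ n) (JJ n) (Asy C ℂ), mapH (JJ n) (chgN h) X = X.map (chg ℂ h) :=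
    fun X => rfl
  have m2 := map_mul (mapH (JJ n) (chgN h))
  have m3 := map_star (mapH (JJ n) (chgN h))
  unfold rpOf RPr.map
  simp only [m2, m3, m1, e1, e2, e3, e4, e5, e6]

end res

variable {n : ℕ} (D : ∀ k, KDat.{u} n (cs k))

/-! ### the central box -/

/-- lower corner of the central box -/
noncomputable def loC (n : ℕ) : Fin n → ℝ := fun _ => -(1 / 4)

/-- upper corner of the central box -/
noncomputable def hiC (n : ℕ) : Fin n → ℝ := fun _ => 1 / 4

theorem ltC (n : ℕ) : ∀ i, loC n i < hiC n i := fun i => by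
  unfold loC hiC
  norm_num

theorem boxC_sub (n : ℕ) : Icc (loC n) (hiC n) ⊆ closedBall (0 : Fin n → ℝ) 1 := by
  intro v hv
  rw [mem_closedBall_zero_iff, pi_norm_le_iff_of_nonneg zero_le_one]
  intro i
  have h1 : -(1 / 4) ≤ v i := hv.1 i
  have h2 : v i ≤ 1 / 4 := hv.2 i
  rw [Real.norm_eq_abs, abs_le]
  constructor <;> linarith

/-- cut parameters in the central box -/
noncomputable def lC (n : ℕ) : List (Par (Fin n)) := stdPar (loC n) (hiC n)

theorem lC_k (n : ℕ) : (lC n).map Par.k = List.finRange n := stdPar_k _ _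

theorem lC_len (n : ℕ) : (lC n).length = n := by
  have := congrArg List.length (lC_k n)
  rwa [List.length_map, List.length_finRange] at this

theorem lC_cov (n : ℕ) : Cov (∅ : Set (Fin n)) (lC n) := cov_of_k (lC_k n)

theorem lC_ok {R : Type*} [Ring R] [StarRing R] (F : Frame (Fin n) R) (h1 : F.lo = loC n)
    (h2 : F.hi = hiC n) : ∀ a ∈ lC n, a.Ok F := by
  intro a ha
  have h := stdPar_ok (ltC n) a ha
  exact ⟨h.1, by rw [h1]; exact h.2.1, h.2.2.1, by rw [h2]; exact h.2.2.2⟩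

/-! ### germs -/

/-- the fine frame over all columns -/
noncomputable abbrev frF : Frame (Fin n) (Asy (CF D lf) ℂ) :=
  frame (CF D lf) ℂ (dirF D lf) (loC n) (hiC n) (ltC n)

/-- the coarse frame -/
noncomputable abbrev frC : Frame (Fin n) (Asy (CC D) ℂ) :=
  frame (CC D) ℂ (dirCf D) (loC n) (hiC n) (ltC n)

theorem exists_v (t : ℤ) : ∃ v : ℕ × ℕ → ℤ,
    sig (frF D) (sgLaws (CF D lf)) (lC n) (xF D (le_refl lf) t) = (v : Germ (CF D lf).l ℤ) :=
  Germ.inductionOn (sig (frF D) (sgLaws (CF D lf)) (lC n) (xF D (le_refl lf) t))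
    fun v => ⟨v, rfl⟩

/-- the germ in column `k` -/
theorem v_lk (t : ℤ) {v : ℕ × ℕ → ℤ}
    (hv : sig (frF D) (sgLaws (CF D lf)) (lC n) (xF D (le_refl lf) t) = (v : Germ (CF D lf).l ℤ)) (k : ℕ) :
    vK D k (xF D (lk_le_lf k) t) (lC n) = (v : Germ (lk k) ℤ) := by
  have hX : IsOb (frF D) (lC n).length ∅ (xF D (le_refl lf) t).deg (xF D (le_refl lf) t).x := by
    rw [lC_len]
    exact xF_isOb D (le_refl lf) t _
  have h1 := sig_res (le_CF D (lk_le_lf k)) (dir := dirF D lf) (dir' := dirF D (lk k))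
    (fun k a s => rfl) (lt := ltC n) (cpt_lf D (boxC_sub n)) (cptTo_F D) (lC_ok (frF D) rfl rfl) hX
    (lC_cov n) v hv
  refine (sig_frK D k (loC n) (hiC n) (ltC n) _ _).symm.trans (Eq.trans ?_ h1)
  have hb : Icc (loC n) (hiC n) ⊆ (D k).U := (boxC_sub n).trans (D k).ball_U
  have hr := rp_res (le_CF D (lk_le_lf k)) (gridCont D (le_refl lf)) (gridCont D (lk_le_lf k))
    ⟨eS D t, isLocC_eS D (le_refl lf) t⟩ (exists_hA D (le_refl lf) t).choose
  have hx : IsOb (frK D k (loC n) (hiC n) (ltC n)) (lC n).length ∅ (degZ n)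
      (xR D (lk_le_lf k) t) := by
    rw [lC_len]
    exact xR_isOb D (lk_le_lf k) t _
  have hy : IsOb (frK D k (loC n) (hiC n) (ltC n)) (lC n).length ∅ (degZ n)
      ((xR D (le_refl lf) t).map (mapH (JJ n) (chgN (le_CF D (lk_le_lf k))))) :=
    isOb_res (le_CF D (lk_le_lf k)) (dir := dirF D lf) (dir' := dirF D (lk k))
      (fun k a s => rfl) hX
  refine sig_h (sgP (ltC n) (cpt_k D k hb)) (lC_ok _ rfl rfl) hx hy (lC_cov n) ?_ ?_ ?_ ?_ ?_
  · have q := congrArg RPr.p hr
    exact q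
  · have q := congrArg RPr.g hr
    exact q
  · have q := congrArg RPr.d hr
    exact q
  · have q := congrArg RPr.f hr
    exact q
  · have q := congrArg RPr.q hr
    exact q

/-- the germ in the coarse frame -/
theorem v_lc (t : ℤ) {v : ℕ × ℕ → ℤ}
    (hv : sig (frF D) (sgLaws (CF D lf)) (lC n) (xF D (le_refl lf) t) = (v : Germ (CF D lf).l ℤ)) :
    ∃ h, IsOb (frC D) n ∅ (TwObj555.dg' n) (rC D t h) ∧
      sig (frC D) (sgLaws (CC D)) (lC n) (ob (TwObj555.dg' n) (rC D t h)) =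
        (v : Germ (CC D).l ℤ) := by
  have hX : IsOb (frF D) (lC n).length ∅ (xF D (le_refl lf) t).deg (xF D (le_refl lf) t).x := by
    rw [lC_len]
    exact xF_isOb D (le_refl lf) t _
  have h1 := sig_res (le_CC D) (dir := dirF D lf) (dir' := dirCf D)
    (fun k a s => rfl) (lt := ltC n) (cpt_lf D (boxC_sub n))
    (cptTo_C D (fun i => le_refl _) (fun i => le_refl _)) (lC_ok (frF D) rfl rfl) hX
    (lC_cov n) v hv
  have hr := rp_res (le_CC D) (gridCont D (le_refl lf)) (gridCont_C D)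
    ⟨eS D t, isLocC_eS D (le_refl lf) t⟩ (exists_hA D (le_refl lf) t).choose
  have hy : IsOb (frC D) (lC n).length ∅ (degZ n)
      ((xR D (le_refl lf) t).map (mapH (JJ n) (chgN (le_CC D)))) :=
    isOb_res (le_CC D) (dir := dirF D lf) (dir' := dirCf D) (fun k a s => rfl) hX
  refine ⟨(Homog970.prj (degZ n) (n + 1) (exists_hA D (le_refl lf) t).choose).map
    (chg ℂ (le_CC D)), ?_, ?_⟩
  · have h2 : (xR D (le_refl lf) t).map (mapH (JJ n) (chgN (le_CC D))) = _ := hr
    rw [h2, lC_len] at hy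
    exact hy
  · refine Eq.trans ?_ h1
    exact congrArg (fun x => sig (frC D) (sgLaws (CC D)) (lC n) (ob (degZ n) x)) hr.symm

theorem v_zero {v : ℕ × ℕ → ℤ}
    (hv : sig (frF D) (sgLaws (CF D lf)) (lC n) (xF D (le_refl lf) 0) = (v : Germ (CF D lf).l ℤ)) :
    ∀ᶠ a in lc, v a = 2 ^ n * 4 := by
  obtain ⟨h, h1, h2⟩ := v_lc D 0 hv
  have hC : Cpt (CC D) (dirCf D) (loC n) (hiC n) :=
    cpt_Cf D (fun i => le_refl _) (fun i => le_refl _)
  have h3 := val_zero D (sgP (ltC n) hC) (lC_ok (frC D) rfl rfl) (lC_cov n) (lC_len n) h1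
  have h4 := Norm551.norm_grid (gridCtl_C D) (lt := ltC n) hC (close_xf D)
    (fun i => by unfold loC; norm_num) (fun i => by unfold hiC; norm_num)
    (r := 0) (by norm_num) (Eventually.of_forall fun a => by
      show 2 * ‖Ctl559.xv D a (fun _ => 0)‖ ≤ 0
      have : Ctl559.xv D a (fun _ => 0) = 0 := by
        funext i
        show Ctl559.mu D a * (((0 : ZMod (Ctl559.NN D a)).valMinAbs : ℤ) : ℝ) = 0
        rw [ZMod.valMinAbs_zero, Int.cast_zero, mul_zero]
      rw [this, norm_zero, mul_zero]) (lC_ok (frC D) rfl rfl) (lC_k n)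
  have h5 : (v : Germ lc ℤ) = ((fun _ => (2 ^ n * 4 : ℤ) : ℕ × ℕ → ℤ) : Germ lc ℤ) :=
    h2.symm.trans (h3.trans h4)
  exact Germ.coe_eq.1 h5

theorem v_one {v : ℕ × ℕ → ℤ}
    (hv : sig (frF D) (sgLaws (CF D lf)) (lC n) (xF D (le_refl lf) 1) = (v : Germ (CF D lf).l ℤ)) :
    ∀ᶠ a in lc, v a = 0 := by
  obtain ⟨h, h1, h2⟩ := v_lc D 1 hv
  have hC : Cpt (CC D) (dirCf D) (loC n) (hiC n) :=
    cpt_Cf D (fun i => le_refl _) (fun i => le_refl _)
  have h3 := val_one D (sgP (ltC n) hC) (lC_ok (frC D) rfl rfl) (lC_cov n) (lC_len n) h1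
  have h5 : (v : Germ lc ℤ) = ((fun _ => (0 : ℤ) : ℕ × ℕ → ℤ) : Germ lc ℤ) := h2.symm.trans h3
  exact Germ.coe_eq.1 h5

/-! ### the box at `y1` -/

/-- a small box around `y1` -/
theorem exists_box1 (k : ℕ) : ∃ s t : Fin n → ℝ, (∀ i, s i < t i) ∧ Icc s t ⊆ (D k).U ∧
    Icc s t ⊆ closedBall (D k).X.y1 ((D k).gr / 2) := by
  obtain ⟨r, hr, hr'⟩ := Metric.isOpen_iff.1 (D k).U_open _ (D k).y1_U
  set ρ : ℝ := min (r / 2) ((D k).gr / 2) with hρ
  have hpos : 0 < ρ := lt_min (by positivity) (by have := (D k).gr_pos; positivity)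
  have key : Icc (fun i => (D k).X.y1 i - ρ) (fun i => (D k).X.y1 i + ρ) ⊆
      closedBall (D k).X.y1 ρ := by
    intro v hv
    rw [mem_closedBall, dist_pi_le_iff hpos.le]
    intro i
    have h1 : (D k).X.y1 i - ρ ≤ v i := hv.1 i
    have h2 : v i ≤ (D k).X.y1 i + ρ := hv.2 i
    rw [Real.dist_eq, abs_le]
    constructor <;> linarith
  refine ⟨fun i => (D k).X.y1 i - ρ, fun i => (D k).X.y1 i + ρ, fun i => by linarith, ?_, ?_⟩
  · refine key.trans ((closedBall_subset_ball ?_).trans hr')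
    have := min_le_left (r / 2) ((D k).gr / 2)
    linarith
  · exact key.trans (closedBall_subset_closedBall (min_le_right _ _))

/-- **Contradiction**, given the twist theorem at `y1`. -/
theorem false_of_twist
    (htw : ∀ k : ℕ, ∀ s t : Fin n → ℝ, (∀ i, s i < t i) → Icc s t ⊆ (D k).U →
      Icc s t ⊆ closedBall (D k).X.y1 ((D k).gr / 2) →
      vK D k (xF D (lk_le_lf k) 1) (stdPar s t) = vK D k (xF D (lk_le_lf k) 0) (stdPar s t)) :
    False := by
  obtain ⟨v0, h0⟩ := exists_v D 0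
  obtain ⟨v1, h1⟩ := exists_v D 1
  have key : ∀ k, ∀ᶠ a in lk k, v1 a = v0 a := by
    intro k
    obtain ⟨s, t, hst, hU, hy⟩ := exists_box1 D k
    have hbC : Icc (loC n) (hiC n) ⊆ (D k).U := (boxC_sub n).trans (D k).ball_U
    have hbox : ∀ τ : ℤ, vK D k (xF D (lk_le_lf k) τ) (lC n) =
        vK D k (xF D (lk_le_lf k) τ) (stdPar s t) := fun τ =>
      box_indep D k (fun lo hi lt => xF_isOb D (lk_le_lf k) τ _) (ltC n) hst hbC hU
        (lC_k n) (stdPar_k s t) (stdPar_ok (ltC n)) (stdPar_ok hst)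
    have e1 : (v1 : Germ (lk k) ℤ) = (v0 : Germ (lk k) ℤ) := by
      rw [← v_lk D 1 h1 k, ← v_lk D 0 h0 k, hbox 1, hbox 0]
      exact htw k s t hst hU hy
    exact Germ.coe_eq.1 e1
  have e2 : ∀ᶠ a in lc, v1 a = v0 a := lc_le_lf (eventually_lf_iff.2 key)
  obtain ⟨a, ha1, ha2, ha3⟩ := (e2.and ((v_zero D h0).and (v_one D h1))).exists
  rw [ha2, ha3] at ha1
  have : (0 : ℤ) < 2 ^ n * 4 := by positivity
  omega

end Crest.Agent.R217.TopC559
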